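import Mathlib
import Crest.Agent.Lib.BorsukUlam

/-! # Topological tools: zeros of coercive fields, Hartman–Stampacchia, convex projections -/

set_option autoImplicit false

open Set Metric
open scoped InnerProductSpace

namespace Crest.Agent.R332.Full

section Zero

variable {E : Type*} [NormedAddCommGroup E] [InnerProductSpace ℝ E] [FiniteDimensional ℝ E]

/-- A continuous vector field on a finite dimensional Euclidean space pointing outward on a sphere
has a zero in the ball. -/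
theorem exists_zero_of_inner_pos (f : E → E) (hf : Continuous f) (ρ : ℝ) (hρ : 0 < ρ)
    (hpos : ∀ x, ρ ≤ ‖x‖ → 0 < ⟪f x, x⟫_ℝ) : ∃ x, f x = 0 := by
  by_contra hne
  push Not at hne
  -- homotope to the identity outside the ball of radius `ρ`
  let χ : E → ℝ := fun x => max 0 (min 1 (‖x‖ / ρ - 1))
  have hχc : Continuous χ := by
    refine continuous_const.max (continuous_const.min ?_)
    exact (continuous_norm.div_const _).sub continuous_const
  have hχ0 : ∀ x, ‖x‖ ≤ ρ → χ x = 0 := by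
    intro x hx
    have : ‖x‖ / ρ - 1 ≤ 0 := by
      have := (div_le_one hρ).2 hx
      linarith
    simp only [χ]
    rw [max_eq_left]
    exact (min_le_right _ _).trans this
  have hχ1 : ∀ x, ‖x‖ = 2 * ρ → χ x = 1 := by
    intro x hx
    have : ‖x‖ / ρ - 1 = 1 := by
      rw [hx]; field_simp; norm_num
    simp only [χ]
    rw [this]; simp
  have hχnn : ∀ x, 0 ≤ χ x := fun x => le_max_left _ _
  have hχle : ∀ x, χ x ≤ 1 := fun x => max_le zero_le_one (min_le_left _ _)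
  let g : E → E := fun x => (1 - χ x) • f x + χ x • x
  have hgc : Continuous g := ((continuous_const.sub hχc).smul hf).add (hχc.smul continuous_id)
  have hg0 : ∀ x, g x ≠ 0 := by
    intro x hx
    by_cases hxρ : ‖x‖ ≤ ρ
    · have : g x = f x := by simp [g, hχ0 x hxρ]
      exact hne x (this ▸ hx)
    · push Not at hxρ
      have h1 : ⟪g x, x⟫_ℝ = (1 - χ x) * ⟪f x, x⟫_ℝ + χ x * ‖x‖ ^ 2 := by
        simp only [g]
        rw [inner_add_left, real_inner_smul_left, real_inner_smul_left, real_inner_self_eq_norm_sq]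
      have h2 : 0 < ⟪g x, x⟫_ℝ := by
        rw [h1]
        have h3 := hpos x hxρ.le
        have h4 : 0 < ‖x‖ ^ 2 := by
          have : 0 < ‖x‖ := hρ.trans hxρ
          positivity
        rcases eq_or_lt_of_le (hχnn x) with h5 | h5
        · rw [← h5]; simpa using h3
        · have : 0 ≤ (1 - χ x) * ⟪f x, x⟫_ℝ := mul_nonneg (by linarith [hχle x]) h3.le
          have : 0 < χ x * ‖x‖ ^ 2 := mul_pos h5 h4
          linarith
      rw [hx] at h2
      simp at h2
  have hgodd : ∀ x, ‖x‖ = 2 * ρ → g x = x := by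
    intro x hx
    simp [g, hχ1 x hx]
  -- the odd map on `E × ℝ ∖ {0}`
  let nrm : E × ℝ → ℝ := fun p => Real.sqrt (‖p.1‖ ^ 2 + p.2 ^ 2)
  have hnrm0 : ∀ p : E × ℝ, p ≠ 0 → 0 < nrm p := by
    intro p hp
    apply Real.sqrt_pos.2
    by_contra h
    have h1 : ‖p.1‖ ^ 2 + p.2 ^ 2 ≤ 0 := not_lt.1 h
    have h2 : ‖p.1‖ = 0 := by nlinarith [sq_nonneg ‖p.1‖, sq_nonneg p.2]
    have h3 : p.2 = 0 := by nlinarith [sq_nonneg ‖p.1‖, sq_nonneg p.2]
    apply hp
    ext
    · simpa using h2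
    · simpa using h3
  let φ : E × ℝ → E := fun p => (2 * ρ / nrm p) • p.1
  let F : E × ℝ → E := fun p => if 0 ≤ p.2 then g (φ p) else -g (-φ p)
  have hnc : Continuous nrm := by
    apply Real.continuous_sqrt.comp
    fun_prop
  have hφc : ContinuousOn φ {x | x ≠ 0} := by
    intro p hp
    apply ContinuousAt.continuousWithinAt
    refine ContinuousAt.smul ?_ continuous_fst.continuousAt
    exact continuousAt_const.div hnc.continuousAt (hnrm0 p hp).ne'
  have hFc : ContinuousOn F {x | x ≠ 0} := by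
    have h1 : ContinuousOn (fun p => g (φ p)) ({x | x ≠ 0} : Set (E × ℝ)) :=
      hgc.comp_continuousOn hφc
    have h2 : ContinuousOn (fun p => -g (-φ p)) ({x | x ≠ 0} : Set (E × ℝ)) :=
      (hgc.comp_continuousOn hφc.neg).neg
    refine ContinuousOn.if ?_ (h1.mono inter_subset_left) (h2.mono inter_subset_left)
    rintro p ⟨hp, hfr⟩
    have hp2 : p.2 = 0 := by
      have h3 : frontier {a : E × ℝ | 0 ≤ a.2} ⊆ {a | 0 = a.2} :=
        frontier_le_subset_eq continuous_const continuous_snd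
      exact (h3 hfr).symm
    have h4 : ‖φ p‖ = 2 * ρ := by
      have h5 : nrm p = ‖p.1‖ := by
        simp only [nrm, hp2]
        simp
      have h6 := hnrm0 p hp
      simp only [φ, norm_smul, norm_div, Real.norm_eq_abs]
      rw [abs_of_pos (by positivity : 0 < 2 * ρ), abs_of_pos h6, h5]
      rw [h5] at h6
      field_simp
    rw [hgodd _ h4, hgodd _ (by rw [norm_neg, h4]), neg_neg]
  have hodd : ∀ p : E × ℝ, p ≠ 0 → F (-p) = -F p := by
    intro p hp
    have hφn : φ (-p) = -φ p := by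
      simp [φ, nrm]
    simp only [F]
    by_cases h1 : 0 ≤ p.2
    · by_cases h2 : 0 ≤ (-p).2
      · have h3 : p.2 = 0 := by
          simp only [Prod.snd_neg] at h2
          linarith
        have h5 : nrm p = ‖p.1‖ := by simp [nrm, h3]
        have h6 := hnrm0 p hp
        have h4 : ‖φ p‖ = 2 * ρ := by
          simp only [φ, norm_smul, norm_div, Real.norm_eq_abs]
          rw [abs_of_pos (by positivity : 0 < 2 * ρ), abs_of_pos h6, h5]
          rw [h5] at h6
          field_simp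
        rw [if_pos h1, if_pos h2, hφn, hgodd _ h4, hgodd _ (by rw [norm_neg, h4])]
      · rw [if_pos h1, if_neg h2, hφn, neg_neg]
    · have h2 : 0 ≤ (-p).2 := by
        simp only [Prod.snd_neg]; push Not at h1; linarith
      rw [if_neg h1, if_pos h2, hφn, neg_neg]
  obtain ⟨p, hp, h0⟩ := Crest.Agent.Lib.BorsukUlam.exists_zero_of_odd
    (W := E × ℝ) (E := E) (by simp) F hFc hodd
  simp only [F] at h0
  split_ifs at h0 with h
  · exact hg0 _ h0
  · exact hg0 _ (neg_eq_zero.1 h0)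

end Zero

section Proj

variable {E : Type*} [NormedAddCommGroup E] [InnerProductSpace ℝ E] [CompleteSpace E]

/-- The metric projection onto a closed convex nonempty set. -/
theorem exists_proj (C : Set E) (hne : C.Nonempty) (hcl : IsClosed C) (hcv : Convex ℝ C) :
    ∃ P : E → E, (∀ x, P x ∈ C) ∧ (∀ x, ∀ y ∈ C, ⟪x - P x, y - P x⟫_ℝ ≤ 0) := by
  have h : ∀ x : E, ∃ v ∈ C, ∀ y ∈ C, ⟪x - v, y - v⟫_ℝ ≤ 0 := by
    intro x
    obtain ⟨v, hv, h1⟩ := exists_norm_eq_iInf_of_complete_convex hne hcl.isComplete hcv x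
    exact ⟨v, hv, (norm_eq_iInf_iff_real_inner_le_zero hcv hv).1 h1⟩
  choose P hP1 hP2 using h
  exact ⟨P, hP1, hP2⟩

omit [CompleteSpace E] in
theorem proj_lipschitz {C : Set E} {P : E → E} (h1 : ∀ x, P x ∈ C)
    (h2 : ∀ x, ∀ y ∈ C, ⟪x - P x, y - P x⟫_ℝ ≤ 0) (x y : E) : ‖P x - P y‖ ≤ ‖x - y‖ := by
  have ha := h2 x (P y) (h1 y)
  have hb := h2 y (P x) (h1 x)
  have hc : ‖P x - P y‖ ^ 2 ≤ ⟪x - y, P x - P y⟫_ℝ := by
    have e1 : ⟪x - P x, P y - P x⟫_ℝ + ⟪y - P y, P x - P y⟫_ℝ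
        = ‖P x - P y‖ ^ 2 - ⟪x - y, P x - P y⟫_ℝ := by
      rw [← real_inner_self_eq_norm_sq]
      simp only [inner_sub_left, inner_sub_right]
      ring
    linarith
  have hd : ⟪x - y, P x - P y⟫_ℝ ≤ ‖x - y‖ * ‖P x - P y‖ := real_inner_le_norm _ _
  rcases eq_or_lt_of_le (norm_nonneg (P x - P y)) with h0 | h0
  · rw [← h0]; exact norm_nonneg _
  · nlinarith

omit [CompleteSpace E] in
theorem proj_eq_of_mem {C : Set E} {P : E → E}
    (h2 : ∀ x, ∀ y ∈ C, ⟪x - P x, y - P x⟫_ℝ ≤ 0) {x : E} (hx : x ∈ C) : P x = x := by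
  have := h2 x x hx
  rw [real_inner_self_eq_norm_sq] at this
  have h3 : ‖x - P x‖ = 0 := by nlinarith [norm_nonneg (x - P x)]
  exact (sub_eq_zero.1 (norm_eq_zero.1 h3)).symm

end Proj

section VI

variable {E : Type*} [NormedAddCommGroup E] [InnerProductSpace ℝ E] [FiniteDimensional ℝ E]

/-- **Hartman–Stampacchia**: variational inequality on a compact convex set. -/
theorem hartman_stampacchia (C : Set E) (hne : C.Nonempty) (hcp : IsCompact C)
    (hcv : Convex ℝ C) (T : E → E) (hT : ContinuousOn T C) :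
    ∃ x ∈ C, ∀ y ∈ C, 0 ≤ ⟪T x, y - x⟫_ℝ := by
  obtain ⟨P, hP1, hP2⟩ := exists_proj C hne hcp.isClosed hcv
  have hPc : Continuous P := by
    have : LipschitzWith 1 P := LipschitzWith.of_dist_le_mul (by
      intro x y
      rw [dist_eq_norm, dist_eq_norm]
      simpa using proj_lipschitz hP1 hP2 x y)
    exact this.continuous
  have hTP : Continuous (fun x => T (P x)) := hT.comp_continuous hPc hP1
  -- bounds
  obtain ⟨A, hA⟩ := hcp.isBounded.exists_norm_le
  have hTCc : IsCompact (T '' C) := hcp.image_of_continuousOn hT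
  obtain ⟨B, hB⟩ := hTCc.isBounded.exists_norm_le
  have hBT : ∀ x, ‖T (P x)‖ ≤ B := fun x => hB _ ⟨P x, hP1 x, rfl⟩
  have hAP : ∀ x, ‖P x‖ ≤ A := fun x => hA _ (hP1 x)
  obtain ⟨x, hx⟩ := exists_zero_of_inner_pos (fun x => x - P x + T (P x))
    ((continuous_id.sub hPc).add hTP) (|A| + |B| + 1) (by positivity) (by
      intro x hx
      have h1 : ⟪x - P x + T (P x), x⟫_ℝ = ‖x‖ ^ 2 - ⟪P x, x⟫_ℝ + ⟪T (P x), x⟫_ℝ := by
        rw [inner_add_left, inner_sub_left, real_inner_self_eq_norm_sq]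
      have h2 : ⟪P x, x⟫_ℝ ≤ |A| * ‖x‖ :=
        (real_inner_le_norm _ _).trans
          (mul_le_mul_of_nonneg_right ((hAP x).trans (le_abs_self A)) (norm_nonneg _))
      have h3 : -(|B| * ‖x‖) ≤ ⟪T (P x), x⟫_ℝ := by
        have := abs_real_inner_le_norm (T (P x)) x
        have h4 : ‖T (P x)‖ * ‖x‖ ≤ |B| * ‖x‖ :=
          mul_le_mul_of_nonneg_right ((hBT x).trans (le_abs_self B)) (norm_nonneg _)
        have := (abs_le.1 this).1
        linarith
      rw [h1]
      have h5 : 0 < ‖x‖ := lt_of_lt_of_le (by positivity) hx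
      nlinarith)
  refine ⟨P x, hP1 x, fun y hy => ?_⟩
  have h1 := hP2 x y hy
  have h2 : T (P x) = -(x - P x) := by
    have : x - P x + T (P x) = 0 := hx
    exact eq_neg_of_add_eq_zero_right this
  rw [h2, inner_neg_left]
  linarith

end VI

section MatrixZero

open Matrix
open scoped Matrix.Norms.Frobenius ComplexOrder

variable {ι : Type*} [Fintype ι] [DecidableEq ι]

/-- The real Frobenius inner product on complex matrices (over the Frobenius norm). -/
@[reducible] noncomputable def frobInner (ι : Type*) [Fintype ι] [DecidableEq ι] :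
    InnerProductSpace ℝ (Matrix ι ι ℂ) :=
  { (inferInstance : NormedSpace ℝ (Matrix ι ι ℂ)) with
    inner := fun A B => (Aᴴ * B).trace.re
    norm_sq_eq_re_inner := by
      intro A
      rw [Matrix.frobenius_norm_def]
      have h0 : (0:ℝ) ≤ ∑ i, ∑ j, ‖A i j‖ ^ (2:ℝ) := by positivity
      rw [← Real.rpow_natCast, ← Real.rpow_mul h0]
      norm_num
      rw [Matrix.trace, Complex.re_sum]
      rw [Finset.sum_comm]
      refine Finset.sum_congr rfl fun j _ => ?_
      rw [Matrix.diag_apply, Matrix.mul_apply, Complex.re_sum]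
      refine Finset.sum_congr rfl fun i _ => ?_
      rw [Matrix.conjTranspose_apply]
      have : star (A i j) * A i j = ((‖A i j‖ ^ 2 : ℝ) : ℂ) := by
        have := Complex.conj_mul' (A i j)
        rw [Complex.star_def, this]; push_cast; rfl
      rw [this, Complex.ofReal_re]
    conj_inner_symm := by
      intro A B
      simp only [conj_trivial]
      rw [← Matrix.conjTranspose_conjTranspose B, ← Matrix.conjTranspose_mul,
        Matrix.trace_conjTranspose, Matrix.conjTranspose_conjTranspose]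
      simp
    add_left := by
      intro A B C
      simp [Matrix.add_mul, Matrix.trace_add]
    smul_left := by
      intro A B r
      simp [Matrix.conjTranspose_smul, Matrix.trace_smul] }

theorem frobInner_apply (A B : Matrix ι ι ℂ) :
    letI := frobInner ι
    (inner ℝ A B : ℝ) = (Aᴴ * B).trace.re := rfl

omit [DecidableEq ι] in
/-- Cauchy–Schwarz in the form `B - ε (Bu)(Bu)* ≥ 0` for `ε ≥ 0`, `ε u*Bu ≤ 1`. -/
theorem posSemidef_sub_vecMulVec {B : Matrix ι ι ℂ} (hB : B.PosSemidef) (u : ι → ℂ) (ε : ℝ)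
    (hε : 0 ≤ ε) (h : ε * (star u ⬝ᵥ (B *ᵥ u)).re ≤ 1) :
    (B - (ε : ℂ) • vecMulVec (B *ᵥ u) (star (B *ᵥ u))).PosSemidef := by
  have hherm : (vecMulVec (B *ᵥ u) (star (B *ᵥ u))).IsHermitian :=
    (posSemidef_vecMulVec_self_star _).1
  refine PosSemidef.of_dotProduct_mulVec_nonneg ?_ ?_
  · refine hB.1.sub ?_
    rw [Matrix.IsHermitian, conjTranspose_smul, hherm.eq]
    simp
  · intro x
    set b : ℂ := star u ⬝ᵥ (B *ᵥ x) with hb
    -- value of the form
    have hux : star (B *ᵥ u) ⬝ᵥ x = b := by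
      rw [hb, star_mulVec, ← dotProduct_mulVec, hB.1.eq]
    have hxu : star x ⬝ᵥ (B *ᵥ u) = star b := by
      rw [← hux, star_dotProduct]
    have hval : star x ⬝ᵥ ((B - (ε : ℂ) • vecMulVec (B *ᵥ u) (star (B *ᵥ u))) *ᵥ x)
        = star x ⬝ᵥ (B *ᵥ x) - (ε : ℂ) * (star b * b) := by
      rw [sub_mulVec, dotProduct_sub, smul_mulVec, dotProduct_smul, vecMulVec_mulVec, hux,
        dotProduct_smul, hxu]
      simp [mul_comm]
    rw [hval]
    -- test vector `y = x - t u`, with `t = ε b`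
    have huu := hB.dotProduct_mulVec_nonneg u
    have huuR : star u ⬝ᵥ (B *ᵥ u) = (((star u ⬝ᵥ (B *ᵥ u)).re : ℝ) : ℂ) := by
      apply Complex.ext
      · simp
      · simpa using (Complex.le_def.1 huu).2.symm
    set q : ℝ := (star u ⬝ᵥ (B *ᵥ u)).re with hq
    have hq0 : 0 ≤ q := (Complex.le_def.1 huu).1
    have hy := hB.dotProduct_mulVec_nonneg (x - ((ε : ℂ) * b) • u)
    have hexp : star (x - ((ε : ℂ) * b) • u) ⬝ᵥ (B *ᵥ (x - ((ε : ℂ) * b) • u))
        = star x ⬝ᵥ (B *ᵥ x) - 2 * (ε : ℂ) * (star b * b) + (ε : ℂ) ^ 2 * (star b * b) * (q : ℂ) := by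
      rw [mulVec_sub, star_sub, sub_dotProduct, dotProduct_sub, dotProduct_sub, mulVec_smul,
        star_smul, smul_dotProduct, smul_dotProduct, dotProduct_smul, dotProduct_smul, hxu, ← hb,
        huuR]
      simp only [smul_eq_mul, star_mul', Complex.star_def, Complex.conj_ofReal]
      ring
    rw [hexp] at hy
    have hbb : star b * b = ((‖b‖ ^ 2 : ℝ) : ℂ) := by
      have := Complex.conj_mul' b
      rw [Complex.star_def, this]; push_cast; rfl
    rw [hbb] at hy ⊢
    have hxx := hB.dotProduct_mulVec_nonneg x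
    rw [Complex.le_def] at hy hxx ⊢
    constructor
    · have h1 := hy.1
      simp only [Complex.zero_re, Complex.add_re, Complex.sub_re, Complex.mul_re,
        Complex.ofReal_re, Complex.ofReal_im, mul_zero, sub_zero, Complex.re_ofNat,
        Complex.im_ofNat, ← Complex.ofReal_pow] at h1 ⊢
      have h2 : 0 ≤ ‖b‖ ^ 2 := by positivity
      have h3 : ε ^ 2 * ‖b‖ ^ 2 * q ≤ ε * ‖b‖ ^ 2 := by
        have : ε * ‖b‖ ^ 2 * (ε * q) ≤ ε * ‖b‖ ^ 2 * 1 :=
          mul_le_mul_of_nonneg_left h (by positivity)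
        nlinarith
      nlinarith
    · have h1 := hxx.2
      simp only [Complex.zero_im, Complex.sub_im, Complex.mul_im, Complex.ofReal_re,
        Complex.ofReal_im, mul_zero, zero_mul, add_zero, sub_zero] at h1 ⊢
      exact h1

omit [DecidableEq ι] in
theorem re_trace_mul_vecMulVec (T : Matrix ι ι ℂ) (w : ι → ℂ) :
    (T * vecMulVec w (star w)).trace = star w ⬝ᵥ (T *ᵥ w) := by
  rw [mul_vecMulVec, trace_vecMulVec, dotProduct_comm]

/-- The order interval `{d ≤ K ≤ R}` of Hermitian matrices. -/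
def boxSet (ι : Type*) [Fintype ι] [DecidableEq ι] (d R : ℝ) : Set (Matrix ι ι ℂ) :=
  {K | K.IsHermitian ∧ (K - (d : ℂ) • (1 : Matrix ι ι ℂ)).PosSemidef ∧
    ((R : ℂ) • (1 : Matrix ι ι ℂ) - K).PosSemidef}

theorem convex_boxSet (d R : ℝ) : Convex ℝ (boxSet ι d R) := by
  intro A hA B hB a b ha hb hab
  have hsm : ∀ (c : ℝ) (M : Matrix ι ι ℂ), 0 ≤ c → M.PosSemidef → (c • M).PosSemidef :=
    fun c M hc hM => hM.smul hc
  refine ⟨?_, ?_, ?_⟩
  · exact (((IsSelfAdjoint.all a).smul hA.1.isSelfAdjoint).add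
      ((IsSelfAdjoint.all b).smul hB.1.isSelfAdjoint))
  · have : a • A + b • B - (d : ℂ) • (1 : Matrix ι ι ℂ)
        = a • (A - (d : ℂ) • (1 : Matrix ι ι ℂ)) + b • (B - (d : ℂ) • (1 : Matrix ι ι ℂ)) := by
      have h1 : (d : ℂ) • (1 : Matrix ι ι ℂ) = (a + b) • ((d : ℂ) • (1 : Matrix ι ι ℂ)) := by
        rw [hab, one_smul]
      rw [smul_sub, smul_sub]
      conv_lhs => rw [h1]
      rw [add_smul]
      abel
    rw [this]
    exact (hsm a _ ha hA.2.1).add (hsm b _ hb hB.2.1)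
  · have : (R : ℂ) • (1 : Matrix ι ι ℂ) - (a • A + b • B)
        = a • ((R : ℂ) • (1 : Matrix ι ι ℂ) - A) + b • ((R : ℂ) • (1 : Matrix ι ι ℂ) - B) := by
      have h1 : (R : ℂ) • (1 : Matrix ι ι ℂ) = (a + b) • ((R : ℂ) • (1 : Matrix ι ι ℂ)) := by
        rw [hab, one_smul]
      rw [smul_sub, smul_sub]
      conv_lhs => rw [h1]
      rw [add_smul]
      abel
    rw [this]
    exact (hsm a _ ha hA.2.2).add (hsm b _ hb hB.2.2)

omit [DecidableEq ι] in
theorem isClosed_setOf_posSemidef : IsClosed {M : Matrix ι ι ℂ | M.PosSemidef} := by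
  have : {M : Matrix ι ι ℂ | M.PosSemidef}
      = {M | Mᴴ = M} ∩ ⋂ x : ι → ℂ, {M | 0 ≤ star x ⬝ᵥ (M *ᵥ x)} := by
    ext M
    simp [posSemidef_iff_dotProduct_mulVec, Matrix.IsHermitian]
  rw [this]
  refine IsClosed.inter (isClosed_eq (continuous_id.matrix_conjTranspose) continuous_id) ?_
  refine isClosed_iInter fun x => ?_
  refine isClosed_le continuous_const ?_
  exact Continuous.dotProduct continuous_const (Continuous.matrix_mulVec continuous_id continuous_const)

theorem norm_entry_le {B : Matrix ι ι ℂ} (hB : B.PosSemidef) (c : ℝ)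
    (hc : ((c : ℂ) • (1 : Matrix ι ι ℂ) - B).PosSemidef) (i j : ι) :
    ‖B i j‖ ^ 2 ≤ c * (c + 1) := by
  have hd : ∀ k, 0 ≤ (B k k).re ∧ (B k k).re ≤ c := by
    intro k
    constructor
    · exact (Complex.le_def.1 (hB.diag_nonneg (i := k))).1
    · have := (Complex.le_def.1 (hc.diag_nonneg (i := k))).1
      simp at this
      linarith
  have hc0 : 0 ≤ c := (hd i).1.trans (hd i).2
  -- apply Cauchy–Schwarz with `u = e_j`
  have hu : (star (Pi.single j (1:ℂ)) : ι → ℂ) ⬝ᵥ (B *ᵥ Pi.single j 1) = B j j := by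
    simp
  have hBu : ∀ k, (B *ᵥ Pi.single j (1:ℂ)) k = B k j := by
    intro k; simp
  have hpos : 0 < c + 1 := by linarith
  have h := posSemidef_sub_vecMulVec hB (Pi.single j 1) ((c + 1)⁻¹) (by positivity) (by
    rw [hu]
    rw [inv_mul_le_one₀ hpos]
    linarith [(hd j).2])
  have h2 := (Complex.le_def.1 (h.diag_nonneg (i := i))).1
  have h3 : ((B - (((c + 1)⁻¹ : ℝ) : ℂ) • vecMulVec (B *ᵥ Pi.single j 1)
      (star (B *ᵥ Pi.single j 1))) i i) = B i i - (((c + 1)⁻¹ : ℝ) : ℂ) * ((‖B i j‖ ^ 2 : ℝ) : ℂ) := by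
    rw [Matrix.sub_apply, Matrix.smul_apply, vecMulVec_apply, Pi.star_apply, hBu]
    have : B i j * star (B i j) = ((‖B i j‖ ^ 2 : ℝ) : ℂ) := by
      have := Complex.mul_conj' (B i j)
      rw [Complex.star_def, this]; push_cast; rfl
    rw [this, smul_eq_mul]
  rw [h3, ← Complex.ofReal_mul, Complex.sub_re, Complex.ofReal_re, Complex.zero_re] at h2
  have h4 : (c + 1)⁻¹ * ‖B i j‖ ^ 2 ≤ c := by linarith [(hd i).2]
  rw [inv_mul_le_iff₀ hpos] at h4
  linarith

theorem isCompact_boxSet (d R : ℝ) : IsCompact (boxSet ι d R) := by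
  have hcl : IsClosed (boxSet ι d R) := by
    have h1 : boxSet ι d R = {K | Kᴴ = K} ∩
        ((fun K : Matrix ι ι ℂ => K - (d : ℂ) • (1 : Matrix ι ι ℂ)) ⁻¹' {M | M.PosSemidef} ∩
        (fun K : Matrix ι ι ℂ => (R : ℂ) • (1 : Matrix ι ι ℂ) - K) ⁻¹' {M | M.PosSemidef}) := by
      ext K; rfl
    rw [h1]
    refine IsClosed.inter (isClosed_eq (continuous_id.matrix_conjTranspose) continuous_id)
      (IsClosed.inter ?_ ?_)
    · exact isClosed_setOf_posSemidef.preimage (continuous_id.sub continuous_const)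
    · exact isClosed_setOf_posSemidef.preimage (continuous_const.sub continuous_id)
  -- bounded: contained in a product of balls
  let A : ℝ := Real.sqrt ((R - d) * (R - d + 1)) + |d|
  have hsub : boxSet ι d R ⊆ Set.pi Set.univ (fun _ : ι => Set.pi Set.univ
      (fun _ : ι => Metric.closedBall (0 : ℂ) A)) := by
    intro K hK i _ j _
    rw [mem_closedBall_zero_iff]
    have h1 := norm_entry_le hK.2.1 (R - d) (by
      have : ((R - d : ℝ) : ℂ) • (1 : Matrix ι ι ℂ) - (K - (d : ℂ) • (1 : Matrix ι ι ℂ))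
          = (R : ℂ) • (1 : Matrix ι ι ℂ) - K := by
        push_cast
        rw [sub_smul]; abel
      rw [this]; exact hK.2.2) i j
    have h2 : ‖(K - (d : ℂ) • (1 : Matrix ι ι ℂ)) i j‖ ≤ Real.sqrt ((R - d) * (R - d + 1)) :=
      Real.le_sqrt_of_sq_le h1
    have h3 : K i j = (K - (d : ℂ) • (1 : Matrix ι ι ℂ)) i j + (d : ℂ) * (1 : Matrix ι ι ℂ) i j := by
      simp
    rw [h3]
    refine (norm_add_le _ _).trans (add_le_add h2 ?_)
    rw [norm_mul, Complex.norm_real, Real.norm_eq_abs]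
    have h4 : ‖(1 : Matrix ι ι ℂ) i j‖ ≤ 1 := by
      by_cases hij : i = j
      · subst hij; simp
      · simp [hij]
    exact mul_le_of_le_one_right (abs_nonneg _) h4
  exact IsCompact.of_isClosed_subset
    (isCompact_univ_pi fun _ => isCompact_univ_pi fun _ => isCompact_closedBall _ _) hcl hsub

/-- **Zero of a matrix field with inward/outward boundary behaviour** (Brouwer type theorem). -/
theorem exists_zero_of_boundary (d R : ℝ) (hdR : d < R)
    (T : Matrix ι ι ℂ → Matrix ι ι ℂ) (hT : ContinuousOn T (boxSet ι d R))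
    (hTh : ∀ K ∈ boxSet ι d R, (T K).IsHermitian)
    (htop : ∀ K ∈ boxSet ι d R, ∀ v : ι → ℂ, v ≠ 0 → K *ᵥ v = (R : ℂ) • v →
      0 < (star v ⬝ᵥ (T K *ᵥ v)).re)
    (hbot : ∀ K ∈ boxSet ι d R, ∀ v : ι → ℂ, v ≠ 0 → K *ᵥ v = (d : ℂ) • v →
      (star v ⬝ᵥ (T K *ᵥ v)).re ≤ 0) :
    ∃ K ∈ boxSet ι d R, T K = 0 := by
  let _ := frobInner ι
  have hne : (boxSet ι d R).Nonempty := by
    refine ⟨(d : ℂ) • 1, ?_, ?_, ?_⟩
    · rw [Matrix.IsHermitian, conjTranspose_smul, conjTranspose_one]; simp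
    · rw [sub_self]; exact PosSemidef.zero
    · rw [← sub_smul, ← Complex.ofReal_sub]
      have h1 : (0 : ℂ) ≤ ((R - d : ℝ) : ℂ) := by
        rw [Complex.zero_le_real]; linarith
      exact PosSemidef.one.smul h1
  obtain ⟨K, hK, hVI⟩ := hartman_stampacchia (boxSet ι d R) hne (isCompact_boxSet d R)
    (convex_boxSet d R) T hT
  have hVI' : ∀ K' ∈ boxSet ι d R, 0 ≤ (T K * (K' - K)).trace.re := by
    intro K' hK'
    have := hVI K' hK'
    rw [frobInner_apply, (hTh K hK).eq] at this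
    exact this
  -- perturbations downwards
  have hdown : ∀ u : ι → ℂ, (star ((K - (d : ℂ) • (1 : Matrix ι ι ℂ)) *ᵥ u) ⬝ᵥ
      (T K *ᵥ ((K - (d : ℂ) • (1 : Matrix ι ι ℂ)) *ᵥ u))).re ≤ 0 := by
    intro u
    set B := K - (d : ℂ) • (1 : Matrix ι ι ℂ) with hBdef
    set q := (star u ⬝ᵥ (B *ᵥ u)).re with hq
    have hq0 : 0 ≤ q := (Complex.le_def.1 (hK.2.1.dotProduct_mulVec_nonneg u)).1
    have hε : (0:ℝ) < (1 + q)⁻¹ := by positivity
    have h1 := posSemidef_sub_vecMulVec hK.2.1 u ((1 + q)⁻¹) hε.le (by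
      rw [← hBdef, ← hq, inv_mul_le_one₀ (by positivity)]; linarith)
    have hvv := posSemidef_vecMulVec_self_star (B *ᵥ u)
    have h2 := hVI' (K - (((1 + q)⁻¹ : ℝ) : ℂ) • vecMulVec (B *ᵥ u) (star (B *ᵥ u))) (by
      have hsm : ((((1 + q)⁻¹ : ℝ) : ℂ) • vecMulVec (B *ᵥ u) (star (B *ᵥ u))).PosSemidef :=
        hvv.smul (by rw [Complex.zero_le_real]; exact hε.le)
      refine ⟨hK.1.sub hsm.1, ?_, ?_⟩
      · have : K - (((1 + q)⁻¹ : ℝ) : ℂ) • vecMulVec (B *ᵥ u) (star (B *ᵥ u))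
            - (d : ℂ) • (1 : Matrix ι ι ℂ)
            = B - (((1 + q)⁻¹ : ℝ) : ℂ) • vecMulVec (B *ᵥ u) (star (B *ᵥ u)) := by
          rw [hBdef]; abel
        rw [this]; exact h1
      · have : (R : ℂ) • (1 : Matrix ι ι ℂ)
            - (K - (((1 + q)⁻¹ : ℝ) : ℂ) • vecMulVec (B *ᵥ u) (star (B *ᵥ u)))
            = ((R : ℂ) • (1 : Matrix ι ι ℂ) - K)
              + (((1 + q)⁻¹ : ℝ) : ℂ) • vecMulVec (B *ᵥ u) (star (B *ᵥ u)) := by abel
        rw [this]; exact hK.2.2.add hsm)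
    rw [sub_sub_cancel_left, Matrix.mul_neg, Matrix.mul_smul, trace_neg, trace_smul,
      re_trace_mul_vecMulVec, smul_eq_mul, Complex.neg_re, Complex.re_ofReal_mul] at h2
    by_contra hcon
    push Not at hcon
    have := mul_pos hε hcon
    linarith
  -- perturbations upwards
  have hup : ∀ u : ι → ℂ, 0 ≤ (star (((R : ℂ) • (1 : Matrix ι ι ℂ) - K) *ᵥ u) ⬝ᵥ
      (T K *ᵥ (((R : ℂ) • (1 : Matrix ι ι ℂ) - K) *ᵥ u))).re := by
    intro u
    set B := (R : ℂ) • (1 : Matrix ι ι ℂ) - K with hBdef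
    set q := (star u ⬝ᵥ (B *ᵥ u)).re with hq
    have hq0 : 0 ≤ q := (Complex.le_def.1 (hK.2.2.dotProduct_mulVec_nonneg u)).1
    have hε : (0:ℝ) < (1 + q)⁻¹ := by positivity
    have h1 := posSemidef_sub_vecMulVec hK.2.2 u ((1 + q)⁻¹) hε.le (by
      rw [← hBdef, ← hq, inv_mul_le_one₀ (by positivity)]; linarith)
    have hvv := posSemidef_vecMulVec_self_star (B *ᵥ u)
    have h2 := hVI' (K + (((1 + q)⁻¹ : ℝ) : ℂ) • vecMulVec (B *ᵥ u) (star (B *ᵥ u))) (by
      have hsm : ((((1 + q)⁻¹ : ℝ) : ℂ) • vecMulVec (B *ᵥ u) (star (B *ᵥ u))).PosSemidef :=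
        hvv.smul (by rw [Complex.zero_le_real]; exact hε.le)
      refine ⟨hK.1.add hsm.1, ?_, ?_⟩
      · have : K + (((1 + q)⁻¹ : ℝ) : ℂ) • vecMulVec (B *ᵥ u) (star (B *ᵥ u))
            - (d : ℂ) • (1 : Matrix ι ι ℂ)
            = (K - (d : ℂ) • (1 : Matrix ι ι ℂ))
              + (((1 + q)⁻¹ : ℝ) : ℂ) • vecMulVec (B *ᵥ u) (star (B *ᵥ u)) := by abel
        rw [this]; exact hK.2.1.add hsm
      · have : (R : ℂ) • (1 : Matrix ι ι ℂ)
            - (K + (((1 + q)⁻¹ : ℝ) : ℂ) • vecMulVec (B *ᵥ u) (star (B *ᵥ u)))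
            = B - (((1 + q)⁻¹ : ℝ) : ℂ) • vecMulVec (B *ᵥ u) (star (B *ᵥ u)) := by
          rw [hBdef]; abel
        rw [this]; exact h1)
    rw [add_sub_cancel_left, Matrix.mul_smul, trace_smul,
      re_trace_mul_vecMulVec, smul_eq_mul, Complex.re_ofReal_mul] at h2
    by_contra hcon
    push Not at hcon
    have := mul_neg_of_pos_of_neg hε hcon
    linarith
  -- no top eigenvector
  have hnotop : ∀ v : ι → ℂ, ((R : ℂ) • (1 : Matrix ι ι ℂ) - K) *ᵥ v = 0 → v = 0 := by
    intro v hv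
    by_contra hv0
    have hKv : K *ᵥ v = (R : ℂ) • v := by
      rw [sub_mulVec, smul_mulVec, one_mulVec, sub_eq_zero] at hv
      exact hv.symm
    have h1 := htop K hK v hv0 hKv
    have h2 := hdown v
    have h3 : (K - (d : ℂ) • (1 : Matrix ι ι ℂ)) *ᵥ v = ((R - d : ℝ) : ℂ) • v := by
      rw [sub_mulVec, hKv, smul_mulVec, one_mulVec, ← sub_smul]; push_cast; rfl
    rw [h3, mulVec_smul, star_smul, smul_dotProduct, dotProduct_smul, smul_eq_mul, smul_eq_mul,
      Complex.star_def, Complex.conj_ofReal, Complex.re_ofReal_mul, Complex.re_ofReal_mul] at h2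
    have h4 : 0 < R - d := by linarith
    have := mul_pos h4 (mul_pos h4 h1)
    linarith
  -- `T K` is positive semidefinite
  have hTpsd : (T K).PosSemidef := by
    refine PosSemidef.of_dotProduct_mulVec_nonneg (hTh K hK) ?_
    intro w
    have hinj : Function.Injective (((R : ℂ) • (1 : Matrix ι ι ℂ) - K).mulVec) := by
      intro a b hab
      have : ((R : ℂ) • (1 : Matrix ι ι ℂ) - K) *ᵥ (a - b) = 0 := by
        rw [mulVec_sub, sub_eq_zero]; exact hab
      exact sub_eq_zero.1 (hnotop _ this)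
    have hunit : IsUnit ((R : ℂ) • (1 : Matrix ι ι ℂ) - K) :=
      Matrix.mulVec_injective_iff_isUnit.1 hinj
    obtain ⟨u, hu⟩ : ∃ u, ((R : ℂ) • (1 : Matrix ι ι ℂ) - K) *ᵥ u = w := by
      refine ⟨((R : ℂ) • (1 : Matrix ι ι ℂ) - K)⁻¹ *ᵥ w, ?_⟩
      rw [mulVec_mulVec, Matrix.mul_nonsing_inv _ ((Matrix.isUnit_iff_isUnit_det _).1 hunit),
        one_mulVec]
    have h1 := hup u
    rw [hu] at h1
    rw [Complex.le_def]
    refine ⟨h1, ?_⟩
    have h2 : star (star w ⬝ᵥ (T K *ᵥ w)) = star w ⬝ᵥ (T K *ᵥ w) := by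
      rw [← star_dotProduct, star_mulVec, (hTh K hK).eq, ← dotProduct_mulVec]
    have h3 := congrArg Complex.im h2
    rw [Complex.star_def, Complex.conj_im] at h3
    rw [Complex.zero_im]; linarith
  -- `T K * (K - d) = 0`
  have hTB : ∀ u : ι → ℂ, T K *ᵥ ((K - (d : ℂ) • (1 : Matrix ι ι ℂ)) *ᵥ u) = 0 := by
    intro u
    rw [← hTpsd.dotProduct_mulVec_zero_iff]
    have h1 := hdown u
    have h2 := hTpsd.dotProduct_mulVec_nonneg ((K - (d : ℂ) • (1 : Matrix ι ι ℂ)) *ᵥ u)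
    rw [Complex.le_def] at h2
    apply Complex.ext
    · exact le_antisymm h1 h2.1
    · exact h2.2.symm
  have hTB' : T K * (K - (d : ℂ) • (1 : Matrix ι ι ℂ)) = 0 := by
    apply Matrix.ext_of_mulVec_single
    intro j
    rw [← mulVec_mulVec, hTB, zero_mulVec]
  have hBT : (K - (d : ℂ) • (1 : Matrix ι ι ℂ)) * T K = 0 := by
    have h1 := congrArg conjTranspose hTB'
    rw [conjTranspose_mul, (hTh K hK).eq, hK.2.1.1.eq, conjTranspose_zero] at h1
    exact h1
  refine ⟨K, hK, ?_⟩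
  apply Matrix.ext_of_mulVec_single
  intro j
  rw [zero_mulVec]
  set v := T K *ᵥ Pi.single j 1 with hv
  by_contra hv0
  have hKv : K *ᵥ v = (d : ℂ) • v := by
    have h1 : (K - (d : ℂ) • (1 : Matrix ι ι ℂ)) *ᵥ v = 0 := by
      rw [hv, mulVec_mulVec, hBT, zero_mulVec]
    rw [sub_mulVec, smul_mulVec, one_mulVec, sub_eq_zero] at h1
    exact h1
  have h1 := hbot K hK v hv0 hKv
  have h2 := hTpsd.dotProduct_mulVec_nonneg v
  rw [Complex.le_def] at h2
  have h3 : T K *ᵥ v = 0 := by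
    rw [← hTpsd.dotProduct_mulVec_zero_iff]
    apply Complex.ext
    · exact le_antisymm h1 h2.1
    · exact h2.2.symm
  -- `|T e_j|² = ⟨T v, e_j⟩ = 0`
  have h4 : star v ⬝ᵥ v = 0 := by
    have h5 : star v ⬝ᵥ v = star (Pi.single j (1:ℂ)) ⬝ᵥ (T K *ᵥ v) := by
      conv_lhs => rw [hv]
      rw [star_mulVec, (hTh K hK).eq, ← dotProduct_mulVec, ← hv]
    rw [h5, h3, dotProduct_zero]
  exact hv0 (dotProduct_star_self_eq_zero.1 h4)

end MatrixZero

end Crest.Agent.R332.Full
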