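import Mathlib

/-!
Row 332, module A (N-channel theorem), file 1: real traces, simultaneous diagonalisation frame and
pointwise (in `l`) trace inequalities for the resolvents `(M - l F)⁻¹`.
-/

set_option autoImplicit false

namespace Crest.Agent.R332.Chan

open Matrix
open scoped ComplexOrder BigOperators

variable {n : Type*} [Fintype n] [DecidableEq n]

/-- real part of the trace -/
noncomputable def rtr (A : Matrix n n ℂ) : ℝ := (A.trace).re

/-- log of the modulus of the determinant -/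
noncomputable def ldet (A : Matrix n n ℂ) : ℝ := Real.log ‖A.det‖

omit [DecidableEq n] in
lemma rtr_add (A B : Matrix n n ℂ) : rtr (A + B) = rtr A + rtr B := by
  simp [rtr, Matrix.trace_add]

omit [DecidableEq n] in
lemma rtr_sub (A B : Matrix n n ℂ) : rtr (A - B) = rtr A - rtr B := by
  simp [rtr, Matrix.trace_sub]

omit [DecidableEq n] in
lemma rtr_neg (A : Matrix n n ℂ) : rtr (-A) = - rtr A := by
  simp [rtr, Matrix.trace_neg]

omit [DecidableEq n] in
lemma rtr_smul (c : ℝ) (A : Matrix n n ℂ) : rtr ((c : ℂ) • A) = c * rtr A := by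
  simp [rtr, Matrix.trace_smul]

omit [DecidableEq n] in
lemma rtr_mul_comm (A B : Matrix n n ℂ) : rtr (A * B) = rtr (B * A) := by
  simp [rtr, Matrix.trace_mul_comm A B]

omit [DecidableEq n] in
lemma rtr_conjTranspose (A : Matrix n n ℂ) : rtr Aᴴ = rtr A := by
  simp [rtr, Matrix.trace_conjTranspose]

lemma rtr_one : rtr (1 : Matrix n n ℂ) = Fintype.card n := by
  simp [rtr, Matrix.trace_one]

omit [DecidableEq n] in
/-- Hilbert-Schmidt square -/
lemma rtr_conjTranspose_mul_self (A : Matrix n n ℂ) :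
    rtr (Aᴴ * A) = ∑ i, ∑ j, ‖A i j‖ ^ 2 := by
  unfold rtr Matrix.trace
  simp only [Matrix.diag_apply, Matrix.mul_apply, Matrix.conjTranspose_apply, Complex.re_sum]
  rw [Finset.sum_comm]
  refine Finset.sum_congr rfl fun i _ => Finset.sum_congr rfl fun j _ => ?_
  rw [← Complex.normSq_eq_norm_sq, Complex.star_def, mul_comm, Complex.mul_conj]
  simp

omit [DecidableEq n] in
lemma rtr_conjTranspose_mul_self_nonneg (A : Matrix n n ℂ) : 0 ≤ rtr (Aᴴ * A) := by
  rw [rtr_conjTranspose_mul_self]; positivity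

omit [DecidableEq n] in
lemma rtr_comm_sq {R F : Matrix n n ℂ} (hR : R.IsHermitian) (hF : F.IsHermitian) :
    rtr ((R * F - F * R)ᴴ * (R * F - F * R))
      = 2 * rtr (R * R * (F * F)) - 2 * rtr (R * F * (R * F)) := by
  have e : (R * F - F * R)ᴴ * (R * F - F * R)
      = F * R * R * F - F * R * F * R - R * F * R * F + R * F * F * R := by
    rw [Matrix.conjTranspose_sub, Matrix.conjTranspose_mul, Matrix.conjTranspose_mul, hR.eq, hF.eq]
    noncomm_ring
  rw [e, rtr_add, rtr_sub, rtr_sub]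
  have h1 : rtr (F * R * R * F) = rtr (R * R * (F * F)) := by
    rw [rtr_mul_comm (F * R * R) F, rtr_mul_comm (R * R) (F * F)]
    congr 1; noncomm_ring
  have h2 : rtr (F * R * F * R) = rtr (R * F * (R * F)) := by
    rw [rtr_mul_comm (F * R * F) R]; congr 1; noncomm_ring
  have h3 : rtr (R * F * R * F) = rtr (R * F * (R * F)) := by
    congr 1; noncomm_ring
  have h4 : rtr (R * F * F * R) = rtr (R * R * (F * F)) := by
    rw [rtr_mul_comm (R * F * F) R]; congr 1; noncomm_ring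
  rw [h1, h2, h3, h4]; ring

/-- Pointwise form of fact (1). -/
lemma rtr_res_sq {M F R : Matrix n n ℂ} {l : ℝ} (hM : M.IsHermitian) (hF : F.IsHermitian)
    (hR : R.IsHermitian) (h1 : R * (M - (l : ℂ) • F) = 1) (h2 : (M - (l : ℂ) • F) * R = 1) :
    rtr (R * R * (M * M - F * F)) = rtr (R * (M - F) * (R * (M + F)))
      - (1 - l ^ 2) / 2 * rtr ((R * F - F * R)ᴴ * (R * F - F * R)) := by
  have hcomm : R * M - M * R = (l : ℂ) • (R * F - F * R) := by
    have := h1.trans h2.symm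
    rw [Matrix.mul_sub, Matrix.sub_mul, Matrix.mul_smul, Matrix.smul_mul] at this
    rw [smul_sub]
    have h3 : R * M - M * R = (R * M - (l : ℂ) • (R * F)) - (M * R - (l : ℂ) • (F * R))
        + ((l : ℂ) • (R * F) - (l : ℂ) • (F * R)) := by abel
    rw [h3, this]; simp
  have hMs : rtr ((R * M - M * R)ᴴ * (R * M - M * R))
      = l ^ 2 * rtr ((R * F - F * R)ᴴ * (R * F - F * R)) := by
    rw [hcomm, Matrix.conjTranspose_smul, Matrix.smul_mul, Matrix.mul_smul, smul_smul]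
    have : (star (l : ℂ) * (l : ℂ)) = ((l ^ 2 : ℝ) : ℂ) := by
      simp [Complex.conj_ofReal]; ring
    rw [this, rtr_smul]
  have e1 := rtr_comm_sq hR hM
  have e2 := rtr_comm_sq hR hF
  have e3 : rtr (R * (M - F) * (R * (M + F))) = rtr (R * M * (R * M)) - rtr (R * F * (R * F)) := by
    have : R * (M - F) * (R * (M + F)) = R * M * (R * M) + R * M * (R * F) - R * F * (R * M)
        - R * F * (R * F) := by noncomm_ring
    rw [this, rtr_sub, rtr_sub, rtr_add, rtr_mul_comm (R * M) (R * F)]; ring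
  have e4 : rtr (R * R * (M * M - F * F)) = rtr (R * R * (M * M)) - rtr (R * R * (F * F)) := by
    rw [Matrix.mul_sub, rtr_sub]
  rw [e4, e3]
  rw [hMs] at e1
  nlinarith [e1, e2]

/-- Simultaneous diagonalisation. -/
structure Frame (M F : Matrix n n ℂ) where
  T : Matrix n n ℂ
  v : n → ℝ
  hv : ∀ i, |v i| < 1
  hM : Tᴴ * M * T = 1
  hF : Tᴴ * F * T = diagonal fun i => ((v i : ℝ) : ℂ)

/-- spectral theorem in explicit form -/
theorem exists_spectral {A : Matrix n n ℂ} (hA : A.IsHermitian) :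
    ∃ (U : Matrix n n ℂ) (d : n → ℝ), Uᴴ * U = 1 ∧ U * Uᴴ = 1 ∧
      A = U * diagonal (fun i => ((d i : ℝ) : ℂ)) * Uᴴ := by
  refine ⟨(hA.eigenvectorUnitary : Matrix n n ℂ), hA.eigenvalues, ?_, ?_, ?_⟩
  · rw [← Matrix.star_eq_conjTranspose]; exact Unitary.coe_star_mul_self _
  · rw [← Matrix.star_eq_conjTranspose]; exact Unitary.coe_mul_star_self _
  · conv_lhs => rw [hA.spectral_theorem]
    rw [Unitary.conjStarAlgAut_apply, Matrix.star_eq_conjTranspose]
    rfl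

theorem posDef_diag_of_conj {d : n → ℝ} {A T : Matrix n n ℂ} (hA : A.PosDef)
    (hT : IsUnit T) (h : Tᴴ * A * T = diagonal (fun i => ((d i : ℝ) : ℂ))) (i : n) : 0 < d i := by
  have h1 : (Tᴴ * A * T).PosDef := by
    rw [← Matrix.star_eq_conjTranspose]
    exact (Matrix.IsUnit.posDef_star_left_conjugate_iff hT).2 hA
  rw [h, Matrix.posDef_diagonal_iff] at h1
  have := h1 i
  exact_mod_cast this

theorem isUnit_of_conj {A T : Matrix n n ℂ} (h : Tᴴ * A * T = 1) : IsUnit T := by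
  rw [Matrix.isUnit_iff_isUnit_det]
  have : (Tᴴ * A).det * T.det = 1 := by rw [← Matrix.det_mul, h, Matrix.det_one]
  exact IsUnit.of_mul_eq_one_right _ this

theorem exists_frame {M F : Matrix n n ℂ} (hM : M.PosDef) (hF : F.IsHermitian)
    (ha : (M - F).PosDef) (hb : (M + F).PosDef) : Nonempty (Frame M F) := by
  classical
  obtain ⟨U, d, hU1, hU2, hd⟩ := exists_spectral hM.isHermitian
  have hdp : ∀ i, 0 < d i := by
    refine posDef_diag_of_conj hM (T := U) ?_ ?_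
    · exact ⟨⟨U, Uᴴ, hU2, hU1⟩, rfl⟩
    · rw [hd]
      calc Uᴴ * (U * diagonal (fun i => ((d i : ℝ) : ℂ)) * Uᴴ) * U
          = (Uᴴ * U) * diagonal (fun i => ((d i : ℝ) : ℂ)) * (Uᴴ * U) := by noncomm_ring
        _ = _ := by rw [hU1]; simp
  set e : n → ℝ := fun i => (Real.sqrt (d i))⁻¹ with he
  set B : Matrix n n ℂ := U * diagonal (fun i => ((e i : ℝ) : ℂ)) with hBdef
  have hDs : (diagonal (fun i => ((e i : ℝ) : ℂ)))ᴴ = diagonal (fun i => ((e i : ℝ) : ℂ)) := by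
    rw [Matrix.diagonal_conjTranspose]; congr 1; ext i; simp
  have hB : Bᴴ * M * B = 1 := by
    rw [hBdef, Matrix.conjTranspose_mul, hDs, hd]
    calc diagonal (fun i => ((e i : ℝ) : ℂ)) * Uᴴ * (U * diagonal (fun i => ((d i : ℝ) : ℂ)) * Uᴴ)
          * (U * diagonal (fun i => ((e i : ℝ) : ℂ)))
        = diagonal (fun i => ((e i : ℝ) : ℂ)) * ((Uᴴ * U) * diagonal (fun i => ((d i : ℝ) : ℂ))
          * (Uᴴ * U)) * diagonal (fun i => ((e i : ℝ) : ℂ)) := by noncomm_ring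
      _ = 1 := by
        rw [hU1, Matrix.one_mul, Matrix.mul_one, Matrix.diagonal_mul_diagonal,
          Matrix.diagonal_mul_diagonal, ← Matrix.diagonal_one]
        congr 1; ext i
        have h1 : Real.sqrt (d i) ≠ 0 := (Real.sqrt_pos.2 (hdp i)).ne'
        have h2 : d i = Real.sqrt (d i) * Real.sqrt (d i) :=
          (Real.mul_self_sqrt (hdp i).le).symm
        have h3 : e i * d i * e i = 1 := by
          rw [he]; simp only; rw [h2]; field_simp
          simp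
        exact_mod_cast h3
  have hV : (Bᴴ * F * B).IsHermitian := Matrix.isHermitian_conjTranspose_mul_mul B hF
  obtain ⟨Q, v, hQ1, hQ2, hQ⟩ := exists_spectral hV
  have hTM : (B * Q)ᴴ * M * (B * Q) = 1 := by
    rw [Matrix.conjTranspose_mul]
    calc Qᴴ * Bᴴ * M * (B * Q) = Qᴴ * (Bᴴ * M * B) * Q := by noncomm_ring
      _ = 1 := by rw [hB, Matrix.mul_one, hQ1]
  have hTF : (B * Q)ᴴ * F * (B * Q) = diagonal fun i => ((v i : ℝ) : ℂ) := by
    rw [Matrix.conjTranspose_mul]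
    calc Qᴴ * Bᴴ * F * (B * Q) = Qᴴ * (Bᴴ * F * B) * Q := by noncomm_ring
      _ = (Qᴴ * Q) * diagonal (fun i => ((v i : ℝ) : ℂ)) * (Qᴴ * Q) := by
          rw [hQ]; noncomm_ring
      _ = _ := by rw [hQ1]; simp
  have hu : IsUnit (B * Q) := isUnit_of_conj hTM
  refine ⟨⟨B * Q, v, fun i => ?_, hTM, hTF⟩⟩
  have h1 : 0 < 1 - v i := by
    refine posDef_diag_of_conj (d := fun i => 1 - v i) ha hu ?_ i
    rw [Matrix.mul_sub, Matrix.sub_mul, hTM, hTF, ← Matrix.diagonal_one, Matrix.diagonal_sub]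
    congr 1; ext j; simp
  have h2 : 0 < 1 + v i := by
    refine posDef_diag_of_conj (d := fun i => 1 + v i) hb hu ?_ i
    rw [Matrix.mul_add, Matrix.add_mul, hTM, hTF, ← Matrix.diagonal_one, Matrix.diagonal_add]
    congr 1; ext j; simp
  rw [abs_lt]; constructor <;> linarith

/-- real diagonal matrix with complex entries -/
noncomputable abbrev dg (d : n → ℝ) : Matrix n n ℂ := diagonal fun i => ((d i : ℝ) : ℂ)

lemma dg_mul_dg (d e : n → ℝ) : dg d * dg e = dg fun i => d i * e i := by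
  simp [dg, Matrix.diagonal_mul_diagonal]

lemma dg_conjTranspose (d : n → ℝ) : (dg d)ᴴ = dg d := by
  simp only [dg, Matrix.diagonal_conjTranspose]; congr 1; ext i; simp

lemma dg_one : dg (fun _ : n => (1 : ℝ)) = 1 := by
  simp [dg]

namespace Frame

variable {M F : Matrix n n ℂ} (fr : Frame M F)

lemma isUnit_T : IsUnit fr.T := isUnit_of_conj fr.hM

lemma one_sub_pos {l : ℝ} (hl : |l| ≤ 1) (i : n) : 0 < 1 - l * fr.v i := by
  have h1 := fr.hv i
  have h2 : |l * fr.v i| < 1 := by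
    rw [abs_mul]
    nlinarith [abs_nonneg l, abs_nonneg (fr.v i)]
  linarith [(abs_lt.1 h2).2]

lemma conj_pencil (l : ℝ) : fr.Tᴴ * (M - (l : ℂ) • F) * fr.T = dg fun i => 1 - l * fr.v i := by
  rw [Matrix.mul_sub, Matrix.sub_mul, Matrix.mul_smul, Matrix.smul_mul, fr.hM, fr.hF,
    ← Matrix.diagonal_one, ← Matrix.diagonal_smul, Matrix.diagonal_sub]
  congr 1; ext i; simp

/-- from `Tᴴ A T = dg d` with `d ≠ 0` get the inverse of `A` -/
lemma inv_of_conj {A T : Matrix n n ℂ} {d : n → ℝ} (hT : IsUnit T) (hd : ∀ i, d i ≠ 0)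
    (h : Tᴴ * A * T = dg d) :
    A * (T * dg (fun i => (d i)⁻¹) * Tᴴ) = 1 ∧ (T * dg (fun i => (d i)⁻¹) * Tᴴ) * A = 1 := by
  have hTd : IsUnit T.det := (Matrix.isUnit_iff_isUnit_det T).1 hT
  have hTd' : IsUnit (Tᴴ).det := by
    rw [Matrix.det_conjTranspose]; exact hTd.star
  have e1 : dg d * dg (fun i => (d i)⁻¹) = 1 := by
    rw [dg_mul_dg, ← dg_one]; congr 1; ext i
    exact_mod_cast mul_inv_cancel₀ (hd i)
  have hA : A * (T * dg (fun i => (d i)⁻¹) * Tᴴ) = 1 := by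
    have h1 : Tᴴ * (A * (T * dg (fun i => (d i)⁻¹) * Tᴴ)) = Tᴴ := by
      calc Tᴴ * (A * (T * dg (fun i => (d i)⁻¹) * Tᴴ))
          = (Tᴴ * A * T) * dg (fun i => (d i)⁻¹) * Tᴴ := by noncomm_ring
        _ = Tᴴ := by rw [h, e1, Matrix.one_mul]
    have h2 : (Tᴴ)⁻¹ * (Tᴴ * (A * (T * dg (fun i => (d i)⁻¹) * Tᴴ))) = (Tᴴ)⁻¹ * Tᴴ := by rw [h1]
    rwa [← Matrix.mul_assoc (Tᴴ)⁻¹, Matrix.nonsing_inv_mul _ hTd', Matrix.one_mul] at h2
  exact ⟨hA, mul_eq_one_comm.1 hA⟩

lemma res_eq {l : ℝ} (hl : |l| ≤ 1) :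
    (M - (l : ℂ) • F)⁻¹ = fr.T * dg (fun i => (1 - l * fr.v i)⁻¹) * fr.Tᴴ :=
  Matrix.inv_eq_right_inv
    (inv_of_conj fr.isUnit_T (fun i => (fr.one_sub_pos hl i).ne') (fr.conj_pencil l)).1

include fr in
lemma res_mul {l : ℝ} (hl : |l| ≤ 1) :
    (M - (l : ℂ) • F) * (M - (l : ℂ) • F)⁻¹ = 1 ∧ (M - (l : ℂ) • F)⁻¹ * (M - (l : ℂ) • F) = 1 := by
  rw [fr.res_eq hl]
  exact inv_of_conj fr.isUnit_T (fun i => (fr.one_sub_pos hl i).ne') (fr.conj_pencil l)

lemma M_inv : M⁻¹ = fr.T * fr.Tᴴ := by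
  have := fr.res_eq (l := 0) (by simp)
  simpa [dg_one] using this

lemma a_inv : (M - F)⁻¹ = fr.T * dg (fun i => (1 - fr.v i)⁻¹) * fr.Tᴴ := by
  simpa using fr.res_eq (l := 1) (by simp)

lemma b_inv : (M + F)⁻¹ = fr.T * dg (fun i => (1 + fr.v i)⁻¹) * fr.Tᴴ := by
  simpa using fr.res_eq (l := -1) (by simp)

lemma det_norm {A : Matrix n n ℂ} {d : n → ℝ} (hd : ∀ i, 0 < d i)
    (h : fr.Tᴴ * A * fr.T = dg d) :
    ldet A = (∑ i, Real.log (d i)) - 2 * ldet fr.T := by
  have h1 : ‖(fr.Tᴴ * A * fr.T).det‖ = ‖(dg d).det‖ := by rw [h]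
  rw [Matrix.det_mul, Matrix.det_mul, norm_mul, norm_mul, Matrix.det_conjTranspose, norm_star,
    Matrix.det_diagonal, norm_prod] at h1
  have hT : ‖fr.T.det‖ ≠ 0 := by
    have := (Matrix.isUnit_iff_isUnit_det fr.T).1 fr.isUnit_T
    exact norm_ne_zero_iff.2 this.ne_zero
  have h2 : (∏ i, ‖((d i : ℝ) : ℂ)‖) = ∏ i, d i := by
    refine Finset.prod_congr rfl fun i _ => ?_
    rw [Complex.norm_real, Real.norm_of_nonneg (hd i).le]
  rw [h2] at h1
  have h3 : (∏ i, d i) ≠ 0 := Finset.prod_ne_zero_iff.2 fun i _ => (hd i).ne'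
  have hA : ‖A.det‖ ≠ 0 := by
    intro h0; rw [h0] at h1; simp at h1; exact h3 h1.symm
  have h4 := congrArg Real.log h1
  rw [Real.log_mul (mul_ne_zero hT hA) hT, Real.log_mul hT hA, Real.log_prod (fun i _ => (hd i).ne')] at h4
  unfold ldet; linarith

lemma ldet_a : ldet (M - F) = (∑ i, Real.log (1 - fr.v i)) - 2 * ldet fr.T :=
  fr.det_norm (fun i => by linarith [(abs_lt.1 (fr.hv i)).2]) (by simpa using fr.conj_pencil 1)

lemma ldet_b : ldet (M + F) = (∑ i, Real.log (1 + fr.v i)) - 2 * ldet fr.T :=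
  fr.det_norm (fun i => by linarith [(abs_lt.1 (fr.hv i)).1]) (by simpa using fr.conj_pencil (-1))

end Frame

end Crest.Agent.R332.Chan
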