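import Mathlib
import Crest.Agent.R332.ChanFrame

/-!
Row 332, module A (N-channel theorem), file 2: the averaged functional
`lamTr M F X = (1/2) ∫_{-1}^1 Re tr ((M - l F)⁻² X) dl` and its three basic properties.
-/

set_option autoImplicit false

namespace Crest.Agent.R332.Chan

open Matrix MeasureTheory intervalIntegral
open scoped ComplexOrder BigOperators

variable {n : Type*} [Fintype n] [DecidableEq n]

/-- resolvent -/
noncomputable def Res (M F : Matrix n n ℂ) (l : ℝ) : Matrix n n ℂ := (M - (l : ℂ) • F)⁻¹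

/-- averaged functional -/
noncomputable def lamTr (M F X : Matrix n n ℂ) : ℝ :=
  (1 / 2) * ∫ l in (-1 : ℝ)..1, rtr (Res M F l * Res M F l * X)

/-! ### scalar integrals -/

lemma one_sub_mul_pos {l v : ℝ} (hl : l ∈ Set.Icc (-1 : ℝ) 1) (hv : |v| < 1) : 0 < 1 - l * v := by
  have h1 : |l| ≤ 1 := abs_le.2 hl
  have h2 : |l * v| < 1 := by
    rw [abs_mul]
    nlinarith [abs_nonneg l, abs_nonneg v]
  linarith [(abs_lt.1 h2).2]

lemma continuousOn_inv_one_sub {v : ℝ} (hv : |v| < 1) :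
    ContinuousOn (fun l : ℝ => (1 - l * v)⁻¹) (Set.Icc (-1) 1) := by
  refine ContinuousOn.inv₀ (by fun_prop) fun l hl => (one_sub_mul_pos hl hv).ne'

lemma integral_inv_sq {v : ℝ} (hv : |v| < 1) :
    ∫ l in (-1 : ℝ)..1, ((1 - l * v)⁻¹) ^ 2 = 2 / (1 - v ^ 2) := by
  have hv1 : 0 < 1 - v := by linarith [(abs_lt.1 hv).2]
  have hv2 : 0 < 1 + v := by linarith [(abs_lt.1 hv).1]
  have hv3 : 1 - v ^ 2 ≠ 0 := by
    have : 0 < (1 - v) * (1 + v) := mul_pos hv1 hv2
    nlinarith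
  have key : ∫ l in (-1 : ℝ)..1, (1 - v ^ 2)⁻¹ * ((1 - v ^ 2) * ((1 - l * v)⁻¹) ^ 2)
      = (1 - v ^ 2)⁻¹ * (1 / (1 - 1 * v) * (1 - v) - 1 / (1 - (-1) * v) * (-1 - v)) := by
    rw [intervalIntegral.integral_const_mul]
    congr 1
    have hder : ∀ l ∈ Set.uIcc (-1 : ℝ) 1,
        HasDerivAt (fun l : ℝ => 1 / (1 - l * v) * (l - v)) ((1 - v ^ 2) * ((1 - l * v)⁻¹) ^ 2) l := by
      intro l hl
      rw [Set.uIcc_of_le (by norm_num)] at hl
      have hp := one_sub_mul_pos hl hv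
      have h1 : HasDerivAt (fun l : ℝ => 1 - l * v) (-v) l := by
        simpa using ((hasDerivAt_id l).mul_const v).const_sub 1
      have h2 := (h1.inv hp.ne').mul ((hasDerivAt_id l).sub_const v)
      simp only [id] at h2
      have h3 : (fun l : ℝ => 1 / (1 - l * v) * (l - v)) = (fun l : ℝ => (1 - l * v)⁻¹) * fun l => l - v := by
        ext x; simp [one_div]
      rw [h3]
      refine h2.congr_deriv ?_
      simp only [Pi.inv_apply]
      field_simp
      ring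
    have hint : IntervalIntegrable (fun l : ℝ => (1 - v ^ 2) * ((1 - l * v)⁻¹) ^ 2) volume (-1) 1 := by
      apply ContinuousOn.intervalIntegrable
      rw [Set.uIcc_of_le (by norm_num)]
      exact continuousOn_const.mul ((continuousOn_inv_one_sub hv).pow 2)
    exact intervalIntegral.integral_eq_sub_of_hasDerivAt hder hint
  have h0 : ∀ l : ℝ, (1 - v ^ 2)⁻¹ * ((1 - v ^ 2) * ((1 - l * v)⁻¹) ^ 2) = ((1 - l * v)⁻¹) ^ 2 := by
    intro l; rw [← mul_assoc, inv_mul_cancel₀ hv3, one_mul]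
  simp only [h0] at key
  rw [key]
  have : (1 : ℝ) / (1 - 1 * v) * (1 - v) = 1 := by rw [one_mul]; field_simp
  rw [this]
  have h4 : (1 : ℝ) / (1 - (-1) * v) * (-1 - v) = -1 := by
    have : (1 : ℝ) - (-1) * v = 1 + v := by ring
    rw [this]; field_simp; ring
  rw [h4]; field_simp; norm_num

/-! ### formulas in a frame -/

namespace Frame

variable {M F : Matrix n n ℂ} (fr : Frame M F)

/-- the diagonal `(1 - l v)⁻¹` -/
noncomputable def D (l : ℝ) : Matrix n n ℂ := dg fun i => (1 - l * fr.v i)⁻¹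

lemma Res_eq {l : ℝ} (hl : l ∈ Set.Icc (-1 : ℝ) 1) : Res M F l = fr.T * fr.D l * fr.Tᴴ :=
  fr.res_eq (abs_le.2 hl)

lemma D_isHermitian (l : ℝ) : (fr.D l).IsHermitian := dg_conjTranspose _

/-- Gram matrix -/
noncomputable def g : Matrix n n ℂ := fr.Tᴴ * fr.T

omit [DecidableEq n] in
lemma g_isHermitian' (T : Matrix n n ℂ) : (Tᴴ * T).IsHermitian := by
  unfold Matrix.IsHermitian; rw [Matrix.conjTranspose_mul, Matrix.conjTranspose_conjTranspose]

lemma g_isHermitian : fr.g.IsHermitian := g_isHermitian' fr.T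

lemma g_posDef : fr.g.PosDef := by
  unfold g
  have h := (Matrix.IsUnit.posDef_star_left_conjugate_iff fr.isUnit_T (x := (1 : Matrix n n ℂ))).2
    Matrix.PosDef.one
  rwa [Matrix.mul_one, Matrix.star_eq_conjTranspose] at h

include fr in
lemma Res_isHermitian {l : ℝ} (hl : l ∈ Set.Icc (-1 : ℝ) 1) : (Res M F l).IsHermitian := by
  rw [fr.Res_eq hl]; unfold Matrix.IsHermitian
  rw [Matrix.conjTranspose_mul, Matrix.conjTranspose_mul, Matrix.conjTranspose_conjTranspose,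
    (fr.D_isHermitian l).eq, Matrix.mul_assoc]

lemma rtr_res_sq_mul {l : ℝ} (hl : l ∈ Set.Icc (-1 : ℝ) 1) (X : Matrix n n ℂ) :
    rtr (Res M F l * Res M F l * X) = rtr (fr.g * fr.D l * (fr.Tᴴ * X * fr.T) * fr.D l) := by
  rw [fr.Res_eq hl]
  have e : fr.T * fr.D l * fr.Tᴴ * (fr.T * fr.D l * fr.Tᴴ) * X
      = (fr.T * fr.D l) * (fr.g * fr.D l * (fr.Tᴴ * X)) := by
    unfold g; noncomm_ring
  rw [e, rtr_mul_comm]
  congr 1
  noncomm_ring

lemma continuousOn_D (i j : n) : ContinuousOn (fun l => fr.D l i j) (Set.Icc (-1) 1) := by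
  unfold D dg
  by_cases h : i = j
  · subst h
    simp only [Matrix.diagonal_apply_eq]
    exact Complex.continuous_ofReal.comp_continuousOn (continuousOn_inv_one_sub (fr.hv i))
  · simp only [Matrix.diagonal_apply_ne _ h]
    exact continuousOn_const

lemma continuousOn_D' : ContinuousOn (fun l => fr.D l) (Set.Icc (-1) 1) :=
  continuousOn_pi.2 fun i => continuousOn_pi.2 fun j => fr.continuousOn_D i j

include fr in
lemma continuousOn_Res : ContinuousOn (fun l => Res M F l) (Set.Icc (-1) 1) := by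
  have h : ContinuousOn (fun l => fr.T * fr.D l * fr.Tᴴ) (Set.Icc (-1) 1) :=
    (continuousOn_const.mul fr.continuousOn_D').mul continuousOn_const
  exact h.congr fun l hl => fr.Res_eq hl

end Frame

omit [DecidableEq n] in
lemma continuous_rtr : Continuous (fun A : Matrix n n ℂ => rtr A) := by
  unfold rtr
  exact Complex.continuous_re.comp (Continuous.matrix_trace continuous_id)

lemma Frame.continuousOn_integrand {M F : Matrix n n ℂ} (fr : Frame M F) (X : Matrix n n ℂ) :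
    ContinuousOn (fun l => rtr (Res M F l * Res M F l * X)) (Set.Icc (-1) 1) :=
  continuous_rtr.comp_continuousOn
    ((fr.continuousOn_Res.mul fr.continuousOn_Res).mul continuousOn_const)

lemma Frame.intervalIntegrable {M F : Matrix n n ℂ} (fr : Frame M F) (X : Matrix n n ℂ) :
    IntervalIntegrable (fun l => rtr (Res M F l * Res M F l * X)) volume (-1) 1 := by
  apply ContinuousOn.intervalIntegrable
  rw [Set.uIcc_of_le (by norm_num)]
  exact fr.continuousOn_integrand X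

/-! ### linearity -/

lemma lamTr_add {M F : Matrix n n ℂ} (fr : Frame M F) (X Y : Matrix n n ℂ) :
    lamTr M F (X + Y) = lamTr M F X + lamTr M F Y := by
  unfold lamTr
  rw [← mul_add, ← intervalIntegral.integral_add (fr.intervalIntegrable X) (fr.intervalIntegrable Y)]
  simp only [Matrix.mul_add, rtr_add]

lemma lamTr_smul (M F : Matrix n n ℂ) (c : ℝ) (X : Matrix n n ℂ) :
    lamTr M F ((c : ℂ) • X) = c * lamTr M F X := by
  unfold lamTr
  simp only [Matrix.mul_smul, rtr_smul, intervalIntegral.integral_const_mul]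
  ring

lemma lamTr_sub {M F : Matrix n n ℂ} (fr : Frame M F) (X Y : Matrix n n ℂ) :
    lamTr M F (X - Y) = lamTr M F X - lamTr M F Y := by
  unfold lamTr
  rw [← mul_sub, ← intervalIntegral.integral_sub (fr.intervalIntegrable X) (fr.intervalIntegrable Y)]
  simp only [Matrix.mul_sub, rtr_sub]

/-! ### Fact (1) -/

/-- deficit (1) -/
noncomputable def def1 (M F : Matrix n n ℂ) : ℝ :=
  (1 / 4) * ∫ l in (-1 : ℝ)..1, (1 - l ^ 2) *
    rtr ((Res M F l * F - F * Res M F l)ᴴ * (Res M F l * F - F * Res M F l))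

lemma def1_nonneg (M F : Matrix n n ℂ) : 0 ≤ def1 M F := by
  unfold def1
  refine mul_nonneg (by norm_num) (intervalIntegral.integral_nonneg (by norm_num) fun l hl => ?_)
  refine mul_nonneg ?_ (rtr_conjTranspose_mul_self_nonneg _)
  nlinarith [hl.1, hl.2]

lemma rtr_dg (d : n → ℝ) : rtr (dg d) = ∑ i, d i := by
  simp [rtr, dg, Matrix.trace_diagonal]

theorem fact1 {M F : Matrix n n ℂ} (hM : M.IsHermitian) (hF : F.IsHermitian) (fr : Frame M F) :
    lamTr M F (M * M - F * F) = Fintype.card n - def1 M F := by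
  have hpt : ∀ l ∈ Set.Icc (-1 : ℝ) 1, rtr (Res M F l * Res M F l * (M * M - F * F))
      = (∑ i, (1 - fr.v i ^ 2) * ((1 - l * fr.v i)⁻¹) ^ 2)
        - (1 / 2) * ((1 - l ^ 2) *
          rtr ((Res M F l * F - F * Res M F l)ᴴ * (Res M F l * F - F * Res M F l))) := by
    intro l hl
    have hm := fr.res_mul (abs_le.2 hl)
    rw [rtr_res_sq (l := l) hM hF (fr.Res_isHermitian hl) hm.2 hm.1]
    have e1 : rtr (Res M F l * (M - F) * (Res M F l * (M + F)))
        = ∑ i, (1 - fr.v i ^ 2) * ((1 - l * fr.v i)⁻¹) ^ 2 := by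
      rw [fr.Res_eq hl]
      have e : fr.T * fr.D l * fr.Tᴴ * (M - F) * (fr.T * fr.D l * fr.Tᴴ * (M + F))
          = fr.T * (fr.D l * (fr.Tᴴ * (M - F) * fr.T) * fr.D l * (fr.Tᴴ * (M + F))) := by
        noncomm_ring
      have ha : fr.Tᴴ * (M - F) * fr.T = dg fun i => 1 - fr.v i := by
        simpa using fr.conj_pencil 1
      have hb : fr.Tᴴ * (M + F) * fr.T = dg fun i => 1 + fr.v i := by
        simpa using fr.conj_pencil (-1)
      rw [e, rtr_mul_comm, Matrix.mul_assoc (fr.D l * _ * fr.D l), ha, hb, Frame.D, dg_mul_dg,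
        dg_mul_dg, dg_mul_dg, rtr_dg]
      refine Finset.sum_congr rfl fun i _ => ?_
      ring
    rw [e1]; ring
  have hI : ContinuousOn (fun l => (1 - l ^ 2) *
          rtr ((Res M F l * F - F * Res M F l)ᴴ * (Res M F l * F - F * Res M F l)))
          (Set.Icc (-1 : ℝ) 1) := by
    refine ContinuousOn.mul (by fun_prop) (continuous_rtr.comp_continuousOn ?_)
    have h1 : ContinuousOn (fun l => Res M F l * F - F * Res M F l) (Set.Icc (-1 : ℝ) 1) :=
      (fr.continuousOn_Res.mul continuousOn_const).sub (continuousOn_const.mul fr.continuousOn_Res)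
    have h2 : ContinuousOn (fun l => (Res M F l * F - F * Res M F l)ᴴ) (Set.Icc (-1 : ℝ) 1) :=
      (Continuous.matrix_conjTranspose continuous_id).comp_continuousOn h1
    exact h2.mul h1
  unfold lamTr
  rw [intervalIntegral.integral_congr (g := fun l =>
      (∑ i, (1 - fr.v i ^ 2) * ((1 - l * fr.v i)⁻¹) ^ 2)
        - (1 / 2) * ((1 - l ^ 2) *
          rtr ((Res M F l * F - F * Res M F l)ᴴ * (Res M F l * F - F * Res M F l))))
      (fun l hl => hpt l (by rwa [Set.uIcc_of_le (by norm_num)] at hl))]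
  rw [intervalIntegral.integral_sub, intervalIntegral.integral_const_mul,
    intervalIntegral.integral_finsetSum]
  · have : ∀ i, ∫ l in (-1 : ℝ)..1, (1 - fr.v i ^ 2) * ((1 - l * fr.v i)⁻¹) ^ 2 = 2 := by
      intro i
      rw [intervalIntegral.integral_const_mul, integral_inv_sq (fr.hv i)]
      have hv1 : 0 < 1 - fr.v i := by linarith [(abs_lt.1 (fr.hv i)).2]
      have hv2 : 0 < 1 + fr.v i := by linarith [(abs_lt.1 (fr.hv i)).1]
      have : 1 - fr.v i ^ 2 ≠ 0 := by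
        have : 0 < (1 - fr.v i) * (1 + fr.v i) := mul_pos hv1 hv2
        nlinarith
      field_simp
    simp only [this]
    unfold def1
    simp only [Finset.sum_const, Finset.card_univ, nsmul_eq_mul]
    ring
  · intro i _
    apply ContinuousOn.intervalIntegrable
    rw [Set.uIcc_of_le (by norm_num)]
    exact continuousOn_const.mul ((continuousOn_inv_one_sub (fr.hv i)).pow 2)
  · apply ContinuousOn.intervalIntegrable
    rw [Set.uIcc_of_le (by norm_num)]
    exact continuousOn_finsetSum _ fun i _ =>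
      continuousOn_const.mul ((continuousOn_inv_one_sub (fr.hv i)).pow 2)
  · apply ContinuousOn.intervalIntegrable
    rw [Set.uIcc_of_le (by norm_num)]
    exact continuousOn_const.mul hI

/-! ### Fact (2) -/

theorem fact2 {M F : Matrix n n ℂ} (fr : Frame M F) :
    lamTr M F 1 ≤ (1 / 2) * rtr (M⁻¹ * ((M - F)⁻¹ + (M + F)⁻¹)) := by
  have hpt : ∀ l ∈ Set.Icc (-1 : ℝ) 1, rtr (Res M F l * Res M F l * 1)
      ≤ ∑ i, ((fr.g * fr.g) i i).re * ((1 - l * fr.v i)⁻¹) ^ 2 := by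
    intro l hl
    rw [fr.rtr_res_sq_mul hl, Matrix.mul_one]
    have h := rtr_comm_sq fr.g_isHermitian (fr.D_isHermitian l)
    have h0 := rtr_conjTranspose_mul_self_nonneg (fr.g * fr.D l - fr.D l * fr.g)
    have e1 : rtr (fr.g * fr.D l * (fr.Tᴴ * fr.T) * fr.D l) = rtr (fr.g * fr.D l * (fr.g * fr.D l)) := by
      congr 1; unfold Frame.g; noncomm_ring
    have e2 : rtr (fr.g * fr.g * (fr.D l * fr.D l))
        = ∑ i, ((fr.g * fr.g) i i).re * ((1 - l * fr.v i)⁻¹) ^ 2 := by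
      rw [Frame.D, dg_mul_dg]
      unfold rtr Matrix.trace
      rw [Complex.re_sum]
      refine Finset.sum_congr rfl fun i _ => ?_
      rw [Matrix.diag_apply, dg, Matrix.mul_diagonal, Complex.re_mul_ofReal]
      ring
    rw [e1, ← e2]; linarith
  have hcont : ContinuousOn (fun l : ℝ => ∑ i, ((fr.g * fr.g) i i).re * ((1 - l * fr.v i)⁻¹) ^ 2)
      (Set.Icc (-1 : ℝ) 1) := continuousOn_finsetSum _ fun i _ =>
      continuousOn_const.mul ((continuousOn_inv_one_sub (fr.hv i)).pow 2)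
  have h1 : ∫ l in (-1 : ℝ)..1, rtr (Res M F l * Res M F l * 1)
      ≤ ∫ l in (-1 : ℝ)..1, ∑ i, ((fr.g * fr.g) i i).re * ((1 - l * fr.v i)⁻¹) ^ 2 := by
    refine intervalIntegral.integral_mono_on (by norm_num) (fr.intervalIntegrable 1) ?_ hpt
    apply ContinuousOn.intervalIntegrable
    rwa [Set.uIcc_of_le (by norm_num)]
  have h2 : ∫ l in (-1 : ℝ)..1, ∑ i, ((fr.g * fr.g) i i).re * ((1 - l * fr.v i)⁻¹) ^ 2
      = ∑ i, ((fr.g * fr.g) i i).re * (2 / (1 - fr.v i ^ 2)) := by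
    rw [intervalIntegral.integral_finsetSum]
    · refine Finset.sum_congr rfl fun i _ => ?_
      rw [intervalIntegral.integral_const_mul, integral_inv_sq (fr.hv i)]
    · intro i _
      apply ContinuousOn.intervalIntegrable
      rw [Set.uIcc_of_le (by norm_num)]
      exact continuousOn_const.mul ((continuousOn_inv_one_sub (fr.hv i)).pow 2)
  have h3 : rtr (M⁻¹ * ((M - F)⁻¹ + (M + F)⁻¹))
      = ∑ i, ((fr.g * fr.g) i i).re * (2 / (1 - fr.v i ^ 2)) := by
    rw [fr.M_inv, fr.a_inv, fr.b_inv]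
    have e : fr.T * fr.Tᴴ * (fr.T * dg (fun i => (1 - fr.v i)⁻¹) * fr.Tᴴ
        + fr.T * dg (fun i => (1 + fr.v i)⁻¹) * fr.Tᴴ)
        = fr.T * (fr.g * (dg (fun i => (1 - fr.v i)⁻¹) + dg (fun i => (1 + fr.v i)⁻¹)) * fr.Tᴴ) := by
      unfold Frame.g; noncomm_ring
    have e' : dg (fun i => (1 - fr.v i)⁻¹) + dg (fun i => (1 + fr.v i)⁻¹)
        = dg fun i => 2 / (1 - fr.v i ^ 2) := by
      unfold dg
      rw [Matrix.diagonal_add]
      congr 1; ext i
      have hv1 : 0 < 1 - fr.v i := by linarith [(abs_lt.1 (fr.hv i)).2]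
      have hv2 : 0 < 1 + fr.v i := by linarith [(abs_lt.1 (fr.hv i)).1]
      have h12 : 1 - fr.v i ^ 2 = (1 - fr.v i) * (1 + fr.v i) := by ring
      have : (1 - fr.v i)⁻¹ + (1 + fr.v i)⁻¹ = 2 / (1 - fr.v i ^ 2) := by
        rw [h12]; field_simp; ring
      show (((1 - fr.v i)⁻¹ : ℝ) : ℂ) + (((1 + fr.v i)⁻¹ : ℝ) : ℂ) = ((2 / (1 - fr.v i ^ 2) : ℝ) : ℂ)
      rw [← this]; push_cast; rfl
    rw [e, e', rtr_mul_comm]
    have e3 : fr.g * (dg fun i => 2 / (1 - fr.v i ^ 2)) * fr.Tᴴ * fr.T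
        = fr.g * ((dg fun i => 2 / (1 - fr.v i ^ 2)) * fr.g) := by
      unfold Frame.g; noncomm_ring
    rw [e3, rtr_mul_comm, Matrix.mul_assoc, rtr_mul_comm]
    unfold rtr Matrix.trace
    rw [Complex.re_sum]
    refine Finset.sum_congr rfl fun i _ => ?_
    rw [Matrix.diag_apply, dg, Matrix.mul_diagonal, Complex.re_mul_ofReal]
  unfold lamTr
  rw [h3, ← h2]
  nlinarith [h1]

/-! ### Fact (3) -/

omit [DecidableEq n] in
lemma sum_sq_row (C : Matrix n n ℂ) (k : n) : ∑ l, ‖C k l‖ ^ 2 = ((C * Cᴴ) k k).re := by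
  rw [Matrix.mul_apply, Complex.re_sum]
  refine Finset.sum_congr rfl fun l _ => ?_
  rw [Matrix.conjTranspose_apply, Complex.star_def, Complex.mul_conj, Complex.normSq_eq_norm_sq,
    Complex.ofReal_re]

omit [DecidableEq n] in
lemma sum_sq_col (C : Matrix n n ℂ) (l : n) : ∑ k, ‖C k l‖ ^ 2 = ((Cᴴ * C) l l).re := by
  rw [Matrix.mul_apply, Complex.re_sum]
  refine Finset.sum_congr rfl fun k _ => ?_
  rw [Matrix.conjTranspose_apply, Complex.star_def, mul_comm, Complex.mul_conj,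
    Complex.normSq_eq_norm_sq, Complex.ofReal_re]

lemma rtr_dg_mul (d e : n → ℝ) (C : Matrix n n ℂ) :
    rtr (dg d * C * dg e * Cᴴ) = ∑ k, ∑ l, d k * e l * ‖C k l‖ ^ 2 := by
  unfold rtr Matrix.trace
  rw [Complex.re_sum]
  refine Finset.sum_congr rfl fun k _ => ?_
  rw [Matrix.diag_apply, Matrix.mul_apply, Complex.re_sum]
  refine Finset.sum_congr rfl fun l _ => ?_
  rw [dg, dg, Matrix.mul_diagonal, Matrix.diagonal_mul, Matrix.conjTranspose_apply,
    Complex.star_def]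
  have : ((d k : ℝ) : ℂ) * C k l * ((e l : ℝ) : ℂ) * (starRingEnd ℂ) (C k l)
      = ((d k * e l : ℝ) : ℂ) * (C k l * (starRingEnd ℂ) (C k l)) := by push_cast; ring
  rw [this, Complex.mul_conj, Complex.normSq_eq_norm_sq]
  rw [← Complex.ofReal_mul, Complex.ofReal_re]

/-- Klein type inequality, pointwise: `n = U dg ν Uᴴ`, `x = V dg ξ Vᴴ`, `S` real diagonal. -/
lemma klein_pt {U V S : Matrix n n ℂ} {ν ξ : n → ℝ} (hU : U * Uᴴ = 1) (hV : V * Vᴴ = 1)
    (hν : ∀ i, 0 < ν i) (hξ : ∀ i, 0 < ξ i) (hS : S.IsHermitian) :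
    (∑ k, (1 + Real.log (ν k)) * ((Uᴴ * (S * S) * U) k k).re)
      + (∑ l, Real.log (ξ l) * ((Vᴴ * (S * S) * V) l l).re)
      ≤ rtr ((U * dg ν * Uᴴ) * S * (V * dg ξ * Vᴴ) * S) := by
  set C : Matrix n n ℂ := Uᴴ * S * V with hC
  have hCt : Cᴴ = Vᴴ * S * U := by
    rw [hC, Matrix.conjTranspose_mul, Matrix.conjTranspose_mul, hS.eq,
      Matrix.conjTranspose_conjTranspose, Matrix.mul_assoc]
  have e1 : rtr ((U * dg ν * Uᴴ) * S * (V * dg ξ * Vᴴ) * S) = rtr (dg ν * C * dg ξ * Cᴴ) := by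
    have : (U * dg ν * Uᴴ) * S * (V * dg ξ * Vᴴ) * S
        = U * (dg ν * (Uᴴ * S * V) * dg ξ * (Vᴴ * S)) := by noncomm_ring
    rw [this, rtr_mul_comm, hCt]
    congr 1; rw [hC]; noncomm_ring
  have e2 : ∀ k, ((Uᴴ * (S * S) * U) k k).re = ∑ l, ‖C k l‖ ^ 2 := by
    intro k; rw [sum_sq_row, hCt, hC]
    have : Uᴴ * S * V * (Vᴴ * S * U) = Uᴴ * S * (V * Vᴴ) * S * U := by noncomm_ring
    rw [this, hV]
    congr 3; noncomm_ring
  have e3 : ∀ l, ((Vᴴ * (S * S) * V) l l).re = ∑ k, ‖C k l‖ ^ 2 := by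
    intro l; rw [sum_sq_col, hCt, hC]
    have : Vᴴ * S * U * (Uᴴ * S * V) = Vᴴ * S * (U * Uᴴ) * S * V := by noncomm_ring
    rw [this, hU]
    congr 3; noncomm_ring
  rw [e1, rtr_dg_mul]
  simp only [e2, e3, Finset.mul_sum]
  rw [Finset.sum_comm (s := Finset.univ) (t := Finset.univ)
    (f := fun l k => Real.log (ξ l) * ‖C k l‖ ^ 2), ← Finset.sum_add_distrib]
  refine Finset.sum_le_sum fun k _ => ?_
  rw [← Finset.sum_add_distrib]
  refine Finset.sum_le_sum fun l _ => ?_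
  have hk : Real.log (ν k * ξ l) ≤ ν k * ξ l - 1 := Real.log_le_sub_one_of_pos (mul_pos (hν k) (hξ l))
  rw [Real.log_mul (hν k).ne' (hξ l).ne'] at hk
  nlinarith [sq_nonneg ‖C k l‖, hk]

lemma ldet_spec {U A : Matrix n n ℂ} {ν : n → ℝ} (hU : Uᴴ * U = 1) (hν : ∀ i, 0 < ν i)
    (hA : A = U * dg ν * Uᴴ) : ldet A = ∑ i, Real.log (ν i) := by
  unfold ldet
  rw [hA, Matrix.det_mul, Matrix.det_mul]
  have h1 : ‖Uᴴ.det‖ * ‖U.det‖ = 1 := by rw [← norm_mul, ← Matrix.det_mul, hU]; simp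
  have h2 : ‖U.det * (dg ν).det * Uᴴ.det‖ = ‖(dg ν).det‖ := by
    rw [norm_mul, norm_mul]
    calc ‖U.det‖ * ‖(dg ν).det‖ * ‖Uᴴ.det‖ = (‖Uᴴ.det‖ * ‖U.det‖) * ‖(dg ν).det‖ := by ring
      _ = _ := by rw [h1, one_mul]
  rw [h2, dg, Matrix.det_diagonal, norm_prod, Real.log_prod]
  · refine Finset.sum_congr rfl fun i _ => ?_
    rw [Complex.norm_real, Real.norm_of_nonneg (hν i).le]
  · intro i _
    rw [Complex.norm_real]; exact norm_ne_zero_iff.2 (hν i).ne'

lemma posDef_spectral {A : Matrix n n ℂ} (hA : A.PosDef) :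
    ∃ (U : Matrix n n ℂ) (d : n → ℝ), Uᴴ * U = 1 ∧ U * Uᴴ = 1 ∧ (∀ i, 0 < d i) ∧
      A = U * dg d * Uᴴ := by
  obtain ⟨U, d, h1, h2, h3⟩ := exists_spectral hA.isHermitian
  refine ⟨U, d, h1, h2, ?_, h3⟩
  refine posDef_diag_of_conj hA (T := U) ⟨⟨U, Uᴴ, h2, h1⟩, rfl⟩ ?_
  rw [h3]
  calc Uᴴ * (U * diagonal (fun i => ((d i : ℝ) : ℂ)) * Uᴴ) * U
      = (Uᴴ * U) * diagonal (fun i => ((d i : ℝ) : ℂ)) * (Uᴴ * U) := by noncomm_ring
    _ = _ := by rw [h1]; simp


lemma diag_conj_re (U : Matrix n n ℂ) (d : n → ℝ) (k : n) :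
    ((Uᴴ * dg d * U) k k).re = ∑ i, d i * ‖U i k‖ ^ 2 := by
  rw [Matrix.mul_apply, Complex.re_sum]
  refine Finset.sum_congr rfl fun i _ => ?_
  rw [dg, Matrix.mul_diagonal, Matrix.conjTranspose_apply, Complex.star_def]
  have : (starRingEnd ℂ) (U i k) * ((d i : ℝ) : ℂ) * U i k
      = ((d i : ℝ) : ℂ) * (U i k * (starRingEnd ℂ) (U i k)) := by ring
  rw [this, Complex.mul_conj, Complex.normSq_eq_norm_sq, ← Complex.ofReal_mul, Complex.ofReal_re]

theorem fact3 {M F X : Matrix n n ℂ} (fr : Frame M F) (hX : X.PosDef) :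
    (Fintype.card n : ℝ) + ldet X - ldet (M - F) - ldet (M + F) ≤ lamTr M F X := by
  have hv1 : ∀ i, 0 < 1 - fr.v i := fun i => by linarith [(abs_lt.1 (fr.hv i)).2]
  have hv2 : ∀ i, 0 < 1 + fr.v i := fun i => by linarith [(abs_lt.1 (fr.hv i)).1]
  have hw : ∀ i, 0 < 1 - fr.v i ^ 2 := fun i => by
    have := mul_pos (hv1 i) (hv2 i); nlinarith
  set q : n → ℝ := fun i => Real.sqrt (1 - fr.v i ^ 2) with hq
  have hqp : ∀ i, 0 < q i := fun i => Real.sqrt_pos.2 (hw i)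
  have hqq : ∀ i, q i * q i = 1 - fr.v i ^ 2 := fun i => Real.mul_self_sqrt (hw i).le
  obtain ⟨U, ν, hU1, hU2, hν, hU⟩ := posDef_spectral fr.g_posDef
  set E : Matrix n n ℂ := dg fun i => (q i)⁻¹ with hE
  set Y : Matrix n n ℂ := fr.Tᴴ * X * fr.T with hY
  have hYp : Y.PosDef := by
    rw [hY, ← Matrix.star_eq_conjTranspose]
    exact (Matrix.IsUnit.posDef_star_left_conjugate_iff fr.isUnit_T).2 hX
  have hEu : IsUnit E := by
    rw [Matrix.isUnit_iff_isUnit_det, hE, dg, Matrix.det_diagonal, isUnit_iff_ne_zero]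
    exact Finset.prod_ne_zero_iff.2 fun i _ => by exact_mod_cast (inv_pos.2 (hqp i)).ne'
  have hEh : Eᴴ = E := dg_conjTranspose _
  have hxp : (E * Y * E).PosDef := by
    have := (Matrix.IsUnit.posDef_star_left_conjugate_iff hEu (x := Y)).2 hYp
    rwa [Matrix.star_eq_conjTranspose, hEh] at this
  obtain ⟨V, ξ, hV1, hV2, hξ, hV⟩ := posDef_spectral hxp
  set S : ℝ → Matrix n n ℂ := fun l => dg fun i => q i * (1 - l * fr.v i)⁻¹ with hS
  have hD1 : ∀ l, fr.D l = S l * E := by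
    intro l; rw [hS, hE, Frame.D]; simp only [dg_mul_dg]
    refine congrArg dg (funext fun i => ?_)
    have := (hqp i).ne'
    field_simp
  have hD2 : ∀ l, fr.D l = E * S l := by
    intro l; rw [hS, hE, Frame.D]; simp only [dg_mul_dg]
    refine congrArg dg (funext fun i => ?_)
    have := (hqp i).ne'
    field_simp
  have hpt : ∀ l ∈ Set.Icc (-1 : ℝ) 1,
      (∑ k, (1 + Real.log (ν k)) * ∑ i, (1 - fr.v i ^ 2) * ((1 - l * fr.v i)⁻¹) ^ 2 * ‖U i k‖ ^ 2)
      + (∑ k, Real.log (ξ k) * ∑ i, (1 - fr.v i ^ 2) * ((1 - l * fr.v i)⁻¹) ^ 2 * ‖V i k‖ ^ 2)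
      ≤ rtr (Res M F l * Res M F l * X) := by
    intro l hl
    have h := klein_pt hU2 hV2 hν hξ (S := S l) (dg_conjTranspose _)
    rw [← hU, ← hV] at h
    have e1 : rtr (Res M F l * Res M F l * X) = rtr (fr.g * S l * (E * Y * E) * S l) := by
      rw [fr.rtr_res_sq_mul hl, ← hY]
      congr 1
      nth_rewrite 1 [hD1 l]
      rw [hD2 l]
      noncomm_ring
    have e2 : S l * S l = dg fun i => (1 - fr.v i ^ 2) * ((1 - l * fr.v i)⁻¹) ^ 2 := by
      rw [hS]; simp only [dg_mul_dg]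
      refine congrArg dg (funext fun i => ?_)
      rw [← hqq i]; ring
    rw [e1]
    simp only [e2, diag_conj_re] at h
    exact h
  have hcont : ∀ i, ContinuousOn (fun l : ℝ => (1 - fr.v i ^ 2) * ((1 - l * fr.v i)⁻¹) ^ 2)
      (Set.Icc (-1 : ℝ) 1) := fun i =>
      continuousOn_const.mul ((continuousOn_inv_one_sub (fr.hv i)).pow 2)
  have hint : ∀ i, ∫ l in (-1 : ℝ)..1, (1 - fr.v i ^ 2) * ((1 - l * fr.v i)⁻¹) ^ 2 = 2 := by
    intro i
    rw [intervalIntegral.integral_const_mul, integral_inv_sq (fr.hv i)]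
    have := (hw i).ne'
    field_simp
  have hU3 : ∀ k, ∑ i, ‖U i k‖ ^ 2 = 1 := by
    intro k; rw [sum_sq_col, hU1]; simp
  have hV3 : ∀ k, ∑ i, ‖V i k‖ ^ 2 = 1 := by
    intro k; rw [sum_sq_col, hV1]; simp
  have hII : ∀ (A : Matrix n n ℂ) (k : n), IntervalIntegrable (fun l : ℝ =>
      ∑ i, (1 - fr.v i ^ 2) * ((1 - l * fr.v i)⁻¹) ^ 2 * ‖A i k‖ ^ 2) volume (-1) 1 := by
    intro A k
    apply ContinuousOn.intervalIntegrable
    rw [Set.uIcc_of_le (by norm_num)]
    exact continuousOn_finsetSum _ fun i _ => (hcont i).mul continuousOn_const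
  have hval : ∀ (A : Matrix n n ℂ) (k : n), ∑ i, ‖A i k‖ ^ 2 = 1 →
      ∫ l in (-1 : ℝ)..1, ∑ i, (1 - fr.v i ^ 2) * ((1 - l * fr.v i)⁻¹) ^ 2 * ‖A i k‖ ^ 2 = 2 := by
    intro A k hA
    rw [intervalIntegral.integral_finsetSum]
    · simp only [intervalIntegral.integral_mul_const, hint, ← Finset.mul_sum, hA, mul_one]
    · intro i _
      apply ContinuousOn.intervalIntegrable
      rw [Set.uIcc_of_le (by norm_num)]
      exact (hcont i).mul continuousOn_const
  have hIIs : ∀ (A : Matrix n n ℂ) (c : n → ℝ), IntervalIntegrable (fun l : ℝ =>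
      ∑ k, c k * ∑ i, (1 - fr.v i ^ 2) * ((1 - l * fr.v i)⁻¹) ^ 2 * ‖A i k‖ ^ 2) volume (-1) 1 := by
    intro A c
    apply ContinuousOn.intervalIntegrable
    rw [Set.uIcc_of_le (by norm_num)]
    exact continuousOn_finsetSum _ fun k _ => continuousOn_const.mul
      (continuousOn_finsetSum _ fun i _ => (hcont i).mul continuousOn_const)
  have h1 := intervalIntegral.integral_mono_on (by norm_num : (-1 : ℝ) ≤ 1) (μ := volume) 
    ((hIIs U _).add (hIIs V _)) (fr.intervalIntegrable X) hpt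
  have h2 : ∫ l in (-1 : ℝ)..1, ((∑ k, (1 + Real.log (ν k)) * ∑ i, (1 - fr.v i ^ 2) * ((1 - l * fr.v i)⁻¹) ^ 2 * ‖U i k‖ ^ 2)
      + (∑ k, Real.log (ξ k) * ∑ i, (1 - fr.v i ^ 2) * ((1 - l * fr.v i)⁻¹) ^ 2 * ‖V i k‖ ^ 2))
      = 2 * ((∑ k, (1 + Real.log (ν k))) + ∑ k, Real.log (ξ k)) := by
    rw [intervalIntegral.integral_add, intervalIntegral.integral_finsetSum,
      intervalIntegral.integral_finsetSum]
    · simp only [intervalIntegral.integral_const_mul, hval U _ (hU3 _), hval V _ (hV3 _)]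
      rw [← Finset.sum_mul, ← Finset.sum_mul]; ring
    · exact fun k _ => (hII V k).const_mul _
    · exact fun k _ => (hII U k).const_mul _
    · exact hIIs U _
    · exact hIIs V _
  rw [h2] at h1
  have h3 : ldet fr.g = ∑ i, Real.log (ν i) := ldet_spec hU1 hν hU
  have h4 : ldet (E * Y * E) = ∑ i, Real.log (ξ i) := ldet_spec hV1 hξ hV
  have hTd : ‖fr.T.det‖ ≠ 0 :=
    norm_ne_zero_iff.2 ((Matrix.isUnit_iff_isUnit_det fr.T).1 fr.isUnit_T).ne_zero
  have hXd : ‖X.det‖ ≠ 0 :=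
    norm_ne_zero_iff.2 ((Matrix.isUnit_iff_isUnit_det X).1 hX.isUnit).ne_zero
  have h5 : ldet fr.g = 2 * ldet fr.T := by
    unfold ldet Frame.g
    rw [Matrix.det_mul, Matrix.det_conjTranspose, norm_mul, norm_star, Real.log_mul hTd hTd]; ring
  have h6 : ldet E = - (1 / 2) * ∑ i, Real.log (1 - fr.v i ^ 2) := by
    unfold ldet
    rw [hE, dg, Matrix.det_diagonal, norm_prod, Real.log_prod]
    · rw [Finset.mul_sum]
      refine Finset.sum_congr rfl fun i _ => ?_
      rw [Complex.norm_real, Real.norm_of_nonneg (inv_pos.2 (hqp i)).le, Real.log_inv, hq]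
      simp only
      rw [Real.log_sqrt (hw i).le]; ring
    · intro i _
      rw [Complex.norm_real]; exact norm_ne_zero_iff.2 (inv_pos.2 (hqp i)).ne'
  have hEd : ‖E.det‖ ≠ 0 :=
    norm_ne_zero_iff.2 ((Matrix.isUnit_iff_isUnit_det E).1 hEu).ne_zero
  have h7 : ldet (E * Y * E) = 2 * ldet E + 2 * ldet fr.T + ldet X := by
    unfold ldet
    rw [hY, Matrix.det_mul, Matrix.det_mul, Matrix.det_mul, Matrix.det_mul,
      Matrix.det_conjTranspose, norm_mul, norm_mul, norm_mul, norm_mul, norm_star,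
      Real.log_mul (mul_ne_zero hEd (mul_ne_zero (mul_ne_zero hTd hXd) hTd)) hEd,
      Real.log_mul hEd (mul_ne_zero (mul_ne_zero hTd hXd) hTd),
      Real.log_mul (mul_ne_zero hTd hXd) hTd, Real.log_mul hTd hXd]
    ring
  have h8 : ∑ i, Real.log (1 - fr.v i ^ 2)
      = (∑ i, Real.log (1 - fr.v i)) + ∑ i, Real.log (1 + fr.v i) := by
    rw [← Finset.sum_add_distrib]
    refine Finset.sum_congr rfl fun i _ => ?_
    rw [← Real.log_mul (hv1 i).ne' (hv2 i).ne']
    congr 1; ring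
  have h9 := fr.ldet_a
  have h10 := fr.ldet_b
  have h11 : ∑ k, (1 + Real.log (ν k)) = Fintype.card n + ∑ k, Real.log (ν k) := by
    rw [Finset.sum_add_distrib]; simp
  unfold lamTr
  rw [h11, ← h3, ← h4, h5, h7, h6, h8] at h1
  rw [h9, h10]
  linarith

end Crest.Agent.R332.Chan
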