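import Mathlib
import Crest.Agent.R332.ChanFrame
import Crest.Agent.R332.ChanLam

/-!
Row 332, module A, file: derivatives.
-/

set_option autoImplicit false

namespace Crest.Agent.R332.Chan

open Matrix MeasureTheory intervalIntegral
open scoped ComplexOrder BigOperators Matrix.Norms.L2Operator

variable {n : Type*} [Fintype n] [DecidableEq n]

lemma hasDerivAt_matrix_inv {A : ℝ → Matrix n n ℂ} {A' : Matrix n n ℂ} {x : ℝ}
    (hA : HasDerivAt A A' x) (hu : IsUnit (A x)) :
    HasDerivAt (fun t => (A t)⁻¹) (-((A x)⁻¹ * A' * (A x)⁻¹)) x := by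
  obtain ⟨u, hu⟩ := hu
  have h1 := hasFDerivAt_ringInverse (𝕜 := ℝ) u
  rw [hu] at h1
  have h2 := h1.comp_hasDerivAt x hA
  have e : (fun t => (A t)⁻¹) = Ring.inverse ∘ A := by
    ext1 t; simp [Matrix.nonsing_inv_eq_ringInverse]
  rw [e]
  refine h2.congr_deriv ?_
  have h3 : ((u⁻¹ : (Matrix n n ℂ)ˣ) : Matrix n n ℂ) = (A x)⁻¹ := by
    rw [← hu, Matrix.coe_units_inv]
  simp [h3]

lemma hasDerivAt_rtr {A : ℝ → Matrix n n ℂ} {A' : Matrix n n ℂ} {x : ℝ}
    (hA : HasDerivAt A A' x) : HasDerivAt (fun t => rtr (A t)) (rtr A') x := by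
  have hlin : Continuous (fun B : Matrix n n ℂ => rtr B) := continuous_rtr
  let φ : Matrix n n ℂ →L[ℝ] ℝ :=
    ⟨{ toFun := fun B => rtr B
       map_add' := fun B C => rtr_add B C
       map_smul' := fun c B => by
        have := rtr_smul c B
        simpa using this }, hlin⟩
  exact φ.hasFDerivAt.comp_hasDerivAt x hA

/-- x-derivative of the potential, pointwise in `l` -/
lemma hasDerivAt_pot {M : Matrix n n ℂ} {F : ℝ → Matrix n n ℂ} {F' : Matrix n n ℂ} {x l : ℝ}
    (hF : HasDerivAt F F' x) (hM : IsUnit M) (hu : IsUnit (M - (l : ℂ) • F x)) :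
    HasDerivAt (fun t => rtr (Res M (F t) l * F t * M⁻¹))
      (rtr (Res M (F x) l * Res M (F x) l * F')) x := by
  have h1 : HasDerivAt (fun t => M - (l : ℂ) • F t) (-((l : ℂ) • F')) x := by
    simpa using (hF.const_smul (l : ℂ)).const_sub M
  have h2 := hasDerivAt_matrix_inv h1 hu
  have h3 := (h2.mul hF).mul_const M⁻¹
  have h4 := hasDerivAt_rtr h3
  refine h4.congr_deriv ?_
  have hMd := (Matrix.isUnit_iff_isUnit_det M).1 hM
  have hRd := (Matrix.isUnit_iff_isUnit_det _).1 hu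
  set R := (M - (l : ℂ) • F x)⁻¹ with hR
  have hRes : Res M (F x) l = R := rfl
  rw [hRes]
  have e1 : R * (M - (l : ℂ) • F x) = 1 := Matrix.nonsing_inv_mul _ hRd
  have e2 : R * M = 1 + (l : ℂ) • (R * F x) := by
    rw [Matrix.mul_sub, Matrix.mul_smul] at e1
    rw [← e1]; abel
  have e3 : (-(R * -((l : ℂ) • F') * R) * F x + R * F') * M⁻¹ = R * F' * R := by
    have : (-(R * -((l : ℂ) • F') * R) * F x + R * F') = R * F' * (R * M) := by
      rw [e2]
      simp only [Matrix.mul_neg, Matrix.neg_mul, neg_neg, Matrix.mul_smul, Matrix.smul_mul,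
        Matrix.mul_add, Matrix.mul_one, Matrix.mul_assoc]
      abel
    rw [this, Matrix.mul_assoc (R * F'), Matrix.mul_assoc R M, Matrix.mul_nonsing_inv _ hMd,
      Matrix.mul_one]
  rw [e3, rtr_mul_comm, ← Matrix.mul_assoc]


lemma hasFDerivAt_entry (i j : n) (A : Matrix n n ℂ) :
    DifferentiableAt ℝ (fun B : Matrix n n ℂ => B i j) A := by
  let φ : Matrix n n ℂ →L[ℝ] ℂ :=
    ⟨{ toFun := fun B => B i j
       map_add' := fun B C => rfl
       map_smul' := fun c B => rfl }, (continuous_apply_apply i j)⟩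
  exact φ.differentiableAt

lemma differentiableAt_det (A : Matrix n n ℂ) :
    DifferentiableAt ℝ (fun B : Matrix n n ℂ => B.det) A := by
  simp only [Matrix.det_apply]
  refine DifferentiableAt.fun_sum fun σ _ => ?_
  refine DifferentiableAt.fun_const_smul ?_ _
  exact (HasFDerivAt.finsetProd (u := Finset.univ) (g := fun i (B : Matrix n n ℂ) => B (σ i) i)
    (x := A) (fun i _ => (hasFDerivAt_entry (σ i) i A).hasFDerivAt)).differentiableAt

lemma hasDerivAt_det_one_add (B : Matrix n n ℂ) :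
    HasDerivAt (fun t : ℝ => (1 + (t : ℂ) • B).det) B.trace 0 := by
  have h : ∀ t : ℝ, (1 + (t : ℂ) • B).det = 1 + B.trace * (t : ℂ)
      + (((1 : Matrix n n (Polynomial ℂ)) + (Polynomial.X : Polynomial ℂ) • B.map Polynomial.C).det.divX.divX.eval (t : ℂ)) * (t : ℂ) ^ 2 := by
    intro t; exact Matrix.det_one_add_smul _ _
  simp only [h]
  have h0 : HasDerivAt (fun t : ℝ => (t : ℂ)) 1 0 := Complex.ofRealCLM.hasDerivAt
  have h1 : HasDerivAt (fun t : ℝ => (((1 : Matrix n n (Polynomial ℂ)) + (Polynomial.X : Polynomial ℂ) • B.map Polynomial.C).det.divX.divX.eval (t : ℂ))) (((1 : Matrix n n (Polynomial ℂ)) + (Polynomial.X : Polynomial ℂ) • B.map Polynomial.C).det.divX.divX.derivative.eval ((0 : ℝ) : ℂ) * 1) 0 :=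
    (Polynomial.hasDerivAt _ _).comp (0 : ℝ) h0
  have h2 := ((h0.const_mul B.trace).const_add 1).add (h1.mul (h0.pow 2))
  refine h2.congr_deriv ?_
  simp

lemma hasDerivAt_det {A : ℝ → Matrix n n ℂ} {A' : Matrix n n ℂ} {x : ℝ}
    (hA : HasDerivAt A A' x) (hu : IsUnit (A x)) :
    HasDerivAt (fun t => (A t).det) ((A x).det * ((A x)⁻¹ * A').trace) x := by
  have hd := (Matrix.isUnit_iff_isUnit_det _).1 hu
  have h1 := (differentiableAt_det (A x)).hasFDerivAt
  have h2 := h1.comp_hasDerivAt x hA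
  refine h2.congr_deriv ?_
  -- compute the directional derivative along a line
  have h3 : HasDerivAt (fun t : ℝ => A x + t • A') A' 0 := by
    simpa using ((hasDerivAt_id (0 : ℝ)).smul_const A').const_add (A x)
  have h4 : HasFDerivAt (fun B : Matrix n n ℂ => B.det)
      (fderiv ℝ (fun B : Matrix n n ℂ => B.det) (A x)) (A x + (0 : ℝ) • A') := by
    simpa using h1
  have h5 := h4.comp_hasDerivAt (0 : ℝ) h3
  have h6 : ((fun B : Matrix n n ℂ => B.det) ∘ fun t : ℝ => A x + t • A')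
      = fun t : ℝ => (A x).det * (1 + (t : ℂ) • ((A x)⁻¹ * A')).det := by
    ext t
    simp only [Function.comp]
    rw [← Matrix.det_mul, Matrix.mul_add, Matrix.mul_one, Matrix.mul_smul, ← Matrix.mul_assoc,
      Matrix.mul_nonsing_inv _ hd, Matrix.one_mul]
    congr 2
  rw [h6] at h5
  have h7 := (hasDerivAt_det_one_add ((A x)⁻¹ * A')).const_mul (A x).det
  exact h5.unique h7

lemma hasDerivAt_ldet {A : ℝ → Matrix n n ℂ} {A' : Matrix n n ℂ} {x : ℝ}
    (hA : HasDerivAt A A' x) (hp : ∀ᶠ t in nhds x, (A t).PosDef) :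
    HasDerivAt (fun t => ldet (A t)) (rtr ((A x)⁻¹ * A')) x := by
  have hx : (A x).PosDef := hp.self_of_nhds
  have h1 := hasDerivAt_det hA hx.isUnit
  have h2 : HasDerivAt (fun t => ((A t).det).re) (((A x).det * ((A x)⁻¹ * A').trace).re) x :=
    Complex.reCLM.hasFDerivAt.comp_hasDerivAt x h1
  have hpos := hx.det_pos
  have hre : 0 < ((A x).det).re := (Complex.pos_iff.1 hpos).1
  have him : ((A x).det).im = 0 := (Complex.pos_iff.1 hpos).2.symm
  have h3 := h2.log hre.ne'
  have h4 : (fun t => Real.log ((A t).det).re) =ᶠ[nhds x] fun t => ldet (A t) := by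
    filter_upwards [hp] with t ht
    have := Complex.pos_iff.1 ht.det_pos
    unfold ldet
    congr 1
    rw [← Complex.re_eq_norm.2]
    exact ht.det_pos.le
  refine (h3.congr_of_eventuallyEq h4.symm).congr_deriv ?_
  rw [Complex.mul_re, him, zero_mul, sub_zero]
  unfold rtr
  field_simp

end Crest.Agent.R332.Chan
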