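import Mathlib

/-!
Row 332, module A, file: continuity of parametric interval integrals on compact boxes, and swapping
of iterated interval integrals of functions continuous on a box.
-/

set_option autoImplicit false

namespace Crest.Agent.R332.Chan

open MeasureTheory intervalIntegral Set

/-- clamp to `[a,b]` -/
noncomputable def clampR (a b x : ℝ) : ℝ := max a (min b x)

lemma continuous_clampR (a b : ℝ) : Continuous (clampR a b) := by
  unfold clampR; fun_prop

lemma clampR_mem {a b : ℝ} (h : a ≤ b) (x : ℝ) : clampR a b x ∈ Icc a b :=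
  ⟨le_max_left _ _, max_le h (min_le_left _ _)⟩

lemma clampR_eq {a b x : ℝ} (hx : x ∈ Icc a b) : clampR a b x = x := by
  unfold clampR; rw [min_eq_right hx.2, max_eq_right hx.1]

/-- parametric integral, general parameter set -/
lemma continuousOn_param {X : Type*} [TopologicalSpace X] [FirstCountableTopology X]
    {f : X → ℝ → ℝ} {P : Set X} {c d : ℝ} (hcd : c ≤ d)
    (hf : ContinuousOn (fun p : X × ℝ => f p.1 p.2) (P ×ˢ Icc c d)) :
    ContinuousOn (fun x => ∫ y in c..d, f x y) P := by
  rw [continuousOn_iff_continuous_domRestrict]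
  have h1 : Continuous (Function.uncurry fun (x : P) (y : ℝ) => f x (clampR c d y)) := by
    have h2 : Continuous (fun q : P × ℝ => ((q.1 : X), clampR c d q.2)) :=
      (continuous_subtype_val.comp continuous_fst).prodMk ((continuous_clampR c d).comp continuous_snd)
    exact hf.comp_continuous h2 fun q => ⟨q.1.2, clampR_mem hcd _⟩
  have h3 := intervalIntegral.continuous_parametric_intervalIntegral_of_continuous' h1 (μ := volume) c d
  refine h3.congr fun x => ?_
  show ∫ y in c..d, f x (clampR c d y) = ∫ y in c..d, f x y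
  refine intervalIntegral.integral_congr fun y hy => ?_
  rw [uIcc_of_le hcd] at hy
  simp only [clampR_eq hy]

/-- swapping -/
lemma integral_swap_box {f : ℝ → ℝ → ℝ} {a b c d : ℝ} (hab : a ≤ b) (hcd : c ≤ d)
    (hf : ContinuousOn (fun p : ℝ × ℝ => f p.1 p.2) (Icc a b ×ˢ Icc c d)) :
    ∫ x in a..b, ∫ y in c..d, f x y = ∫ y in c..d, ∫ x in a..b, f x y := by
  simp only [intervalIntegral.integral_of_le hab, intervalIntegral.integral_of_le hcd]
  apply MeasureTheory.integral_integral_swap
  rw [Measure.prod_restrict]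
  have hI : IntegrableOn (fun p : ℝ × ℝ => f p.1 p.2) (Icc a b ×ˢ Icc c d) (volume.prod volume) :=
    hf.integrableOn_compact (isCompact_Icc.prod isCompact_Icc)
  exact hI.mono_set (prod_mono Ioc_subset_Icc_self Ioc_subset_Icc_self)

/-- swap coordinates -/
lemma continuousOn_swap {f : ℝ → ℝ → ℝ} {S T : Set ℝ}
    (hf : ContinuousOn (fun p : ℝ × ℝ => f p.1 p.2) (S ×ˢ T)) :
    ContinuousOn (fun p : ℝ × ℝ => f p.2 p.1) (T ×ˢ S) :=
  hf.comp (continuous_swap.continuousOn) fun _ hp => ⟨hp.2, hp.1⟩

end Crest.Agent.R332.Chan
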