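import Mathlib
import Crest.Agent.R332.ChanFrame
import Crest.Agent.R332.ChanLam
import Crest.Agent.R332.ChanDeriv

/-!
Row 332, module A, file: the per-(x,s) inequality (PS) with deficits.
-/

set_option autoImplicit false

namespace Crest.Agent.R332.Chan

open Matrix MeasureTheory intervalIntegral
open scoped ComplexOrder BigOperators

variable {n : Type*} [Fintype n] [DecidableEq n]

/-- `M_s = (K^2+s)^{1/2}` for diagonal `K = dg k`. -/
noncomputable def Ms (k : n → ℝ) (s : ℝ) : Matrix n n ℂ := dg fun i => Real.sqrt (k i ^ 2 + s)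

/-- deficit (3) -/
noncomputable def def3 (M F X : Matrix n n ℂ) : ℝ :=
  lamTr M F X - Fintype.card n - ldet X + ldet (M - F) + ldet (M + F)

lemma def3_nonneg {M F X : Matrix n n ℂ} (fr : Frame M F) (hX : X.PosDef) : 0 ≤ def3 M F X := by
  have := fact3 fr hX
  unfold def3; linarith

omit [DecidableEq n] in
lemma posDef_dg_iff [DecidableEq n] {d : n → ℝ} : (dg d).PosDef ↔ ∀ i, 0 < d i := by
  rw [dg, Matrix.posDef_diagonal_iff]
  exact forall_congr' fun i => by exact_mod_cast Iff.rfl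

omit [DecidableEq n] in
lemma posSemidef_dg_iff [DecidableEq n] {d : n → ℝ} : (dg d).PosSemidef ↔ ∀ i, 0 ≤ d i := by
  rw [dg, Matrix.posSemidef_diagonal_iff]
  exact forall_congr' fun i => by exact_mod_cast Iff.rfl

lemma dg_add_dg (d e : n → ℝ) : dg d + dg e = dg fun i => d i + e i := by
  simp [dg, Matrix.diagonal_add]

lemma dg_sub_dg (d e : n → ℝ) : dg d - dg e = dg fun i => d i - e i := by
  simp [dg, Matrix.diagonal_sub]

lemma smul_one_eq_dg (s : ℝ) : (s : ℂ) • (1 : Matrix n n ℂ) = dg fun _ => s := by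
  rw [← dg_one, dg, dg, ← Matrix.diagonal_smul]; congr 1; ext i; simp

lemma Ms_posDef {k : n → ℝ} {s : ℝ} (hs : 0 < s) : (Ms k s).PosDef :=
  posDef_dg_iff.2 fun i => Real.sqrt_pos.2 (by positivity)

lemma Ms_isHermitian (k : n → ℝ) (s : ℝ) : (Ms k s).IsHermitian := dg_conjTranspose _

lemma Ms_sq {k : n → ℝ} {s : ℝ} (hs : 0 ≤ s) :
    Ms k s * Ms k s = dg k * dg k + (s : ℂ) • (1 : Matrix n n ℂ) := by
  rw [Ms, dg_mul_dg, dg_mul_dg, smul_one_eq_dg, dg_add_dg]
  refine congrArg dg (funext fun i => ?_)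
  rw [Real.mul_self_sqrt (by positivity)]; ring

lemma lt_sqrt_add {k s : ℝ} (hs : 0 < s) : k < Real.sqrt (k ^ 2 + s) := by
  rcases lt_or_ge k 0 with h | h
  · exact h.trans (Real.sqrt_pos.2 (by positivity))
  · rw [Real.lt_sqrt h]; linarith

/-- data at one point -/
structure Pt (k : n → ℝ) (F : Matrix n n ℂ) : Prop where
  herm : F.IsHermitian
  sub : (dg k - F).PosSemidef
  add : (dg k + F).PosSemidef

namespace Pt

variable {k : n → ℝ} {F : Matrix n n ℂ}

lemma sub_posDef (h : Pt k F) {s : ℝ} (hs : 0 < s) : (Ms k s - F).PosDef := by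
  have h1 : (dg fun i => Real.sqrt (k i ^ 2 + s) - k i).PosDef :=
    posDef_dg_iff.2 fun i => sub_pos.2 (lt_sqrt_add hs)
  have h2 := h1.add_posSemidef h.sub
  rw [← dg_sub_dg] at h2
  have : dg (fun i => Real.sqrt (k i ^ 2 + s)) - dg k + (dg k - F) = Ms k s - F := by
    unfold Ms; abel
  rwa [this] at h2

lemma add_posDef (h : Pt k F) {s : ℝ} (hs : 0 < s) : (Ms k s + F).PosDef := by
  have h1 : (dg fun i => Real.sqrt (k i ^ 2 + s) - k i).PosDef :=
    posDef_dg_iff.2 fun i => sub_pos.2 (lt_sqrt_add hs)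
  have h2 := h1.add_posSemidef h.add
  rw [← dg_sub_dg] at h2
  have : dg (fun i => Real.sqrt (k i ^ 2 + s)) - dg k + (dg k + F) = Ms k s + F := by
    unfold Ms; abel
  rwa [this] at h2

lemma frame (h : Pt k F) {s : ℝ} (hs : 0 < s) : Nonempty (Frame (Ms k s) F) :=
  exists_frame (Ms_posDef hs) h.herm (h.sub_posDef hs) (h.add_posDef hs)

end Pt

/-- `J = K^2 - F^2` -/
noncomputable def Jm (k : n → ℝ) (F : Matrix n n ℂ) : Matrix n n ℂ := dg k * dg k - F * F

/-- `d_s` -/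
noncomputable def dd (k : n → ℝ) (F : Matrix n n ℂ) (s : ℝ) : ℝ :=
  ldet (Ms k s - F) + ldet (Ms k s + F) - Fintype.card n * Real.log s

/-- derivative of `d_s` -/
noncomputable def dd' (k : n → ℝ) (F : Matrix n n ℂ) (s : ℝ) : ℝ :=
  (1 / 2) * rtr ((Ms k s)⁻¹ * ((Ms k s - F)⁻¹ + (Ms k s + F)⁻¹)) - Fintype.card n / s

/-- `tr ψ_s(Z)` -/
noncomputable def psi (s : ℝ) (Z : Matrix n n ℂ) : ℝ :=
  rtr Z - s * (ldet ((s : ℂ) • (1 : Matrix n n ℂ) + Z) - Fintype.card n * Real.log s)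

/-- The per-(x,s) inequality with deficits; `F'` is the derivative of the path. -/
theorem ps_ineq {k : n → ℝ} {F F' Z : Matrix n n ℂ} {r s : ℝ} (hr : 0 ≤ r) (hs : 0 < s)
    (h : Pt k F) (hF' : F' = Jm k F - ((1 + r : ℝ) : ℂ) • Z) :
    -(rtr F' - s * lamTr (Ms k s) F F') + (rtr (Jm k F) - r * s ^ 2 * dd' k F s
        - (1 + r) * s * dd k F s)
      + s * (def1 (Ms k s) F + (1 + r) * def3 (Ms k s) F ((s : ℂ) • (1 : Matrix n n ℂ) + Z))
      ≤ (1 + r) * psi s Z := by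
  obtain ⟨fr⟩ := h.frame hs
  set M := Ms k s with hM
  set N : ℝ := (Fintype.card n : ℝ) with hN
  have f1 := fact1 (Ms_isHermitian k s) h.herm fr
  have f2 := fact2 fr
  have hsJ : M * M - F * F = (s : ℂ) • (1 : Matrix n n ℂ) + Jm k F := by
    rw [hM, Ms_sq hs.le, Jm]; abel
  rw [← hM] at f1
  rw [hsJ, lamTr_add fr, lamTr_smul] at f1
  have l3 : lamTr M F ((s : ℂ) • (1 : Matrix n n ℂ) + Z) = s * lamTr M F 1 + lamTr M F Z := by
    rw [lamTr_add fr, lamTr_smul]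
  have l4 : lamTr M F F' = lamTr M F (Jm k F) - (1 + r) * lamTr M F Z := by
    rw [hF', lamTr_sub fr, lamTr_smul]
  have l5 : rtr F' = rtr (Jm k F) - (1 + r) * rtr Z := by
    rw [hF', rtr_sub, rtr_smul]
  set LZ := lamTr M F Z
  set LJ := lamTr M F (Jm k F)
  set L1 := lamTr M F 1
  set d3 := def3 M F ((s : ℂ) • (1 : Matrix n n ℂ) + Z) with hd3
  have e3 : ldet ((s : ℂ) • (1 : Matrix n n ℂ) + Z)
      = s * L1 + LZ - N + ldet (M - F) + ldet (M + F) - d3 := by
    rw [hd3]; unfold def3; rw [l3]; ring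
  unfold psi dd dd'
  rw [e3, l4, l5]
  rw [← hM, ← hN]
  set e := 1 / 2 * rtr (M⁻¹ * ((M - F)⁻¹ + (M + F)⁻¹))
  have hLJ : LJ = N - def1 M F - s * L1 := by linarith
  rw [hLJ]
  have key : 0 ≤ r * s ^ 2 * (e - L1) := mul_nonneg (mul_nonneg hr (sq_nonneg s)) (by linarith)
  have hss : s ^ 2 * (N / s) = s * N := by field_simp
  nlinarith [key, hss]


/-! ### s-derivatives -/

section deriv

open scoped Matrix.Norms.L2Operator

lemma hasDerivAt_dg {d : ℝ → n → ℝ} {d' : n → ℝ} {s : ℝ}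
    (h : ∀ i, HasDerivAt (fun t => d t i) (d' i) s) :
    HasDerivAt (fun t => dg (d t)) (dg d') s := by
  have key : HasDerivAt (fun t => (fun i j => dg (d t) i j : n → n → ℂ))
      (fun i j => dg d' i j : n → n → ℂ) s := by
    refine hasDerivAt_pi.2 fun i => hasDerivAt_pi.2 fun j => ?_
    by_cases hij : i = j
    · subst hij
      simp only [dg, Matrix.diagonal_apply_eq]
      exact (h i).ofReal_comp
    · simp only [dg, Matrix.diagonal_apply_ne _ hij]
      exact hasDerivAt_const _ _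
  exact key

lemma Ms_inv {k : n → ℝ} {s : ℝ} (hs : 0 < s) :
    (Ms k s)⁻¹ = dg fun i => (Real.sqrt (k i ^ 2 + s))⁻¹ := by
  refine Matrix.inv_eq_right_inv ?_
  rw [Ms, dg_mul_dg, ← dg_one]
  refine congrArg dg (funext fun i => ?_)
  exact mul_inv_cancel₀ (Real.sqrt_pos.2 (by positivity)).ne'

lemma hasDerivAt_Ms {k : n → ℝ} {s : ℝ} (hs : 0 < s) :
    HasDerivAt (fun t => Ms k t) (((1 / 2 : ℝ) : ℂ) • (Ms k s)⁻¹) s := by
  have e : ((1 / 2 : ℝ) : ℂ) • (Ms k s)⁻¹ = dg fun i => (1 / (2 * Real.sqrt (k i ^ 2 + s))) := by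
    rw [Ms_inv hs, dg, dg, ← Matrix.diagonal_smul]
    congr 1; ext i
    simp only [Pi.smul_apply, smul_eq_mul]
    rw [← Complex.ofReal_mul]
    congr 1
    rw [one_div, one_div, mul_inv]
  rw [e]
  refine hasDerivAt_dg fun i => ?_
  have h1 : HasDerivAt (fun t : ℝ => k i ^ 2 + t) 1 s := by
    simpa using (hasDerivAt_id s).const_add (k i ^ 2)
  exact h1.sqrt (by positivity)

lemma hasDerivAt_dd {k : n → ℝ} {F : Matrix n n ℂ} (h : Pt k F) {s : ℝ} (hs : 0 < s) :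
    HasDerivAt (fun t => dd k F t) (dd' k F s) s := by
  have hev : ∀ᶠ t : ℝ in nhds s, 0 < t := lt_mem_nhds hs
  have h1 : HasDerivAt (fun t => Ms k t - F) (((1 / 2 : ℝ) : ℂ) • (Ms k s)⁻¹) s :=
    (hasDerivAt_Ms hs).sub_const F
  have h2 : HasDerivAt (fun t => Ms k t + F) (((1 / 2 : ℝ) : ℂ) • (Ms k s)⁻¹) s :=
    (hasDerivAt_Ms hs).add_const F
  have h3 := hasDerivAt_ldet h1 (hev.mono fun t ht => h.sub_posDef ht)
  have h4 := hasDerivAt_ldet h2 (hev.mono fun t ht => h.add_posDef ht)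
  have h5 := (h3.add h4).sub ((Real.hasDerivAt_log hs.ne').const_mul (Fintype.card n : ℝ))
  refine h5.congr_deriv ?_
  unfold dd'
  rw [Matrix.mul_smul, Matrix.mul_smul, rtr_smul, rtr_smul, Matrix.mul_add, rtr_add,
    rtr_mul_comm (Ms k s - F)⁻¹, rtr_mul_comm (Ms k s + F)⁻¹]
  ring

/-- boundary functional -/
noncomputable def EE (α : ℝ) (k : n → ℝ) (F : Matrix n n ℂ) (s : ℝ) : ℝ :=
  (1 / α) * s ^ α * (rtr (Jm k F) - s * dd k F s)

lemma hasDerivAt_EE {α : ℝ} (hα : 0 < α) {k : n → ℝ} {F : Matrix n n ℂ} (h : Pt k F) {s : ℝ}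
    (hs : 0 < s) :
    HasDerivAt (fun t => EE α k F t) (s ^ (α - 1) *
      (rtr (Jm k F) - (1 / α) * s ^ 2 * dd' k F s - (1 + 1 / α) * s * dd k F s)) s := by
  have h1 := (Real.hasDerivAt_rpow_const (x := s) (p := α) (Or.inl hs.ne')).const_mul (1 / α)
  have h2 := ((hasDerivAt_id s).mul (hasDerivAt_dd h hs)).const_sub (rtr (Jm k F))
  have h3 := h1.mul h2
  refine h3.congr_deriv ?_
  simp only [id, Pi.mul_apply]
  have e1 : s ^ α = s ^ (α - 1) * s := by
    rw [← Real.rpow_add_one hs.ne']; congr 1; ring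
  rw [e1]
  field_simp
  ring

end deriv

lemma rtr_mul_nonneg {A B : Matrix n n ℂ} (hA : A.PosSemidef) (hB : B.PosSemidef) :
    0 ≤ rtr (A * B) := by
  obtain ⟨U, d, h1, h2, h3⟩ := exists_spectral hA.isHermitian
  have hd : ∀ i, 0 ≤ d i := by
    have h4 : (Uᴴ * A * U).PosSemidef := hA.conjTranspose_mul_mul_same U
    have h5 : Uᴴ * A * U = dg d := by
      rw [h3]
      calc Uᴴ * (U * diagonal (fun i => ((d i : ℝ) : ℂ)) * Uᴴ) * U
          = (Uᴴ * U) * diagonal (fun i => ((d i : ℝ) : ℂ)) * (Uᴴ * U) := by noncomm_ring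
        _ = _ := by rw [h1]; simp
    rw [h5] at h4
    exact posSemidef_dg_iff.1 h4
  have h6 : rtr (A * B) = ∑ i, d i * ((Uᴴ * B * U) i i).re := by
    have e : rtr (A * B) = rtr ((Uᴴ * B * U) * dg d) := by
      rw [h3, Matrix.mul_assoc, rtr_mul_comm]
      congr 1; noncomm_ring
    rw [e]
    unfold rtr Matrix.trace
    rw [Complex.re_sum]
    refine Finset.sum_congr rfl fun i _ => ?_
    rw [Matrix.diag_apply, dg, Matrix.mul_diagonal, Complex.re_mul_ofReal]; ring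
  rw [h6]
  refine Finset.sum_nonneg fun i _ => mul_nonneg (hd i) ?_
  have h7 := (hB.conjTranspose_mul_mul_same U).diag_nonneg (i := i)
  exact (Complex.nonneg_iff.1 h7).1

/-- Gibbs inequality -/
lemma gibbs {A B : Matrix n n ℂ} (hA : A.PosDef) (hB : B.PosDef) :
    (Fintype.card n : ℝ) + ldet A + ldet B ≤ rtr (A * B) := by
  obtain ⟨U, ν, hU1, hU2, hν, hU⟩ := posDef_spectral hA
  obtain ⟨V, ξ, hV1, hV2, hξ, hV⟩ := posDef_spectral hB
  have h := klein_pt hU2 hV2 hν hξ (S := (1 : Matrix n n ℂ)) Matrix.isHermitian_one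
  rw [← hU, ← hV] at h
  simp only [hU1, hV1, Matrix.one_apply_eq, Complex.one_re, mul_one] at h
  rw [ldet_spec hU1 hν hU, ldet_spec hV1 hξ hV]
  rw [Finset.sum_add_distrib] at h
  simp only [Finset.sum_const, Finset.card_univ, nsmul_eq_mul, mul_one] at h
  exact h

lemma ldet_inv {A : Matrix n n ℂ} (_hA : A.PosDef) : ldet A⁻¹ = - ldet A := by
  unfold ldet
  rw [Matrix.det_nonsing_inv, Ring.inverse_eq_inv', norm_inv, Real.log_inv]

lemma ldet_mono {A B : Matrix n n ℂ} (hB : B.PosDef) (h : (A - B).PosSemidef) :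
    ldet B ≤ ldet A := by
  have hA : A.PosDef := by
    have := hB.add_posSemidef h
    simpa using this
  have h1 := gibbs hA.inv hB
  rw [ldet_inv hA] at h1
  have h2 := rtr_mul_nonneg hA.inv.posSemidef h
  have hd := (Matrix.isUnit_iff_isUnit_det _).1 hA.isUnit
  rw [Matrix.mul_sub, rtr_sub, Matrix.nonsing_inv_mul _ hd, rtr_one] at h2
  linarith

lemma ldet_smul {A : Matrix n n ℂ} (hA : A.PosDef) {c : ℝ} (hc : 0 < c) :
    ldet ((c : ℂ) • A) = Fintype.card n * Real.log c + ldet A := by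
  unfold ldet
  have hAd : ‖A.det‖ ≠ 0 :=
    norm_ne_zero_iff.2 ((Matrix.isUnit_iff_isUnit_det A).1 hA.isUnit).ne_zero
  rw [Matrix.det_smul, norm_mul, norm_pow, Complex.norm_real, Real.norm_of_nonneg hc.le,
    Real.log_mul (pow_ne_zero _ hc.ne') hAd, Real.log_pow]

lemma mul_dd_le {k : n → ℝ} {F : Matrix n n ℂ} (h : Pt k F) {s : ℝ} (hs : 0 < s) :
    s * dd k F s ≤ rtr (Jm k F) := by
  have ha := h.sub_posDef hs
  have hb := h.add_posDef hs
  have hc : 0 < s⁻¹ := inv_pos.2 hs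
  have hb' : ((s⁻¹ : ℝ) : ℂ) • (Ms k s + F) |>.PosDef := by
    refine Matrix.PosDef.smul hb ?_
    exact_mod_cast hc
  have h1 := gibbs ha hb'
  rw [ldet_smul hb hc, Matrix.mul_smul, rtr_smul, Real.log_inv] at h1
  have h2 : rtr ((Ms k s - F) * (Ms k s + F)) = s * Fintype.card n + rtr (Jm k F) := by
    have : (Ms k s - F) * (Ms k s + F)
        = (Ms k s * Ms k s - F * F) + (Ms k s * F - F * Ms k s) := by noncomm_ring
    rw [this, rtr_add, rtr_sub (Ms k s * F), rtr_mul_comm (Ms k s) F, sub_self, add_zero,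
      Ms_sq hs.le]
    have : dg k * dg k + (s : ℂ) • (1 : Matrix n n ℂ) - F * F
        = (s : ℂ) • (1 : Matrix n n ℂ) + Jm k F := by unfold Jm; abel
    rw [this, rtr_add, rtr_smul, rtr_one]
  rw [h2] at h1
  unfold dd
  have h3 : s * (s⁻¹ * (s * Fintype.card n + rtr (Jm k F))) = s * Fintype.card n + rtr (Jm k F) := by
    field_simp
  nlinarith [mul_le_mul_of_nonneg_left h1 hs.le]

end Crest.Agent.R332.Chan
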