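import Mathlib
import Crest.Agent.R332.ChanFrame
import Crest.Agent.R332.ChanLam
import Crest.Agent.R332.ChanInt
import Crest.Agent.R332.ChanDeriv
import Crest.Agent.R332.ChanPS

/-!
Row 332, module A, file: joint continuity.
-/

set_option autoImplicit false

namespace Crest.Agent.R332.Chan

open Matrix MeasureTheory intervalIntegral Set
open scoped ComplexOrder BigOperators

variable {n : Type*} [Fintype n] [DecidableEq n]
variable {X : Type*} [TopologicalSpace X]

lemma continuousOn_matrix_inv {A : X → Matrix n n ℂ} {P : Set X} (hA : ContinuousOn A P)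
    (hu : ∀ p ∈ P, IsUnit (A p)) : ContinuousOn (fun p => (A p)⁻¹) P := by
  have h1 : ContinuousOn (fun p => (A p).det) P :=
    (Continuous.matrix_det continuous_id).comp_continuousOn hA
  have h2 : ContinuousOn (fun p => (A p).adjugate) P :=
    (Continuous.matrix_adjugate continuous_id).comp_continuousOn hA
  have h3 : ContinuousOn (fun p => ((A p).det)⁻¹ • (A p).adjugate) P :=
    (h1.inv₀ fun p hp => ((Matrix.isUnit_iff_isUnit_det _).1 (hu p hp)).ne_zero).smul h2
  refine h3.congr fun p _ => ?_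
  rw [Matrix.inv_def, Ring.inverse_eq_inv']

lemma continuousOn_ldet {A : X → Matrix n n ℂ} {P : Set X} (hA : ContinuousOn A P)
    (hu : ∀ p ∈ P, IsUnit (A p)) : ContinuousOn (fun p => ldet (A p)) P := by
  unfold ldet
  have h1 : ContinuousOn (fun p => (A p).det) P :=
    (Continuous.matrix_det continuous_id).comp_continuousOn hA
  exact h1.norm.log fun p hp =>
    norm_ne_zero_iff.2 ((Matrix.isUnit_iff_isUnit_det _).1 (hu p hp)).ne_zero

omit [DecidableEq n] in
lemma continuousOn_rtr {A : X → Matrix n n ℂ} {P : Set X} (hA : ContinuousOn A P) :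
    ContinuousOn (fun p => rtr (A p)) P := continuous_rtr.comp_continuousOn hA

lemma continuous_dg {d : X → n → ℝ} (h : ∀ i, Continuous fun p => d p i) :
    Continuous fun p => dg (d p) := by
  refine Continuous.matrix_diagonal (continuous_pi fun i => ?_)
  exact Complex.continuous_ofReal.comp (h i)

lemma continuous_Ms (k : n → ℝ) : Continuous fun s => Ms k s :=
  continuous_dg fun i => by fun_prop

/-- the assumptions on a parameter set -/
lemma continuousOn_Res_joint {k : n → ℝ} {F : X → Matrix n n ℂ} {S : X → ℝ} {P : Set X}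
    (hF : ContinuousOn F P) (hS : ContinuousOn S P) (hpt : ∀ p ∈ P, Pt k (F p))
    (hs : ∀ p ∈ P, 0 < S p) :
    ContinuousOn (fun q : X × ℝ => Res (Ms k (S q.1)) (F q.1) q.2) (P ×ˢ Icc (-1 : ℝ) 1) := by
  unfold Res
  have h1 : ContinuousOn (fun q : X × ℝ => F q.1) (P ×ˢ Icc (-1 : ℝ) 1) :=
    hF.comp continuous_fst.continuousOn fun q hq => hq.1
  have h2 : ContinuousOn (fun q : X × ℝ => Ms (n := n) k (S q.1)) (P ×ˢ Icc (-1 : ℝ) 1) :=
    (continuous_Ms k).comp_continuousOn (hS.comp continuous_fst.continuousOn fun q hq => hq.1)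
  have h3 : ContinuousOn (fun q : X × ℝ => ((q.2 : ℝ) : ℂ)) (P ×ˢ Icc (-1 : ℝ) 1) :=
    (Complex.continuous_ofReal.comp continuous_snd).continuousOn
  refine continuousOn_matrix_inv (h2.sub (h3.smul h1)) fun q hq => ?_
  obtain ⟨fr⟩ := (hpt q.1 hq.1).frame (hs q.1 hq.1)
  have hm := fr.res_mul (abs_le.2 hq.2)
  exact ⟨⟨_, _, hm.1, hm.2⟩, rfl⟩

lemma continuousOn_lamTr [FirstCountableTopology X] {k : n → ℝ} {F Y : X → Matrix n n ℂ}
    {S : X → ℝ} {P : Set X} (hF : ContinuousOn F P) (hS : ContinuousOn S P)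
    (hY : ContinuousOn Y P) (hpt : ∀ p ∈ P, Pt k (F p)) (hs : ∀ p ∈ P, 0 < S p) :
    ContinuousOn (fun p => lamTr (Ms k (S p)) (F p) (Y p)) P := by
  unfold lamTr
  refine continuousOn_const.mul (continuousOn_param (by norm_num) ?_)
  have h0 := continuousOn_Res_joint hF hS hpt hs
  have h1 : ContinuousOn (fun q : X × ℝ => Y q.1) (P ×ˢ Icc (-1 : ℝ) 1) :=
    hY.comp continuous_fst.continuousOn fun q hq => hq.1
  exact continuousOn_rtr ((h0.mul h0).mul h1)

lemma continuousOn_def1 [FirstCountableTopology X] {k : n → ℝ} {F : X → Matrix n n ℂ}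
    {S : X → ℝ} {P : Set X} (hF : ContinuousOn F P) (hS : ContinuousOn S P)
    (hpt : ∀ p ∈ P, Pt k (F p)) (hs : ∀ p ∈ P, 0 < S p) :
    ContinuousOn (fun p => def1 (Ms k (S p)) (F p)) P := by
  unfold def1
  refine continuousOn_const.mul (continuousOn_param (by norm_num) ?_)
  have h0 := continuousOn_Res_joint hF hS hpt hs
  have h1 : ContinuousOn (fun q : X × ℝ => F q.1) (P ×ˢ Icc (-1 : ℝ) 1) :=
    hF.comp continuous_fst.continuousOn fun q hq => hq.1
  have h2 := (h0.mul h1).sub (h1.mul h0)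
  have h3 : ContinuousOn (fun q : X × ℝ =>
      (Res (Ms k (S q.1)) (F q.1) q.2 * F q.1 - F q.1 * Res (Ms k (S q.1)) (F q.1) q.2)ᴴ)
      (P ×ˢ Icc (-1 : ℝ) 1) :=
    (Continuous.matrix_conjTranspose continuous_id).comp_continuousOn h2
  refine ContinuousOn.mul ?_ (continuousOn_rtr (h3.mul h2))
  fun_prop

lemma continuousOn_def3 [FirstCountableTopology X] {k : n → ℝ} {F Y : X → Matrix n n ℂ}
    {S : X → ℝ} {P : Set X} (hF : ContinuousOn F P) (hS : ContinuousOn S P)
    (hY : ContinuousOn Y P) (hYp : ∀ p ∈ P, (Y p).PosDef) (hpt : ∀ p ∈ P, Pt k (F p))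
    (hs : ∀ p ∈ P, 0 < S p) :
    ContinuousOn (fun p => def3 (Ms k (S p)) (F p) (Y p)) P := by
  unfold def3
  have hM : ContinuousOn (fun p => Ms (n := n) k (S p)) P := (continuous_Ms k).comp_continuousOn hS
  refine ((((continuousOn_lamTr hF hS hY hpt hs).sub continuousOn_const).sub
    (continuousOn_ldet hY fun p hp => (hYp p hp).isUnit)).add
    (continuousOn_ldet (hM.sub hF) fun p hp => ((hpt p hp).sub_posDef (hs p hp)).isUnit)).add
    (continuousOn_ldet (hM.add hF) fun p hp => ((hpt p hp).add_posDef (hs p hp)).isUnit)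

lemma continuousOn_dd {k : n → ℝ} {F : X → Matrix n n ℂ}
    {S : X → ℝ} {P : Set X} (hF : ContinuousOn F P) (hS : ContinuousOn S P)
    (hpt : ∀ p ∈ P, Pt k (F p)) (hs : ∀ p ∈ P, 0 < S p) :
    ContinuousOn (fun p => dd k (F p) (S p)) P := by
  unfold dd
  have hM : ContinuousOn (fun p => Ms (n := n) k (S p)) P := (continuous_Ms k).comp_continuousOn hS
  exact ((continuousOn_ldet (hM.sub hF) fun p hp => ((hpt p hp).sub_posDef (hs p hp)).isUnit).add
    (continuousOn_ldet (hM.add hF) fun p hp => ((hpt p hp).add_posDef (hs p hp)).isUnit)).sub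
    (continuousOn_const.mul (hS.log fun p hp => (hs p hp).ne'))

lemma continuousOn_dd' {k : n → ℝ} {F : X → Matrix n n ℂ}
    {S : X → ℝ} {P : Set X} (hF : ContinuousOn F P) (hS : ContinuousOn S P)
    (hpt : ∀ p ∈ P, Pt k (F p)) (hs : ∀ p ∈ P, 0 < S p) :
    ContinuousOn (fun p => dd' k (F p) (S p)) P := by
  unfold dd'
  have hM : ContinuousOn (fun p => Ms (n := n) k (S p)) P := (continuous_Ms k).comp_continuousOn hS
  have h1 := continuousOn_matrix_inv hM fun p hp => (Ms_posDef (hs p hp)).isUnit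
  have h2 := continuousOn_matrix_inv (hM.sub hF) fun p hp => ((hpt p hp).sub_posDef (hs p hp)).isUnit
  have h3 := continuousOn_matrix_inv (hM.add hF) fun p hp => ((hpt p hp).add_posDef (hs p hp)).isUnit
  exact (continuousOn_const.mul (continuousOn_rtr (h1.mul (h2.add h3)))).sub
    (continuousOn_const.div hS fun p hp => (hs p hp).ne')

lemma posDef_smul_add {s : ℝ} {Z : Matrix n n ℂ} (hs : 0 < s) (hZ : Z.PosSemidef) :
    ((s : ℂ) • (1 : Matrix n n ℂ) + Z).PosDef := by
  rw [smul_one_eq_dg]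
  exact (posDef_dg_iff.2 fun _ => hs).add_posSemidef hZ

lemma continuousOn_sZ {Z : X → Matrix n n ℂ} {S : X → ℝ} {P : Set X} (hZ : ContinuousOn Z P)
    (hS : ContinuousOn S P) :
    ContinuousOn (fun p => ((S p : ℝ) : ℂ) • (1 : Matrix n n ℂ) + Z p) P :=
  ((Complex.continuous_ofReal.comp_continuousOn hS).smul continuousOn_const).add hZ

lemma continuousOn_psi {Z : X → Matrix n n ℂ} {S : X → ℝ} {P : Set X} (hZ : ContinuousOn Z P)
    (hS : ContinuousOn S P) (hZp : ∀ p ∈ P, (Z p).PosSemidef) (hs : ∀ p ∈ P, 0 < S p) :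
    ContinuousOn (fun p => psi (S p) (Z p)) P := by
  unfold psi
  exact (continuousOn_rtr hZ).sub (hS.mul ((continuousOn_ldet (continuousOn_sZ hZ hS)
    fun p hp => (posDef_smul_add (hs p hp) (hZp p hp)).isUnit).sub
    (continuousOn_const.mul (hS.log fun p hp => (hs p hp).ne'))))

lemma continuousOn_Jm {k : n → ℝ} {F : X → Matrix n n ℂ} {P : Set X} (hF : ContinuousOn F P) :
    ContinuousOn (fun p => Jm k (F p)) P := by
  unfold Jm
  exact continuousOn_const.sub (hF.mul hF)

end Crest.Agent.R332.Chan
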