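import Mathlib
import Crest.Agent.R332.ChanFrame
import Crest.Agent.R332.ChanLam
import Crest.Agent.R332.ChanInt
import Crest.Agent.R332.ChanDeriv
import Crest.Agent.R332.ChanPS
import Crest.Agent.R332.ChanCont

/-!
Row 332, module A, main file: the N-channel theorem with deficits.
-/

set_option autoImplicit false

namespace Crest.Agent.R332.Chan

open Matrix MeasureTheory intervalIntegral Set
open scoped ComplexOrder BigOperators

variable {n : Type*} [Fintype n] [DecidableEq n]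

/-- endpoint function -/
noncomputable def endp (k s : ℝ) : ℝ :=
  2 * k - s / Real.sqrt (k ^ 2 + s) *
    Real.log ((Real.sqrt (k ^ 2 + s) + k) / (Real.sqrt (k ^ 2 + s) - k))

/-- the assumptions on the path -/
structure Path (α L : ℝ) (k : n → ℝ) (F Z : ℝ → Matrix n n ℂ) : Prop where
  hL : 0 < L
  hFc : ContinuousOn F (Icc (-L) L)
  hFd : ∀ x ∈ Ioo (-L) L, HasDerivAt F (Jm k (F x) - ((1 + 1 / α : ℝ) : ℂ) • Z x) x
  hpt : ∀ x ∈ Icc (-L) L, Pt k (F x)
  hZc : ContinuousOn Z (Icc (-L) L)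
  hZp : ∀ x ∈ Icc (-L) L, (Z x).PosSemidef
  h0 : F (-L) = dg k
  h1 : F L = - dg k

namespace Path

variable {α L : ℝ} {k : n → ℝ} {F Z : ℝ → Matrix n n ℂ}

/-- the derivative of the path -/
noncomputable def Fp (α : ℝ) (k : n → ℝ) (F Z : ℝ → Matrix n n ℂ) (x : ℝ) : Matrix n n ℂ :=
  Jm k (F x) - ((1 + 1 / α : ℝ) : ℂ) • Z x

lemma continuousOn_Fp (h : Path α L k F Z) : ContinuousOn (Fp α k F Z) (Icc (-L) L) := by
  have h1 : ContinuousOn (fun x => ((1 + 1 / α : ℝ) : ℂ) • Z x) (Icc (-L) L) := by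
    have := h.hZc.const_smul ((1 + 1 / α : ℝ) : ℂ)
    exact this
  exact (continuousOn_Jm h.hFc).sub h1

lemma pot_integral (h : Path α L k F Z) {s : ℝ} (hs : 0 < s) {l : ℝ} (hl : l ∈ Icc (-1 : ℝ) 1) :
    ∫ x in (-L)..L, rtr (Res (Ms k s) (F x) l * Res (Ms k s) (F x) l * Fp α k F Z x)
      = rtr (Res (Ms k s) (F L) l * F L * (Ms k s)⁻¹)
        - rtr (Res (Ms k s) (F (-L)) l * F (-L) * (Ms k s)⁻¹) := by
  have hLL : -L ≤ L := by linarith [h.hL]
  have hu : ∀ x ∈ Icc (-L) L, IsUnit (Ms k s - (l : ℂ) • F x) := by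
    intro x hx
    obtain ⟨fr⟩ := (h.hpt x hx).frame hs
    have hm := fr.res_mul (abs_le.2 hl)
    exact ⟨⟨_, _, hm.1, hm.2⟩, rfl⟩
  have hR : ContinuousOn (fun x => Res (Ms k s) (F x) l) (Icc (-L) L) := by
    unfold Res
    have h1 : ContinuousOn (fun x => (l : ℂ) • F x) (Icc (-L) L) := by
      have := h.hFc.const_smul (l : ℂ)
      exact this
    exact continuousOn_matrix_inv (continuousOn_const.sub h1) hu
  refine intervalIntegral.integral_eq_sub_of_hasDerivAt_of_le hLL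
    (f := fun x => rtr (Res (Ms k s) (F x) l * F x * (Ms k s)⁻¹)) ?_ ?_ ?_
  · exact continuousOn_rtr ((hR.mul h.hFc).mul continuousOn_const)
  · intro x hx
    exact hasDerivAt_pot (h.hFd x hx) (Ms_posDef hs).isUnit (hu x ⟨hx.1.le, hx.2.le⟩)
  · apply ContinuousOn.intervalIntegrable
    rw [uIcc_of_le hLL]
    exact continuousOn_rtr ((hR.mul hR).mul h.continuousOn_Fp)

lemma rtr_Fp_integral (h : Path α L k F Z) :
    ∫ x in (-L)..L, rtr (Fp α k F Z x) = rtr (F L) - rtr (F (-L)) := by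
  have hLL : -L ≤ L := by linarith [h.hL]
  refine intervalIntegral.integral_eq_sub_of_hasDerivAt_of_le hLL
    (f := fun x => rtr (F x)) (continuousOn_rtr h.hFc) ?_ ?_
  · intro x hx
    exact hasDerivAt_rtr (h.hFd x hx)
  · apply ContinuousOn.intervalIntegrable
    rw [uIcc_of_le hLL]
    exact continuousOn_rtr h.continuousOn_Fp

end Path

lemma Res_dg {k : n → ℝ} {s : ℝ} (hs : 0 < s) {l : ℝ} (hl : l ∈ Icc (-1 : ℝ) 1) :
    Res (Ms k s) (dg k) l = dg fun i => (Real.sqrt (k i ^ 2 + s) - l * k i)⁻¹ := by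
  have hpos : ∀ i, 0 < Real.sqrt (k i ^ 2 + s) - l * k i := by
    intro i
    have h1 : |k i| < Real.sqrt (k i ^ 2 + s) := by
      rw [← sq_abs (k i)]; exact lt_sqrt_add hs
    have h2 : l * k i ≤ |k i| := by
      calc l * k i ≤ |l * k i| := le_abs_self _
        _ = |l| * |k i| := abs_mul _ _
        _ ≤ 1 * |k i| := by gcongr; exact abs_le.2 hl
        _ = |k i| := one_mul _
    linarith
  unfold Res
  refine Matrix.inv_eq_right_inv ?_
  have : Ms k s - (l : ℂ) • dg k = dg fun i => Real.sqrt (k i ^ 2 + s) - l * k i := by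
    rw [Ms, dg, dg, ← Matrix.diagonal_smul, Matrix.diagonal_sub]
    congr 1; ext i; simp
  rw [this, dg_mul_dg, ← dg_one]
  exact congrArg dg (funext fun i => mul_inv_cancel₀ (hpos i).ne')

lemma Res_neg (M F : Matrix n n ℂ) (l : ℝ) : Res M (-F) l = Res M F (-l) := by
  unfold Res; congr 1; simp

lemma integral_endp {k s : ℝ} (hs : 0 < s) :
    ∫ l in (-1 : ℝ)..1, (Real.sqrt (k ^ 2 + s) - l * k)⁻¹ * k * (Real.sqrt (k ^ 2 + s))⁻¹
      = (Real.sqrt (k ^ 2 + s))⁻¹ *
        Real.log ((Real.sqrt (k ^ 2 + s) + k) / (Real.sqrt (k ^ 2 + s) - k)) := by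
  set m := Real.sqrt (k ^ 2 + s) with hm
  have hmk : |k| < m := by rw [hm, ← sq_abs k]; exact lt_sqrt_add hs
  have hpos : ∀ l ∈ Icc (-1 : ℝ) 1, 0 < m - l * k := by
    intro l hl
    have h2 : l * k ≤ |k| := by
      calc l * k ≤ |l * k| := le_abs_self _
        _ = |l| * |k| := abs_mul _ _
        _ ≤ 1 * |k| := by gcongr; exact abs_le.2 hl
        _ = |k| := one_mul _
    linarith
  have h1 : ∫ l in (-1 : ℝ)..1, (m - l * k)⁻¹ * k * m⁻¹
      = (-(Real.log (m - 1 * k)) * m⁻¹) - (-(Real.log (m - (-1) * k)) * m⁻¹) := by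
    refine intervalIntegral.integral_eq_sub_of_hasDerivAt
      (f := fun l => -(Real.log (m - l * k)) * m⁻¹) ?_ ?_
    · intro l hl
      rw [uIcc_of_le (by norm_num)] at hl
      have h2 : HasDerivAt (fun l : ℝ => m - l * k) (-k) l := by
        simpa using ((hasDerivAt_id l).mul_const k).const_sub m
      have h3 := ((h2.log (hpos l hl).ne').neg).mul_const m⁻¹
      refine h3.congr_deriv ?_
      rw [neg_div, neg_neg, div_eq_mul_inv]; ring
    · apply ContinuousOn.intervalIntegrable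
      rw [uIcc_of_le (by norm_num)]
      refine ContinuousOn.mul (ContinuousOn.mul (ContinuousOn.inv₀ (by fun_prop)
        fun l hl => (hpos l hl).ne') continuousOn_const) continuousOn_const
  rw [h1]
  have ha : 0 < m - k := by have := hpos 1 (by norm_num); linarith
  have hb : 0 < m + k := by have := hpos (-1) (by norm_num); linarith
  rw [Real.log_div hb.ne' ha.ne']
  have e1 : m - 1 * k = m - k := by ring
  have e2 : m - (-1) * k = m + k := by ring
  rw [e1, e2]; ring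

theorem Path.T_integral {α L : ℝ} {k : n → ℝ} {F Z : ℝ → Matrix n n ℂ} (h : Path α L k F Z)
    {s : ℝ} (hs : 0 < s) :
    ∫ x in (-L)..L, -(rtr (Path.Fp α k F Z x)
        - s * lamTr (Ms k s) (F x) (Path.Fp α k F Z x))
      = ∑ i, endp (k i) s := by
  have hLL : -L ≤ L := by linarith [h.hL]
  have hFp := h.continuousOn_Fp
  have hlam : ContinuousOn (fun x => lamTr (Ms k s) (F x) (Path.Fp α k F Z x)) (Icc (-L) L) :=
    continuousOn_lamTr (S := fun _ => s) h.hFc continuousOn_const hFp h.hpt (fun _ _ => hs)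
  have i1 : IntervalIntegrable (fun x => rtr (Path.Fp α k F Z x)) volume (-L) L := by
    apply ContinuousOn.intervalIntegrable
    rw [uIcc_of_le hLL]; exact continuousOn_rtr hFp
  have i2 : IntervalIntegrable (fun x => s * lamTr (Ms k s) (F x) (Path.Fp α k F Z x))
      volume (-L) L := by
    apply ContinuousOn.intervalIntegrable
    rw [uIcc_of_le hLL]; exact continuousOn_const.mul hlam
  rw [intervalIntegral.integral_neg, intervalIntegral.integral_sub i1 i2, h.rtr_Fp_integral,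
    intervalIntegral.integral_const_mul]
  have hswap : ∫ x in (-L)..L, lamTr (Ms k s) (F x) (Path.Fp α k F Z x)
      = (1 / 2) * ∫ l in (-1 : ℝ)..1, (rtr (Res (Ms k s) (F L) l * F L * (Ms k s)⁻¹)
        - rtr (Res (Ms k s) (F (-L)) l * F (-L) * (Ms k s)⁻¹)) := by
    unfold lamTr
    rw [intervalIntegral.integral_const_mul]
    congr 1
    rw [integral_swap_box hLL (by norm_num)]
    · refine intervalIntegral.integral_congr fun l hl => ?_
      rw [uIcc_of_le (by norm_num)] at hl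
      exact h.pot_integral hs hl
    · have hR := continuousOn_Res_joint (S := fun _ : ℝ => s) h.hFc continuousOn_const h.hpt
        (fun _ _ => hs)
      have h1 : ContinuousOn (fun q : ℝ × ℝ => Path.Fp α k F Z q.1)
          (Icc (-L) L ×ˢ Icc (-1 : ℝ) 1) :=
        hFp.comp continuous_fst.continuousOn fun q hq => hq.1
      exact continuousOn_rtr ((hR.mul hR).mul h1)
  rw [hswap, h.h0, h.h1]
  have e1 : ∀ l ∈ Icc (-1 : ℝ) 1, rtr (Res (Ms k s) (-dg k) l * (-dg k) * (Ms k s)⁻¹)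
        - rtr (Res (Ms k s) (dg k) l * dg k * (Ms k s)⁻¹)
      = -(∑ i, (Real.sqrt (k i ^ 2 + s) - (-l) * k i)⁻¹ * k i * (Real.sqrt (k i ^ 2 + s))⁻¹)
        - ∑ i, (Real.sqrt (k i ^ 2 + s) - l * k i)⁻¹ * k i * (Real.sqrt (k i ^ 2 + s))⁻¹ := by
    intro l hl
    have hl' : -l ∈ Icc (-1 : ℝ) 1 := ⟨by linarith [hl.2], by linarith [hl.1]⟩
    rw [Res_neg, Res_dg hs hl, Res_dg hs hl', Ms_inv hs, Matrix.mul_neg, Matrix.neg_mul, rtr_neg,
      dg_mul_dg, dg_mul_dg, dg_mul_dg, dg_mul_dg, rtr_dg, rtr_dg]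
  rw [intervalIntegral.integral_congr (fun l hl => e1 l (by rwa [uIcc_of_le (by norm_num)] at hl))]
  have hpos : ∀ i, ∀ l ∈ Icc (-1 : ℝ) 1, 0 < Real.sqrt (k i ^ 2 + s) - l * k i := by
    intro i l hl
    have h1 : |k i| < Real.sqrt (k i ^ 2 + s) := by
      rw [← sq_abs (k i)]; exact lt_sqrt_add hs
    have h2 : l * k i ≤ |k i| := by
      calc l * k i ≤ |l * k i| := le_abs_self _
        _ = |l| * |k i| := abs_mul _ _
        _ ≤ 1 * |k i| := by gcongr; exact abs_le.2 hl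
        _ = |k i| := one_mul _
    linarith
  have c1 : ∀ i, ContinuousOn (fun l : ℝ => (Real.sqrt (k i ^ 2 + s) - l * k i)⁻¹ * k i *
      (Real.sqrt (k i ^ 2 + s))⁻¹) (Icc (-1 : ℝ) 1) := fun i =>
    ContinuousOn.mul (ContinuousOn.mul (ContinuousOn.inv₀ (by fun_prop)
        fun l hl => (hpos i l hl).ne') continuousOn_const) continuousOn_const
  have c2 : ∀ i, ContinuousOn (fun l : ℝ => (Real.sqrt (k i ^ 2 + s) - (-l) * k i)⁻¹ * k i *
      (Real.sqrt (k i ^ 2 + s))⁻¹) (Icc (-1 : ℝ) 1) := fun i =>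
    (c1 i).comp (f := fun l => -l) (by fun_prop) fun l hl => ⟨by linarith [hl.2], by linarith [hl.1]⟩
  have ii : ∀ {f : ℝ → ℝ}, ContinuousOn f (Icc (-1 : ℝ) 1) → IntervalIntegrable f volume (-1) 1 := by
    intro f hf
    apply ContinuousOn.intervalIntegrable
    rwa [uIcc_of_le (by norm_num)]
  have v1 : ∀ i, ∫ l in (-1 : ℝ)..1, (Real.sqrt (k i ^ 2 + s) - (-l) * k i)⁻¹ * k i *
      (Real.sqrt (k i ^ 2 + s))⁻¹ = (Real.sqrt (k i ^ 2 + s))⁻¹ *
        Real.log ((Real.sqrt (k i ^ 2 + s) + k i) / (Real.sqrt (k i ^ 2 + s) - k i)) := by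
    intro i
    rw [intervalIntegral.integral_comp_neg (fun l : ℝ => (Real.sqrt (k i ^ 2 + s) - l * k i)⁻¹ * k i *
      (Real.sqrt (k i ^ 2 + s))⁻¹), neg_neg, integral_endp hs]
  rw [intervalIntegral.integral_sub, intervalIntegral.integral_neg,
    intervalIntegral.integral_finsetSum, intervalIntegral.integral_finsetSum]
  · simp only [v1, integral_endp hs]
    unfold endp
    rw [rtr_neg, rtr_dg, Finset.sum_sub_distrib, ← Finset.mul_sum]
    have : ∑ i, s / Real.sqrt (k i ^ 2 + s) *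
        Real.log ((Real.sqrt (k i ^ 2 + s) + k i) / (Real.sqrt (k i ^ 2 + s) - k i))
        = s * ∑ i, (Real.sqrt (k i ^ 2 + s))⁻¹ *
        Real.log ((Real.sqrt (k i ^ 2 + s) + k i) / (Real.sqrt (k i ^ 2 + s) - k i)) := by
      rw [Finset.mul_sum]
      refine Finset.sum_congr rfl fun i _ => ?_
      rw [div_eq_mul_inv]; ring
    rw [this]; ring
  · exact fun i _ => ii (c1 i)
  · exact fun i _ => ii (c2 i)
  · exact ii (continuousOn_finsetSum _ fun i _ => c2 i).neg
  · exact ii (continuousOn_finsetSum _ fun i _ => c1 i)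

end Crest.Agent.R332.Chan
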