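import Mathlib
import Crest.Agent.R332.ChanMain

/-!
Row 332, module A, final file: the N-channel theorem with deficits.
-/

set_option autoImplicit false

namespace Crest.Agent.R332.Chan

open Matrix MeasureTheory intervalIntegral Set
open scoped ComplexOrder BigOperators

variable {n : Type*} [Fintype n] [DecidableEq n]

lemma eig_decomp {A : Matrix n n ℂ} (hA : A.IsHermitian) :
    ∃ U : Matrix n n ℂ, Uᴴ * U = 1 ∧ U * Uᴴ = 1 ∧ A = U * dg hA.eigenvalues * Uᴴ := by
  refine ⟨(hA.eigenvectorUnitary : Matrix n n ℂ), ?_, ?_, ?_⟩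
  · rw [← Matrix.star_eq_conjTranspose]; exact Unitary.coe_star_mul_self _
  · rw [← Matrix.star_eq_conjTranspose]; exact Unitary.coe_mul_star_self _
  · conv_lhs => rw [hA.spectral_theorem]
    rw [Unitary.conjStarAlgAut_apply, Matrix.star_eq_conjTranspose]
    rfl

lemma rtr_cfc {A : Matrix n n ℂ} (hA : A.IsHermitian) (f : ℝ → ℝ) :
    rtr (cfc f A) = ∑ i, f (hA.eigenvalues i) := by
  rw [hA.cfc_eq f, IsHermitian.cfc, Unitary.conjStarAlgAut_apply, rtr_mul_comm, ← Matrix.mul_assoc]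
  have : star (hA.eigenvectorUnitary : Matrix n n ℂ) * (hA.eigenvectorUnitary : Matrix n n ℂ) = 1 :=
    Unitary.coe_star_mul_self _
  rw [this, Matrix.one_mul]
  simp [rtr, Matrix.trace_diagonal]

lemma rtr_eig {A : Matrix n n ℂ} (hA : A.IsHermitian) : rtr A = ∑ i, hA.eigenvalues i := by
  obtain ⟨U, h1, _, h3⟩ := eig_decomp hA
  conv_lhs => rw [h3]
  rw [rtr_mul_comm, ← Matrix.mul_assoc, h1, Matrix.one_mul, rtr_dg]

lemma psi_eig {Z : Matrix n n ℂ} (hZ : Z.PosSemidef) {s : ℝ} (hs : 0 < s) :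
    psi s Z = ∑ i, (hZ.1.eigenvalues i - s * Real.log (1 + hZ.1.eigenvalues i / s)) := by
  obtain ⟨U, h1, h2, h3⟩ := eig_decomp hZ.1
  have hz : ∀ i, 0 ≤ hZ.1.eigenvalues i := fun i => hZ.eigenvalues_nonneg i
  have e1 : (s : ℂ) • (1 : Matrix n n ℂ) + Z = U * dg (fun i => s + hZ.1.eigenvalues i) * Uᴴ := by
    have : (dg fun i => s + hZ.1.eigenvalues i) = (s : ℂ) • (1 : Matrix n n ℂ) + dg hZ.1.eigenvalues := by
      rw [smul_one_eq_dg, dg_add_dg]
    rw [this, Matrix.mul_add, Matrix.add_mul, ← h3, Matrix.mul_smul, Matrix.smul_mul,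
      Matrix.mul_one, h2]
  unfold psi
  rw [ldet_spec h1 (fun i => by have := hz i; linarith) e1, rtr_eig hZ.1, Finset.sum_sub_distrib,
    ← Finset.mul_sum]
  congr 2
  have : (Fintype.card n : ℝ) * Real.log s = ∑ _i : n, Real.log s := by simp
  rw [this, ← Finset.sum_sub_distrib]
  refine Finset.sum_congr rfl fun i _ => ?_
  rw [← Real.log_div (by have := hz i; linarith) hs.ne']
  congr 1; field_simp

/-- scalar input S1 (upper bound) -/
def ScalUpper (α : ℝ) : Prop :=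
  ∀ y s0 s1 : ℝ, 0 ≤ y → 0 < s0 → s0 ≤ s1 →
    (Real.sin (Real.pi * α) / Real.pi) * (1 + 1 / α) *
      (∫ s in s0..s1, s ^ (α - 1) * (y - s * Real.log (1 + y / s))) ≤ (1 / α) * y ^ (1 + α)

lemma psi_integral {α : ℝ} (hS1 : ScalUpper α) {Z : Matrix n n ℂ} (hZ : Z.PosSemidef) {s0 s1 : ℝ}
    (hs0 : 0 < s0) (h01 : s0 ≤ s1) :
    (Real.sin (Real.pi * α) / Real.pi) * (∫ s in s0..s1, s ^ (α - 1) * ((1 + 1 / α) * psi s Z))
      ≤ (1 / α) * rtr (cfc (fun t : ℝ => t ^ (1 + α)) Z) := by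
  have hz : ∀ i, 0 ≤ hZ.1.eigenvalues i := fun i => hZ.eigenvalues_nonneg i
  have hcont : ∀ i, ContinuousOn (fun s : ℝ => s ^ (α - 1) *
      (hZ.1.eigenvalues i - s * Real.log (1 + hZ.1.eigenvalues i / s))) (Icc s0 s1) := by
    intro i
    have hp : ∀ s ∈ Icc s0 s1, 0 < s := fun s hs => hs0.trans_le hs.1
    refine ContinuousOn.mul (continuousOn_id.rpow_const fun s hs => Or.inl (hp s hs).ne') ?_
    refine continuousOn_const.sub (continuousOn_id.mul (ContinuousOn.log ?_ ?_))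
    · exact continuousOn_const.add (continuousOn_const.div continuousOn_id fun s hs => (hp s hs).ne')
    · intro s hs
      have := div_nonneg (hz i) (hp s hs).le
      have h2 : 0 < 1 + hZ.1.eigenvalues i / s := by linarith
      exact h2.ne'
  have e : ∫ s in s0..s1, s ^ (α - 1) * ((1 + 1 / α) * psi s Z)
      = (1 + 1 / α) * ∑ i, ∫ s in s0..s1, s ^ (α - 1) *
        (hZ.1.eigenvalues i - s * Real.log (1 + hZ.1.eigenvalues i / s)) := by
    rw [← intervalIntegral.integral_finsetSum, ← intervalIntegral.integral_const_mul]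
    · refine intervalIntegral.integral_congr fun s hs => ?_
      rw [uIcc_of_le h01] at hs
      rw [psi_eig hZ (hs0.trans_le hs.1), ← Finset.mul_sum]; ring
    · intro i _
      apply ContinuousOn.intervalIntegrable
      rw [uIcc_of_le h01]; exact hcont i
  rw [e, rtr_cfc hZ.1, Finset.mul_sum, Finset.mul_sum, Finset.mul_sum]
  refine Finset.sum_le_sum fun i _ => ?_
  have := hS1 _ s0 s1 (hz i) hs0 h01
  rw [← mul_assoc]; exact this

/-- upper bound of the boundary term at small `s`. -/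
noncomputable def bnd (α : ℝ) (k : n → ℝ) (s : ℝ) : ℝ :=
  (1 / α) * s ^ α * ((∑ i, k i ^ 2) + 2 * s * (∑ i, Real.log (Real.sqrt (k i ^ 2 + s) + k i))
    - s * (Fintype.card n * Real.log s))

lemma EE_le_bnd {α : ℝ} (hα : 0 < α) {k : n → ℝ} (hk : ∀ i, 0 < k i) {F : Matrix n n ℂ}
    (h : Pt k F) {s : ℝ} (hs : 0 < s) : EE α k F s ≤ bnd α k s := by
  unfold EE bnd
  have h1 : rtr (Jm k F) ≤ ∑ i, k i ^ 2 := by
    unfold Jm
    rw [rtr_sub, dg_mul_dg, rtr_dg]
    have h2 := rtr_conjTranspose_mul_self_nonneg F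
    rw [h.herm.eq] at h2
    have : ∑ i, k i * k i = ∑ i, k i ^ 2 := Finset.sum_congr rfl fun i _ => by ring
    linarith
  have hpos : (dg fun i => Real.sqrt (k i ^ 2 + s) - k i).PosDef :=
    posDef_dg_iff.2 fun i => sub_pos.2 (lt_sqrt_add hs)
  have e0 : (dg fun i => Real.sqrt (k i ^ 2 + s) - k i) = Ms k s - dg k := by
    rw [← dg_sub_dg]; rfl
  have h3 : ldet (dg fun i => Real.sqrt (k i ^ 2 + s) - k i) ≤ ldet (Ms k s - F) := by
    refine ldet_mono hpos ?_
    rw [e0]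
    have : Ms k s - F - (Ms k s - dg k) = dg k - F := by abel
    rw [this]; exact h.sub
  have h4 : ldet (dg fun i => Real.sqrt (k i ^ 2 + s) - k i) ≤ ldet (Ms k s + F) := by
    refine ldet_mono hpos ?_
    rw [e0]
    have : Ms k s + F - (Ms k s - dg k) = dg k + F := by abel
    rw [this]; exact h.add
  have h5 : ldet (dg fun i => Real.sqrt (k i ^ 2 + s) - k i)
      = Fintype.card n * Real.log s - ∑ i, Real.log (Real.sqrt (k i ^ 2 + s) + k i) := by
    have hU : (1 : Matrix n n ℂ)ᴴ * 1 = 1 := by simp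
    rw [ldet_spec (ν := fun i => Real.sqrt (k i ^ 2 + s) - k i) hU
      (fun i => sub_pos.2 (lt_sqrt_add hs)) (by simp)]
    have : (Fintype.card n : ℝ) * Real.log s = ∑ _i : n, Real.log s := by simp
    rw [this, ← Finset.sum_sub_distrib]
    refine Finset.sum_congr rfl fun i _ => ?_
    have hp1 : 0 < Real.sqrt (k i ^ 2 + s) - k i := sub_pos.2 (lt_sqrt_add hs)
    have hp2 : 0 < Real.sqrt (k i ^ 2 + s) + k i := add_pos (Real.sqrt_pos.2 (by positivity)) (hk i)
    have hprod : s = (Real.sqrt (k i ^ 2 + s) - k i) * (Real.sqrt (k i ^ 2 + s) + k i) := by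
      have := Real.mul_self_sqrt (show 0 ≤ k i ^ 2 + s by positivity)
      nlinarith
    have : Real.log s = Real.log (Real.sqrt (k i ^ 2 + s) - k i)
        + Real.log (Real.sqrt (k i ^ 2 + s) + k i) := by
      rw [← Real.log_mul hp1.ne' hp2.ne', ← hprod]
    linarith
  have h6 : 0 ≤ 1 / α * s ^ α := by positivity
  refine mul_le_mul_of_nonneg_left ?_ h6
  unfold dd
  rw [h5] at h3 h4
  nlinarith [mul_le_mul_of_nonneg_left h3 hs.le, mul_le_mul_of_nonneg_left h4 hs.le]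

lemma tendsto_bnd {α : ℝ} (hα : 0 < α) (k : n → ℝ) (hk : ∀ i, 0 < k i) :
    Filter.Tendsto (fun s => bnd α k s) (nhdsWithin 0 (Ioi 0)) (nhds 0) := by
  unfold bnd
  have h1 : Filter.Tendsto (fun s : ℝ => s ^ α) (nhdsWithin 0 (Ioi 0)) (nhds 0) := by
    have : ContinuousAt (fun s : ℝ => s ^ α) 0 := Real.continuousAt_rpow_const 0 α (Or.inr hα.le)
    have h2 := this.tendsto
    rw [Real.zero_rpow hα.ne'] at h2
    exact h2.mono_left nhdsWithin_le_nhds
  have h3 : Filter.Tendsto (fun s : ℝ => s) (nhdsWithin 0 (Ioi 0)) (nhds 0) :=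
    Filter.tendsto_id.mono_left nhdsWithin_le_nhds
  have h4 : Filter.Tendsto (fun s : ℝ => ∑ i, Real.log (Real.sqrt (k i ^ 2 + s) + k i))
      (nhdsWithin 0 (Ioi 0)) (nhds (∑ i, Real.log (Real.sqrt (k i ^ 2 + 0) + k i))) := by
    have : ContinuousAt (fun s : ℝ => ∑ i, Real.log (Real.sqrt (k i ^ 2 + s) + k i)) 0 := by
      refine tendsto_finsetSum _ fun i _ => ?_
      have h5 : Real.sqrt (k i ^ 2 + 0) + k i ≠ 0 := by
        have := Real.sqrt_nonneg (k i ^ 2 + 0)
        have := hk i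
        positivity
      exact (ContinuousAt.log (f := fun s : ℝ => Real.sqrt (k i ^ 2 + s) + k i)
        (by fun_prop) h5).tendsto
    exact this.tendsto.mono_left nhdsWithin_le_nhds
  have h6 : Filter.Tendsto (fun s : ℝ => Real.log s * s) (nhdsWithin 0 (Ioi 0)) (nhds 0) := by
    have := tendsto_log_mul_rpow_nhdsGT_zero (r := 1) one_pos
    simpa using this
  have h7 := (h1.const_mul (1 / α)).mul
    (((h3.const_mul 2).mul h4).const_add (∑ i, k i ^ 2) |>.sub (h6.const_mul (Fintype.card n : ℝ)))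
  have h8 : (fun s : ℝ => (1 / α) * s ^ α * ((∑ i, k i ^ 2)
      + 2 * s * (∑ i, Real.log (Real.sqrt (k i ^ 2 + s) + k i))
      - s * (Fintype.card n * Real.log s)))
      = fun s : ℝ => (1 / α) * s ^ α * (((∑ i, k i ^ 2)
      + 2 * s * (∑ i, Real.log (Real.sqrt (k i ^ 2 + s) + k i)))
      - Fintype.card n * (Real.log s * s)) := by
    ext s; ring
  rw [h8]
  have e : 1 / α * 0 * (∑ i, k i ^ 2 + 2 * 0 *
      (∑ i, Real.log (Real.sqrt (k i ^ 2 + 0) + k i)) - (Fintype.card n : ℝ) * 0) = 0 := by ring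
  rw [e] at h7
  exact h7


/-- scalar input S2 (endpoint integral) -/
def ScalEndp (α : ℝ) : Prop :=
  ∀ k : ℝ, 0 < k → Filter.Tendsto (fun N : ℕ => (Real.sin (Real.pi * α) / Real.pi) *
    (∫ s in (1 / ((N : ℝ) + 1))..((N : ℝ) + 1), s ^ (α - 1) * endp k s)) Filter.atTop
    (nhds (k ^ (1 + 2 * α) * ∫ t in (-1 : ℝ)..1, (1 - t ^ 2) ^ α))

/-- the total deficit density -/
noncomputable def dfc (α : ℝ) (k : n → ℝ) (F Z : Matrix n n ℂ) (s : ℝ) : ℝ :=
  def1 (Ms k s) F + (1 + 1 / α) * def3 (Ms k s) F ((s : ℂ) • (1 : Matrix n n ℂ) + Z)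

lemma dfc_nonneg {α : ℝ} (hα : 0 < α) {k : n → ℝ} {F Z : Matrix n n ℂ} (h : Pt k F)
    (hZ : Z.PosSemidef) {s : ℝ} (hs : 0 < s) : 0 ≤ dfc α k F Z s := by
  obtain ⟨fr⟩ := h.frame hs
  have h1 := def1_nonneg (Ms k s) F
  have h2 := def3_nonneg fr (posDef_smul_add hs hZ)
  unfold dfc; positivity

section

variable {α L : ℝ} {k : n → ℝ} {F Z : ℝ → Matrix n n ℂ}

lemma Path.box_pt (h : Path α L k F Z) {s0 s1 : ℝ} :
    ∀ p ∈ (Icc (-L) L ×ˢ Icc s0 s1 : Set (ℝ × ℝ)), Pt k (F p.1) := fun p hp => h.hpt p.1 hp.1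

lemma comp_fst {f : ℝ → Matrix n n ℂ} {L s0 s1 : ℝ} (hf : ContinuousOn f (Icc (-L) L)) :
    ContinuousOn (fun p : ℝ × ℝ => f p.1) (Icc (-L) L ×ˢ Icc s0 s1) :=
  hf.comp continuous_fst.continuousOn fun _ hp => hp.1

lemma Path.cont_dfc (h : Path α L k F Z) {s0 s1 : ℝ} (hs0 : 0 < s0) :
    ContinuousOn (fun p : ℝ × ℝ => dfc α k (F p.1) (Z p.1) p.2) (Icc (-L) L ×ˢ Icc s0 s1) := by
  have hs : ∀ p ∈ (Icc (-L) L ×ˢ Icc s0 s1 : Set (ℝ × ℝ)), 0 < p.2 := fun p hp =>
    hs0.trans_le hp.2.1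
  have hF := comp_fst (s0 := s0) (s1 := s1) h.hFc
  have hZ := comp_fst (s0 := s0) (s1 := s1) h.hZc
  have h2 : ContinuousOn (fun p : ℝ × ℝ => p.2) (Icc (-L) L ×ˢ Icc s0 s1) :=
    continuous_snd.continuousOn
  unfold dfc
  exact (continuousOn_def1 hF h2 h.box_pt hs).add (continuousOn_const.mul
    (continuousOn_def3 hF h2 (continuousOn_sZ hZ h2)
      (fun p hp => posDef_smul_add (hs p hp) (h.hZp p.1 hp.1)) h.box_pt hs))

/-- the `T` term -/
noncomputable def TT (α : ℝ) (k : n → ℝ) (F Z : ℝ → Matrix n n ℂ) (x s : ℝ) : ℝ :=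
  -(rtr (Path.Fp α k F Z x) - s * lamTr (Ms k s) (F x) (Path.Fp α k F Z x))

lemma Path.cont_TT (h : Path α L k F Z) {s0 s1 : ℝ} (hs0 : 0 < s0) :
    ContinuousOn (fun p : ℝ × ℝ => TT α k F Z p.1 p.2) (Icc (-L) L ×ˢ Icc s0 s1) := by
  have hs : ∀ p ∈ (Icc (-L) L ×ˢ Icc s0 s1 : Set (ℝ × ℝ)), 0 < p.2 := fun p hp =>
    hs0.trans_le hp.2.1
  have hF := comp_fst (s0 := s0) (s1 := s1) h.hFc
  have hFp := comp_fst (s0 := s0) (s1 := s1) h.continuousOn_Fp
  have h2 : ContinuousOn (fun p : ℝ × ℝ => p.2) (Icc (-L) L ×ˢ Icc s0 s1) :=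
    continuous_snd.continuousOn
  unfold TT
  exact ((continuousOn_rtr hFp).sub (h2.mul (continuousOn_lamTr hF h2 hFp h.box_pt hs))).neg

lemma cont_rpow {a s0 s1 : ℝ} (hs0 : 0 < s0) :
    ContinuousOn (fun s : ℝ => s ^ a) (Icc s0 s1) :=
  continuousOn_id.rpow_const fun s hs => Or.inl (hs0.trans_le hs.1).ne'

lemma cont_rpow2 {a L s0 s1 : ℝ} (hs0 : 0 < s0) :
    ContinuousOn (fun p : ℝ × ℝ => p.2 ^ a) (Icc (-L) L ×ˢ Icc s0 s1) :=
  (cont_rpow (s1 := s1) hs0).comp continuous_snd.continuousOn fun _ hp => hp.2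

lemma slice {f : ℝ × ℝ → ℝ} {L s0 s1 : ℝ} (hf : ContinuousOn f (Icc (-L) L ×ˢ Icc s0 s1))
    {x : ℝ} (hx : x ∈ Icc (-L) L) : ContinuousOn (fun s => f (x, s)) (Icc s0 s1) :=
  hf.comp (by fun_prop) fun _ hs => ⟨hx, hs⟩

lemma iint {f : ℝ → ℝ} {a b : ℝ} (hab : a ≤ b) (hf : ContinuousOn f (Icc a b)) :
    IntervalIntegrable f volume a b := by
  apply ContinuousOn.intervalIntegrable
  rwa [uIcc_of_le hab]

/-- the s-integrated inequality at fixed x -/
lemma Path.pointwise (h : Path α L k F Z) (hα : 0 < α) (hS1 : ScalUpper α)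
    (hc : 0 ≤ Real.sin (Real.pi * α) / Real.pi) {s0 s1 : ℝ} (hs0 : 0 < s0)
    (h01 : s0 ≤ s1) {x : ℝ} (hx : x ∈ Icc (-L) L) :
    (Real.sin (Real.pi * α) / Real.pi) * ((∫ s in s0..s1, s ^ (α - 1) * TT α k F Z x s)
      + (EE α k (F x) s1 - EE α k (F x) s0)
      + ∫ s in s0..s1, s ^ α * dfc α k (F x) (Z x) s)
      ≤ (1 / α) * rtr (cfc (fun t : ℝ => t ^ (1 + α)) (Z x)) := by
  have hp : ∀ s ∈ Icc s0 s1, 0 < s := fun s hs => hs0.trans_le hs.1
  refine le_trans (mul_le_mul_of_nonneg_left ?_ hc) (psi_integral hS1 (h.hZp x hx) hs0 h01)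
  have hcs : ContinuousOn (fun s : ℝ => s) (Icc s0 s1) := continuousOn_id
  have cF : ContinuousOn (fun _ : ℝ => F x) (Icc s0 s1) := continuousOn_const
  have cE : ContinuousOn (fun s : ℝ => s ^ (α - 1) * (rtr (Jm k (F x))
      - (1 / α) * s ^ 2 * dd' k (F x) s - (1 + 1 / α) * s * dd k (F x) s)) (Icc s0 s1) := by
    have h1 := continuousOn_dd' (k := k) cF hcs (fun _ _ => h.hpt x hx) hp
    have h2 := continuousOn_dd (k := k) cF hcs (fun _ _ => h.hpt x hx) hp
    refine (cont_rpow hs0).mul ((continuousOn_const.sub ?_).sub ?_)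
    · exact (continuousOn_const.mul (hcs.pow 2)).mul h1
    · exact (continuousOn_const.mul hcs).mul h2
  have hEE : EE α k (F x) s1 - EE α k (F x) s0 = ∫ s in s0..s1, s ^ (α - 1) * (rtr (Jm k (F x))
      - (1 / α) * s ^ 2 * dd' k (F x) s - (1 + 1 / α) * s * dd k (F x) s) := by
    refine (intervalIntegral.integral_eq_sub_of_hasDerivAt (f := fun s => EE α k (F x) s)
      (fun s hs => ?_) (iint h01 cE)).symm
    rw [uIcc_of_le h01] at hs
    exact hasDerivAt_EE hα (h.hpt x hx) (hp s hs)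
  have cT : ContinuousOn (fun s : ℝ => s ^ (α - 1) * TT α k F Z x s) (Icc s0 s1) :=
    (cont_rpow hs0).mul (slice (h.cont_TT hs0) hx)
  have cD : ContinuousOn (fun s : ℝ => s ^ α * dfc α k (F x) (Z x) s) (Icc s0 s1) :=
    (cont_rpow hs0).mul (slice (h.cont_dfc hs0) hx)
  have cP : ContinuousOn (fun s : ℝ => s ^ (α - 1) * ((1 + 1 / α) * psi s (Z x))) (Icc s0 s1) :=
    (cont_rpow hs0).mul (continuousOn_const.mul
      (continuousOn_psi continuousOn_const hcs (fun _ _ => h.hZp x hx) hp))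
  rw [hEE, ← intervalIntegral.integral_add (iint h01 cT) (iint h01 cE),
    ← intervalIntegral.integral_add ((iint h01 cT).add (iint h01 cE)) (iint h01 cD)]
  refine intervalIntegral.integral_mono_on h01 (((iint h01 cT).add (iint h01 cE)).add (iint h01 cD))
    (iint h01 cP) fun s hs => ?_
  have hsp := hp s hs
  have key := ps_ineq (r := 1 / α) (by positivity) hsp (h.hpt x hx)
    (F' := Path.Fp α k F Z x) (Z := Z x) rfl
  have e1 : s ^ α = s ^ (α - 1) * s := by
    rw [← Real.rpow_add_one hsp.ne']; congr 1; ring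
  have e2 : s ^ (α - 1) * TT α k F Z x s + s ^ (α - 1) * (rtr (Jm k (F x))
      - (1 / α) * s ^ 2 * dd' k (F x) s - (1 + 1 / α) * s * dd k (F x) s)
      + s ^ α * dfc α k (F x) (Z x) s
      = s ^ (α - 1) * (TT α k F Z x s + (rtr (Jm k (F x))
      - (1 / α) * s ^ 2 * dd' k (F x) s - (1 + 1 / α) * s * dd k (F x) s)
      + s * dfc α k (F x) (Z x) s) := by rw [e1]; ring
  rw [e2]
  refine mul_le_mul_of_nonneg_left ?_ (Real.rpow_nonneg hsp.le _)
  unfold TT dfc
  exact key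

/-- **The N-channel theorem** with deficits, window `[t0, t1]`. -/
theorem channel (h : Path α L k F Z) (hα : 0 < α) (hα1 : α < 1) (hk : ∀ i, 0 < k i)
    (hS1 : ScalUpper α) (hS2 : ScalEndp α)
    (hInt : IntervalIntegrable (fun x => rtr (cfc (fun t : ℝ => t ^ (1 + α)) (Z x))) volume (-L) L)
    {t0 t1 : ℝ} (ht0 : 0 < t0) (ht : t0 ≤ t1) :
    (∑ i, k i ^ (1 + 2 * α)) * (∫ t in (-1 : ℝ)..1, (1 - t ^ 2) ^ α)
      + (Real.sin (Real.pi * α) / Real.pi) *
        (∫ x in (-L)..L, ∫ s in t0..t1, s ^ α * dfc α k (F x) (Z x) s)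
      ≤ (1 / α) * ∫ x in (-L)..L, rtr (cfc (fun t : ℝ => t ^ (1 + α)) (Z x)) := by
  have hLL : -L ≤ L := by linarith [h.hL]
  set c : ℝ := Real.sin (Real.pi * α) / Real.pi with hcdef
  have hc : 0 ≤ c := by
    refine div_nonneg (Real.sin_nonneg_of_nonneg_of_le_pi ?_ ?_) Real.pi_pos.le
    · have := Real.pi_pos; positivity
    · have := Real.pi_pos; nlinarith
  set D : ℝ := ∫ x in (-L)..L, ∫ s in t0..t1, s ^ α * dfc α k (F x) (Z x) s with hD
  -- inequality for each large N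
  have hN : ∀ᶠ N : ℕ in Filter.atTop,
      c * (∫ s in (1 / ((N : ℝ) + 1))..((N : ℝ) + 1), s ^ (α - 1) * ∑ i, endp (k i) s)
        - c * (2 * L * bnd α k (1 / ((N : ℝ) + 1))) + c * D
      ≤ (1 / α) * ∫ x in (-L)..L, rtr (cfc (fun t : ℝ => t ^ (1 + α)) (Z x)) := by
    obtain ⟨N0, hN0⟩ := exists_nat_gt (max (1 / t0) t1)
    filter_upwards [Filter.eventually_ge_atTop N0] with N hN
    have hNr : (N0 : ℝ) ≤ N := by exact_mod_cast hN
    set s0 : ℝ := 1 / ((N : ℝ) + 1) with hs0def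
    set s1 : ℝ := (N : ℝ) + 1 with hs1def
    have hs1 : 1 ≤ s1 := by rw [hs1def]; have : (0 : ℝ) ≤ N := Nat.cast_nonneg N; linarith
    have hs0 : 0 < s0 := by rw [hs0def]; positivity
    have hs0t : s0 ≤ t0 := by
      have h1 : 1 / t0 < s1 := lt_of_lt_of_le ((le_max_left _ _).trans_lt hN0) (by linarith)
      rw [hs0def, div_le_iff₀ (by positivity)]
      rw [div_lt_iff₀ ht0] at h1
      linarith
    have ht1 : t1 ≤ s1 := by
      have h1 : t1 < N0 := (le_max_right _ _).trans_lt hN0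
      linarith
    have h01 : s0 ≤ s1 := hs0t.trans (ht.trans ht1)
    have cT : ContinuousOn (fun p : ℝ × ℝ => p.2 ^ (α - 1) * TT α k F Z p.1 p.2)
        (Icc (-L) L ×ˢ Icc s0 s1) := (cont_rpow2 hs0).mul (h.cont_TT hs0)
    have cD : ContinuousOn (fun p : ℝ × ℝ => p.2 ^ α * dfc α k (F p.1) (Z p.1) p.2)
        (Icc (-L) L ×ˢ Icc s0 s1) := (cont_rpow2 hs0).mul (h.cont_dfc hs0)
    have cD' : ContinuousOn (fun p : ℝ × ℝ => p.2 ^ α * dfc α k (F p.1) (Z p.1) p.2)
        (Icc (-L) L ×ˢ Icc t0 t1) := (cont_rpow2 ht0).mul (h.cont_dfc ht0)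
    have iT : IntervalIntegrable (fun x => ∫ s in s0..s1, s ^ (α - 1) * TT α k F Z x s)
        volume (-L) L := iint hLL (continuousOn_param h01 cT)
    have iD : IntervalIntegrable (fun x => ∫ s in s0..s1, s ^ α * dfc α k (F x) (Z x) s)
        volume (-L) L := iint hLL (continuousOn_param h01 cD)
    have iD' : IntervalIntegrable (fun x => ∫ s in t0..t1, s ^ α * dfc α k (F x) (Z x) s)
        volume (-L) L := iint hLL (continuousOn_param ht cD')
    -- pointwise lower bound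
    have hpt : ∀ x ∈ Icc (-L) L,
        c * (∫ s in s0..s1, s ^ (α - 1) * TT α k F Z x s) - c * bnd α k s0
          + c * (∫ s in t0..t1, s ^ α * dfc α k (F x) (Z x) s)
        ≤ (1 / α) * rtr (cfc (fun t : ℝ => t ^ (1 + α)) (Z x)) := by
      intro x hx
      have h1 := h.pointwise hα hS1 hc hs0 h01 hx
      have h2 : 0 ≤ EE α k (F x) s1 := by
        unfold EE
        have := mul_dd_le (h.hpt x hx) (lt_of_lt_of_le one_pos hs1)
        have h3 : 0 ≤ 1 / α * s1 ^ α := by positivity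
        exact mul_nonneg h3 (by linarith)
      have h3 := EE_le_bnd hα hk (h.hpt x hx) hs0
      have h4 : (∫ s in t0..t1, s ^ α * dfc α k (F x) (Z x) s)
          ≤ ∫ s in s0..s1, s ^ α * dfc α k (F x) (Z x) s := by
        refine intervalIntegral.integral_mono_interval hs0t ht ht1 ?_ (iint h01 (slice cD hx))
        refine (ae_restrict_iff' measurableSet_Ioc).2 (Filter.Eventually.of_forall fun s hs => ?_)
        have hsp : 0 < s := hs0.trans hs.1
        exact mul_nonneg (Real.rpow_nonneg hsp.le _) (dfc_nonneg hα (h.hpt x hx) (h.hZp x hx) hsp)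
      calc c * (∫ s in s0..s1, s ^ (α - 1) * TT α k F Z x s) - c * bnd α k s0
          + c * (∫ s in t0..t1, s ^ α * dfc α k (F x) (Z x) s)
          = c * ((∫ s in s0..s1, s ^ (α - 1) * TT α k F Z x s) - bnd α k s0
            + ∫ s in t0..t1, s ^ α * dfc α k (F x) (Z x) s) := by ring
        _ ≤ c * ((∫ s in s0..s1, s ^ (α - 1) * TT α k F Z x s)
            + (EE α k (F x) s1 - EE α k (F x) s0)
            + ∫ s in s0..s1, s ^ α * dfc α k (F x) (Z x) s) :=
            mul_le_mul_of_nonneg_left (by linarith) hc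
        _ ≤ _ := h1
    have hmono := intervalIntegral.integral_mono_on hLL
      (((iT.const_mul c).sub (_root_.intervalIntegrable_const (c := c * bnd α k s0))).add
        (iD'.const_mul c)) (hInt.const_mul (1 / α)) hpt
    rw [intervalIntegral.integral_add ((iT.const_mul c).sub intervalIntegrable_const)
      (iD'.const_mul c), intervalIntegral.integral_sub (iT.const_mul c) intervalIntegrable_const,
      intervalIntegral.integral_const_mul, intervalIntegral.integral_const_mul,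
      intervalIntegral.integral_const_mul, intervalIntegral.integral_const] at hmono
    have hsw : ∫ x in (-L)..L, ∫ s in s0..s1, s ^ (α - 1) * TT α k F Z x s
        = ∫ s in s0..s1, s ^ (α - 1) * ∑ i, endp (k i) s := by
      rw [integral_swap_box hLL h01 cT]
      refine intervalIntegral.integral_congr fun s hs => ?_
      rw [uIcc_of_le h01] at hs
      have hsp : 0 < s := hs0.trans_le hs.1
      rw [intervalIntegral.integral_const_mul]
      congr 1
      exact h.T_integral hsp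
    rw [hsw] at hmono
    have e : (L - -L) • bnd α k s0 = 2 * L * bnd α k s0 := by
      rw [smul_eq_mul]; ring
    rw [e, intervalIntegral.integral_const_mul] at hmono
    exact hmono
  -- the limit
  have hlim1 : Filter.Tendsto (fun N : ℕ =>
      c * (∫ s in (1 / ((N : ℝ) + 1))..((N : ℝ) + 1), s ^ (α - 1) * ∑ i, endp (k i) s))
      Filter.atTop (nhds ((∑ i, k i ^ (1 + 2 * α)) * ∫ t in (-1 : ℝ)..1, (1 - t ^ 2) ^ α)) := by
    have h1 : Filter.Tendsto (fun N : ℕ => ∑ i, c *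
        (∫ s in (1 / ((N : ℝ) + 1))..((N : ℝ) + 1), s ^ (α - 1) * endp (k i) s))
        Filter.atTop (nhds (∑ i, k i ^ (1 + 2 * α) * ∫ t in (-1 : ℝ)..1, (1 - t ^ 2) ^ α)) :=
      tendsto_finsetSum _ fun i _ => hS2 (k i) (hk i)
    rw [← Finset.sum_mul] at h1
    refine h1.congr fun N => ?_
    rw [← Finset.mul_sum, ← intervalIntegral.integral_finsetSum]
    · simp only [Finset.mul_sum]
    · intro i _
      have hs0 : 0 < 1 / ((N : ℝ) + 1) := by positivity
      have h01 : 1 / ((N : ℝ) + 1) ≤ (N : ℝ) + 1 := by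
        have : (1 : ℝ) ≤ (N : ℝ) + 1 := by have : (0 : ℝ) ≤ N := Nat.cast_nonneg N; linarith
        rw [div_le_iff₀ (by positivity)]; nlinarith
      refine iint h01 ((cont_rpow hs0).mul ?_)
      unfold endp
      have hp : ∀ s ∈ Icc (1 / ((N : ℝ) + 1)) ((N : ℝ) + 1), 0 < s := fun s hs => hs0.trans_le hs.1
      have hsq : ∀ s ∈ Icc (1 / ((N : ℝ) + 1)) ((N : ℝ) + 1), 0 < Real.sqrt (k i ^ 2 + s) :=
        fun s hs => Real.sqrt_pos.2 (by have := hp s hs; positivity)
      have hsub : ∀ s ∈ Icc (1 / ((N : ℝ) + 1)) ((N : ℝ) + 1), 0 < Real.sqrt (k i ^ 2 + s) - k i :=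
        fun s hs => sub_pos.2 (lt_sqrt_add (hp s hs))
      refine continuousOn_const.sub (ContinuousOn.mul ?_ (ContinuousOn.log ?_ ?_))
      · exact continuousOn_id.div (by fun_prop) fun s hs => (hsq s hs).ne'
      · exact ContinuousOn.div (by fun_prop) (by fun_prop) fun s hs => (hsub s hs).ne'
      · intro s hs
        have h2 := hsub s hs
        have h3 : 0 < Real.sqrt (k i ^ 2 + s) + k i := add_pos (hsq s hs) (hk i)
        exact (div_pos h3 h2).ne'
  have hlim2 : Filter.Tendsto (fun N : ℕ => c * (2 * L * bnd α k (1 / ((N : ℝ) + 1))))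
      Filter.atTop (nhds (c * (2 * L * 0))) := by
    refine Filter.Tendsto.const_mul _ (Filter.Tendsto.const_mul _ ?_)
    refine (tendsto_bnd hα k hk).comp ?_
    refine tendsto_nhdsWithin_iff.2 ⟨tendsto_one_div_add_atTop_nhds_zero_nat, ?_⟩
    exact Filter.Eventually.of_forall fun N => by
      show (0 : ℝ) < 1 / ((N : ℝ) + 1)
      positivity
  have hlim := (hlim1.sub hlim2).add_const (c * D)
  have := le_of_tendsto hlim hN
  linarith

end

end Crest.Agent.R332.Chan
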