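import Crest.Agent.R332.TrIneq

/-! # Row 332: intertwining, rectangular matrices, continuity of the functional calculus -/

set_option autoImplicit false
set_option linter.unusedSectionVars false

namespace Crest.Agent.R332

open Matrix Unitary
open scoped ComplexOrder Topology

variable {n : Type*} [Fintype n] [DecidableEq n]
variable {m : Type*} [Fintype m] [DecidableEq m]

/-- If `A X = X B` (A, B Hermitian) then `f(A) X = X f(B)`. -/
lemma cfc_intertwine {A : Matrix m m ℂ} {B : Matrix n n ℂ} (hA : A.IsHermitian)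
    (hB : B.IsHermitian) {X : Matrix m n ℂ} (h : A * X = X * B) (f : ℝ → ℝ) :
    cfc f A * X = X * cfc f B := by
  set U : Matrix m m ℂ := (hA.eigenvectorUnitary : Matrix m m ℂ) with hU
  set V : Matrix n n ℂ := (hB.eigenvectorUnitary : Matrix n n ℂ) with hV
  have hU1 : Uᴴ * U = 1 := unitary_conj_mul hA
  have hU2 : U * Uᴴ = 1 := unitary_mul_conj hA
  have hV1 : Vᴴ * V = 1 := unitary_conj_mul hB
  have hV2 : V * Vᴴ = 1 := unitary_mul_conj hB
  set T : Matrix m n ℂ := Uᴴ * X * V with hT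
  have hX : X = U * T * Vᴴ := by
    rw [hT]
    calc X = (U * Uᴴ) * X * (V * Vᴴ) := by rw [hU2, hV2, Matrix.one_mul, Matrix.mul_one]
      _ = U * (Uᴴ * X * V) * Vᴴ := by simp only [Matrix.mul_assoc]
  have key : diagonal (fun i => ((hA.eigenvalues i : ℝ) : ℂ)) * T =
      T * diagonal (fun i => ((hB.eigenvalues i : ℝ) : ℂ)) := by
    have h1 := eq_conj hA
    have h2 := eq_conj hB
    have h3 : Uᴴ * (A * X) * V = Uᴴ * (X * B) * V := by rw [h]
    have h4 : Uᴴ * (A * X) * V = diagonal (fun i => ((hA.eigenvalues i : ℝ) : ℂ)) * T := by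
      conv_lhs => rw [h1]
      calc Uᴴ * (U * diagonal (fun i => ((hA.eigenvalues i : ℝ) : ℂ)) * Uᴴ * X) * V
          = (Uᴴ * U) * (diagonal (fun i => ((hA.eigenvalues i : ℝ) : ℂ)) * (Uᴴ * X * V)) := by
            simp only [Matrix.mul_assoc]
        _ = _ := by rw [hU1, Matrix.one_mul]
    have h5 : Uᴴ * (X * B) * V = T * diagonal (fun i => ((hB.eigenvalues i : ℝ) : ℂ)) := by
      conv_lhs => rw [h2]
      calc Uᴴ * (X * (V * diagonal (fun i => ((hB.eigenvalues i : ℝ) : ℂ)) * Vᴴ)) * V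
          = (Uᴴ * X * V) * diagonal (fun i => ((hB.eigenvalues i : ℝ) : ℂ)) * (Vᴴ * V) := by
            simp only [Matrix.mul_assoc]
        _ = _ := by rw [hV1, Matrix.mul_one]
    rw [← h4, ← h5, h3]
  have key2 : diagonal (fun i => ((f (hA.eigenvalues i) : ℝ) : ℂ)) * T =
      T * diagonal (fun i => ((f (hB.eigenvalues i) : ℝ) : ℂ)) := by
    ext i j
    have h1 := congrFun (congrFun key i) j
    rw [Matrix.diagonal_mul, Matrix.mul_diagonal] at h1 ⊢
    by_cases h0 : T i j = 0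
    · simp [h0]
    · have h2 : ((hA.eigenvalues i : ℝ) : ℂ) = ((hB.eigenvalues j : ℝ) : ℂ) := by
        apply mul_right_cancel₀ h0
        rw [h1, mul_comm]
      have h3 : hA.eigenvalues i = hB.eigenvalues j := by exact_mod_cast h2
      rw [h3, mul_comm]
  rw [cfc_eq_conj hA, cfc_eq_conj hB]
  change U * diagonal (fun i => ((f (hA.eigenvalues i) : ℝ) : ℂ)) * Uᴴ * X =
    X * (V * diagonal (fun i => ((f (hB.eigenvalues i) : ℝ) : ℂ)) * Vᴴ)
  rw [hX]
  calc U * diagonal (fun i => ((f (hA.eigenvalues i) : ℝ) : ℂ)) * Uᴴ * (U * T * Vᴴ)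
      = U * (diagonal (fun i => ((f (hA.eigenvalues i) : ℝ) : ℂ)) * ((Uᴴ * U) * T)) * Vᴴ := by
        simp only [Matrix.mul_assoc]
    _ = U * (T * diagonal (fun i => ((f (hB.eigenvalues i) : ℝ) : ℂ))) * Vᴴ := by
        rw [hU1, Matrix.one_mul, key2]
    _ = U * T * (Vᴴ * V) * diagonal (fun i => ((f (hB.eigenvalues i) : ℝ) : ℂ)) * Vᴴ := by
        rw [hV1, Matrix.mul_one]; simp only [Matrix.mul_assoc]
    _ = U * T * Vᴴ * (V * diagonal (fun i => ((f (hB.eigenvalues i) : ℝ) : ℂ)) * Vᴴ) := by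
        simp only [Matrix.mul_assoc]

lemma conj_posSemidef (X : Matrix m n ℂ) : (Xᴴ * X).PosSemidef :=
  Matrix.posSemidef_conjTranspose_mul_self X

lemma self_conj_posSemidef (X : Matrix m n ℂ) : (X * Xᴴ).PosSemidef :=
  Matrix.posSemidef_self_mul_conjTranspose X

/-- `f(ΨΨᴴ) Ψ = Ψ f(ΨᴴΨ)`. -/
lemma cfc_rect (X : Matrix m n ℂ) (f : ℝ → ℝ) :
    cfc f (X * Xᴴ) * X = X * cfc f (Xᴴ * X) :=
  cfc_intertwine (self_conj_posSemidef X).1 (conj_posSemidef X).1 (Matrix.mul_assoc _ _ _) f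

lemma mpow_rect (X : Matrix m n ℂ) (q : ℝ) :
    mpow (X * Xᴴ) q * X = X * mpow (Xᴴ * X) q := cfc_rect X _

lemma rtr_mul_cfc {A : Matrix n n ℂ} (hA : A.IsHermitian) (f : ℝ → ℝ) :
    rtr (cfc f A * A) = rtr (cfc (fun t => f t * t) A) := by
  rw [cfc_mul', cfc_self hA]

lemma rtr_cfc_rect (X : Matrix m n ℂ) (f : ℝ → ℝ) :
    rtr (cfc (fun t => f t * t) (X * Xᴴ)) = rtr (cfc (fun t => f t * t) (Xᴴ * X)) := by
  rw [cfc_mul', cfc_mul', cfc_self (self_conj_posSemidef X).1, cfc_self (conj_posSemidef X).1,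
    ← Matrix.mul_assoc, cfc_rect, rtr_mul_comm, ← Matrix.mul_assoc, rtr_mul_comm]

lemma mpow_eq_mul {A : Matrix n n ℂ} (hA : A.PosSemidef) {q : ℝ} (hq : 0 < q) :
    mpow A q = cfc (fun t : ℝ => t ^ (q - 1) * t) A := by
  refine cfc_congr_eig hA.1 fun i => ?_
  rcases (hA.eigenvalues_nonneg i).eq_or_lt with h | h
  · rw [← h, mul_zero, Real.zero_rpow hq.ne']
  · rw [Real.rpow_sub_one h.ne']; field_simp

/-- `tr (ΨΨᴴ)^q = tr (ΨᴴΨ)^q`. -/
lemma trp_rect (X : Matrix m n ℂ) {q : ℝ} (hq : 0 < q) :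
    trp (X * Xᴴ) q = trp (Xᴴ * X) q := by
  rw [trp, trp, mpow_eq_mul (self_conj_posSemidef X) hq, mpow_eq_mul (conj_posSemidef X) hq]
  exact rtr_cfc_rect X _

open scoped Matrix.Norms.L2Operator in
/-- Continuity of `x ↦ f(A x)` for a continuous Hermitian family. -/
lemma continuous_cfc_comp {T : Type*} [TopologicalSpace T] {A : T → Matrix n n ℂ}
    (hA : Continuous A) (hAh : ∀ x, (A x).IsHermitian) {f : ℝ → ℝ} (hf : Continuous f) :
    Continuous (fun x => cfc f (A x)) :=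
  Continuous.cfc_of_mem_nhdsSet (s := Set.univ) f Filter.univ_mem hA
    (fun x => hAh x) hf.continuousOn

open scoped Matrix.Norms.L2Operator in
lemma continuousOn_cfc_comp {T : Type*} [TopologicalSpace T] {A : T → Matrix n n ℂ} {S : Set T}
    (hA : ContinuousOn A S) (hAh : ∀ x ∈ S, (A x).IsHermitian) {f : ℝ → ℝ} (hf : Continuous f) :
    ContinuousOn (fun x => cfc f (A x)) S :=
  ContinuousOn.cfc_of_mem_nhdsSet (s := Set.univ) f Filter.univ_mem hA
    (fun x hx => hAh x hx) hf.continuousOn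

lemma continuous_mpow {T : Type*} [TopologicalSpace T] {A : T → Matrix n n ℂ}
    (hA : Continuous A) (hAh : ∀ x, (A x).IsHermitian) {q : ℝ} (hq : 0 ≤ q) :
    Continuous (fun x => mpow (A x) q) :=
  continuous_cfc_comp hA hAh (Real.continuous_rpow_const hq)

lemma continuousOn_mpow {T : Type*} [TopologicalSpace T] {A : T → Matrix n n ℂ} {S : Set T}
    (hA : ContinuousOn A S) (hAh : ∀ x ∈ S, (A x).IsHermitian) {q : ℝ} (hq : 0 ≤ q) :
    ContinuousOn (fun x => mpow (A x) q) S :=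
  continuousOn_cfc_comp hA hAh (Real.continuous_rpow_const hq)

open scoped Matrix.Norms.L2Operator in
/-- Powers of any exponent are continuous on positive definite families. -/
lemma continuousOn_mpow_posDef {T : Type*} [TopologicalSpace T] {A : T → Matrix n n ℂ} {S : Set T}
    (hA : ContinuousOn A S) (hAh : ∀ x ∈ S, (A x).PosDef) (q : ℝ) :
    ContinuousOn (fun x => mpow (A x) q) S := by
  refine ContinuousOn.cfc_of_mem_nhdsSet (s := Set.Ioi 0) (fun t : ℝ => t ^ q) ?_ hA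
    (fun x hx => (hAh x hx).1) ?_
  · refine (isOpen_Ioi.mem_nhdsSet).2 ?_
    intro t ht
    simp only [Set.mem_iUnion] at ht
    obtain ⟨x, hx, ht⟩ := ht
    rw [(hAh x hx).1.spectrum_real_eq_range_eigenvalues] at ht
    obtain ⟨i, rfl⟩ := ht
    exact (hAh x hx).eigenvalues_pos i
  · exact fun t ht => (Real.continuousAt_rpow_const t q (Or.inl (ne_of_gt ht))).continuousWithinAt

lemma continuous_rtr {T : Type*} [TopologicalSpace T] {A : T → Matrix n n ℂ}
    (hA : Continuous A) : Continuous (fun x => rtr (A x)) :=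
  Complex.continuous_re.comp (Continuous.matrix_trace hA)

lemma continuousOn_rtr {T : Type*} [TopologicalSpace T] {A : T → Matrix n n ℂ} {S : Set T}
    (hA : ContinuousOn A S) : ContinuousOn (fun x => rtr (A x)) S := by
  have h : Continuous (fun B : Matrix n n ℂ => rtr B) := continuous_rtr continuous_id
  exact h.comp_continuousOn hA

lemma continuous_trp {T : Type*} [TopologicalSpace T] {A : T → Matrix n n ℂ}
    (hA : Continuous A) (hAh : ∀ x, (A x).IsHermitian) {q : ℝ} (hq : 0 ≤ q) :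
    Continuous (fun x => trp (A x) q) := continuous_rtr (continuous_mpow hA hAh hq)

/-- Unitary conjugation commutes with the functional calculus. -/
lemma cfc_conj {A : Matrix n n ℂ} (hA : A.IsHermitian) {U : Matrix n n ℂ} (h1 : Uᴴ * U = 1)
    (h2 : U * Uᴴ = 1) (f : ℝ → ℝ) : cfc f (U * A * Uᴴ) = U * cfc f A * Uᴴ := by
  have hB : (U * A * Uᴴ).IsHermitian := Matrix.isHermitian_mul_mul_conjTranspose U hA
  have h := cfc_intertwine hB hA (X := U) (by
    rw [Matrix.mul_assoc, h1, Matrix.mul_one]) f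
  calc cfc f (U * A * Uᴴ) = cfc f (U * A * Uᴴ) * (U * Uᴴ) := by rw [h2, Matrix.mul_one]
    _ = cfc f (U * A * Uᴴ) * U * Uᴴ := by rw [← Matrix.mul_assoc (cfc f (U * A * Uᴴ)) U Uᴴ]
    _ = U * cfc f A * Uᴴ := by rw [h]

lemma cfc_diag_eq (d : n → ℝ) (f : ℝ → ℝ) :
    cfc f (diagonal (fun i => ((d i : ℝ) : ℂ))) = diagonal (fun i => ((f (d i) : ℝ) : ℂ)) := by
  have hD : (diagonal (fun i => ((d i : ℝ) : ℂ))).IsHermitian := by
    rw [Matrix.IsHermitian, Matrix.diagonal_conjTranspose]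
    congr 1
    funext i
    simp
  rw [cfc_eq_conj hD]
  set V : Matrix n n ℂ := (hD.eigenvectorUnitary : Matrix n n ℂ) with hV
  have hV1 : Vᴴ * V = 1 := unitary_conj_mul hD
  have hV2 : V * Vᴴ = 1 := unitary_mul_conj hD
  have key : diagonal (fun i => ((d i : ℝ) : ℂ)) * V =
      V * diagonal (fun i => ((hD.eigenvalues i : ℝ) : ℂ)) := by
    conv_lhs => rw [eq_conj hD]
    rw [Matrix.mul_assoc]
    change V * diagonal (fun i => ((hD.eigenvalues i : ℝ) : ℂ)) * (Vᴴ * V) = _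
    rw [hV1, Matrix.mul_one]
  have key2 : diagonal (fun i => ((f (d i) : ℝ) : ℂ)) * V =
      V * diagonal (fun i => ((f (hD.eigenvalues i) : ℝ) : ℂ)) := by
    ext i j
    have h1 := congrFun (congrFun key i) j
    rw [Matrix.diagonal_mul, Matrix.mul_diagonal] at h1 ⊢
    by_cases h0 : V i j = 0
    · simp [h0]
    · have h2 : ((d i : ℝ) : ℂ) = ((hD.eigenvalues j : ℝ) : ℂ) := by
        apply mul_right_cancel₀ h0
        rw [h1, mul_comm]
      have h3 : d i = hD.eigenvalues j := by exact_mod_cast h2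
      rw [h3, mul_comm]
  rw [← key2, Matrix.mul_assoc, hV2, Matrix.mul_one]

end Crest.Agent.R332
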