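import Crest.Agent.R332.ChanMain
import Crest.Agent.R332.TrRect

/-!
Row 332: rotation of the `N`-channel theorem from diagonal `K = dg k` to arbitrary positive
semidefinite `K` (index type any finite type).
-/

set_option autoImplicit false
set_option linter.unusedSectionVars false

namespace Crest.Agent.R332

open Matrix MeasureTheory Set
open scoped ComplexOrder

variable {ι : Type*} [Fintype ι] [DecidableEq ι]

/-- A full Riccati path for a general positive semidefinite `K`: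
`F' = K² - F² - (1+1/α) P^{1/α}`, `F(-L) = K`, `F(L) = -K`, `-K ≤ F ≤ K`. -/
structure GPath (α L : ℝ) (K : Matrix ι ι ℂ) (P F : ℝ → Matrix ι ι ℂ) : Prop where
  hL : 0 < L
  hPc : ContinuousOn P (Icc (-L) L)
  hPp : ∀ x ∈ Icc (-L) L, (P x).PosSemidef
  herm : ∀ x ∈ Icc (-L) L, (F x).IsHermitian
  sub : ∀ x ∈ Icc (-L) L, (K - F x).PosSemidef
  add : ∀ x ∈ Icc (-L) L, (K + F x).PosSemidef
  deriv : ∀ x ∈ Icc (-L) L, ∀ i j, HasDerivWithinAt (fun y => F y i j)
    ((K * K - F x * F x - (1 + 1 / α) • mpow (P x) (1 / α)) i j) (Icc (-L) L) x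
  h0 : F (-L) = K
  h1 : F L = -K

/-- unitary conjugation `Uᴴ A U` -/
noncomputable def cj (U A : Matrix ι ι ℂ) : Matrix ι ι ℂ := Uᴴ * A * U

section cj

variable {U : Matrix ι ι ℂ}

lemma cj_add (A B : Matrix ι ι ℂ) : cj U (A + B) = cj U A + cj U B := by
  simp only [cj, Matrix.mul_add, Matrix.add_mul]

lemma cj_sub (A B : Matrix ι ι ℂ) : cj U (A - B) = cj U A - cj U B := by
  simp only [cj, Matrix.mul_sub, Matrix.sub_mul]

lemma cj_neg (A : Matrix ι ι ℂ) : cj U (-A) = -cj U A := by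
  simp only [cj, Matrix.mul_neg, Matrix.neg_mul]

lemma cj_smul (c : ℂ) (A : Matrix ι ι ℂ) : cj U (c • A) = c • cj U A := by
  simp only [cj, Matrix.mul_smul, Matrix.smul_mul]

lemma cj_rsmul (c : ℝ) (A : Matrix ι ι ℂ) : cj U (c • A) = c • cj U A := by
  simp only [cj, Matrix.mul_smul, Matrix.smul_mul]

lemma cj_mul (h2 : U * Uᴴ = 1) (A B : Matrix ι ι ℂ) : cj U (A * B) = cj U A * cj U B := by
  unfold cj
  calc Uᴴ * (A * B) * U = Uᴴ * A * 1 * B * U := by simp only [Matrix.mul_one, Matrix.mul_assoc]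
    _ = Uᴴ * A * (U * Uᴴ) * B * U := by rw [h2]
    _ = Uᴴ * A * U * (Uᴴ * B * U) := by simp only [Matrix.mul_assoc]

lemma cj_conjTranspose (A : Matrix ι ι ℂ) : (cj U A)ᴴ = cj U Aᴴ := by
  simp only [cj, Matrix.conjTranspose_mul, Matrix.conjTranspose_conjTranspose, Matrix.mul_assoc]

lemma cj_one (h1 : Uᴴ * U = 1) : cj U (1 : Matrix ι ι ℂ) = 1 := by
  simp [cj, h1]

lemma cj_posSemidef {A : Matrix ι ι ℂ} (hA : A.PosSemidef) : (cj U A).PosSemidef :=
  hA.conjTranspose_mul_mul_same U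

lemma cj_isHermitian {A : Matrix ι ι ℂ} (hA : A.IsHermitian) : (cj U A).IsHermitian := by
  rw [Matrix.IsHermitian, cj_conjTranspose, hA.eq]

lemma rtr_cj (h2 : U * Uᴴ = 1) (A : Matrix ι ι ℂ) : rtr (cj U A) = rtr A := by
  unfold cj
  rw [rtr_mul_comm, ← Matrix.mul_assoc, h2, Matrix.one_mul]

lemma cj_cfc (h1 : Uᴴ * U = 1) (h2 : U * Uᴴ = 1) {A : Matrix ι ι ℂ} (hA : A.IsHermitian)
    (f : ℝ → ℝ) : cfc f (cj U A) = cj U (cfc f A) := by
  have h := cfc_conj (A := A) hA (U := Uᴴ) (by rw [conjTranspose_conjTranspose]; exact h2)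
    (by rw [conjTranspose_conjTranspose]; exact h1) f
  rw [conjTranspose_conjTranspose] at h
  exact h

lemma cj_mpow (h1 : Uᴴ * U = 1) (h2 : U * Uᴴ = 1) {A : Matrix ι ι ℂ} (hA : A.IsHermitian)
    (q : ℝ) : mpow (cj U A) q = cj U (mpow A q) := cj_cfc h1 h2 hA _

lemma trp_cj (h1 : Uᴴ * U = 1) (h2 : U * Uᴴ = 1) {A : Matrix ι ι ℂ} (hA : A.IsHermitian)
    (q : ℝ) : trp (cj U A) q = trp A q := by
  rw [trp, trp, cj_mpow h1 h2 hA, rtr_cj h2]

lemma cj_apply (A : Matrix ι ι ℂ) (i j : ι) :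
    cj U A i j = ∑ b, (∑ a, star (U a i) * A a b) * U b j := by
  simp [cj, Matrix.mul_apply, Matrix.conjTranspose_apply]

lemma continuousOn_cj {T : Type*} [TopologicalSpace T] {A : T → Matrix ι ι ℂ} {s : Set T}
    (hA : ContinuousOn A s) : ContinuousOn (fun x => cj U (A x)) s := by
  have h : Continuous (fun B : Matrix ι ι ℂ => cj U B) := by
    unfold cj
    exact (continuous_const.matrix_mul continuous_id).matrix_mul continuous_const
  exact h.comp_continuousOn hA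

lemma hasDerivWithinAt_cj {A : ℝ → Matrix ι ι ℂ} {A' : Matrix ι ι ℂ} {s : Set ℝ} {x : ℝ}
    (h : ∀ i j, HasDerivWithinAt (fun y => A y i j) (A' i j) s x) (i j : ι) :
    HasDerivWithinAt (fun y => cj U (A y) i j) (cj U A' i j) s x := by
  simp only [cj_apply]
  refine HasDerivWithinAt.fun_sum fun b _ => HasDerivWithinAt.mul_const ?_ _
  refine HasDerivWithinAt.fun_sum fun a _ => HasDerivWithinAt.const_mul _ ?_
  exact h a b

end cj

/-- Diagonalisation of a positive semidefinite matrix. -/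
lemma exists_diag {K : Matrix ι ι ℂ} (hK : K.IsHermitian) :
    ∃ (U : Matrix ι ι ℂ) (k : ι → ℝ), Uᴴ * U = 1 ∧ U * Uᴴ = 1 ∧ cj U K = Chan.dg k ∧
      K = U * Chan.dg k * Uᴴ := by
  obtain ⟨U, k, h1, h2, h3⟩ := Chan.exists_spectral hK
  refine ⟨U, k, h1, h2, ?_, h3⟩
  rw [h3]
  unfold cj Chan.dg
  calc Uᴴ * (U * diagonal (fun i => ((k i : ℝ) : ℂ)) * Uᴴ) * U
      = (Uᴴ * U) * diagonal (fun i => ((k i : ℝ) : ℂ)) * (Uᴴ * U) := by
        simp only [Matrix.mul_assoc]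
    _ = _ := by rw [h1, Matrix.one_mul, Matrix.mul_one]

lemma trp_eq_sum_cj {K : Matrix ι ι ℂ} (hK : K.IsHermitian) {U : Matrix ι ι ℂ} {k : ι → ℝ}
    (h1 : Uᴴ * U = 1) (h2 : U * Uᴴ = 1) (h3 : cj U K = Chan.dg k) (q : ℝ) :
    trp K q = ∑ i, k i ^ q := by
  rw [← trp_cj h1 h2 hK, h3, trp, mpow, Chan.dg, cfc_diag_eq, rtr]
  simp [Matrix.trace]

/-- The rotated path. -/
theorem GPath.toPath {α L : ℝ} {K : Matrix ι ι ℂ} {P F : ℝ → Matrix ι ι ℂ}
    (h : GPath α L K P F) (hα : 0 < α) {U : Matrix ι ι ℂ} {k : ι → ℝ}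
    (_h1 : Uᴴ * U = 1) (h2 : U * Uᴴ = 1) (h3 : cj U K = Chan.dg k) :
    Chan.Path α L k (fun x => cj U (F x)) (fun x => cj U (mpow (P x) (1 / α))) := by
  have hFc : ContinuousOn F (Icc (-L) L) := by
    refine continuousOn_pi.2 fun i => continuousOn_pi.2 fun j => ?_
    exact fun x hx => (h.deriv x hx i j).continuousWithinAt
  refine
    { hL := h.hL
      hFc := continuousOn_cj hFc
      hFd := ?_
      hpt := ?_
      hZc := continuousOn_cj (continuousOn_mpow h.hPc (fun x hx => (h.hPp x hx).1)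
        (by positivity))
      hZp := fun x hx => cj_posSemidef (mpow_posSemidef (h.hPp x hx) _)
      h0 := by show cj U (F (-L)) = _; rw [h.h0, h3]
      h1 := by show cj U (F L) = _; rw [h.h1, cj_neg, h3] }
  · intro x hx
    have hx' : x ∈ Icc (-L) L := ⟨hx.1.le, hx.2.le⟩
    have hd := fun i j => (hasDerivWithinAt_cj (U := U) (h.deriv x hx') i j).hasDerivAt
      (Icc_mem_nhds hx.1 hx.2)
    have key : HasDerivAt (fun y => (fun i j => cj U (F y) i j : ι → ι → ℂ))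
        (fun i j => cj U (K * K - F x * F x - (1 + 1 / α) • mpow (P x) (1 / α)) i j :
          ι → ι → ℂ) x :=
      hasDerivAt_pi.2 fun i => hasDerivAt_pi.2 fun j => hd i j
    have e : cj U (K * K - F x * F x - (1 + 1 / α) • mpow (P x) (1 / α)) =
        Chan.Jm k (cj U (F x)) - ((1 + 1 / α : ℝ) : ℂ) • cj U (mpow (P x) (1 / α)) := by
      rw [cj_sub, cj_sub, cj_mul h2, cj_mul h2, h3, cj_rsmul, Chan.Jm]
      congr 1
    have e' : (fun i j => cj U (K * K - F x * F x - (1 + 1 / α) • mpow (P x) (1 / α)) i j :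
        ι → ι → ℂ) = (Chan.Jm k (cj U (F x)) -
          ((1 + 1 / α : ℝ) : ℂ) • cj U (mpow (P x) (1 / α)) : Matrix ι ι ℂ) := by
      rw [← e]
    rw [e'] at key
    exact key
  · intro x hx
    refine ⟨cj_isHermitian (h.herm x hx), ?_, ?_⟩
    · rw [← h3, ← cj_sub]; exact cj_posSemidef (h.sub x hx)
    · rw [← h3, ← cj_add]; exact cj_posSemidef (h.add x hx)

end Crest.Agent.R332
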