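import Mathlib
import Crest.Agent.R332.ChanInt

/-!
Row 332, module A, scalar integrals (helper208).
-/

set_option autoImplicit false

namespace Crest.Agent.R332.Scal

open MeasureTheory Set Filter Topology Real

/-- the Beta integral on `(0,1)` -/
lemma integral_beta {p q : ℝ} (hp : 0 < p) (hq : 0 < q) :
    ∫ x in Ioo (0:ℝ) 1, x ^ (p - 1) * (1 - x) ^ (q - 1) = ProbabilityTheory.beta p q := by
  have h1 := ProbabilityTheory.lintegral_betaPDF_eq_one hp hq
  rw [ProbabilityTheory.lintegral_betaPDF] at h1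
  have hb : 0 < ProbabilityTheory.beta p q := ProbabilityTheory.beta_pos hp hq
  have h2 : ∫ x in Ioo (0:ℝ) 1,
      1 / ProbabilityTheory.beta p q * x ^ (p - 1) * (1 - x) ^ (q - 1) = 1 := by
    rw [integral_eq_lintegral_of_nonneg_ae, h1]
    · simp
    · refine ae_restrict_of_forall_mem measurableSet_Ioo (fun x hx ↦ ?_)
      have h1x : 0 ≤ x ^ (p - 1) := Real.rpow_nonneg hx.1.le _
      have h2x : 0 ≤ (1 - x) ^ (q - 1) := Real.rpow_nonneg (by linarith [hx.2]) _
      simp only [Pi.zero_apply]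
      positivity
    · exact Measurable.aestronglyMeasurable (by fun_prop)
  simp_rw [mul_assoc] at h2
  rw [integral_const_mul] at h2
  field_simp at h2
  linarith

lemma image_frac : (fun t : ℝ => t / (1 + t)) '' Ioi 0 = Ioo 0 1 := by
  ext x
  constructor
  · rintro ⟨t, ht, rfl⟩
    have ht' : (0:ℝ) < t := ht
    have h1 : 0 < 1 + t := by linarith
    exact ⟨div_pos ht' h1, by rw [div_lt_one h1]; linarith⟩
  · rintro ⟨h0, h1⟩
    have h2 : 0 < 1 - x := by linarith
    refine ⟨x / (1 - x), div_pos h0 h2, ?_⟩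
    simp only
    field_simp
    ring

/-- `∫_0^∞ t^{p-1}/(1+t) dt = π / sin (π p)` -/
lemma integral_K {p : ℝ} (hp : 0 < p) (hp1 : p < 1) :
    ∫ t in Ioi (0:ℝ), t ^ (p - 1) * 1 / (t + 1) = π / Real.sin (π * p) := by
  have hd : ∀ t ∈ Ioi (0:ℝ), HasDerivWithinAt (fun t : ℝ => t / (1 + t)) (1 / (1 + t) ^ 2)
      (Ioi 0) t := by
    intro t ht
    have ht' : (0:ℝ) < t := ht
    have h1 : 1 + t ≠ 0 := by linarith
    have h2 := (hasDerivAt_id t).div ((hasDerivAt_id t).const_add 1) h1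
    refine (h2.congr_deriv ?_).hasDerivWithinAt
    simp only [id]
    congr 1
    ring
  have hinj : InjOn (fun t : ℝ => t / (1 + t)) (Ioi 0) := by
    intro a ha b hb h
    have ha' : (0:ℝ) < a := ha
    have hb' : (0:ℝ) < b := hb
    have h1 : 1 + a ≠ 0 := by linarith
    have h2 : 1 + b ≠ 0 := by linarith
    simp only at h
    rw [div_eq_div_iff h1 h2] at h
    linarith
  have h := integral_image_eq_integral_abs_deriv_smul (s := Ioi 0) (f := fun t : ℝ => t / (1 + t))
    measurableSet_Ioi hd hinj (fun x : ℝ => x ^ (p - 1) * (1 - x) ^ ((1 - p) - 1))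
  rw [image_frac, integral_beta hp (by linarith : (0:ℝ) < 1 - p)] at h
  have h3 : ProbabilityTheory.beta p (1 - p) = π / Real.sin (π * p) := by
    unfold ProbabilityTheory.beta
    rw [Real.Gamma_mul_Gamma_one_sub]
    simp
  rw [← h3, h]
  refine setIntegral_congr_fun measurableSet_Ioi fun t ht => ?_
  have ht' : (0:ℝ) < t := ht
  have h1 : 0 < 1 + t := by linarith
  simp only [smul_eq_mul]
  have e1 : 1 - t / (1 + t) = (1 + t)⁻¹ := by field_simp; ring
  rw [e1, Real.div_rpow ht'.le h1.le, Real.inv_rpow h1.le, ← Real.rpow_neg h1.le,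
    abs_of_pos (by positivity)]
  have e2 : -(1 - p - 1) = p := by ring
  rw [e2, Real.rpow_sub_one h1.ne' p]
  have h4 : 0 < (1 + t) ^ p := Real.rpow_pos_of_pos h1 p
  field_simp
  ring

/-- the constant `c_α = sin (π α) / π` -/
noncomputable def cal (al : ℝ) : ℝ := Real.sin (Real.pi * al) / Real.pi

lemma cal_pos {al : ℝ} (hal : 0 < al) (hal1 : al < 1) : 0 < cal al := by
  unfold cal
  apply div_pos _ Real.pi_pos
  apply Real.sin_pos_of_pos_of_lt_pi
  · positivity
  · nlinarith [Real.pi_pos]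

lemma integrableOn_frac {al y : ℝ} (hal : 0 < al) (hal1 : al < 1) (hy : 0 ≤ y) :
    IntegrableOn (fun s : ℝ => s ^ (al - 1) * y / (s + y)) (Ioi 0) := by
  have h := Real.integrableOn_rpowIntegrand₀₁_Ioi (p := al) ⟨hal, hal1⟩ hy
  exact h.congr_fun (Real.rpowIntegrand₀₁_eqOn_pow_div ⟨hal, hal1⟩ hy) measurableSet_Ioi

/-- `c ∫_0^∞ s^{α-1} y/(s+y) ds = y^α` -/
lemma integral_frac {al y : ℝ} (hal : 0 < al) (hal1 : al < 1) (hy : 0 ≤ y) :
    cal al * ∫ s in Ioi (0:ℝ), s ^ (al - 1) * y / (s + y) = y ^ al := by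
  have h := Real.integral_rpowIntegrand₀₁_eq_rpow_mul_const (p := al) ⟨hal, hal1⟩ hy
  rw [setIntegral_congr_fun measurableSet_Ioi
      (Real.rpowIntegrand₀₁_eqOn_pow_div ⟨hal, hal1⟩ hy),
    setIntegral_congr_fun measurableSet_Ioi
      (Real.rpowIntegrand₀₁_eqOn_pow_div ⟨hal, hal1⟩ zero_le_one), integral_K hal hal1] at h
  rw [h]
  have h1 : 0 < Real.sin (π * al) := by
    apply Real.sin_pos_of_pos_of_lt_pi
    · positivity
    · nlinarith [Real.pi_pos]
  have h2 := Real.pi_pos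
  unfold cal
  field_simp

lemma frac_nonneg {al y s : ℝ} (hy : 0 ≤ y) (hs : 0 ≤ s) : 0 ≤ s ^ (al - 1) * y / (s + y) := by
  have := Real.rpow_nonneg hs (al - 1)
  positivity

/-- truncated integrals are bounded -/
lemma interval_frac_le {al y s0 s1 : ℝ} (hal : 0 < al) (hal1 : al < 1) (hy : 0 ≤ y)
    (hs0 : 0 ≤ s0) (h : s0 ≤ s1) :
    cal al * ∫ s in s0..s1, s ^ (al - 1) * y / (s + y) ≤ y ^ al := by
  rw [← integral_frac hal hal1 hy, intervalIntegral.integral_of_le h]
  refine mul_le_mul_of_nonneg_left ?_ (cal_pos hal hal1).le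
  refine setIntegral_mono_set (integrableOn_frac hal hal1 hy) ?_ ?_
  · exact ae_restrict_of_forall_mem measurableSet_Ioi fun s hs => frac_nonneg hy (le_of_lt hs)
  · have hsub : Ioc s0 s1 ⊆ Ioi 0 := fun s hs => lt_of_le_of_lt hs0 hs.1
    exact LE.le.eventuallyLE hsub

lemma interval_frac_nonneg {al y s0 s1 : ℝ} (hy : 0 ≤ y)
    (hs0 : 0 ≤ s0) (h : s0 ≤ s1) :
    0 ≤ ∫ s in s0..s1, s ^ (al - 1) * y / (s + y) :=
  intervalIntegral.integral_nonneg h fun s hs => frac_nonneg hy (hs0.trans hs.1)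

/-- the truncated integrals converge -/
lemma tendsto_frac {al y : ℝ} (hal : 0 < al) (hal1 : al < 1) (hy : 0 ≤ y) :
    Tendsto (fun N : ℕ => cal al * ∫ s in (1 / ((N:ℝ) + 1))..((N:ℝ) + 1),
      s ^ (al - 1) * y / (s + y)) atTop (𝓝 (y ^ al)) := by
  rw [← integral_frac hal hal1 hy]
  refine Tendsto.const_mul _ ?_
  have hle : ∀ N : ℕ, 1 / ((N:ℝ) + 1) ≤ (N:ℝ) + 1 := by
    intro N
    have h1 : (1:ℝ) ≤ (N:ℝ) + 1 := by linarith [Nat.cast_nonneg (α := ℝ) N]
    rw [div_le_iff₀ (by linarith)]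
    nlinarith
  have hun : (⋃ N : ℕ, Ioc (1 / ((N:ℝ) + 1)) ((N:ℝ) + 1)) = Ioi (0:ℝ) := by
    ext s
    simp only [mem_iUnion, mem_Ioc, mem_Ioi]
    constructor
    · rintro ⟨N, h1, -⟩
      exact lt_trans (by positivity) h1
    · intro hs
      obtain ⟨N1, h1⟩ := exists_nat_one_div_lt hs
      obtain ⟨N2, h2⟩ := exists_nat_ge s
      refine ⟨max N1 N2, ?_, ?_⟩
      · refine lt_of_le_of_lt ?_ h1
        have : ((N1:ℕ):ℝ) ≤ ((max N1 N2 : ℕ) : ℝ) := by exact_mod_cast le_max_left _ _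
        exact one_div_le_one_div_of_le (by positivity) (by linarith)
      · have : ((N2:ℕ):ℝ) ≤ ((max N1 N2 : ℕ) : ℝ) := by exact_mod_cast le_max_right _ _
        linarith
  have hmono : Monotone fun N : ℕ => Ioc (1 / ((N:ℝ) + 1)) ((N:ℝ) + 1) := by
    intro a b hab
    have hab' : (a:ℝ) ≤ (b:ℝ) := by exact_mod_cast hab
    refine Ioc_subset_Ioc ?_ (by linarith)
    exact one_div_le_one_div_of_le (by positivity) (by linarith)
  have hint : IntegrableOn (fun s : ℝ => s ^ (al - 1) * y / (s + y))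
      (⋃ N : ℕ, Ioc (1 / ((N:ℝ) + 1)) ((N:ℝ) + 1)) := by
    rw [hun]; exact integrableOn_frac hal hal1 hy
  have h := tendsto_setIntegral_of_monotone (fun N => measurableSet_Ioc) hmono hint
  rw [hun] at h
  refine h.congr fun N => ?_
  rw [intervalIntegral.integral_of_le (hle N)]

/-- `y - s log (1 + y/s) = ∫_0^y t/(s+t) dt` -/
lemma psi_eq {s y : ℝ} (hs : 0 < s) (hy : 0 ≤ y) :
    y - s * Real.log (1 + y / s) = ∫ t in (0:ℝ)..y, t / (s + t) := by
  have h1 : ∫ t in (0:ℝ)..y, t / (s + t)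
      = (y - s * Real.log (s + y)) - (0 - s * Real.log (s + 0)) := by
    refine intervalIntegral.integral_eq_sub_of_hasDerivAt
      (f := fun t => t - s * Real.log (s + t)) ?_ ?_
    · intro t ht
      rw [uIcc_of_le hy] at ht
      have h0 : s + t ≠ 0 := by linarith [ht.1]
      have h2 : HasDerivAt (fun t : ℝ => s + t) 1 t := by
        simpa using (hasDerivAt_id t).const_add s
      have h3 := (hasDerivAt_id t).sub ((h2.log h0).const_mul s)
      refine h3.congr_deriv ?_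
      field_simp
      ring
    · apply ContinuousOn.intervalIntegrable
      rw [uIcc_of_le hy]
      refine continuousOn_id.div (by fun_prop) fun t ht => ?_
      linarith [ht.1]
  rw [h1]
  have h4 : 1 + y / s = (s + y) / s := by field_simp
  rw [h4, Real.log_div (by linarith) hs.ne', add_zero]
  ring

lemma continuousOn_box {al s0 s1 a b : ℝ} (hs0 : 0 < s0) {g : ℝ → ℝ} (hg : Continuous g)
    (hg0 : ∀ t ∈ Icc a b, 0 ≤ g t) :
    ContinuousOn (fun p : ℝ × ℝ => p.1 ^ (al - 1) * g p.2 / (p.1 + g p.2))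
      (Icc s0 s1 ×ˢ Icc a b) := by
  refine ContinuousOn.div (ContinuousOn.mul ?_ (hg.comp continuous_snd).continuousOn) ?_ ?_
  · exact ContinuousOn.rpow_const continuous_fst.continuousOn
      fun p hp => Or.inl (ne_of_gt (lt_of_lt_of_le hs0 hp.1.1))
  · exact (continuous_fst.add (hg.comp continuous_snd)).continuousOn
  · intro p hp
    have h1 := hg0 p.2 hp.2
    have h2 : 0 < p.1 := lt_of_lt_of_le hs0 hp.1.1
    positivity

/-- (S1) -/
theorem scal_upper {al : ℝ} (hal : 0 < al) (hal1 : al < 1) {y s0 s1 : ℝ} (hy : 0 ≤ y)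
    (hs0 : 0 < s0) (h : s0 ≤ s1) :
    cal al * (1 + 1 / al) * (∫ s in s0..s1, s ^ (al - 1) * (y - s * Real.log (1 + y / s)))
      ≤ (1 / al) * y ^ (1 + al) := by
  have hc := cal_pos hal hal1
  have hbox : ContinuousOn (fun p : ℝ × ℝ => p.1 ^ (al - 1) * p.2 / (p.1 + p.2))
      (Icc s0 s1 ×ˢ Icc 0 y) := continuousOn_box hs0 continuous_id fun t ht => ht.1
  have e1 : ∫ s in s0..s1, s ^ (al - 1) * (y - s * Real.log (1 + y / s))
      = ∫ t in (0:ℝ)..y, ∫ s in s0..s1, s ^ (al - 1) * t / (s + t) := by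
    rw [← Chan.integral_swap_box (f := fun s t => s ^ (al - 1) * t / (s + t)) h hy hbox]
    refine intervalIntegral.integral_congr fun s hs => ?_
    rw [uIcc_of_le h] at hs
    have hs' : 0 < s := lt_of_lt_of_le hs0 hs.1
    rw [psi_eq hs' hy, ← intervalIntegral.integral_const_mul]
    refine intervalIntegral.integral_congr fun t _ => ?_
    ring
  have hcont : ContinuousOn (fun t => ∫ s in s0..s1, s ^ (al - 1) * t / (s + t)) (Icc 0 y) :=
    Chan.continuousOn_param (f := fun t s => s ^ (al - 1) * t / (s + t)) h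
      (Chan.continuousOn_swap (f := fun s t => s ^ (al - 1) * t / (s + t)) hbox)
  have e2 : cal al * ∫ t in (0:ℝ)..y, ∫ s in s0..s1, s ^ (al - 1) * t / (s + t)
      ≤ y ^ (1 + al) / (1 + al) := by
    rw [← intervalIntegral.integral_const_mul]
    have e3 : ∫ t in (0:ℝ)..y, t ^ al = y ^ (1 + al) / (1 + al) := by
      rw [integral_rpow (Or.inl (by linarith)), Real.zero_rpow (by linarith), sub_zero,
        add_comm al 1]
    rw [← e3]
    refine intervalIntegral.integral_mono_on hy ?_ ?_ fun t ht => ?_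
    · apply ContinuousOn.intervalIntegrable
      rw [uIcc_of_le hy]
      exact continuousOn_const.mul hcont
    · exact intervalIntegral.intervalIntegrable_rpow (Or.inl hal.le)
    · exact interval_frac_le hal hal1 ht.1 hs0.le h
  rw [e1]
  have h1 : (0:ℝ) < 1 + 1 / al := by positivity
  calc cal al * (1 + 1 / al) * ∫ t in (0:ℝ)..y, ∫ s in s0..s1, s ^ (al - 1) * t / (s + t)
      = (1 + 1 / al) * (cal al * ∫ t in (0:ℝ)..y, ∫ s in s0..s1, s ^ (al - 1) * t / (s + t)) := by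
        ring
    _ ≤ (1 + 1 / al) * (y ^ (1 + al) / (1 + al)) := mul_le_mul_of_nonneg_left e2 h1.le
    _ = (1 / al) * y ^ (1 + al) := by field_simp; ring

/-- the endpoint function as an integral -/
lemma endp_eq {k s : ℝ} (hk : 0 < k) (hs : 0 < s) :
    2 * k - s / Real.sqrt (k ^ 2 + s) *
      Real.log ((Real.sqrt (k ^ 2 + s) + k) / (Real.sqrt (k ^ 2 + s) - k))
      = ∫ f in (-k)..k, (k ^ 2 - f ^ 2) / (s + (k ^ 2 - f ^ 2)) := by
  set m := Real.sqrt (k ^ 2 + s) with hm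
  have hm2 : m ^ 2 = k ^ 2 + s := Real.sq_sqrt (by positivity)
  have hm0 : 0 < m := Real.sqrt_pos.2 (by positivity)
  have hkm : k < m := by nlinarith
  have hle : -k ≤ k := by linarith
  have h1 : ∫ f in (-k)..k, (k ^ 2 - f ^ 2) / (s + (k ^ 2 - f ^ 2))
      = (k - s / (2 * m) * (Real.log (m + k) - Real.log (m - k)))
        - (-k - s / (2 * m) * (Real.log (m + -k) - Real.log (m - -k))) := by
    refine intervalIntegral.integral_eq_sub_of_hasDerivAt
      (f := fun f => f - s / (2 * m) * (Real.log (m + f) - Real.log (m - f))) ?_ ?_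
    · intro f hf
      rw [uIcc_of_le hle] at hf
      have a1 : 0 < m + f := by linarith [hf.1]
      have a2 : 0 < m - f := by linarith [hf.2]
      have d1 : HasDerivAt (fun f : ℝ => m + f) 1 f := by
        simpa using (hasDerivAt_id f).const_add m
      have d2 : HasDerivAt (fun f : ℝ => m - f) (-1) f := by
        simpa using (hasDerivAt_id f).const_sub m
      have d3 := (hasDerivAt_id f).sub
        (((d1.log a1.ne').sub (d2.log a2.ne')).const_mul (s / (2 * m)))
      refine d3.congr_deriv ?_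
      have e1 : s + (k ^ 2 - f ^ 2) = (m + f) * (m - f) := by linear_combination -hm2
      rw [e1]
      have e2 : s = m ^ 2 - k ^ 2 := by linear_combination -hm2
      rw [e2]
      field_simp
      ring
    · apply ContinuousOn.intervalIntegrable
      rw [uIcc_of_le hle]
      refine ContinuousOn.div (by fun_prop) (by fun_prop) fun f hf => ?_
      have : f ^ 2 ≤ k ^ 2 := sq_le_sq' hf.1 hf.2
      linarith
  rw [h1, Real.log_div (by linarith) (by linarith)]
  have e3 : m + -k = m - k := by ring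
  have e4 : m - -k = m + k := by ring
  rw [e3, e4]
  field_simp
  ring

lemma sq_sub_nonneg {k f : ℝ} (hf : f ∈ Icc (-k) k) : 0 ≤ k ^ 2 - f ^ 2 := by
  have : f ^ 2 ≤ k ^ 2 := sq_le_sq' hf.1 hf.2
  linarith

lemma endp_nonneg {k s : ℝ} (hk : 0 < k) (hs : 0 < s) :
    0 ≤ 2 * k - s / Real.sqrt (k ^ 2 + s) *
      Real.log ((Real.sqrt (k ^ 2 + s) + k) / (Real.sqrt (k ^ 2 + s) - k)) := by
  rw [endp_eq hk hs]
  refine intervalIntegral.integral_nonneg (by linarith) fun f hf => ?_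
  have := sq_sub_nonneg hf
  positivity

/-- `∫_{-k}^k (k²-f²)^α df = k^{1+2α} ∫_{-1}^1 (1-t²)^α dt` -/
lemma integral_scale {al k : ℝ} (hk : 0 < k) :
    ∫ f in (-k)..k, (k ^ 2 - f ^ 2) ^ al
      = k ^ (1 + 2 * al) * ∫ t in (-1:ℝ)..1, (1 - t ^ 2) ^ al := by
  have h1 := intervalIntegral.smul_integral_comp_mul_left
    (f := fun f : ℝ => (k ^ 2 - f ^ 2) ^ al) (a := -1) (b := 1) k
  rw [mul_neg, mul_one] at h1
  rw [← h1, smul_eq_mul]
  have h2 : ∫ t in (-1:ℝ)..1, (k ^ 2 - (k * t) ^ 2) ^ al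
      = k ^ (2 * al) * ∫ t in (-1:ℝ)..1, (1 - t ^ 2) ^ al := by
    rw [← intervalIntegral.integral_const_mul]
    refine intervalIntegral.integral_congr fun t ht => ?_
    rw [uIcc_of_le (by norm_num)] at ht
    have h3 : 0 ≤ 1 - t ^ 2 := by nlinarith [ht.1, ht.2]
    rw [show k ^ 2 - (k * t) ^ 2 = k ^ 2 * (1 - t ^ 2) by ring,
      Real.mul_rpow (by positivity) h3, Real.rpow_mul hk.le, Real.rpow_ofNat]
  rw [h2, Real.rpow_add hk, Real.rpow_one]
  ring

/-- (S2) -/
theorem scal_endp {al : ℝ} (hal : 0 < al) (hal1 : al < 1) {k : ℝ} (hk : 0 < k) :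
    Tendsto (fun N : ℕ => cal al * (∫ s in (1 / ((N:ℝ) + 1))..((N:ℝ) + 1),
      s ^ (al - 1) * (2 * k - s / Real.sqrt (k ^ 2 + s) *
        Real.log ((Real.sqrt (k ^ 2 + s) + k) / (Real.sqrt (k ^ 2 + s) - k)))))
      atTop (𝓝 (k ^ (1 + 2 * al) * ∫ t in (-1:ℝ)..1, (1 - t ^ 2) ^ al)) := by
  have hle : -k ≤ k := by linarith
  have hleN : ∀ N : ℕ, 1 / ((N:ℝ) + 1) ≤ (N:ℝ) + 1 := by
    intro N
    have h1 : (1:ℝ) ≤ (N:ℝ) + 1 := by linarith [Nat.cast_nonneg (α := ℝ) N]
    rw [div_le_iff₀ (by linarith)]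
    nlinarith
  have hpos : ∀ N : ℕ, (0:ℝ) < 1 / ((N:ℝ) + 1) := fun N => by positivity
  have hbox : ∀ N : ℕ, ContinuousOn
      (fun p : ℝ × ℝ => p.1 ^ (al - 1) * (k ^ 2 - p.2 ^ 2) / (p.1 + (k ^ 2 - p.2 ^ 2)))
      (Icc (1 / ((N:ℝ) + 1)) ((N:ℝ) + 1) ×ˢ Icc (-k) k) := fun N =>
    continuousOn_box (g := fun f => k ^ 2 - f ^ 2) (hpos N) (by fun_prop)
      fun f hf => sq_sub_nonneg hf
  have e1 : ∀ N : ℕ, cal al * (∫ s in (1 / ((N:ℝ) + 1))..((N:ℝ) + 1),
      s ^ (al - 1) * (2 * k - s / Real.sqrt (k ^ 2 + s) *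
        Real.log ((Real.sqrt (k ^ 2 + s) + k) / (Real.sqrt (k ^ 2 + s) - k))))
      = ∫ f in (-k)..k, cal al * ∫ s in (1 / ((N:ℝ) + 1))..((N:ℝ) + 1),
        s ^ (al - 1) * (k ^ 2 - f ^ 2) / (s + (k ^ 2 - f ^ 2)) := by
    intro N
    rw [intervalIntegral.integral_const_mul]
    congr 1
    rw [← Chan.integral_swap_box
      (f := fun s f => s ^ (al - 1) * (k ^ 2 - f ^ 2) / (s + (k ^ 2 - f ^ 2)))
      (hleN N) hle (hbox N)]
    refine intervalIntegral.integral_congr fun s hs => ?_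
    rw [uIcc_of_le (hleN N)] at hs
    have hs' : 0 < s := lt_of_lt_of_le (hpos N) hs.1
    rw [endp_eq hk hs', ← intervalIntegral.integral_const_mul]
    refine intervalIntegral.integral_congr fun t _ => ?_
    ring
  simp only [e1]
  rw [← integral_scale hk]
  refine intervalIntegral.tendsto_integral_filter_of_dominated_convergence
    (fun f => (k ^ 2 - f ^ 2) ^ al) ?_ ?_ ?_ ?_
  · refine Eventually.of_forall fun N => ?_
    have hc : ContinuousOn (fun f => cal al * ∫ s in (1 / ((N:ℝ) + 1))..((N:ℝ) + 1),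
        s ^ (al - 1) * (k ^ 2 - f ^ 2) / (s + (k ^ 2 - f ^ 2))) (Icc (-k) k) :=
      continuousOn_const.mul (Chan.continuousOn_param
        (f := fun f s => s ^ (al - 1) * (k ^ 2 - f ^ 2) / (s + (k ^ 2 - f ^ 2))) (hleN N)
        (Chan.continuousOn_swap
          (f := fun s f => s ^ (al - 1) * (k ^ 2 - f ^ 2) / (s + (k ^ 2 - f ^ 2))) (hbox N)))
    rw [uIoc_of_le hle]
    exact (hc.mono Ioc_subset_Icc_self).aestronglyMeasurable measurableSet_Ioc
  · refine Eventually.of_forall fun N => Eventually.of_forall fun f hf => ?_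
    rw [uIoc_of_le hle] at hf
    have hf' := sq_sub_nonneg (Ioc_subset_Icc_self hf)
    rw [Real.norm_of_nonneg (mul_nonneg (cal_pos hal hal1).le
      (interval_frac_nonneg hf' (hpos N).le (hleN N)))]
    exact interval_frac_le hal hal1 hf' (hpos N).le (hleN N)
  · apply ContinuousOn.intervalIntegrable
    refine ContinuousOn.rpow_const (by fun_prop) fun f _ => Or.inr hal.le
  · refine Eventually.of_forall fun f hf => ?_
    rw [uIoc_of_le hle] at hf
    exact tendsto_frac hal hal1 (sq_sub_nonneg (Ioc_subset_Icc_self hf))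

/-! ### (S3) nonnegativity and integrability -/

lemma psi_nonneg {s y : ℝ} (hs : 0 < s) (hy : 0 ≤ y) : 0 ≤ y - s * Real.log (1 + y / s) := by
  rw [psi_eq hs hy]
  exact intervalIntegral.integral_nonneg hy fun t ht => div_nonneg ht.1 (by linarith [ht.1])

lemma continuousOn_psi_weighted {al s0 s1 y : ℝ} (hs0 : 0 < s0) (hy : 0 ≤ y) :
    ContinuousOn (fun s : ℝ => s ^ (al - 1) * (y - s * Real.log (1 + y / s))) (Icc s0 s1) := by
  have hne : ∀ s ∈ Icc s0 s1, s ≠ 0 := fun s hs => ne_of_gt (lt_of_lt_of_le hs0 hs.1)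
  refine ContinuousOn.mul (continuousOn_id.rpow_const fun s hs => Or.inl (hne s hs)) ?_
  refine continuousOn_const.sub (continuousOn_id.mul (ContinuousOn.log ?_ fun s hs => ?_))
  · exact continuousOn_const.add (continuousOn_const.div continuousOn_id hne)
  · have h1 : 0 < s := lt_of_lt_of_le hs0 hs.1
    positivity

lemma intervalIntegrable_psi_weighted {al s0 s1 y : ℝ} (hs0 : 0 < s0) (h : s0 ≤ s1)
    (hy : 0 ≤ y) : IntervalIntegrable
      (fun s : ℝ => s ^ (al - 1) * (y - s * Real.log (1 + y / s))) volume s0 s1 := by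
  apply ContinuousOn.intervalIntegrable
  rw [uIcc_of_le h]
  exact continuousOn_psi_weighted hs0 hy

lemma continuousOn_endp_weighted {al s0 s1 k : ℝ} (hs0 : 0 < s0) (hk : 0 < k) :
    ContinuousOn (fun s : ℝ => s ^ (al - 1) * (2 * k - s / Real.sqrt (k ^ 2 + s) *
        Real.log ((Real.sqrt (k ^ 2 + s) + k) / (Real.sqrt (k ^ 2 + s) - k)))) (Icc s0 s1) := by
  have hpos : ∀ s ∈ Icc s0 s1, 0 < s := fun s hs => lt_of_lt_of_le hs0 hs.1
  have hsq : ContinuousOn (fun s : ℝ => Real.sqrt (k ^ 2 + s)) (Icc s0 s1) :=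
    (Real.continuous_sqrt.comp (by fun_prop)).continuousOn
  have hgt : ∀ s ∈ Icc s0 s1, k < Real.sqrt (k ^ 2 + s) := fun s hs => by
    have := hpos s hs
    exact Real.lt_sqrt_of_sq_lt (by linarith)
  refine ContinuousOn.mul (continuousOn_id.rpow_const fun s hs => Or.inl (hpos s hs).ne') ?_
  refine continuousOn_const.sub (ContinuousOn.mul (continuousOn_id.div hsq fun s hs => ?_)
    (ContinuousOn.log ((hsq.add continuousOn_const).div (hsq.sub continuousOn_const)
      fun s hs => ?_) fun s hs => ?_))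
  · have := hgt s hs; exact ne_of_gt (by linarith)
  · have := hgt s hs; exact ne_of_gt (by linarith)
  · have := hgt s hs
    have h1 : 0 < Real.sqrt (k ^ 2 + s) + k := by linarith
    have h2 : 0 < Real.sqrt (k ^ 2 + s) - k := by linarith
    exact (div_pos h1 h2).ne'

lemma intervalIntegrable_endp_weighted {al s0 s1 k : ℝ} (hs0 : 0 < s0) (h : s0 ≤ s1)
    (hk : 0 < k) : IntervalIntegrable
      (fun s : ℝ => s ^ (al - 1) * (2 * k - s / Real.sqrt (k ^ 2 + s) *
        Real.log ((Real.sqrt (k ^ 2 + s) + k) / (Real.sqrt (k ^ 2 + s) - k)))) volume s0 s1 := by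
  apply ContinuousOn.intervalIntegrable
  rw [uIcc_of_le h]
  exact continuousOn_endp_weighted hs0 hk

end Crest.Agent.R332.Scal

namespace Crest.Agent.R332

open MeasureTheory Set Filter Topology

/-- (S1) with the explicit constant -/
theorem scal_upper {al : ℝ} (hal : 0 < al) (hal1 : al < 1) {y s0 s1 : ℝ} (hy : 0 ≤ y)
    (hs0 : 0 < s0) (h : s0 ≤ s1) :
    (Real.sin (Real.pi * al) / Real.pi) * (1 + 1 / al) *
        (∫ s in s0..s1, s ^ (al - 1) * (y - s * Real.log (1 + y / s)))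
      ≤ (1 / al) * y ^ (1 + al) := Scal.scal_upper hal hal1 hy hs0 h

/-- (S2) with the explicit constant -/
theorem scal_endp {al : ℝ} (hal : 0 < al) (hal1 : al < 1) {k : ℝ} (hk : 0 < k) :
    Tendsto (fun N : ℕ => (Real.sin (Real.pi * al) / Real.pi) *
      (∫ s in (1 / ((N:ℝ) + 1))..((N:ℝ) + 1),
      s ^ (al - 1) * (2 * k - s / Real.sqrt (k ^ 2 + s) *
        Real.log ((Real.sqrt (k ^ 2 + s) + k) / (Real.sqrt (k ^ 2 + s) - k)))))
      atTop (𝓝 (k ^ (1 + 2 * al) * ∫ t in (-1:ℝ)..1, (1 - t ^ 2) ^ al)) :=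
  Scal.scal_endp hal hal1 hk

end Crest.Agent.R332
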