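import Crest.Agent.R332.ChanFinal
import Crest.Agent.R332.ChanScalar

/-!
Row 332, module A: the scalar inputs of the channel theorem in the form used there (helper208).
-/

set_option autoImplicit false

namespace Crest.Agent.R332.Chan

theorem scalUpper {α : ℝ} (h0 : 0 < α) (h1 : α < 1) : ScalUpper α :=
  fun _ _ _ hy hs0 h => scal_upper h0 h1 hy hs0 h

theorem scalEndp {α : ℝ} (h0 : 0 < α) (h1 : α < 1) : ScalEndp α :=
  fun _ hk => scal_endp h0 h1 hk

end Crest.Agent.R332.Chan
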