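import Crest.Agent.R332.AsmFinal
import Crest.Agent.R332.ChanRot
import Crest.Agent.R332.ChanFinal
import Crest.Agent.R332.ChanScalar2

/-! # Row 332: the channel inequality for the full data -/

set_option autoImplicit false
set_option linter.unusedSectionVars false

namespace Crest.Agent.R332

open Matrix Unitary MeasureTheory Set
open scoped ComplexOrder Topology ContDiff
open Crest.MathPhysics.LiebThirring

variable {m : ℕ} {W : ℝ → Matrix (Fin m) (Fin m) ℂ} {ι : Type} [Fintype ι] [DecidableEq ι]

namespace FullData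

variable {S : Red m W ι} {α : ℝ} {C K : Matrix ι ι ℂ} {F : ℝ → Matrix ι ι ℂ}

lemma gpath (h : FullData S α C K F) : GPath α S.L K (S.P C) F where
  hL := S.L_pos
  hPc := (S.P_cont C).continuousOn
  hPp := fun x _ => S.P_pos C x
  herm := h.path.herm
  sub := h.sub
  add := h.add
  deriv := h.path.deriv
  h0 := h.h0
  h1 := h.h1

lemma chan (h : FullData S α C K F) (hα : 0 < α) (hα1 : α < 1) :
    betaC α * trp K (1 + 2 * α) ≤
      (1 / α) * ∫ x in (-S.L)..S.L, trp (S.P C x) (1 + 1 / α) := by
  obtain ⟨U, k, h1, h2, h3, h4⟩ := exists_diag h.hK.1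
  have hp := h.gpath.toPath hα h1 h2 h3
  have hk : ∀ i, 0 < k i := by
    have hD : (Chan.dg k).PosDef := by
      rw [← h3]
      have := h.hK.conjTranspose_mul_mul_same (B := U) ?_
      · exact this
      · have : IsUnit U := ⟨⟨U, Uᴴ, h2, h1⟩, rfl⟩
        exact Matrix.mulVec_injective_iff_isUnit.mpr this
    exact Chan.posDef_dg_iff.1 hD
  have e : ∀ x, Chan.rtr (cfc (fun t : ℝ => t ^ (1 + α)) (cj U (mpow (S.P C x) (1 / α)))) =
      trp (S.P C x) (1 + 1 / α) := by
    intro x
    show rtr (cfc (fun t : ℝ => t ^ (1 + α)) (cj U (mpow (S.P C x) (1 / α)))) = _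
    rw [cj_cfc h1 h2 (mpow_isHermitian _ _), rtr_cj h2]
    show rtr (mpow (mpow (S.P C x) (1 / α)) (1 + α)) = _
    rw [mpow_mpow (S.P_pos C x), trp]
    congr 2
    field_simp
    ring
  have hint : IntervalIntegrable (fun x => trp (S.P C x) (1 + 1 / α)) volume (-S.L) S.L :=
    (continuous_trp (S.P_cont C) (fun x => (S.P_pos C x).1) (by positivity)).intervalIntegrable _ _
  have hc := Chan.channel hp hα hα1 hk (Chan.scalUpper hα hα1) (Chan.scalEndp hα hα1)
    (by
      simp only [e]; exact hint) (t0 := 1) (t1 := 1) one_pos le_rfl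
  simp only [intervalIntegral.integral_same, intervalIntegral.integral_zero, mul_zero,
    add_zero] at hc
  rw [trp_eq_sum_cj h.hK.1 h1 h2 h3, mul_comm]
  simp only [e] at hc
  exact hc

end FullData

end Crest.Agent.R332
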