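import Crest.Agent.R332.BetaInt
import Crest.Prelude.Def_LiebThirring

/-! # Row 332: the sharp constant equals `c / β` -/

set_option autoImplicit false

namespace Crest.Agent.R332

open MeasureTheory Set
open Crest.MathPhysics.LiebThirring

/-- `β = ∫_{-1}^1 (1-t²)^α dt`. -/
noncomputable def betaC (α : ℝ) : ℝ := ∫ t in (-1:ℝ)..1, (1 - t ^ 2) ^ α

/-- `c = (α/(1+α))^α / (1+α)`. -/
noncomputable def cC (α : ℝ) : ℝ := (α / (1 + α)) ^ α / (1 + α)

lemma betaC_pos {α : ℝ} (hα : 0 < α) : 0 < betaC α := by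
  rw [betaC, integral_one_sub_sq_rpow (by linarith)]
  have h1 := Real.Gamma_pos_of_pos (show 0 < α + 1 by linarith)
  have h2 := Real.Gamma_pos_of_pos (show 0 < α + 3 / 2 by linarith)
  have h3 := Real.sqrt_pos.2 Real.pi_pos
  positivity

lemma cC_pos {α : ℝ} (hα : 0 < α) : 0 < cC α := by
  unfold cC
  positivity

lemma sharpConst_mul_betaC {γ : ℝ} (hγ : 1 / 2 < γ) :
    sharpConst γ * betaC (γ - 1 / 2) = cC (γ - 1 / 2) := by
  have hα : 0 < γ - 1 / 2 := by linarith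
  rw [betaC, integral_one_sub_sq_rpow (by linarith), sharpConst, cC]
  have e1 : γ - 1 / 2 + 1 = γ + 1 / 2 := by ring
  have e2 : γ - 1 / 2 + 3 / 2 = γ + 1 := by ring
  have e3 : 1 + (γ - 1 / 2) = γ + 1 / 2 := by ring
  have e4 : Real.Gamma (γ + 3 / 2) = (γ + 1 / 2) * Real.Gamma (γ + 1 / 2) := by
    rw [show γ + 3 / 2 = (γ + 1 / 2) + 1 by ring, Real.Gamma_add_one (by linarith)]
  rw [e1, e2, e3, e4]
  have h1 := (Real.Gamma_pos_of_pos (show 0 < γ + 1 / 2 by linarith)).ne'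
  have h2 := (Real.Gamma_pos_of_pos (show 0 < γ + 1 by linarith)).ne'
  have h3 := (Real.sqrt_pos.2 Real.pi_pos).ne'
  have h4 : γ + 1 / 2 ≠ 0 := by linarith
  field_simp

end Crest.Agent.R332
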