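import Crest.Agent.R332.FamId
import Crest.Agent.R332.AsmConst

/-! # Row 332: assembly core -/

set_option autoImplicit false
set_option linter.unusedSectionVars false

namespace Crest.Agent.R332

open Matrix Unitary MeasureTheory Set
open scoped ComplexOrder Topology ContDiff
open Crest.MathPhysics.LiebThirring

variable {m : ℕ} {W : ℝ → Matrix (Fin m) (Fin m) ℂ} {ι : Type} [Fintype ι] [DecidableEq ι]

/-- All the data produced by the trial family and module (B). -/
structure FullData (S : Red m W ι) (α : ℝ) (C K : Matrix ι ι ℂ) (F : ℝ → Matrix ι ι ℂ) :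
    Prop where
  hC : C.IsHermitian
  hK : K.PosDef
  path : S.IsPath α C K F
  sub : ∀ x ∈ Icc (-S.L) S.L, (K - F x).PosSemidef
  add : ∀ x ∈ Icc (-S.L) S.L, (K + F x).PosSemidef
  h0 : F (-S.L) = K
  h1 : F S.L = -K
  hCC : (1 ≤ α + 1 / 2 ∧ C * C = (betaC α * (α + 1 / 2)) • mpow S.E (α + 1 / 2 - 1)) ∨
    (α + 1 / 2 ≤ 1 ∧ C * C = (betaC α * (α + 1 / 2)) • mpow K (2 * (α + 1 / 2) - 2))

namespace FullData

variable {S : Red m W ι} {α : ℝ} {C K : Matrix ι ι ℂ} {F : ℝ → Matrix ι ι ℂ}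

lemma E_posDef (S : Red m W ι) : S.E.PosDef := by
  rw [Red.E]
  apply Matrix.PosDef.diagonal
  intro i
  show (0 : ℂ) < ((S.e i : ℝ) : ℂ)
  exact_mod_cast S.e_pos i

lemma trp_E (S : Red m W ι) (q : ℝ) : trp S.E q = ∑ i, S.e i ^ q := by
  rw [trp, mpow, Red.E, cfc_diag_eq]
  simp [rtr, Matrix.trace]

lemma conv (h : FullData S α C K F) (hα : 0 < α) :
    betaC α * trp S.E (α + 1 / 2) ≤ rtr (C * C * (S.E - K * K)) +
      betaC α * trp K (1 + 2 * α) := by
  have hβ := betaC_pos hα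
  have e : 2 * (α + 1 / 2) = 1 + 2 * α := by ring
  rcases h.hCC with ⟨h1, h2⟩ | ⟨h1, h2⟩
  · have := convex_ge h1 (E_posDef S) h.hK.posSemidef
    rw [h2, Matrix.smul_mul, rtr_smul]
    rw [e] at this
    nlinarith
  · have := convex_le (by linarith : 0 ≤ α + 1 / 2) h1 (E_posDef S).posSemidef h.hK
    rw [h2, Matrix.smul_mul, rtr_smul]
    rw [e] at this
    rw [e]
    nlinarith

/-- **Master inequality**: all deficits. `T` is the channel deficit. -/
theorem master (h : FullData S α C K F) (hα : 0 < α)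
    (hWi : Integrable fun x => trp (W x) (1 + α)) {T : ℝ}
    (hT : betaC α * trp K (1 + 2 * α) + T ≤
      (1 / α) * ∫ x in (-S.L)..S.L, trp (S.P C x) (1 + 1 / α)) :
    (∫ x, S.yd α C x) + (∫ x in (-S.L)..S.L, S.kd C F x) + T ≤
      cC α * (∫ x, trp (W x) (1 + α)) - betaC α * ∑ i, S.e i ^ (α + 1 / 2) := by
  have h1 := S.step_identity hα h.hC h.path hWi
  have h2 := h.conv hα
  rw [trp_E] at h2
  rw [cC]
  linarith

end FullData

end Crest.Agent.R332
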