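import Crest.Agent.R332.AsmCore

/-! # Row 332: final assembly of S0515, modulo module (A) (rotated) and (B) (instances) -/

set_option autoImplicit false
set_option linter.unusedSectionVars false

namespace Crest.Agent.R332

open Matrix Unitary MeasureTheory Set
open scoped ComplexOrder Topology ContDiff
open Crest.MathPhysics.LiebThirring

theorem final_of (γ : ℝ) (hγ : 1 / 2 < γ) (m : ℕ)
    (W : ℝ → Matrix (Fin m) (Fin m) ℂ) (hW : ∀ i j, Measurable fun x => W x i j)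
    (hWp : ∀ x, (W x).PosSemidef)
    (hWi : Integrable fun x => tracePow (W x) (γ + 1 / 2))
    (n : ℕ) (φ : Fin n → ℝ → Vec m) (hφ : IsTrialFamily φ)
    (hfull : ∀ (ι : Type) [Fintype ι] [DecidableEq ι] (S : Red m W ι),
      ∃ C K F, FullData S (γ - 1 / 2) C K F)
    (hchan : ∀ (ι : Type) [Fintype ι] [DecidableEq ι] (S : Red m W ι) (C K : Matrix ι ι ℂ)
      (F : ℝ → Matrix ι ι ℂ), FullData S (γ - 1 / 2) C K F →
      betaC (γ - 1 / 2) * trp K (1 + 2 * (γ - 1 / 2)) ≤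
      (1 / (γ - 1 / 2)) * ∫ x in (-S.L)..S.L, trp (S.P C x) (1 + 1 / (γ - 1 / 2))) :
    negMoment (energyMatrix W φ) γ ≤ sharpConst γ * ∫ x, tracePow (W x) (γ + 1 / 2) := by
  have hα : 0 < γ - 1 / 2 := by linarith
  obtain ⟨ι, hι1, hι2, S, hS⟩ := exists_red (p := γ + 1 / 2) (by linarith) hW hWp hWi hφ
    (show 0 < γ by linarith)
  obtain ⟨C, K, F, h⟩ := hfull ι S
  have e1 : γ + 1 / 2 = 1 + (γ - 1 / 2) := by ring
  have hWi' : Integrable fun x => trp (W x) (1 + (γ - 1 / 2)) := by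
    rw [← e1]; exact hWi
  have hm := h.master hα hWi' (T := 0) (by simpa using hchan ι S C K F h)
  have hy : 0 ≤ ∫ x, S.yd (γ - 1 / 2) C x := integral_nonneg fun x => S.yd_nonneg hα hWp C x
  have hk : 0 ≤ ∫ x in (-S.L)..S.L, S.kd C F x :=
    intervalIntegral.integral_nonneg (by linarith [S.L_pos]) fun x _ => S.kd_nonneg C F x
  have e2 : γ - 1 / 2 + 1 / 2 = γ := by ring
  rw [e2, hS] at hm
  have hβ := betaC_pos hα
  have hs := sharpConst_mul_betaC hγ
  have h3 : betaC (γ - 1 / 2) * negMoment (energyMatrix W φ) γ ≤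
      cC (γ - 1 / 2) * ∫ x, trp (W x) (1 + (γ - 1 / 2)) := by linarith
  have h4 : (∫ x, tracePow (W x) (γ + 1 / 2)) = ∫ x, trp (W x) (1 + (γ - 1 / 2)) := by
    rw [← e1]; rfl
  rw [h4]
  have h5 : betaC (γ - 1 / 2) * negMoment (energyMatrix W φ) γ ≤
      betaC (γ - 1 / 2) * (sharpConst γ * ∫ x, trp (W x) (1 + (γ - 1 / 2))) := by
    calc _ ≤ _ := h3
      _ = _ := by rw [← hs]; ring
  exact le_of_mul_le_mul_left h5 hβ

end Crest.Agent.R332
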