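import Crest.Agent.R332.FullInst

/-! # `N`-full `K` for the weighted densities (row 332) -/

set_option autoImplicit false

open scoped ComplexOrder Matrix
open scoped Matrix.Norms.Frobenius
open Matrix Set

namespace Crest.Agent.R332.Full

variable {ι : Type*} [Fintype ι] [DecidableEq ι]

lemma posSemidef_sub_of_spectrum_le {A : Matrix ι ι ℂ} (hA : A.IsHermitian) {c : ℝ}
    (h : ∀ t ∈ spectrum ℝ A, t ≤ c) : (c • (1 : Matrix ι ι ℂ) - A).PosSemidef := by
  have h4 : (cf (fun t => c - t) A).PosSemidef :=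
    posSemidef_cf fun t ht => by have := h t ht; linarith
  rwa [← cf_sub, cf_const hA, cf_id hA] at h4

lemma posSemidef_trace_sub {P : Matrix ι ι ℂ} (hP : P.PosSemidef) :
    (P.trace.re • (1 : Matrix ι ι ℂ) - P).PosSemidef := by
  refine posSemidef_sub_of_spectrum_le hP.1 fun t ht => ?_
  rw [hP.1.spectrum_real_eq_range_eigenvalues] at ht
  obtain ⟨i, rfl⟩ := ht
  have h1 : P.trace.re = ∑ j, hP.1.eigenvalues j := by
    rw [hP.1.trace_eq_sum_eigenvalues]
    simp
  rw [h1]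
  exact Finset.single_le_sum (f := hP.1.eigenvalues) (fun j _ => hP.eigenvalues_nonneg j)
    (Finset.mem_univ i)

lemma qf_conj (v : ι → ℂ) {C : Matrix ι ι ℂ} (hC : C.IsHermitian) (P : Matrix ι ι ℂ) :
    qf v (C * P * C) = qf (C *ᵥ v) P := by
  rw [qf_apply, qf_apply, star_mulVec, hC.eq, ← mulVec_mulVec, ← mulVec_mulVec,
    dotProduct_mulVec, dotProduct_mulVec]

lemma posDef_of_sub {K : Matrix ι ι ℂ} {d : ℝ} (hd : 0 < d)
    (h : (K - d • (1 : Matrix ι ι ℂ)).PosSemidef) : K.PosDef := by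
  have h1 : (d • (1 : Matrix ι ι ℂ)).PosDef := PosDef.one.smul hd
  have := PosDef.posSemidef_add h h1
  rwa [sub_add_cancel] at this

/-- The set `{K ≥ d}`. -/
def geSet (ι : Type*) [Fintype ι] [DecidableEq ι] (d : ℝ) : Set (Matrix ι ι ℂ) :=
  {K | K.IsHermitian ∧ (K - d • (1 : Matrix ι ι ℂ)).PosSemidef}

set_option maxHeartbeats 1000000 in
theorem exists_full_weight {r L d β0 w0 : ℝ} (hr : 1 ≤ r) (hL : 0 < L) (hd : 0 < d)
    (p : ℝ → Matrix ι ι ℂ) (hpc : ContinuousOn p (Icc (-L) L))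
    (hp : ∀ x ∈ Icc (-L) L, (p x).PosSemidef)
    (hp1 : ∀ v : ι → ℂ, ∫ x in (-L)..L, qf v (p x) = (star v ⬝ᵥ v).re)
    (C : Matrix ι ι ℂ → Matrix ι ι ℂ) (hCc : ContinuousOn C (geSet ι d))
    (hCh : ∀ K, (C K).IsHermitian)
    (hβ0 : 0 ≤ β0)
    (hCβ : ∀ K ∈ geSet ι d, (β0 • (1 : Matrix ι ι ℂ) - C K * C K).PosSemidef)
    (hw0 : 0 < w0)
    (hCw : ∀ K ∈ geSet ι d, ∀ v : ι → ℂ, (star v ⬝ᵥ v).re = 1 → K *ᵥ v = (d : ℂ) • v →
      w0 ≤ (star (C K *ᵥ v) ⬝ᵥ (C K *ᵥ v)).re)
    (hdw : 2 * d + 2 * L * d ^ 2 ≤ (1 + r) * (2 * L * (w0 / (2 * L)) ^ r)) :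
    ∃ K : Matrix ι ι ℂ, K.PosDef ∧ ∃ F : ℝ → Matrix ι ι ℂ, F (-L) = K ∧ F L = -K ∧
      (∀ x ∈ Icc (-L) L, HasDerivWithinAt F
        (K * K - F x * F x - (1 + r) • mpow (C K * p x * C K) r) (Icc (-L) L) x) ∧
      ∀ x ∈ Icc (-L) L, (F x).IsHermitian ∧ (K - F x).PosSemidef ∧ (K + F x).PosSemidef := by
  have hle : -L ≤ L := by linarith
  -- bound for `p`
  obtain ⟨b, hb⟩ : ∃ b : ℝ, ∀ x ∈ Icc (-L) L, (p x).trace.re ≤ b := by
    have hc : ContinuousOn (fun x => (p x).trace.re) (Icc (-L) L) :=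
      Complex.continuous_re.comp_continuousOn (continuous_id.matrix_trace.comp_continuousOn hpc)
    obtain ⟨b, hb⟩ := isCompact_Icc.exists_bound_of_continuousOn hc
    exact ⟨b, fun x hx => (le_abs_self _).trans (hb x hx)⟩
  have hb0 : 0 ≤ b := by
    have h0 : (-L) ∈ Icc (-L) L := ⟨le_rfl, hle⟩
    exact ((RCLike.nonneg_iff.mp (hp _ h0).trace_nonneg).1).trans (hb _ h0)
  have hpb : ∀ x ∈ Icc (-L) L, (b • (1 : Matrix ι ι ℂ) - p x).PosSemidef := by
    intro x hx
    have h1 := posSemidef_trace_sub (hp x hx)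
    have h2 : ((b - (p x).trace.re) • (1 : Matrix ι ι ℂ)).PosSemidef :=
      PosSemidef.one.smul (by linarith [hb x hx])
    have := h2.add h1
    convert this using 1
    rw [sub_smul]
    abel
  set β : ℝ := b * β0 with hβ
  have hβnn : 0 ≤ β := by positivity
  set R : ℝ := max (d + 1) (L * ((1 + r) * β ^ r) + 1) with hR
  have hdR : d < R := lt_of_lt_of_le (by linarith) (le_max_left _ _)
  have hRtop : L * ((1 + r) * β ^ r) < R := lt_of_lt_of_le (by linarith) (le_max_right _ _)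
  have hsub : boxSet ι d R ⊆ geSet ι d := fun K hK => by
    have := mem_boxSet_iff.mp hK
    exact ⟨this.1, this.2.1⟩
  have hXpos : ∀ K, ∀ x ∈ Icc (-L) L, (C K * p x * C K).PosSemidef := by
    intro K x hx
    have := (hp x hx).mul_mul_conjTranspose_same (C K)
    rwa [(hCh K).eq] at this
  have hXβ : ∀ K ∈ geSet ι d, ∀ x ∈ Icc (-L) L,
      (β • (1 : Matrix ι ι ℂ) - C K * p x * C K).PosSemidef := by
    intro K hK x hx
    have h1 := (hpb x hx).mul_mul_conjTranspose_same (C K)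
    rw [(hCh K).eq] at h1
    have h2 : (b • (β0 • (1 : Matrix ι ι ℂ) - C K * C K)).PosSemidef := (hCβ K hK).smul hb0
    have := h2.add h1
    convert this using 1
    rw [mul_sub, sub_mul, mul_smul_comm, mul_one, smul_mul_assoc, smul_sub, smul_smul, ← hβ]
    abel
  have hXc : ContinuousOn (fun q : Matrix ι ι ℂ × ℝ => C q.1 * p q.2 * C q.1)
      (boxSet ι d R ×ˢ Icc (-L) L) := by
    have h1 : ContinuousOn (fun q : Matrix ι ι ℂ × ℝ => C q.1) (boxSet ι d R ×ˢ Icc (-L) L) :=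
      (hCc.mono hsub).comp continuous_fst.continuousOn fun q hq => hq.1
    have h2 : ContinuousOn (fun q : Matrix ι ι ℂ × ℝ => p q.2) (boxSet ι d R ×ˢ Icc (-L) L) :=
      hpc.comp continuous_snd.continuousOn fun q hq => hq.2
    exact (h1.mul h2).mul h1
  have hmc : ContinuousOn (fun q : Matrix ι ι ℂ × ℝ => mpow (C q.1 * p q.2 * C q.1) r)
      (boxSet ι d R ×ˢ Icc (-L) L) :=
    continuousOn_mpow_of_le hr hXc (fun q hq => hXpos q.1 q.2 hq.2)
      (fun q hq => hXβ q.1 (hsub hq.1) q.2 hq.2)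
  have hmpos : ∀ K, ∀ x ∈ Icc (-L) L, (mpow (C K * p x * C K) r).PosSemidef :=
    fun K x hx => mpow_posSemidef (hXpos K x hx) r
  have hcK : ∀ K ∈ boxSet ι d R, ContinuousOn (fun x => mpow (C K * p x * C K) r)
      (Icc (-L) L) := by
    intro K hK
    have : ContinuousOn (fun x : ℝ => ((K, x) : Matrix ι ι ℂ × ℝ)) (Icc (-L) L) :=
      (continuous_const.prodMk continuous_id).continuousOn
    have h2 := hmc.comp this (fun x hx => mk_mem_prod hK hx)
    exact h2
  have hcX : ∀ K ∈ boxSet ι d R, ContinuousOn (fun x => C K * p x * C K)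
      (Icc (-L) L) := by
    intro K hK
    exact (continuousOn_const.mul hpc).mul continuousOn_const
  have hr0 : 0 ≤ 1 + r := by linarith
  have htop : ∀ K ∈ boxSet ι d R, ∀ v : ι → ℂ, (star v ⬝ᵥ v).re = 1 → K *ᵥ v = (R : ℂ) • v →
      ∫ x in (-L)..L, (star v ⬝ᵥ (((1 + r) • mpow (C K * p x * C K) r) *ᵥ v)).re < 2 * R := by
    intro K hK v hv hKv
    have h1 : ∀ x ∈ Icc (-L) L,
        (star v ⬝ᵥ (((1 + r) • mpow (C K * p x * C K) r) *ᵥ v)).re ≤ (1 + r) * β ^ r := by
      intro x hx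
      have h2 : (β ^ r • (1 : Matrix ι ι ℂ) - mpow (C K * p x * C K) r).PosSemidef := by
        have h4 : (cf (fun t => β ^ r - t ^ r) (C K * p x * C K)).PosSemidef := by
          refine posSemidef_cf fun t ht => ?_
          have h5 := nonneg_spectrum_of_posSemidef (hXpos K x hx) t ht
          have h6 := spectrum_le_of_posSemidef (hXβ K (hsub hK) x hx) t ht
          have := Real.rpow_le_rpow h5 h6 (by linarith : 0 ≤ r)
          linarith
        rwa [← cf_sub, cf_const (hXpos K x hx).1] at h4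
      have h3 := qf_nonneg v h2
      rw [map_sub, map_smul, smul_eq_mul, qf_one, hv, mul_one] at h3
      have h4 : (star v ⬝ᵥ (((1 + r) • mpow (C K * p x * C K) r) *ᵥ v)).re =
          (1 + r) * qf v (mpow (C K * p x * C K) r) := by
        rw [← qf_apply, map_smul, smul_eq_mul]
      rw [h4]
      exact mul_le_mul_of_nonneg_left (by linarith) hr0
    have h2 : ∫ x in (-L)..L, (star v ⬝ᵥ (((1 + r) • mpow (C K * p x * C K) r) *ᵥ v)).re ≤
        ∫ _x in (-L)..L, (1 + r) * β ^ r := by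
      refine intervalIntegral.integral_mono_on hle ?_ intervalIntegrable_const h1
      refine ContinuousOn.intervalIntegrable ?_
      rw [uIcc_of_le hle]
      have hcq : Continuous (qf v) := (qf v).continuous_of_finiteDimensional
      exact hcq.comp_continuousOn ((hcK K hK).const_smul (1 + r))
    rw [intervalIntegral.integral_const, smul_eq_mul] at h2
    have h3 : (L - -L) * ((1 + r) * β ^ r) = 2 * (L * ((1 + r) * β ^ r)) := by ring
    rw [h3] at h2
    linarith
  have hbot : ∀ K ∈ boxSet ι d R, ∀ v : ι → ℂ, (star v ⬝ᵥ v).re = 1 → K *ᵥ v = (d : ℂ) • v →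
      2 * d + 2 * L * d ^ 2 ≤
        ∫ x in (-L)..L, (star v ⬝ᵥ (((1 + r) • mpow (C K * p x * C K) r) *ᵥ v)).re := by
    intro K hK v hv hKv
    have h1 : ∫ x in (-L)..L, qf v (C K * p x * C K) =
        (star (C K *ᵥ v) ⬝ᵥ (C K *ᵥ v)).re := by
      rw [← hp1 (C K *ᵥ v)]
      refine intervalIntegral.integral_congr fun x _ => ?_
      exact qf_conj v (hCh K) (p x)
    have h2 := integral_qf_mpow_ge hr hL (X := fun x => C K * p x * C K)
      (fun x hx => hXpos K x hx) (hcX K hK) (hcK K hK) hv hw0 (by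
        rw [h1]; exact hCw K (hsub hK) v hv hKv)
    have h3 : ∫ x in (-L)..L, (star v ⬝ᵥ (((1 + r) • mpow (C K * p x * C K) r) *ᵥ v)).re =
        (1 + r) * ∫ x in (-L)..L, qf v (mpow (C K * p x * C K) r) := by
      rw [← intervalIntegral.integral_const_mul]
      refine intervalIntegral.integral_congr fun x _ => ?_
      change qf v ((1 + r) • mpow (C K * p x * C K) r) = _
      rw [map_smul, smul_eq_mul]
    rw [h3]
    exact hdw.trans (mul_le_mul_of_nonneg_left h2 hr0)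
  have hYc : ContinuousOn (fun q : Matrix ι ι ℂ × ℝ =>
      (1 + r) • mpow (C q.1 * p q.2 * C q.1) r) (boxSet ι d R ×ˢ Icc (-L) L) :=
    hmc.const_smul (1 + r)
  have hYp : ∀ K ∈ boxSet ι d R, ∀ x ∈ Icc (-L) L,
      ((1 + r) • mpow (C K * p x * C K) r).PosSemidef :=
    fun K _ x hx => (hmpos K x hx).smul hr0
  obtain ⟨K, hK, F, hF1, hF2, hF3, hF4⟩ := exists_full (ι := ι) d R L hd.le hdR hL
    (fun K x => (1 + r) • mpow (C K * p x * C K) r) hYc hYp htop hbot
  exact ⟨K, posDef_of_sub hd (mem_boxSet_iff.mp hK).2.1, F, hF1, hF2, hF3, hF4⟩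

/-- **Constant weight** (`γ ≥ 1`). -/
theorem exists_full_const {r L : ℝ} (hr : 1 ≤ r) (hL : 0 < L)
    (p : ℝ → Matrix ι ι ℂ) (hpc : ContinuousOn p (Icc (-L) L))
    (hp : ∀ x ∈ Icc (-L) L, (p x).PosSemidef)
    (hp1 : ∀ v : ι → ℂ, ∫ x in (-L)..L, (star v ⬝ᵥ (p x *ᵥ v)).re = (star v ⬝ᵥ v).re)
    (C : Matrix ι ι ℂ) (hC : C.PosDef) :
    ∃ K : Matrix ι ι ℂ, K.PosDef ∧ ∃ F : ℝ → Matrix ι ι ℂ, F (-L) = K ∧ F L = -K ∧
      (∀ x ∈ Icc (-L) L, HasDerivWithinAt F
        (K * K - F x * F x - (1 + r) • mpow (C * p x * C) r) (Icc (-L) L) x) ∧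
      ∀ x ∈ Icc (-L) L, (F x).IsHermitian ∧ (K - F x).PosSemidef ∧ (K + F x).PosSemidef := by
  have hCC : (C * C).PosSemidef := by
    have := posSemidef_conjTranspose_mul_self C
    rwa [hC.1.eq] at this
  -- lower bound of the spectrum of `C`
  obtain ⟨σ, hσ, hσC⟩ : ∃ σ : ℝ, 0 < σ ∧ (C - σ • (1 : Matrix ι ι ℂ)).PosSemidef := by
    rcases isEmpty_or_nonempty ι with hι | hι
    · refine ⟨1, one_pos, ?_⟩
      have : C - (1 : ℝ) • (1 : Matrix ι ι ℂ) = 0 := Subsingleton.elim _ _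
      rw [this]
      exact PosSemidef.zero
    · obtain ⟨i, -, hi⟩ := Finset.exists_min_image Finset.univ hC.1.eigenvalues
        Finset.univ_nonempty
      refine ⟨hC.1.eigenvalues i, hC.eigenvalues_pos i, ?_⟩
      have h4 : (cf (fun t => t - hC.1.eigenvalues i) C).PosSemidef := by
        refine posSemidef_cf fun t ht => ?_
        rw [hC.1.spectrum_real_eq_range_eigenvalues] at ht
        obtain ⟨j, rfl⟩ := ht
        linarith [hi j (Finset.mem_univ j)]
      rwa [← cf_sub, cf_const hC.1, cf_id hC.1] at h4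
  set A : ℝ := (1 + r) * (2 * L * (σ ^ 2 / (2 * L)) ^ r) with hA
  have hA0 : 0 < A := by positivity
  set d : ℝ := min 1 (A / (2 + 2 * L)) with hdd
  have hd : 0 < d := lt_min one_pos (by positivity)
  refine exists_full_weight (d := d) (β0 := (C * C).trace.re) (w0 := σ ^ 2) hr hL hd p hpc hp hp1
    (fun _ => C) continuousOn_const (fun _ => hC.1) ?_ (fun _ _ => posSemidef_trace_sub hCC)
    (by positivity) (fun K _ v hv _ => ?_) ?_
  · exact (RCLike.nonneg_iff.mp hCC.trace_nonneg).1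
  · -- `|Cv|² ≥ σ²`
    have h1 : (cf (fun t => t * t - σ ^ 2) C).PosSemidef := by
      refine posSemidef_cf fun t ht => ?_
      have := le_spectrum_of_posSemidef hσC t ht
      nlinarith
    rw [← cf_sub, ← cf_mul, cf_const hC.1, cf_id hC.1] at h1
    have h2 := qf_nonneg v h1
    rw [map_sub, map_smul, smul_eq_mul, qf_one, hv, mul_one] at h2
    have h3 : (star (C *ᵥ v) ⬝ᵥ (C *ᵥ v)).re = qf v (C * C) := by
      rw [qf_apply, star_mulVec, hC.1.eq, ← mulVec_mulVec, dotProduct_mulVec (star v)]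
    rw [h3]
    linarith
  · have h1 : d ≤ 1 := min_le_left _ _
    have h2 : d ≤ A / (2 + 2 * L) := min_le_right _ _
    have h3 : d ^ 2 ≤ d := by nlinarith
    have h4 : (2 + 2 * L) * d ≤ A := by
      rw [le_div_iff₀ (by positivity)] at h2
      linarith
    nlinarith

/-- **Weight depending on `K`** (`γ < 1`): `C_K = c K^q` with `2 q r = 2 - r`, `q ≤ 0`. -/
theorem exists_full_pow {r L c q : ℝ} (hr : 1 < r) (hL : 0 < L) (hc : 0 < c) (hq : q ≤ 0)
    (hqr : 2 * q * r = 2 - r)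
    (p : ℝ → Matrix ι ι ℂ) (hpc : ContinuousOn p (Icc (-L) L))
    (hp : ∀ x ∈ Icc (-L) L, (p x).PosSemidef)
    (hp1 : ∀ v : ι → ℂ, ∫ x in (-L)..L, (star v ⬝ᵥ (p x *ᵥ v)).re = (star v ⬝ᵥ v).re) :
    ∃ K : Matrix ι ι ℂ, K.PosDef ∧ ∃ F : ℝ → Matrix ι ι ℂ, F (-L) = K ∧ F L = -K ∧
      (∀ x ∈ Icc (-L) L, HasDerivWithinAt F
        (K * K - F x * F x - (1 + r) • mpow ((c • mpow K q) * p x * (c • mpow K q)) r)
          (Icc (-L) L) x) ∧
      ∀ x ∈ Icc (-L) L, (F x).IsHermitian ∧ (K - F x).PosSemidef ∧ (K + F x).PosSemidef := by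
  set A : ℝ := (1 + r) * (2 * L * (c ^ 2 / (2 * L)) ^ r) with hA
  have hA0 : 0 < A := by positivity
  set d : ℝ := min 1 ((A / (2 + 2 * L)) ^ (r - 1)⁻¹) with hdd
  have hd : 0 < d := lt_min one_pos (by positivity)
  have hr1 : 0 < r - 1 := by linarith
  refine exists_full_weight (d := d) (β0 := (c * d ^ q) ^ 2) (w0 := (c * d ^ q) ^ 2) hr.le hL hd
    p hpc hp hp1 (fun K => c • mpow K q)
    ((continuousOn_mpow_of_nonpos hq hd).const_smul c)
    (fun K => by
      have := mpow_isHermitian K q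
      unfold Matrix.IsHermitian at this ⊢
      rw [conjTranspose_smul, this]
      simp) (by positivity) (fun K hK => ?_) (by positivity) (fun K hK v hv hKv => ?_) ?_
  · have h4 : (cf (fun t => (c * d ^ q) ^ 2 - (c * t ^ q) * (c * t ^ q)) K).PosSemidef := by
      refine posSemidef_cf fun t ht => ?_
      have h5 := le_spectrum_of_posSemidef hK.2 t ht
      have h6 : t ^ q ≤ d ^ q := Real.rpow_le_rpow_of_nonpos hd h5 hq
      have h7 : 0 ≤ t ^ q := Real.rpow_nonneg (hd.le.trans h5) q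
      have h8 : c * t ^ q ≤ c * d ^ q := mul_le_mul_of_nonneg_left h6 hc.le
      have h9 : 0 ≤ c * t ^ q := by positivity
      nlinarith
    rw [← cf_sub, ← cf_mul, cf_const hK.1, ← cf_smul, ← mpow_eq_cf] at h4
    exact h4
  · -- eigenvector
    have h1 : mpow K q *ᵥ v = ((d ^ q : ℝ) : ℂ) • v := by
      -- `(K - d)² ` kills `v`; use that `K^q - d^q` is a multiple of `K - d` on the spectrum
      have h2 : cf (fun t => t ^ q - d ^ q) K =
          cf (fun t => if t = d then 0 else (t ^ q - d ^ q) / (t - d)) K * (K - d • 1) := by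
        have h3 : K - d • (1 : Matrix ι ι ℂ) = cf (fun t => t - d) K := by
          rw [← cf_sub, cf_id hK.1, cf_const hK.1]
        rw [h3, cf_mul]
        refine cf_congr fun t _ => ?_
        by_cases htd : t = d
        · simp [htd]
        · rw [if_neg htd]
          have : t - d ≠ 0 := sub_ne_zero.mpr htd
          field_simp
      have h3 : (K - d • (1 : Matrix ι ι ℂ)) *ᵥ v = 0 := by
        rw [sub_mulVec, hKv, smul_mulVec, one_mulVec]
        ext i
        simp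
      have h4 : cf (fun t => t ^ q - d ^ q) K *ᵥ v = 0 := by
        rw [h2, ← mulVec_mulVec, h3, mulVec_zero]
      rw [← cf_sub, cf_const hK.1, sub_mulVec, smul_mulVec, one_mulVec, sub_eq_zero] at h4
      rw [mpow_eq_cf, h4]
      ext i
      simp
    have h2 : (c • mpow K q) *ᵥ v = ((c * d ^ q : ℝ) : ℂ) • v := by
      rw [smul_mulVec, h1]
      ext i
      simp [mul_assoc]
    rw [h2, star_smul, smul_dotProduct, dotProduct_smul, smul_smul]
    have e1 : (star ((c * d ^ q : ℝ) : ℂ) * ((c * d ^ q : ℝ) : ℂ)) =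
        (((c * d ^ q) ^ 2 : ℝ) : ℂ) := by
      rw [RCLike.star_def, Complex.conj_ofReal, ← Complex.ofReal_mul, pow_two]
    rw [e1, smul_eq_mul, Complex.re_ofReal_mul, hv, mul_one]
  · have h1 : d ≤ 1 := min_le_left _ _
    have h2 : d ≤ (A / (2 + 2 * L)) ^ (r - 1)⁻¹ := min_le_right _ _
    have h3 : d ^ 2 ≤ d := by nlinarith
    have h4 : d ^ (r - 1) ≤ A / (2 + 2 * L) := by
      have := Real.rpow_le_rpow hd.le h2 hr1.le
      rwa [← Real.rpow_mul (by positivity), inv_mul_cancel₀ hr1.ne', Real.rpow_one] at this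
    have h5 : (1 + r) * (2 * L * ((c * d ^ q) ^ 2 / (2 * L)) ^ r) = A * d ^ (2 - r) := by
      have e1 : (c * d ^ q) ^ 2 / (2 * L) = c ^ 2 / (2 * L) * d ^ (2 * q) := by
        rw [mul_pow, ← Real.rpow_natCast (d ^ q) 2, ← Real.rpow_mul hd.le]
        push_cast
        rw [mul_comm q 2]
        ring
      rw [e1, Real.mul_rpow (by positivity) (by positivity), ← Real.rpow_mul hd.le, hqr, hA]
      ring
    rw [h5]
    have h6 : d ^ (r - 1) * d ^ (2 - r) = d := by
      rw [← Real.rpow_add hd]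
      ring_nf
      exact Real.rpow_one d
    have h7 : 0 < d ^ (2 - r) := Real.rpow_pos_of_pos hd _
    have h8 : (2 + 2 * L) * d ≤ A * d ^ (2 - r) := by
      calc (2 + 2 * L) * d = (2 + 2 * L) * d ^ (r - 1) * d ^ (2 - r) := by
            rw [mul_assoc, h6]
        _ ≤ A * d ^ (2 - r) := by
            refine mul_le_mul_of_nonneg_right ?_ h7.le
            rw [le_div_iff₀ (by positivity)] at h4
            linarith
    nlinarith

end Crest.Agent.R332.Full
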