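import Crest.Agent.R332.AsmCore
import Crest.Agent.R332.FullWeight

/-! # Row 332: module (B) in the form needed by the assembly -/

set_option autoImplicit false
set_option linter.unusedSectionVars false

namespace Crest.Agent.R332

open Matrix Unitary MeasureTheory Set
open scoped ComplexOrder Topology ContDiff

section entry

open scoped Matrix.Norms.Frobenius

lemma hasDerivWithinAt_entry {ι : Type*} [Fintype ι] [DecidableEq ι] {F : ℝ → Matrix ι ι ℂ}
    {F' : Matrix ι ι ℂ} {s : Set ℝ} {x : ℝ} (h : HasDerivWithinAt F F' s x) (i j : ι) :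
    HasDerivWithinAt (fun y => F y i j) (F' i j) s x := by
  have hl := (LinearMap.toContinuousLinearMap
    ({ toFun := fun A : Matrix ι ι ℂ => A i j
       map_add' := fun _ _ => rfl
       map_smul' := fun _ _ => rfl } : Matrix ι ι ℂ →ₗ[ℝ] ℂ)).hasFDerivAt (x := F x)
  exact hl.comp_hasDerivWithinAt x h

end entry

variable {m : ℕ} {W : ℝ → Matrix (Fin m) (Fin m) ℂ} {ι : Type} [Fintype ι] [DecidableEq ι]

lemma Red.p_integral (S : Red m W ι) (i j : ι) :
    ∫ x in (-S.L)..S.L, S.p x i j = (1 : Matrix ι ι ℂ) i j := by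
  rw [← S.orth i j]
  refine intervalIntegral.integral_eq_integral_of_support_subset fun x hx => ?_
  by_contra hc
  apply hx
  have h1 : S.L ≤ |x| := by
    rw [mem_Ioc, not_and_or, not_lt, not_le] at hc
    rcases hc with h | h
    · exact le_trans (by linarith) (neg_le_abs x)
    · exact h.le.trans (le_abs_self x)
  show S.p x i j = 0
  rw [Red.p, S.supp x h1]
  simp

lemma Red.p_full (S : Red m W ι) (v : ι → ℂ) :
    ∫ x in (-S.L)..S.L, (star v ⬝ᵥ (S.p x *ᵥ v)).re = (star v ⬝ᵥ v).re := by
  have hc : ∀ i j, Continuous fun x => S.p x i j := fun i j =>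
    (continuous_apply j).comp ((continuous_apply i).comp S.p_cont)
  have hc2 : ∀ i j, Continuous fun x => star (v i) * (S.p x i j * v j) := fun i j =>
    continuous_const.mul ((hc i j).mul continuous_const)
  have e : ∀ x, star v ⬝ᵥ (S.p x *ᵥ v) = ∑ i, ∑ j, star (v i) * (S.p x i j * v j) := by
    intro x
    simp only [dotProduct, mulVec, Finset.mul_sum, Pi.star_apply]
  have e1 : ∫ x in (-S.L)..S.L, (star v ⬝ᵥ (S.p x *ᵥ v)).re =
      (∫ x in (-S.L)..S.L, ∑ i, ∑ j, star (v i) * (S.p x i j * v j)).re := by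
    have hi : IntervalIntegrable (fun x => ∑ i, ∑ j, star (v i) * (S.p x i j * v j)) volume
        (-S.L) S.L :=
      (continuous_finsetSum _ fun i _ => continuous_finsetSum _ fun j _ => hc2 i j).intervalIntegrable _ _
    have := Complex.reCLM.intervalIntegral_comp_comm hi
    simp only [Complex.reCLM_apply] at this
    rw [← this]
    simp only [e]
  rw [e1, intervalIntegral.integral_finsetSum fun i _ =>
    (continuous_finsetSum _ fun j _ => hc2 i j).intervalIntegrable _ _]
  have e2 : ∀ i, ∫ x in (-S.L)..S.L, ∑ j, star (v i) * (S.p x i j * v j) =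
      star (v i) * v i := by
    intro i
    rw [intervalIntegral.integral_finsetSum fun j _ => (hc2 i j).intervalIntegrable _ _]
    have e3 : ∀ j, ∫ x in (-S.L)..S.L, star (v i) * (S.p x i j * v j) =
        star (v i) * ((1 : Matrix ι ι ℂ) i j * v j) := by
      intro j
      rw [intervalIntegral.integral_const_mul, intervalIntegral.integral_mul_const,
        S.p_integral i j]
    simp only [e3]
    rw [← Finset.mul_sum]
    congr 1
    simp [Matrix.one_apply]
  simp only [e2]
  rfl

/-- **Module (B)**: the full data exist. -/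
theorem exists_fullData (S : Red m W ι) {α : ℝ} (hα : 0 < α) (hα1 : α < 1) :
    ∃ C K F, FullData S α C K F := by
  have hβ := betaC_pos hα
  have hb : 0 < betaC α * (α + 1 / 2) := by positivity
  set c : ℝ := Real.sqrt (betaC α * (α + 1 / 2)) with hcdef
  have hc : 0 < c := Real.sqrt_pos.mpr hb
  have hcc : c * c = betaC α * (α + 1 / 2) := Real.mul_self_sqrt hb.le
  have hr : 1 < 1 / α := by rw [lt_div_iff₀ hα]; linarith
  rcases le_total 1 (α + 1 / 2) with h1 | h1
  · -- `γ ≥ 1`: constant weight
    have hE := FullData.E_posDef S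
    have hEm : (mpow S.E ((α + 1 / 2 - 1) / 2)).PosDef := mpow_posDef hE _
    have hC : (c • mpow S.E ((α + 1 / 2 - 1) / 2)).PosDef := hEm.smul hc
    obtain ⟨K, hK, F, h0, hL, hd, hF⟩ := Full.exists_full_const hr.le S.L_pos S.p
      S.p_cont.continuousOn (fun x _ => S.p_pos x) S.p_full _ hC
    refine ⟨_, K, F, hC.1, hK, ⟨fun x hx => (hF x hx).1, fun x hx i j => ?_⟩,
      fun x hx => (hF x hx).2.1, fun x hx => (hF x hx).2.2, h0, hL, Or.inl ⟨h1, ?_⟩⟩
    · have := hasDerivWithinAt_entry (hd x hx) i j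
      rw [S.P_eq hC.1 x]
      exact this
    · rw [smul_mul_smul_comm, hcc, ← mpow_add hE]
      congr 2
      ring
  · -- `γ ≤ 1`: weight `c K^{γ-1}`
    obtain ⟨K, hK, F, h0, hL, hd, hF⟩ := Full.exists_full_pow (q := α - 1 / 2) hr S.L_pos hc
      (by linarith) (by field_simp) S.p
      S.p_cont.continuousOn (fun x _ => S.p_pos x) S.p_full
    have hC : (c • mpow K (α - 1 / 2)).PosDef := (mpow_posDef hK _).smul hc
    refine ⟨_, K, F, hC.1, hK, ⟨fun x hx => (hF x hx).1, fun x hx i j => ?_⟩,
      fun x hx => (hF x hx).2.1, fun x hx => (hF x hx).2.2, h0, hL, Or.inr ⟨h1, ?_⟩⟩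
    · have := hasDerivWithinAt_entry (hd x hx) i j
      rw [S.P_eq hC.1 x]
      exact this
    · rw [smul_mul_smul_comm, hcc, ← mpow_add hK]
      congr 2
      ring

end Crest.Agent.R332
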