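import Mathlib

set_option autoImplicit false
open MeasureTheory Set

namespace Crest.Agent.R332

/-- The symmetric Beta integral on `(0,1)`. -/
lemma integral_beta_symm {p : ℝ} (hp : 0 < p) :
    ∫ x in Ioo (0:ℝ) 1, x ^ (p - 1) * (1 - x) ^ (p - 1) = ProbabilityTheory.beta p p := by
  have h1 := ProbabilityTheory.lintegral_betaPDF_eq_one hp hp
  rw [ProbabilityTheory.lintegral_betaPDF] at h1
  have hb : 0 < ProbabilityTheory.beta p p := ProbabilityTheory.beta_pos hp hp
  have h2 : ∫ x in Ioo (0:ℝ) 1, 1 / ProbabilityTheory.beta p p * x ^ (p - 1) * (1 - x) ^ (p - 1) = 1 := by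
    rw [integral_eq_lintegral_of_nonneg_ae, h1]
    · simp
    · refine ae_restrict_of_forall_mem measurableSet_Ioo (fun x hx ↦ ?_)
      have h1x : 0 ≤ x ^ (p - 1) := Real.rpow_nonneg hx.1.le _
      have h2x : 0 ≤ (1 - x) ^ (p - 1) := Real.rpow_nonneg (by linarith [hx.2]) _
      simp only [Pi.zero_apply]
      positivity
    · exact Measurable.aestronglyMeasurable (by fun_prop)
  simp_rw [mul_assoc] at h2
  rw [integral_const_mul] at h2
  field_simp at h2
  linarith

lemma integrableOn_beta_symm {p : ℝ} (hp : 0 < p) :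
    IntegrableOn (fun x : ℝ => x ^ (p - 1) * (1 - x) ^ (p - 1)) (Ioo (0:ℝ) 1) := by
  by_contra h
  have := integral_undef h
  rw [integral_beta_symm hp] at this
  exact (ProbabilityTheory.beta_pos hp hp).ne' this

lemma two_rpow_mul_beta {p : ℝ} (hp : 0 < p) :
    (2:ℝ) ^ (2 * p - 1) * ProbabilityTheory.beta p p
      = Real.sqrt Real.pi * Real.Gamma p / Real.Gamma (p + 1 / 2) := by
  have h := Real.Gamma_mul_Gamma_add_half p
  have hG : 0 < Real.Gamma p := Real.Gamma_pos_of_pos hp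
  have hG2 : 0 < Real.Gamma (p + 1 / 2) := Real.Gamma_pos_of_pos (by linarith)
  have hG3 : 0 < Real.Gamma (2 * p) := Real.Gamma_pos_of_pos (by linarith)
  have h2 : (2:ℝ) ^ (1 - 2 * p) * (2:ℝ) ^ (2 * p - 1) = 1 := by
    rw [← Real.rpow_add (by norm_num)]; simp
  unfold ProbabilityTheory.beta
  rw [← two_mul, eq_div_iff hG2.ne', mul_div_assoc', div_mul_eq_mul_div, div_eq_iff hG3.ne']
  calc (2:ℝ) ^ (2 * p - 1) * (Real.Gamma p * Real.Gamma p) * Real.Gamma (p + 1 / 2)
      = (2:ℝ) ^ (2 * p - 1) * Real.Gamma p * (Real.Gamma p * Real.Gamma (p + 1 / 2)) := by ring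
    _ = (2:ℝ) ^ (2 * p - 1) * Real.Gamma p * (Real.Gamma (2 * p) * 2 ^ (1 - 2 * p) * √Real.pi) := by
        rw [h]
    _ = ((2:ℝ) ^ (1 - 2 * p) * (2:ℝ) ^ (2 * p - 1)) * Real.Gamma p * Real.Gamma (2 * p) * √Real.pi := by
        ring
    _ = _ := by rw [h2]; ring

/-- the logistic map -/
noncomputable def logi (y : ℝ) : ℝ := (1 + Real.exp (-(2 * y)))⁻¹

lemma logi_pos (y : ℝ) : 0 < logi y := by unfold logi; positivity

lemma logi_lt_one (y : ℝ) : logi y < 1 := by
  unfold logi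
  apply inv_lt_one_of_one_lt₀
  have := Real.exp_pos (-(2 * y))
  linarith

lemma logi_mul (y : ℝ) : logi y * (1 - logi y) = (4 * Real.cosh y ^ 2)⁻¹ := by
  unfold logi
  have h1 := Real.exp_pos y
  have h2 := Real.exp_pos (-y)
  have e1 : Real.exp (-(2 * y)) = Real.exp (-y) * Real.exp (-y) := by
    rw [← Real.exp_add]; ring_nf
  have e2 : Real.exp y * Real.exp (-y) = 1 := by rw [← Real.exp_add]; simp
  have e3 : Real.exp (-y) = (Real.exp y)⁻¹ := Real.exp_neg y
  rw [Real.cosh_eq, e1, e3]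
  field_simp
  ring

lemma hasDerivAt_logi (y : ℝ) : HasDerivAt logi (2 * (logi y * (1 - logi y))) y := by
  have h0 : HasDerivAt (fun y : ℝ => -(2 * y)) (-2) y := by
    have := (hasDerivAt_id y).const_mul (-2:ℝ)
    simp only [id_eq, mul_one] at this
    refine this.congr_of_eventuallyEq (Filter.Eventually.of_forall fun z => by simp)
  have h1 : HasDerivAt (fun y : ℝ => 1 + Real.exp (-(2 * y))) (Real.exp (-(2 * y)) * (-2)) y := by
    simpa using (h0.exp).const_add 1
  have hp : 0 < 1 + Real.exp (-(2 * y)) := by positivity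
  have h2 := h1.inv hp.ne'
  have : 2 * (logi y * (1 - logi y)) = -(Real.exp (-(2 * y)) * (-2)) / (1 + Real.exp (-(2 * y))) ^ 2 := by
    unfold logi; field_simp; ring
  rw [this]
  exact h2

lemma logi_injective : Function.Injective logi := by
  intro a b h
  unfold logi at h
  have h2 := inv_injective h
  have h3 : Real.exp (-(2 * a)) = Real.exp (-(2 * b)) := by linarith
  have h4 := Real.exp_injective h3
  linarith

lemma range_logi : logi '' univ = Ioo (0:ℝ) 1 := by
  ext u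
  constructor
  · rintro ⟨y, -, rfl⟩
    exact ⟨logi_pos y, logi_lt_one y⟩
  · rintro ⟨h0, h1⟩
    refine ⟨-(Real.log (u⁻¹ - 1)) / 2, mem_univ _, ?_⟩
    have : 0 < u⁻¹ - 1 := by
      have := (one_lt_inv₀ h0).2 h1
      linarith
    unfold logi
    have e : -(2 * (-(Real.log (u⁻¹ - 1)) / 2)) = Real.log (u⁻¹ - 1) := by ring
    rw [e, Real.exp_log this]
    simp

lemma kernel_comp_logi {p : ℝ} (y : ℝ) :
    |2 * (logi y * (1 - logi y))| • ((logi y) ^ (p - 1) * (1 - logi y) ^ (p - 1))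
      = (2 * (4:ℝ) ^ (-p)) * ((Real.cosh y ^ 2)⁻¹) ^ p := by
  have h0 := logi_pos y
  have h1 : 0 < 1 - logi y := by linarith [logi_lt_one y]
  have hc : 0 < Real.cosh y ^ 2 := by positivity
  rw [abs_of_pos (by positivity), ← Real.mul_rpow h0.le h1.le, smul_eq_mul]
  have : (logi y * (1 - logi y)) ^ (p - 1) = (logi y * (1 - logi y)) ^ p / (logi y * (1 - logi y)) :=
    Real.rpow_sub_one (by positivity) p
  rw [this]
  rw [mul_assoc, mul_div_cancel₀ _ (by positivity), logi_mul, mul_inv,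
    Real.mul_rpow (by norm_num) (by positivity), Real.rpow_neg (by norm_num), Real.inv_rpow (by norm_num)]
  ring

lemma integrable_sech_rpow {p : ℝ} (hp : 0 < p) :
    Integrable (fun y : ℝ => ((Real.cosh y ^ 2)⁻¹) ^ p) := by
  have h := (integrableOn_image_iff_integrableOn_abs_deriv_smul (s := univ) (f := logi)
    (f' := fun y => 2 * (logi y * (1 - logi y))) MeasurableSet.univ
    (fun x _ => (hasDerivAt_logi x).hasDerivWithinAt) (logi_injective.injOn)
    (fun x : ℝ => x ^ (p - 1) * (1 - x) ^ (p - 1))).1 (by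
      rw [range_logi]; exact integrableOn_beta_symm hp)
  rw [integrableOn_univ] at h
  have h2 : Integrable (fun y : ℝ => (2 * (4:ℝ) ^ (-p)) * ((Real.cosh y ^ 2)⁻¹) ^ p) := by
    refine h.congr (Filter.Eventually.of_forall fun y => ?_)
    exact kernel_comp_logi y
  have h4 : (2 * (4:ℝ) ^ (-p)) ≠ 0 := by positivity
  exact (integrable_const_mul_iff (IsUnit.mk0 _ h4) _).1 h2

/-- `∫ sech^{2p} = √π Γ(p) / Γ(p+1/2)`. -/
lemma integral_sech_rpow {p : ℝ} (hp : 0 < p) :
    ∫ y : ℝ, ((Real.cosh y ^ 2)⁻¹) ^ p = Real.sqrt Real.pi * Real.Gamma p / Real.Gamma (p + 1 / 2) := by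
  have h := integral_image_eq_integral_abs_deriv_smul (s := univ) (f := logi)
    (f' := fun y => 2 * (logi y * (1 - logi y))) MeasurableSet.univ
    (fun x _ => (hasDerivAt_logi x).hasDerivWithinAt) (logi_injective.injOn)
    (fun x : ℝ => x ^ (p - 1) * (1 - x) ^ (p - 1))
  rw [range_logi, integral_beta_symm hp] at h
  simp_rw [kernel_comp_logi] at h
  rw [setIntegral_univ, integral_const_mul] at h
  rw [← two_rpow_mul_beta hp, h]
  have h4 : (4:ℝ) ^ (-p) = ((2:ℝ) ^ (2 * p))⁻¹ := by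
    rw [← Real.rpow_neg (by norm_num), show (4:ℝ) = (2:ℝ) ^ (2:ℝ) by norm_num, ← Real.rpow_mul (by norm_num)]
    congr 1; ring
  have h5 : (2:ℝ) ^ (2 * p - 1) = (2:ℝ) ^ (2 * p) / 2 := Real.rpow_sub_one (by norm_num) _
  rw [h4, h5]
  have : (2:ℝ) ^ (2 * p) ≠ 0 := by positivity
  field_simp

/-- `∫_{-1}^1 (1-t²)^α dt = √π Γ(α+1) / Γ(α+3/2)`. -/
lemma integral_one_sub_sq_rpow {α : ℝ} (hα : -1 < α) :
    ∫ t in (-1:ℝ)..1, (1 - t ^ 2) ^ α
      = Real.sqrt Real.pi * Real.Gamma (α + 1) / Real.Gamma (α + 3 / 2) := by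
  have h1 := integral_beta_symm (p := α + 1) (by linarith)
  have h2 := two_rpow_mul_beta (p := α + 1) (by linarith)
  rw [show α + 1 + 1 / 2 = α + 3 / 2 by ring] at h2
  rw [← h2, ← h1]
  have h3 : ∫ t in (-1:ℝ)..1, (1 - t ^ 2) ^ α = 2 * ∫ u in (0:ℝ)..1, (1 - (2 * u - 1) ^ 2) ^ α := by
    have := intervalIntegral.integral_comp_mul_sub (a := 0) (b := 1) (fun t : ℝ => (1 - t ^ 2) ^ α)
      (c := 2) (by norm_num) 1
    rw [this]
    norm_num
    ring
  rw [h3, intervalIntegral.integral_of_le (by norm_num), integral_Ioc_eq_integral_Ioo,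
    ← integral_const_mul, ← integral_const_mul]
  refine setIntegral_congr_fun measurableSet_Ioo fun u hu => ?_
  have hu0 : 0 < u := hu.1
  have hu1 : 0 < 1 - u := by linarith [hu.2]
  have e1 : 1 - (2 * u - 1) ^ 2 = (2 ^ 2) * (u * (1 - u)) := by ring
  rw [e1, Real.mul_rpow (by norm_num) (by positivity), Real.mul_rpow hu0.le hu1.le,
    show α + 1 - 1 = α by ring, show 2 * (α + 1) - 1 = 1 + 2 * α by ring,
    Real.rpow_add (by norm_num), Real.rpow_mul (by norm_num), Real.rpow_one, Real.rpow_ofNat]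
  ring

end Crest.Agent.R332
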