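import Crest.Agent.R332.FamId

/-! # Row 332: a priori bounds for near optimal families

`∫ tr R^{1+r}`, `∫ |Ψ'|²` and `K ≤ κ` from the Young defect. -/

set_option autoImplicit false
set_option linter.unusedSectionVars false

namespace Crest.Agent.R332

open Matrix Unitary MeasureTheory Set
open scoped ComplexOrder Topology ContDiff
open Crest.MathPhysics.LiebThirring

section alg

variable {n : Type*} [Fintype n] [DecidableEq n]

/-- Matrix Young inequality at `2 W`. -/
lemma matrix_young2 {α : ℝ} (hα : 0 < α) {W R : Matrix n n ℂ} (hW : W.PosSemidef)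
    (hR : R.PosSemidef) :
    0 ≤ (α / (1 + α)) ^ α / (1 + α) * 2 ^ (1 + α) * trp W (1 + α) - 2 * rtr (W * R)
      + trp R (1 + 1 / α) := by
  set c : ℝ := (α / (1 + α)) ^ α / (1 + α)
  have h := klein (κ := Fin 3) Finset.univ hW.1 hR.1
    ![fun w => (c * 2 ^ (1 + α)) * w ^ (1 + α), fun w => -2 * w, fun _ => 1]
    ![fun _ => 1, fun x => x, fun x => x ^ (1 + 1 / α)] (by
      intro i j
      rw [Fin.sum_univ_three]
      simp only [Matrix.cons_val_zero, Matrix.cons_val_one, Matrix.cons_val]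
      have hw := hW.eigenvalues_nonneg i
      have := scalar_young hα (w := 2 * hW.1.eigenvalues i) (by positivity)
        (hR.eigenvalues_nonneg j)
      rw [Real.mul_rpow (by norm_num) hw] at this
      simp only [mul_one, one_mul, neg_mul]
      linarith)
  rw [Fin.sum_univ_three] at h
  simp only [Matrix.cons_val_zero, Matrix.cons_val_one, Matrix.cons_val] at h
  rw [cfc_one' hW.1, cfc_one' hR.1, Matrix.mul_one, Matrix.one_mul] at h
  have e1 : cfc (fun w : ℝ => (c * 2 ^ (1 + α)) * w ^ (1 + α)) W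
      = (c * 2 ^ (1 + α)) • mpow W (1 + α) := by
    rw [mpow, ← cfc_const_mul (c * 2 ^ (1 + α)) (fun w : ℝ => w ^ (1 + α)) W (contOn_spec _)]
  have e2 : cfc (fun w : ℝ => -2 * w) W = (-2 : ℝ) • W := by
    rw [cfc_const_mul (-2 : ℝ) (fun w : ℝ => w) W (contOn_spec _), cfc_self hW.1]
  have e3 : cfc (fun x : ℝ => x) R = R := cfc_self hR.1
  rw [e1, e2, e3, rtr_smul, Matrix.smul_mul, rtr_smul] at h
  simp only [trp, mpow] at h ⊢
  linarith

/-- `f(λ_i) ≤ c` for all eigenvalues gives `f(A) ≤ c`. -/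
lemma cfc_le_of_eig {A : Matrix n n ℂ} (hA : A.IsHermitian) {f : ℝ → ℝ} {c : ℝ}
    (h : ∀ i, f (hA.eigenvalues i) ≤ c) : ((c : ℂ) • (1 : Matrix n n ℂ) - cfc f A).PosSemidef := by
  have e : (c : ℂ) • (1 : Matrix n n ℂ) - cfc f A = cfc (fun t => c - f t) A := by
    rw [cfc_sub (fun _ : ℝ => c) f A (contOn_spec _) (contOn_spec _)]
    congr 1
    have h1 : cfc (fun _ : ℝ => c) A = c • (1 : Matrix n n ℂ) := by
      have h2 : cfc (fun _ : ℝ => c) A = algebraMap ℝ (Matrix n n ℂ) c := cfc_const c A hA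
      rw [h2, Algebra.algebraMap_eq_smul_one]
    rw [h1]
    ext i j
    simp
  rw [e]
  exact cfc_posSemidef hA fun i => by have := h i; linarith

/-- eigenvalue bound from the trace of a power -/
lemma eig_le_of_trp_le {K : Matrix n n ℂ} (hK : K.PosSemidef) {q X : ℝ} (hq : 0 < q)
    (hX : trp K q ≤ X) (i : n) : hK.1.eigenvalues i ≤ X ^ (1 / q) := by
  have h1 : trp K q = ∑ i, (hK.1.eigenvalues i) ^ q := by
    rw [trp, mpow, rtr_cfc hK.1]
  have h0 : ∀ j, 0 ≤ (hK.1.eigenvalues j) ^ q := fun j =>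
    Real.rpow_nonneg (hK.eigenvalues_nonneg j) q
  have h2 : (hK.1.eigenvalues i) ^ q ≤ X := by
    refine le_trans ?_ hX
    rw [h1]
    exact Finset.single_le_sum (f := fun j => (hK.1.eigenvalues j) ^ q) (fun j _ => h0 j)
      (Finset.mem_univ i)
  have h3 := Real.rpow_le_rpow (h0 i) h2 (by positivity : 0 ≤ 1 / q)
  rwa [← Real.rpow_mul (hK.eigenvalues_nonneg i), mul_one_div_cancel hq.ne', Real.rpow_one] at h3

/-- **bound for `K`** -/
theorem le_kap_of_trp_le {K : Matrix n n ℂ} (hK : K.PosSemidef) {q X : ℝ} (hq : 0 < q)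
    (hX : trp K q ≤ X) : (((X ^ (1 / q) : ℝ) : ℂ) • (1 : Matrix n n ℂ) - K).PosSemidef := by
  have h := cfc_le_of_eig hK.1 (f := fun t : ℝ => t) (c := X ^ (1 / q))
    (fun i => eig_le_of_trp_le hK hq hX i)
  rwa [cfc_self hK.1] at h

/-- eigenvalue bound from the trace -/
lemma eig_le_rtr {P : Matrix n n ℂ} (hP : P.PosSemidef) (i : n) :
    hP.1.eigenvalues i ≤ rtr P := by
  have h1 : rtr P = ∑ i, hP.1.eigenvalues i := by
    have := rtr_cfc hP.1 (fun t : ℝ => t)
    rwa [cfc_self hP.1] at this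
  rw [h1]
  exact Finset.single_le_sum (f := fun j => hP.1.eigenvalues j)
    (fun j _ => hP.eigenvalues_nonneg j) (Finset.mem_univ i)

/-- **bound for `P^r`** -/
theorem mpow_le_of_rtr_le {P : Matrix n n ℂ} (hP : P.PosSemidef) {r B : ℝ} (hr : 0 ≤ r)
    (hB : rtr P ≤ B) : (((B ^ r : ℝ) : ℂ) • (1 : Matrix n n ℂ) - mpow P r).PosSemidef :=
  cfc_le_of_eig hP.1 fun i => Real.rpow_le_rpow (hP.eigenvalues_nonneg i)
    ((eig_le_rtr hP i).trans hB) hr

end alg

variable {m : ℕ} {W : ℝ → Matrix (Fin m) (Fin m) ℂ} {ι : Type} [Fintype ι] [DecidableEq ι]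

namespace Red

variable (S : Red m W ι)

/-- pointwise bound of `tr R^{1+r}` by the Young defect -/
lemma trp_R_le_yd {α : ℝ} (hα : 0 < α) (hWp : ∀ x, (W x).PosSemidef) (C : Matrix ι ι ℂ) (x : ℝ) :
    trp (S.R C x) (1 + 1 / α) ≤ 2 * S.yd α C x +
      2 * ((α / (1 + α)) ^ α / (1 + α)) * (2 ^ α - 1) * trp (W x) (1 + α) := by
  have h := matrix_young2 hα (hWp x) (S.R_pos C x)
  rw [Real.rpow_add (by norm_num : (0:ℝ) < 2), Real.rpow_one] at h
  unfold yd
  set c : ℝ := (α / (1 + α)) ^ α / (1 + α)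
  nlinarith [h]

lemma integrable_yd {α : ℝ} (hα : 0 < α) {C : Matrix ι ι ℂ} (hC : C.IsHermitian)
    (hWi : Integrable fun x => trp (W x) (1 + α)) : Integrable fun x => S.yd α C x := by
  unfold yd
  exact ((hWi.const_mul _).sub (S.integrable_kin hC)).add
    (S.integrable_trp_R C (by positivity))

/-- **(bR)** -/
theorem integral_trp_R_le {α : ℝ} (hα : 0 < α) (hWp : ∀ x, (W x).PosSemidef)
    {C : Matrix ι ι ℂ} (hC : C.IsHermitian)
    (hWi : Integrable fun x => trp (W x) (1 + α)) :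
    ∫ x, trp (S.R C x) (1 + 1 / α) ≤ 2 * (∫ x, S.yd α C x) +
      2 * ((α / (1 + α)) ^ α / (1 + α)) * (2 ^ α - 1) * ∫ x, trp (W x) (1 + α) := by
  have h1 := S.integrable_yd hα hC hWi
  rw [← integral_const_mul, ← integral_const_mul, ← integral_add (h1.const_mul _)
    (hWi.const_mul _)]
  exact integral_mono (S.integrable_trp_R C (by positivity))
    ((h1.const_mul _).add (hWi.const_mul _)) fun x => S.trp_R_le_yd hα hWp C x

lemma rtr_CCE_nonneg {C : Matrix ι ι ℂ} (hC : C.IsHermitian) : 0 ≤ rtr (C * C * S.E) := by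
  have hE : S.E.PosSemidef := by
    unfold E
    refine Matrix.PosSemidef.diagonal fun i => ?_
    have := (S.e_pos i).le
    simpa using this
  have h1 : (C * S.E * Cᴴ).PosSemidef := hE.mul_mul_conjTranspose_same C
  have h2 : rtr (C * C * S.E) = rtr (C * S.E * Cᴴ) := by
    rw [hC.eq, Matrix.mul_assoc, rtr_mul_comm, Matrix.mul_assoc]
  rw [h2, rtr_eq_sum h1.1]
  exact Finset.sum_nonneg fun i _ => h1.eigenvalues_nonneg i

/-- **(bd)** -/
theorem integral_DΨ_le {α : ℝ} (hα : 0 < α) (hWp : ∀ x, (W x).PosSemidef)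
    {C : Matrix ι ι ℂ} (hC : C.IsHermitian)
    (hWi : Integrable fun x => trp (W x) (1 + α)) :
    ∫ x, rtr ((S.DΨ C x)ᴴ * S.DΨ C x) ≤ (α / (1 + α)) ^ α / (1 + α) * (∫ x, trp (W x) (1 + α))
      + ∫ x, trp (S.R C x) (1 + 1 / α) := by
  have h1 := S.integral_kin hC
  rw [integral_sub (S.integrable_kin2 C) (S.integrable_kin hC)] at h1
  have h2 := S.rtr_CCE_nonneg hC
  have h3 : 0 ≤ ∫ x, S.yd α C x := integral_nonneg fun x => S.yd_nonneg hα hWp C x
  have h4 : ∫ x, S.yd α C x = (α / (1 + α)) ^ α / (1 + α) * (∫ x, trp (W x) (1 + α)) -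
      (∫ x, rtr (W x * S.R C x)) + ∫ x, trp (S.R C x) (1 + 1 / α) := by
    simp only [yd]
    have i1 : Integrable (fun x => (α / (1 + α)) ^ α / (1 + α) * trp (W x) (1 + α)) :=
      hWi.const_mul _
    have i2 : Integrable (fun x => (α / (1 + α)) ^ α / (1 + α) * trp (W x) (1 + α) -
        rtr (W x * S.R C x)) := i1.sub (S.integrable_kin hC)
    rw [integral_add i2 (S.integrable_trp_R C (by positivity)),
      integral_sub i1 (S.integrable_kin hC), integral_const_mul]
  linarith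

/-- the total mass of `tr P^{1+r}` on the interval is that of `tr R^{1+r}` -/
lemma integral_trp_P_eq {q : ℝ} (hq : 0 < q) (C : Matrix ι ι ℂ) :
    ∫ x in (-S.L)..S.L, trp (S.P C x) q = ∫ x, trp (S.R C x) q := by
  simp only [S.trp_R_eq C hq]
  exact (integral_eq_interval S.L_pos fun x hx => by
    rw [S.P_supp C hx, trp_supp hq]).symm

/-- **(kap)**: `K ≤ κ` from the N-channel inequality. -/
theorem le_kap {α β D : ℝ} (hα : 0 < α) (hβ : 0 < β) {C K : Matrix ι ι ℂ} (hK : K.PosSemidef)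
    (hN : β * trp K (1 + 2 * α) ≤ (1 / α) * ∫ x in (-S.L)..S.L, trp (S.P C x) (1 + 1 / α))
    (hD : ∫ x, trp (S.R C x) (1 + 1 / α) ≤ D) :
    ((((D / (α * β)) ^ (1 / (1 + 2 * α)) : ℝ) : ℂ) • (1 : Matrix ι ι ℂ) - K).PosSemidef := by
  refine le_kap_of_trp_le hK (by positivity) ?_
  rw [S.integral_trp_P_eq (by positivity) C] at hN
  have h1 : β * trp K (1 + 2 * α) ≤ (1 / α) * D :=
    hN.trans (mul_le_mul_of_nonneg_left hD (by positivity))
  rw [le_div_iff₀ (by positivity)]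
  have h2 : α * (β * trp K (1 + 2 * α)) ≤ D := by
    have h3 := mul_le_mul_of_nonneg_left h1 hα.le
    rwa [← mul_assoc α (1 / α) D, mul_one_div_cancel hα.ne', one_mul] at h3
  linarith

end Red

end Crest.Agent.R332
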