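import Mathlib

set_option autoImplicit false
open Matrix Polynomial

namespace Crest.Agent.R332

variable {ι : Type*} [Fintype ι] [DecidableEq ι]

/-- spectrum of a unitarily diagonalised matrix -/
lemma spectrum_conj_diagonal_subset (U : Matrix.unitaryGroup ι ℂ) (d : ι → ℝ) :
    spectrum ℝ ((U : Matrix ι ι ℂ) * Matrix.diagonal (fun i => (d i : ℂ)) * star (U : Matrix ι ι ℂ))
      ⊆ Set.range d := by
  intro t ht
  have h1 : algebraMap ℝ ℂ t ∈ spectrum ℂ ((U : Matrix ι ι ℂ) *
      Matrix.diagonal (fun i => (d i : ℂ)) * star (U : Matrix ι ι ℂ)) := by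
    exact spectrum.algebraMap_mem ℂ ht
  rw [Unitary.spectrum_star_right_conjugate, spectrum_diagonal] at h1
  obtain ⟨i, hi⟩ := h1
  refine ⟨i, ?_⟩
  simpa using hi

lemma isHermitian_conj_diagonal (U : Matrix.unitaryGroup ι ℂ) (d : ι → ℝ) :
    ((U : Matrix ι ι ℂ) * Matrix.diagonal (fun i => (d i : ℂ)) *
      star (U : Matrix ι ι ℂ)).IsHermitian := by
  have : (Matrix.diagonal (fun i => (d i : ℂ))).IsHermitian := by
    apply Matrix.isHermitian_diagonal_of_self_adjoint
    ext i; simp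
  exact Matrix.isHermitian_mul_mul_conjTranspose _ this

/-- polynomial functional calculus of a conjugated diagonal matrix -/
lemma aeval_conj_diagonal (U : Matrix.unitaryGroup ι ℂ) (d : ι → ℝ) (q : ℝ[X]) :
    aeval ((U : Matrix ι ι ℂ) * Matrix.diagonal (fun i => (d i : ℂ)) * star (U : Matrix ι ι ℂ)) q
      = (U : Matrix ι ι ℂ) * Matrix.diagonal (fun i => ((q.eval (d i) : ℝ) : ℂ)) *
        star (U : Matrix ι ι ℂ) := by
  have hU : star (U : Matrix ι ι ℂ) * (U : Matrix ι ι ℂ) = 1 := Unitary.coe_star_mul_self U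
  have hU' : (U : Matrix ι ι ℂ) * star (U : Matrix ι ι ℂ) = 1 := Unitary.coe_mul_star_self U
  induction q using Polynomial.induction_on' with
  | add p q hp hq =>
    rw [map_add, hp, hq, ← add_mul, ← mul_add, Matrix.diagonal_add]
    simp
  | monomial n a =>
    rw [aeval_monomial]
    have key : ∀ n : ℕ, ((U : Matrix ι ι ℂ) * Matrix.diagonal (fun i => (d i : ℂ)) *
        star (U : Matrix ι ι ℂ)) ^ n = (U : Matrix ι ι ℂ) *
        Matrix.diagonal (fun i => ((d i ^ n : ℝ) : ℂ)) * star (U : Matrix ι ι ℂ) := by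
      intro n
      induction n with
      | zero => simp [hU', Matrix.diagonal_one]
      | succ n ih =>
        rw [pow_succ, ih]
        calc _ = (U : Matrix ι ι ℂ) * (Matrix.diagonal (fun i => ((d i ^ n : ℝ) : ℂ)) *
              (star (U : Matrix ι ι ℂ) * (U : Matrix ι ι ℂ)) *
              Matrix.diagonal (fun i => (d i : ℂ))) * star (U : Matrix ι ι ℂ) := by
              simp only [mul_assoc]
          _ = _ := by
              rw [hU, mul_one, Matrix.diagonal_mul_diagonal]
              simp [pow_succ]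
    rw [key]
    have : (algebraMap ℝ (Matrix ι ι ℂ)) a = Matrix.diagonal (fun _ => (a : ℂ)) := by
      rw [Matrix.algebraMap_eq_diagonal]; rfl
    rw [this]
    have hcomm : Matrix.diagonal (fun _ => (a : ℂ)) * (U : Matrix ι ι ℂ) =
        (U : Matrix ι ι ℂ) * Matrix.diagonal (fun _ => (a : ℂ)) := by
      ext i j; simp [mul_comm]
    rw [← mul_assoc, ← mul_assoc, hcomm, mul_assoc (U : Matrix ι ι ℂ), Matrix.diagonal_mul_diagonal]
    simp [Polynomial.eval_monomial]

/-- the functional calculus on a unitarily diagonalised matrix -/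
theorem cfc_conj_diagonal (U : Matrix.unitaryGroup ι ℂ) (d : ι → ℝ) (f : ℝ → ℝ) :
    cfc f ((U : Matrix ι ι ℂ) * Matrix.diagonal (fun i => (d i : ℂ)) * star (U : Matrix ι ι ℂ))
      = (U : Matrix ι ι ℂ) * Matrix.diagonal (fun i => ((f (d i) : ℝ) : ℂ)) *
        star (U : Matrix ι ι ℂ) := by
  classical
  have hA : IsSelfAdjoint ((U : Matrix ι ι ℂ) * Matrix.diagonal (fun i => (d i : ℂ)) *
    star (U : Matrix ι ι ℂ)) := isHermitian_conj_diagonal U d
  let s : Finset ℝ := Finset.univ.image d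
  let q : ℝ[X] := Lagrange.interpolate s id f
  have hq : ∀ i, q.eval (d i) = f (d i) := by
    intro i
    have : d i ∈ s := Finset.mem_image_of_mem _ (Finset.mem_univ i)
    exact Lagrange.eval_interpolate_at_node (v := id) f (s := s) (Function.injective_id.injOn) this
  have h1 : cfc f ((U : Matrix ι ι ℂ) * Matrix.diagonal (fun i => (d i : ℂ)) *
      star (U : Matrix ι ι ℂ)) = cfc q.eval ((U : Matrix ι ι ℂ) *
      Matrix.diagonal (fun i => (d i : ℂ)) * star (U : Matrix ι ι ℂ)) := by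
    apply cfc_congr
    intro t ht
    obtain ⟨i, rfl⟩ := spectrum_conj_diagonal_subset U d ht
    exact (hq i).symm
  rw [h1, cfc_polynomial q _ hA, aeval_conj_diagonal]
  simp [hq]

theorem trace_cfc_conj_diagonal (U : Matrix.unitaryGroup ι ℂ) (d : ι → ℝ) (f : ℝ → ℝ) :
    (Matrix.trace (cfc f ((U : Matrix ι ι ℂ) * Matrix.diagonal (fun i => (d i : ℂ)) *
      star (U : Matrix ι ι ℂ)))).re = ∑ i, f (d i) := by
  rw [cfc_conj_diagonal, Matrix.trace_mul_cycle, Unitary.coe_star_mul_self, one_mul,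
    Matrix.trace_diagonal]
  simp

theorem cfc_diagonal (d : ι → ℝ) (f : ℝ → ℝ) :
    cfc f (Matrix.diagonal (fun i => (d i : ℂ))) = Matrix.diagonal (fun i => ((f (d i) : ℝ) : ℂ)) := by
  have := cfc_conj_diagonal (1 : Matrix.unitaryGroup ι ℂ) d f
  simpa using this

theorem trace_cfc_diagonal (d : ι → ℝ) (f : ℝ → ℝ) :
    (Matrix.trace (cfc f (Matrix.diagonal (fun i => (d i : ℂ))))).re = ∑ i, f (d i) := by
  rw [cfc_diagonal, Matrix.trace_diagonal]; simp

end Crest.Agent.R332
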