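import Mathlib

/-! Row 332 (F1): Hilbert-Schmidt norm toolbox for the dimension free coercivity lemma. -/

set_option autoImplicit false
set_option linter.unusedSectionVars false

open Matrix MeasureTheory
open scoped ComplexOrder MatrixOrder Matrix.Norms.L2Operator

namespace Crest.Agent.R332.Coer

variable {ι : Type*} [Fintype ι] [DecidableEq ι]

/-- squared Hilbert-Schmidt norm -/
noncomputable def nsq (A : Matrix ι ι ℂ) : ℝ := (Aᴴ * A).trace.re

omit [DecidableEq ι] in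
theorem nsq_eq_sum (A : Matrix ι ι ℂ) : nsq A = ∑ j, ∑ i, ‖A i j‖ ^ 2 := by
  unfold nsq
  simp only [Matrix.trace, Matrix.diag_apply, Matrix.mul_apply, Matrix.conjTranspose_apply,
    Complex.re_sum]
  refine Finset.sum_congr rfl fun j _ => Finset.sum_congr rfl fun i _ => ?_
  rw [← Complex.normSq_eq_norm_sq]
  simp [Complex.normSq_apply, Complex.mul_re]

omit [DecidableEq ι] in
theorem nsq_nonneg (A : Matrix ι ι ℂ) : 0 ≤ nsq A := by
  rw [nsq_eq_sum]; positivity

omit [DecidableEq ι] in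
theorem nsq_conjTranspose (A : Matrix ι ι ℂ) : nsq Aᴴ = nsq A := by
  rw [nsq_eq_sum, nsq_eq_sum, Finset.sum_comm]
  simp

omit [DecidableEq ι] in
theorem nsq_neg (A : Matrix ι ι ℂ) : nsq (-A) = nsq A := by
  simp [nsq_eq_sum]

omit [DecidableEq ι] in
theorem nsq_add_le (A B : Matrix ι ι ℂ) : nsq (A + B) ≤ 2 * nsq A + 2 * nsq B := by
  simp only [nsq_eq_sum, Finset.mul_sum, ← Finset.sum_add_distrib]
  refine Finset.sum_le_sum fun j _ => Finset.sum_le_sum fun i _ => ?_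
  have h := norm_add_le (A i j) (B i j)
  have h0 := norm_nonneg (A i j + B i j)
  simp only [Matrix.add_apply]
  nlinarith [sq_nonneg (‖A i j‖ - ‖B i j‖), norm_nonneg (A i j), norm_nonneg (B i j)]

theorem nsq_mul_le_left (B A : Matrix ι ι ℂ) : nsq (B * A) ≤ ‖B‖ ^ 2 * nsq A := by
  rw [nsq_eq_sum, nsq_eq_sum, Finset.mul_sum]
  refine Finset.sum_le_sum fun j _ => ?_
  have h := Matrix.l2_opNorm_mulVec B (WithLp.toLp 2 (fun i => A i j))
  have h1 : ‖(EuclideanSpace.equiv ι ℂ).symm (B *ᵥ (fun i => A i j))‖ ^ 2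
      = ∑ i, ‖(B * A) i j‖ ^ 2 := by
    rw [EuclideanSpace.norm_sq_eq]
    rfl
  have h2 : ‖(WithLp.toLp 2 (fun i => A i j) : EuclideanSpace ℂ ι)‖ ^ 2
      = ∑ i, ‖A i j‖ ^ 2 := by
    rw [EuclideanSpace.norm_sq_eq]
  rw [← h1, ← h2, ← mul_pow]
  exact pow_le_pow_left₀ (norm_nonneg _) h 2

theorem nsq_mul_le_right (A B : Matrix ι ι ℂ) : nsq (A * B) ≤ ‖B‖ ^ 2 * nsq A := by
  rw [← nsq_conjTranspose, Matrix.conjTranspose_mul, ← nsq_conjTranspose A,
    ← Matrix.l2_opNorm_conjTranspose B]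
  exact nsq_mul_le_left _ _

/-- polarised AM-GM: `2 Re tr (Cᴴ A) ≤ nsq C + nsq A` -/
theorem two_re_trace_le (C A : Matrix ι ι ℂ) :
    2 * (Cᴴ * A).trace.re ≤ nsq C + nsq A := by
  have h := nsq_nonneg (A - C)
  have e : nsq (A - C) = nsq A + nsq C - 2 * (Cᴴ * A).trace.re := by
    unfold nsq
    have hc : (Aᴴ * C).trace.re = (Cᴴ * A).trace.re := by
      have : Aᴴ * C = (Cᴴ * A)ᴴ := by simp [Matrix.conjTranspose_mul]
      rw [this, Matrix.trace_conjTranspose]
      simp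
    simp only [Matrix.conjTranspose_sub, sub_mul, mul_sub, Matrix.trace_sub, Complex.sub_re]
    rw [hc]; ring
  linarith

end Crest.Agent.R332.Coer
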