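import Crest.Agent.R332.CoerA

/-! Row 332 (F1): the resolvent pencil `R_l = (M - l F)⁻¹`. -/

set_option autoImplicit false
set_option linter.unusedSectionVars false

open Matrix MeasureTheory
open scoped ComplexOrder MatrixOrder Matrix.Norms.L2Operator

namespace Crest.Agent.R332.Coer

variable {ι : Type*} [Fintype ι] [DecidableEq ι]

/-- the pencil `M - l F` -/
noncomputable def Pl (M F : Matrix ι ι ℂ) (l : ℝ) : Matrix ι ι ℂ := M - l • F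

/-- the resolvent `(M - l F)⁻¹` -/
noncomputable def Rl (M F : Matrix ι ι ℂ) (l : ℝ) : Matrix ι ι ℂ := (Pl M F l)⁻¹

/-- admissible pairs: `δ ≤ M ± F ≤ β` -/
structure Adm (M F : Matrix ι ι ℂ) (δ β : ℝ) : Prop where
  hM : M.IsHermitian
  hF : F.IsHermitian
  hδ : 0 < δ
  hβ : 0 < β
  a_lo : δ • (1 : Matrix ι ι ℂ) ≤ M - F
  b_lo : δ • (1 : Matrix ι ι ℂ) ≤ M + F
  a_hi : M - F ≤ β • (1 : Matrix ι ι ℂ)
  b_hi : M + F ≤ β • (1 : Matrix ι ι ℂ)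

theorem posSemidef_real_smul {A : Matrix ι ι ℂ} {c : ℝ} (hc : 0 ≤ c) (hA : A.PosSemidef) :
    (c • A).PosSemidef := by
  have : c • A = (c : ℂ) • A := by ext i j; simp
  rw [this]
  exact hA.smul (by exact_mod_cast hc)

theorem Pl_eq (M F : Matrix ι ι ℂ) (l : ℝ) :
    Pl M F l = ((1 + l) / 2) • (M - F) + ((1 - l) / 2) • (M + F) := by
  unfold Pl
  ext i j
  simp
  ring

theorem Pl_lo {M F : Matrix ι ι ℂ} {δ β : ℝ} (h : Adm M F δ β) {l : ℝ} (h1 : -1 ≤ l)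
    (h2 : l ≤ 1) : δ • (1 : Matrix ι ι ℂ) ≤ Pl M F l := by
  rw [Pl_eq, Matrix.le_iff]
  have e : ((1 + l) / 2) • (M - F) + ((1 - l) / 2) • (M + F) - δ • (1 : Matrix ι ι ℂ)
      = ((1 + l) / 2) • (M - F - δ • 1) + ((1 - l) / 2) • (M + F - δ • 1) := by
    ext i j; simp; ring
  rw [e]
  exact (posSemidef_real_smul (by linarith) h.a_lo).add (posSemidef_real_smul (by linarith) h.b_lo)

theorem Pl_hi {M F : Matrix ι ι ℂ} {δ β : ℝ} (h : Adm M F δ β) {l : ℝ} (h1 : -1 ≤ l)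
    (h2 : l ≤ 1) : Pl M F l ≤ β • (1 : Matrix ι ι ℂ) := by
  rw [Pl_eq, Matrix.le_iff]
  have e : β • (1 : Matrix ι ι ℂ) - (((1 + l) / 2) • (M - F) + ((1 - l) / 2) • (M + F))
      = ((1 + l) / 2) • (β • 1 - (M - F)) + ((1 - l) / 2) • (β • 1 - (M + F)) := by
    ext i j; simp; ring
  rw [e]
  exact (posSemidef_real_smul (by linarith) h.a_hi).add (posSemidef_real_smul (by linarith) h.b_hi)

theorem smul_one_nonneg {c : ℝ} (hc : 0 ≤ c) : (0 : Matrix ι ι ℂ) ≤ c • 1 := by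
  rw [Matrix.nonneg_iff_posSemidef]
  exact posSemidef_real_smul hc Matrix.PosSemidef.one

theorem norm_le_of_le {A : Matrix ι ι ℂ} {c : ℝ} (hc : 0 ≤ c) (h0 : 0 ≤ A)
    (h : A ≤ c • (1 : Matrix ι ι ℂ)) : ‖A‖ ≤ c := by
  rw [CStarAlgebra.norm_le_iff_le_algebraMap A hc h0, Algebra.algebraMap_eq_smul_one]
  exact h

theorem posDef_of_smul_one_le {A : Matrix ι ι ℂ} {δ : ℝ} (hδ : 0 < δ)
    (h : δ • (1 : Matrix ι ι ℂ) ≤ A) : A.PosDef := by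
  have h1 : (δ • (1 : Matrix ι ι ℂ)).PosDef := by
    have : δ • (1 : Matrix ι ι ℂ) = (δ : ℂ) • 1 := by ext i j; simp
    rw [this]
    exact Matrix.PosDef.one.smul (by exact_mod_cast hδ)
  have h2 := h1.add_posSemidef (Matrix.le_iff.1 h)
  simpa using h2

theorem norm_inv_le {A : Matrix ι ι ℂ} {δ : ℝ} (hδ : 0 < δ)
    (h : δ • (1 : Matrix ι ι ℂ) ≤ A) : ‖A⁻¹‖ ≤ δ⁻¹ := by
  have hA := posDef_of_smul_one_le hδ h
  have hu : IsUnit A.det := (Matrix.isUnit_iff_isUnit_det A).1 hA.isUnit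
  have hh : (A⁻¹)ᴴ = A⁻¹ := hA.inv.isHermitian
  have hps := (Matrix.le_iff.1 h).conjTranspose_mul_mul_same (A⁻¹)
  have e : (A⁻¹)ᴴ * (A - δ • (1 : Matrix ι ι ℂ)) * A⁻¹ = A⁻¹ - δ • (A⁻¹ * A⁻¹) := by
    rw [hh, mul_sub, sub_mul, Matrix.nonsing_inv_mul _ hu]
    simp
  rw [e] at hps
  have h1 : δ • (A⁻¹ * A⁻¹) ≤ A⁻¹ := hps
  have h0 : 0 ≤ δ • (A⁻¹ * A⁻¹) := by
    rw [Matrix.nonneg_iff_posSemidef]
    refine posSemidef_real_smul hδ.le ?_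
    have := Matrix.posSemidef_conjTranspose_mul_self (A⁻¹)
    rwa [hh] at this
  have h2 := CStarAlgebra.norm_le_norm_of_nonneg_of_le h0 h1
  have h3 : ‖A⁻¹ * A⁻¹‖ = ‖A⁻¹‖ * ‖A⁻¹‖ := by
    have := Matrix.l2_opNorm_conjTranspose_mul_self (A⁻¹)
    rwa [hh] at this
  rw [norm_smul, h3, Real.norm_of_nonneg hδ.le] at h2
  by_cases hz : ‖A⁻¹‖ = 0
  · rw [hz]; positivity
  · have hp : 0 < ‖A⁻¹‖ := lt_of_le_of_ne (norm_nonneg _) (Ne.symm hz)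
    have h4 : δ * ‖A⁻¹‖ ≤ 1 := by
      have : (δ * ‖A⁻¹‖) * ‖A⁻¹‖ ≤ 1 * ‖A⁻¹‖ := by linarith
      exact le_of_mul_le_mul_right this hp
    have h5 : ‖A⁻¹‖ ≤ 1 / δ := (le_div_iff₀ hδ).2 (by linarith)
    rwa [one_div] at h5

section
variable {M F : Matrix ι ι ℂ} {δ β : ℝ} {l : ℝ}

theorem Pl_posDef (h : Adm M F δ β) (h1 : -1 ≤ l) (h2 : l ≤ 1) : (Pl M F l).PosDef :=
  posDef_of_smul_one_le h.hδ (Pl_lo h h1 h2)

theorem Pl_isUnit_det (h : Adm M F δ β) (h1 : -1 ≤ l) (h2 : l ≤ 1) : IsUnit (Pl M F l).det :=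
  (Matrix.isUnit_iff_isUnit_det _).1 (Pl_posDef h h1 h2).isUnit

theorem Rl_mul_Pl (h : Adm M F δ β) (h1 : -1 ≤ l) (h2 : l ≤ 1) : Rl M F l * Pl M F l = 1 :=
  Matrix.nonsing_inv_mul _ (Pl_isUnit_det h h1 h2)

theorem Pl_mul_Rl (h : Adm M F δ β) (h1 : -1 ≤ l) (h2 : l ≤ 1) : Pl M F l * Rl M F l = 1 :=
  Matrix.mul_nonsing_inv _ (Pl_isUnit_det h h1 h2)

theorem Rl_herm (h : Adm M F δ β) (h1 : -1 ≤ l) (h2 : l ≤ 1) : (Rl M F l)ᴴ = Rl M F l :=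
  (Pl_posDef h h1 h2).inv.isHermitian

theorem norm_Pl_le (h : Adm M F δ β) (h1 : -1 ≤ l) (h2 : l ≤ 1) : ‖Pl M F l‖ ≤ β :=
  norm_le_of_le h.hβ.le (Pl_posDef h h1 h2).posSemidef.nonneg (Pl_hi h h1 h2)

theorem norm_Rl_le (h : Adm M F δ β) (h1 : -1 ≤ l) (h2 : l ≤ 1) : ‖Rl M F l‖ ≤ δ⁻¹ :=
  norm_inv_le h.hδ (Pl_lo h h1 h2)

/-- `[R,M] = l [R,F]` -/
theorem comm_RM (h : Adm M F δ β) (h1 : -1 ≤ l) (h2 : l ≤ 1) :
    Rl M F l * M - M * Rl M F l = l • (Rl M F l * F - F * Rl M F l) := by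
  have e1 := Rl_mul_Pl h h1 h2
  have e2 := Pl_mul_Rl h h1 h2
  unfold Pl at e1 e2
  rw [mul_sub, Matrix.mul_smul] at e1
  rw [sub_mul, Matrix.smul_mul] at e2
  rw [smul_sub]
  have : Rl M F l * M = 1 + l • (Rl M F l * F) := by rw [← e1]; abel
  have h' : M * Rl M F l = 1 + l • (F * Rl M F l) := by rw [← e2]; abel
  rw [this, h']; abel

/-- `[R,F] = R [F,M] R` -/
theorem comm_RF (h : Adm M F δ β) (h1 : -1 ≤ l) (h2 : l ≤ 1) :
    Rl M F l * F - F * Rl M F l = Rl M F l * (F * M - M * F) * Rl M F l := by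
  have e1 := Rl_mul_Pl h h1 h2
  have e2 := Pl_mul_Rl h h1 h2
  have e3 : F * M - M * F = F * Pl M F l - Pl M F l * F := by
    unfold Pl
    rw [mul_sub, sub_mul, Matrix.mul_smul, Matrix.smul_mul]
    abel
  rw [e3, mul_sub, sub_mul]
  have t1 : Rl M F l * (F * Pl M F l) * Rl M F l = Rl M F l * F := by
    rw [mul_assoc, mul_assoc, e2, mul_one]
  have t2 : Rl M F l * (Pl M F l * F) * Rl M F l = F * Rl M F l := by
    rw [← mul_assoc, e1, one_mul]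
  rw [t1, t2]

/-- `[F,M] = P [R,F] P` -/
theorem comm_FM (h : Adm M F δ β) (h1 : -1 ≤ l) (h2 : l ≤ 1) :
    F * M - M * F = Pl M F l * (Rl M F l * F - F * Rl M F l) * Pl M F l := by
  have e1 := Rl_mul_Pl h h1 h2
  have e2 := Pl_mul_Rl h h1 h2
  rw [comm_RF h h1 h2]
  calc F * M - M * F = (Pl M F l * Rl M F l) * (F * M - M * F) * (Rl M F l * Pl M F l) := by
        rw [e1, e2, one_mul, mul_one]
    _ = _ := by simp only [mul_assoc]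

end

end Crest.Agent.R332.Coer
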