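import Crest.Agent.R332.CoerB

/-! Row 332 (F1): calculus in the pencil parameter. -/

set_option autoImplicit false
set_option linter.unusedSectionVars false

open Matrix MeasureTheory Set
open scoped ComplexOrder MatrixOrder Matrix.Norms.L2Operator

namespace Crest.Agent.R332.Coer

variable {ι : Type*} [Fintype ι] [DecidableEq ι]

section
variable {M F : Matrix ι ι ℂ} {δ β : ℝ} {l : ℝ}

theorem hasDerivAt_Pl (M F : Matrix ι ι ℂ) (l : ℝ) : HasDerivAt (Pl M F) (-F) l := by
  have h : HasDerivAt (fun l : ℝ => M - l • F) (0 - (1 : ℝ) • F) l :=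
    (hasDerivAt_const l M).sub ((hasDerivAt_id l).smul_const F)
  have e : (0 - (1 : ℝ) • F) = -F := by simp
  rw [e] at h
  exact h

theorem hasDerivAt_Rl (h : Adm M F δ β) (h1 : -1 ≤ l) (h2 : l ≤ 1) :
    HasDerivAt (Rl M F) (Rl M F l * F * Rl M F l) l := by
  obtain ⟨u, hu⟩ := (Pl_posDef h h1 h2).isUnit
  have hf := hasFDerivAt_ringInverse (𝕜 := ℝ) u
  have hd := hf.comp_hasDerivAt_of_eq l (hasDerivAt_Pl M F l) hu
  have hinv : ((u⁻¹ : (Matrix ι ι ℂ)ˣ) : Matrix ι ι ℂ) = Rl M F l := by
    unfold Rl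
    rw [← hu, Matrix.coe_units_inv]
  have e1 : (Ring.inverse ∘ Pl M F) = Rl M F := by
    funext t
    simp only [Function.comp_apply, Rl]
    rw [Matrix.nonsing_inv_eq_ringInverse]
  rw [e1] at hd
  refine hd.congr_deriv ?_
  simp [hinv, mul_assoc]

theorem continuousOn_Rl (h : Adm M F δ β) : ContinuousOn (Rl M F) (Icc (-1) 1) :=
  fun _ hx => (hasDerivAt_Rl h hx.1 hx.2).continuousAt.continuousWithinAt

/-- operator identity: `d/dl R (l M - F) = R M R M - R F R F` -/
theorem hasDerivAt_key (h : Adm M F δ β) (h1 : -1 ≤ l) (h2 : l ≤ 1) :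
    HasDerivAt (fun t : ℝ => Rl M F t * (t • M - F))
      (Rl M F l * M * Rl M F l * M - Rl M F l * F * Rl M F l * F) l := by
  have hR := hasDerivAt_Rl h h1 h2
  have hQ : HasDerivAt (fun t : ℝ => t • M - F) M l := by
    have h' : HasDerivAt (fun t : ℝ => t • M - F) ((1 : ℝ) • M - 0) l :=
      ((hasDerivAt_id l).smul_const M).sub (hasDerivAt_const l F)
    have e : ((1 : ℝ) • M - 0) = M := by simp
    rw [e] at h'
    exact h'
  refine (hR.mul hQ).congr_deriv ?_
  have e2 := Pl_mul_Rl h h1 h2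
  have e3 : Rl M F l * M = Rl M F l * (Pl M F l * Rl M F l) * M := by rw [e2, mul_one]
  have e4 : Rl M F l * (Pl M F l * Rl M F l) * M
      = Rl M F l * M * Rl M F l * M - l • (Rl M F l * F * Rl M F l * M) := by
    unfold Pl
    simp only [sub_mul, mul_sub, Matrix.smul_mul, Matrix.mul_smul, mul_assoc]
  have e5 := e3.trans e4
  have hsum : l • (Rl M F l * F * Rl M F l * M) + Rl M F l * M
      = Rl M F l * M * Rl M F l * M := by
    conv_lhs => rw [e5]
    abel
  calc Rl M F l * F * Rl M F l * (l • M - F) + Rl M F l * M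
      = (l • (Rl M F l * F * Rl M F l * M) + Rl M F l * M)
          - Rl M F l * F * Rl M F l * F := by
        rw [mul_sub, Matrix.mul_smul]; abel
    _ = _ := by rw [hsum]

theorem integral_key (h : Adm M F δ β) :
    ∫ l in (-1 : ℝ)..1, (Rl M F l * M * Rl M F l * M - Rl M F l * F * Rl M F l * F)
      = (2 : ℝ) • (1 : Matrix ι ι ℂ) := by
  have hc := continuousOn_Rl h
  rw [intervalIntegral.integral_eq_sub_of_hasDerivAt
    (f := fun t : ℝ => Rl M F t * (t • M - F))]
  · have a1 := Rl_mul_Pl h (l := 1) (by norm_num) le_rfl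
    have a2 := Rl_mul_Pl h (l := -1) le_rfl (by norm_num)
    have p1 : ((1 : ℝ) • M - F) = Pl M F 1 := by simp [Pl]
    have p2 : ((-1 : ℝ) • M - F) = - Pl M F (-1) := by simp [Pl]; abel
    simp only [p1, p2, mul_neg, a1, a2]
    rw [two_smul]; abel
  · intro x hx
    rw [uIcc_of_le (by norm_num)] at hx
    exact hasDerivAt_key h hx.1 hx.2
  · apply ContinuousOn.intervalIntegrable
    rw [uIcc_of_le (by norm_num)]
    fun_prop

/-- `A ↦ Re tr (A X)` as a continuous real linear map -/
noncomputable def trL (X : Matrix ι ι ℂ) : Matrix ι ι ℂ →L[ℝ] ℝ :=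
  LinearMap.toContinuousLinearMap
    { toFun := fun A => (A * X).trace.re
      map_add' := fun A B => by simp [add_mul]
      map_smul' := fun c A => by simp }

@[simp] theorem trL_apply (X A : Matrix ι ι ℂ) : trL X A = (A * X).trace.re := rfl

theorem re_trace_integral {f : ℝ → Matrix ι ι ℂ} {a b : ℝ}
    (hf : IntervalIntegrable f volume a b) (X : Matrix ι ι ℂ) :
    ((∫ l in a..b, f l) * X).trace.re = ∫ l in a..b, (f l * X).trace.re := by
  have := (trL X).intervalIntegral_comp_comm hf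
  simpa using this.symm

end

end Crest.Agent.R332.Coer
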