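import Crest.Agent.R332.CoerC

/-! Row 332 (F1): the deficit `i₁` and the matrix `Λ = ⟨R²⟩`. -/

set_option autoImplicit false
set_option linter.unusedSectionVars false

open Matrix MeasureTheory Set
open scoped ComplexOrder MatrixOrder Matrix.Norms.L2Operator

namespace Crest.Agent.R332.Coer

variable {ι : Type*} [Fintype ι] [DecidableEq ι]

section
variable {M F : Matrix ι ι ℂ} {δ β : ℝ} {l : ℝ}

/-- the commutator `[R_l, F]` -/
noncomputable def Dl (M F : Matrix ι ι ℂ) (l : ℝ) : Matrix ι ι ℂ :=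
  Rl M F l * F - F * Rl M F l

theorem Dl_conj (h : Adm M F δ β) (h1 : -1 ≤ l) (h2 : l ≤ 1) : (Dl M F l)ᴴ = - Dl M F l := by
  unfold Dl
  rw [Matrix.conjTranspose_sub, Matrix.conjTranspose_mul, Matrix.conjTranspose_mul,
    Rl_herm h h1 h2, h.hF.eq]
  abel

theorem trace_sq_comm (R F : Matrix ι ι ℂ) :
    ((R * F - F * R) * (R * F - F * R)).trace
      = 2 * (R * F * R * F).trace - 2 * (R * R * (F * F)).trace := by
  have t1 : (F * R * (F * R)).trace = (R * F * R * F).trace := by
    rw [Matrix.trace_mul_comm (F * R) (F * R), mul_assoc, Matrix.trace_mul_comm F]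
    simp only [mul_assoc]
  have t2 : (R * F * (F * R)).trace = (R * R * (F * F)).trace := by
    rw [← mul_assoc, Matrix.trace_mul_comm (R * F * F) R]
    simp only [mul_assoc]
  have t3 : (F * R * (R * F)).trace = (R * R * (F * F)).trace := by
    rw [mul_assoc, Matrix.trace_mul_comm F]
    simp only [mul_assoc]
  have t4 : (R * F * (R * F)).trace = (R * F * R * F).trace := by simp only [mul_assoc]
  simp only [mul_sub, sub_mul, Matrix.trace_sub, t1, t2, t3, t4]
  ring

theorem trace_id (h : Adm M F δ β) (h1 : -1 ≤ l) (h2 : l ≤ 1) :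
    (Rl M F l * Rl M F l * (M * M - F * F)).trace.re
      = (Rl M F l * M * Rl M F l * M - Rl M F l * F * Rl M F l * F).trace.re
        - (1 - l ^ 2) / 2 * nsq (Dl M F l) := by
  have hD : nsq (Dl M F l) = - (Dl M F l * Dl M F l).trace.re := by
    unfold nsq
    rw [Dl_conj h h1 h2]
    simp
  have e1 := trace_sq_comm (Rl M F l) F
  have e2 := trace_sq_comm (Rl M F l) M
  have e3 : Rl M F l * M - M * Rl M F l = l • Dl M F l := comm_RM h h1 h2
  rw [e3] at e2
  have e4 : Rl M F l * F - F * Rl M F l = Dl M F l := rfl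
  rw [e4] at e1
  have e5 : (l • Dl M F l * l • Dl M F l).trace = (l : ℂ) ^ 2 * (Dl M F l * Dl M F l).trace := by
    rw [Matrix.smul_mul, Matrix.mul_smul, Matrix.trace_smul, Matrix.trace_smul]
    simp only [Complex.real_smul]
    ring
  rw [e5] at e2
  have e1r := congrArg Complex.re e1
  have e2r := congrArg Complex.re e2
  have hcast : ((l : ℂ) ^ 2 * (Dl M F l * Dl M F l).trace).re
      = l ^ 2 * (Dl M F l * Dl M F l).trace.re := by
    rw [← Complex.ofReal_pow, Complex.re_ofReal_mul]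
  rw [hcast] at e2r
  simp only [Complex.sub_re, Complex.mul_re, Complex.re_ofNat, Complex.im_ofNat, zero_mul,
    sub_zero] at e1r e2r
  rw [mul_sub, Matrix.trace_sub, Matrix.trace_sub, Complex.sub_re, Complex.sub_re, hD]
  nlinarith [e1r, e2r]

theorem continuousOn_Dl (h : Adm M F δ β) : ContinuousOn (Dl M F) (Icc (-1) 1) := by
  have := continuousOn_Rl h
  unfold Dl
  fun_prop

theorem continuousOn_nsq {f : ℝ → Matrix ι ι ℂ} {s : Set ℝ} (hf : ContinuousOn f s) :
    ContinuousOn (fun l => nsq (f l)) s := by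
  unfold nsq
  have h1 : ContinuousOn (fun l => (f l)ᴴ * f l) s := by
    have : ContinuousOn (fun l => (f l)ᴴ) s :=
      (continuous_id.matrix_conjTranspose).comp_continuousOn hf
    fun_prop
  have h2 : Continuous fun A : Matrix ι ι ℂ => A.trace.re :=
    Complex.continuous_re.comp (Continuous.matrix_trace continuous_id)
  exact h2.comp_continuousOn h1

/-- helper14's first deficit -/
noncomputable def defI1 (M F : Matrix ι ι ℂ) : ℝ :=
  Fintype.card ι - (1 / 2) * ∫ l in (-1 : ℝ)..1,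
    (Rl M F l * Rl M F l * (M * M - F * F)).trace.re

theorem uIcc_eq : uIcc (-1 : ℝ) 1 = Icc (-1) 1 := uIcc_of_le (by norm_num)

theorem defI1_eq (h : Adm M F δ β) :
    defI1 M F = ∫ l in (-1 : ℝ)..1, (1 - l ^ 2) / 4 * nsq (Dl M F l) := by
  have hc := continuousOn_Rl h
  have hD := continuousOn_nsq (continuousOn_Dl h)
  have hkey : ContinuousOn (fun l => Rl M F l * M * Rl M F l * M
      - Rl M F l * F * Rl M F l * F) (Icc (-1) 1) := by fun_prop
  have hki : IntervalIntegrable (fun l => Rl M F l * M * Rl M F l * M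
      - Rl M F l * F * Rl M F l * F) volume (-1) 1 := by
    apply ContinuousOn.intervalIntegrable; rw [uIcc_eq]; exact hkey
  have e : ∫ l in (-1 : ℝ)..1, (Rl M F l * Rl M F l * (M * M - F * F)).trace.re
      = ∫ l in (-1 : ℝ)..1, ((Rl M F l * M * Rl M F l * M
          - Rl M F l * F * Rl M F l * F) * 1).trace.re
        - ((1 - l ^ 2) / 2 * nsq (Dl M F l)) := by
    apply intervalIntegral.integral_congr
    intro l hl
    rw [uIcc_eq] at hl
    simp only [mul_one]
    exact trace_id h hl.1 hl.2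
  unfold defI1
  rw [e, intervalIntegral.integral_sub, ← re_trace_integral hki, integral_key h]
  · have e2 : ∫ l in (-1 : ℝ)..1, (1 - l ^ 2) / 4 * nsq (Dl M F l)
        = (1 / 2) * ∫ l in (-1 : ℝ)..1, (1 - l ^ 2) / 2 * nsq (Dl M F l) := by
      rw [← intervalIntegral.integral_const_mul]
      congr 1; ext l; ring
    rw [e2, mul_one, Matrix.trace_smul, Matrix.trace_one]
    simp
    ring
  · apply ContinuousOn.intervalIntegrable
    rw [uIcc_eq]
    simp only [mul_one]
    have h2 : Continuous fun A : Matrix ι ι ℂ => A.trace.re :=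
      Complex.continuous_re.comp (Continuous.matrix_trace continuous_id)
    exact h2.comp_continuousOn hkey
  · apply ContinuousOn.intervalIntegrable
    rw [uIcc_eq]
    fun_prop

theorem nsq_FM_le (h : Adm M F δ β) (h1 : -1 ≤ l) (h2 : l ≤ 1) :
    nsq (F * M - M * F) ≤ β ^ 4 * nsq (Dl M F l) := by
  rw [comm_FM h h1 h2]
  have hP := norm_Pl_le h h1 h2
  have hP2 : ‖Pl M F l‖ ^ 2 ≤ β ^ 2 := pow_le_pow_left₀ (norm_nonneg _) hP 2
  calc nsq (Pl M F l * (Rl M F l * F - F * Rl M F l) * Pl M F l)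
      ≤ ‖Pl M F l‖ ^ 2 * nsq (Pl M F l * (Rl M F l * F - F * Rl M F l)) := nsq_mul_le_right _ _
    _ ≤ ‖Pl M F l‖ ^ 2 * (‖Pl M F l‖ ^ 2 * nsq (Dl M F l)) := by
        gcongr; exact nsq_mul_le_left _ _
    _ ≤ β ^ 2 * (β ^ 2 * nsq (Dl M F l)) := by
        have := nsq_nonneg (Dl M F l)
        gcongr
    _ = _ := by ring

theorem nsq_Dl_le (h : Adm M F δ β) (h1 : -1 ≤ l) (h2 : l ≤ 1) :
    nsq (Dl M F l) ≤ (δ⁻¹) ^ 4 * nsq (F * M - M * F) := by
  have e : Dl M F l = Rl M F l * (F * M - M * F) * Rl M F l := comm_RF h h1 h2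
  rw [e]
  have hP := norm_Rl_le h h1 h2
  have hP2 : ‖Rl M F l‖ ^ 2 ≤ (δ⁻¹) ^ 2 := pow_le_pow_left₀ (norm_nonneg _) hP 2
  calc nsq (Rl M F l * (F * M - M * F) * Rl M F l)
      ≤ ‖Rl M F l‖ ^ 2 * nsq (Rl M F l * (F * M - M * F)) := nsq_mul_le_right _ _
    _ ≤ ‖Rl M F l‖ ^ 2 * (‖Rl M F l‖ ^ 2 * nsq (F * M - M * F)) := by
        gcongr; exact nsq_mul_le_left _ _
    _ ≤ (δ⁻¹) ^ 2 * ((δ⁻¹) ^ 2 * nsq (F * M - M * F)) := by
        have := nsq_nonneg (F * M - M * F)
        gcongr
    _ = _ := by ring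

/-- `i₁` controls the commutator `[F,M]` in Hilbert-Schmidt norm -/
theorem nsq_FM_le_defI1 (h : Adm M F δ β) :
    nsq (F * M - M * F) ≤ 3 * β ^ 4 * defI1 M F := by
  rw [defI1_eq h]
  have hβ := h.hβ
  have hint : ∫ l in (-1 : ℝ)..1, (1 - l ^ 2) / 4 * ((β ^ 4)⁻¹ * nsq (F * M - M * F))
      = (1 / 3) * ((β ^ 4)⁻¹ * nsq (F * M - M * F)) := by
    rw [intervalIntegral.integral_mul_const]
    congr 1
    simp only [sub_div]
    rw [intervalIntegral.integral_sub, intervalIntegral.integral_const,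
      intervalIntegral.integral_div, integral_pow]
    · norm_num
    · exact intervalIntegrable_const
    · apply Continuous.intervalIntegrable; fun_prop
  have hmono : ∫ l in (-1 : ℝ)..1, (1 - l ^ 2) / 4 * ((β ^ 4)⁻¹ * nsq (F * M - M * F))
      ≤ ∫ l in (-1 : ℝ)..1, (1 - l ^ 2) / 4 * nsq (Dl M F l) := by
    apply intervalIntegral.integral_mono_on (by norm_num)
    · apply Continuous.intervalIntegrable; fun_prop
    · apply ContinuousOn.intervalIntegrable
      rw [uIcc_eq]
      have hD := continuousOn_nsq (continuousOn_Dl h)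
      fun_prop
    · intro l hl
      have h4 : (β ^ 4)⁻¹ * nsq (F * M - M * F) ≤ nsq (Dl M F l) := by
        rw [inv_mul_le_iff₀ (by positivity)]
        exact nsq_FM_le h hl.1 hl.2
      have h5 : 0 ≤ (1 - l ^ 2) / 4 := by
        have := hl.1; have := hl.2; nlinarith
      exact mul_le_mul_of_nonneg_left h4 h5
  rw [hint] at hmono
  have hb : 0 < β ^ 4 := by positivity
  calc nsq (F * M - M * F) = 3 * β ^ 4 * (1 / 3 * ((β ^ 4)⁻¹ * nsq (F * M - M * F))) := by
        field_simp
    _ ≤ _ := by gcongr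

end

end Crest.Agent.R332.Coer
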