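import Crest.Agent.R332.CoerD

/-! Row 332 (F1): the matrix `Λ = ⟨R²⟩`. -/

set_option autoImplicit false
set_option linter.unusedSectionVars false

open Matrix MeasureTheory Set
open scoped ComplexOrder MatrixOrder Matrix.Norms.L2Operator

namespace Crest.Agent.R332.Coer

variable {ι : Type*} [Fintype ι] [DecidableEq ι]

section
variable {M F : Matrix ι ι ℂ} {δ β : ℝ} {l : ℝ}

/-- `Λ = (1/2) ∫_{-1}^1 R_l² dl` -/
noncomputable def Lam (M F : Matrix ι ι ℂ) : Matrix ι ι ℂ :=
  (1 / 2 : ℝ) • ∫ l in (-1 : ℝ)..1, Rl M F l * Rl M F l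

theorem intble {f : ℝ → Matrix ι ι ℂ} (hf : ContinuousOn f (Icc (-1) 1)) :
    IntervalIntegrable f volume (-1) 1 := by
  apply ContinuousOn.intervalIntegrable; rw [uIcc_eq]; exact hf

theorem continuousOn_RR (h : Adm M F δ β) :
    ContinuousOn (fun l => Rl M F l * Rl M F l) (Icc (-1) 1) := by
  have hc := continuousOn_Rl h
  fun_prop

theorem re_trace_Lam (h : Adm M F δ β) (X : Matrix ι ι ℂ) :
    (Lam M F * X).trace.re = (1 / 2) * ∫ l in (-1 : ℝ)..1, (Rl M F l * Rl M F l * X).trace.re := by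
  unfold Lam
  rw [Matrix.smul_mul, Matrix.trace_smul, Complex.smul_re,
    re_trace_integral (intble (continuousOn_RR h)) X, smul_eq_mul]

theorem RR_decomp (h : Adm M F δ β) (h1 : -1 ≤ l) (h2 : l ≤ 1) :
    Rl M F l * Rl M F l * (M * M - F * F)
      = (Rl M F l * M * Rl M F l * M - Rl M F l * F * Rl M F l * F)
        + Rl M F l * Dl M F l * (l • M - F) := by
  have e1 : Rl M F l * M = M * Rl M F l + l • Dl M F l := by
    have := comm_RM h h1 h2
    unfold Dl
    rw [← this]; abel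
  have e2 : Rl M F l * F = F * Rl M F l + Dl M F l := by
    unfold Dl; abel
  have e3 : Rl M F l * Rl M F l * (M * M) = Rl M F l * M * Rl M F l * M
      + l • (Rl M F l * Dl M F l * M) := by
    calc Rl M F l * Rl M F l * (M * M) = Rl M F l * (Rl M F l * M) * M := by
          simp only [mul_assoc]
      _ = Rl M F l * (M * Rl M F l + l • Dl M F l) * M := by rw [e1]
      _ = _ := by
          simp only [mul_add, add_mul, Matrix.mul_smul, Matrix.smul_mul, mul_assoc]
  have e4 : Rl M F l * Rl M F l * (F * F) = Rl M F l * F * Rl M F l * F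
      + Rl M F l * Dl M F l * F := by
    calc Rl M F l * Rl M F l * (F * F) = Rl M F l * (Rl M F l * F) * F := by
          simp only [mul_assoc]
      _ = Rl M F l * (F * Rl M F l + Dl M F l) * F := by rw [e2]
      _ = _ := by
          simp only [mul_add, add_mul, mul_assoc]
  rw [mul_sub, e3, e4, mul_sub, Matrix.mul_smul]
  abel

/-- integral times constant matrix -/
theorem integral_mulR {f : ℝ → Matrix ι ι ℂ} {a b : ℝ}
    (hf : IntervalIntegrable f volume a b) (X : Matrix ι ι ℂ) :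
    (∫ l in a..b, f l) * X = ∫ l in a..b, f l * X := by
  have := ((ContinuousLinearMap.mul ℝ (Matrix ι ι ℂ)).flip X).intervalIntegral_comp_comm hf
  simpa using this.symm

theorem Lam_mul_sub_one (h : Adm M F δ β) :
    Lam M F * (M * M - F * F) - 1
      = (1 / 2 : ℝ) • ∫ l in (-1 : ℝ)..1, Rl M F l * Dl M F l * (l • M - F) := by
  have hc := continuousOn_Rl h
  have hD := continuousOn_Dl h
  unfold Lam
  rw [Matrix.smul_mul, integral_mulR (intble (continuousOn_RR h))]
  have e : ∫ l in (-1 : ℝ)..1, Rl M F l * Rl M F l * (M * M - F * F)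
      = ∫ l in (-1 : ℝ)..1, ((Rl M F l * M * Rl M F l * M - Rl M F l * F * Rl M F l * F)
        + Rl M F l * Dl M F l * (l • M - F)) := by
    apply intervalIntegral.integral_congr
    intro l hl
    rw [uIcc_eq] at hl
    exact RR_decomp h hl.1 hl.2
  rw [e, intervalIntegral.integral_add, integral_key h, smul_add, smul_smul]
  · norm_num
  · exact intble (by fun_prop)
  · exact intble (by fun_prop)

/-- Jensen for the squared Hilbert-Schmidt norm -/
theorem nsq_integral_le {f : ℝ → Matrix ι ι ℂ} (hf : ContinuousOn f (Icc (-1) 1)) :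
    nsq ((1 / 2 : ℝ) • ∫ l in (-1 : ℝ)..1, f l) ≤ (1 / 2) * ∫ l in (-1 : ℝ)..1, nsq (f l) := by
  set C := (1 / 2 : ℝ) • ∫ l in (-1 : ℝ)..1, f l with hC
  have h1 : nsq C = (1 / 2) * ∫ l in (-1 : ℝ)..1, (f l * Cᴴ).trace.re := by
    have : nsq C = (C * Cᴴ).trace.re := by
      unfold nsq; rw [Matrix.trace_mul_comm]
    rw [this]
    conv_lhs => rw [hC]
    rw [Matrix.smul_mul, Matrix.trace_smul, Complex.smul_re, re_trace_integral (intble hf) _,
      smul_eq_mul]
  have h2 : ∫ l in (-1 : ℝ)..1, (f l * Cᴴ).trace.re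
      ≤ ∫ l in (-1 : ℝ)..1, ((1 / 2) * nsq C + (1 / 2) * nsq (f l)) := by
    have ht : Continuous fun A : Matrix ι ι ℂ => A.trace.re :=
      Complex.continuous_re.comp (Continuous.matrix_trace continuous_id)
    apply intervalIntegral.integral_mono_on (by norm_num)
    · apply ContinuousOn.intervalIntegrable
      rw [uIcc_eq]
      have : ContinuousOn (fun l => f l * Cᴴ) (Icc (-1) 1) := by fun_prop
      exact ht.comp_continuousOn this
    · apply ContinuousOn.intervalIntegrable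
      rw [uIcc_eq]
      have hD := continuousOn_nsq hf
      fun_prop
    · intro l _
      have := two_re_trace_le C (f l)
      rw [Matrix.trace_mul_comm] at this
      linarith
  have h3 : ∫ l in (-1 : ℝ)..1, ((1 / 2) * nsq C + (1 / 2) * nsq (f l))
      = nsq C + (1 / 2) * ∫ l in (-1 : ℝ)..1, nsq (f l) := by
    rw [intervalIntegral.integral_add, intervalIntegral.integral_const_mul,
      intervalIntegral.integral_const]
    · norm_num
      ring
    · exact intervalIntegrable_const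
    · apply ContinuousOn.intervalIntegrable
      rw [uIcc_eq]
      have hD := continuousOn_nsq hf
      fun_prop
  have h4 : nsq C ≤ (1 / 2) * (nsq C + (1 / 2) * ∫ l in (-1 : ℝ)..1, nsq (f l)) := by
    rw [← h3]; linarith
  linarith

theorem norm_M_le (h : Adm M F δ β) : ‖M‖ ≤ β := by
  have := norm_Pl_le h (l := 0) (by norm_num) (by norm_num)
  simpa [Pl] using this

theorem norm_F_le (h : Adm M F δ β) : ‖F‖ ≤ β := by
  have a1 := norm_Pl_le h (l := 1) (by norm_num) (by norm_num)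
  have a2 := norm_Pl_le h (l := -1) (by norm_num) (by norm_num)
  have e : F = (1 / 2 : ℝ) • (Pl M F (-1) - Pl M F 1) := by
    unfold Pl
    ext i j
    simp
    ring
  rw [e, norm_smul]
  have := norm_sub_le (Pl M F (-1)) (Pl M F 1)
  have h12 : ‖(1 / 2 : ℝ)‖ = 1 / 2 := by norm_num
  rw [h12]
  linarith

theorem nsq_Lam_mul_sub_one_le (h : Adm M F δ β) :
    nsq (Lam M F * (M * M - F * F) - 1)
      ≤ 4 * β ^ 2 * (δ⁻¹) ^ 6 * nsq (F * M - M * F) := by
  rw [Lam_mul_sub_one h]
  have hc := continuousOn_Rl h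
  have hD := continuousOn_Dl h
  have hβ := h.hβ
  have hδ := h.hδ
  have hf : ContinuousOn (fun l : ℝ => Rl M F l * Dl M F l * (l • M - F)) (Icc (-1) 1) := by
    fun_prop
  refine (nsq_integral_le hf).trans ?_
  have hb : ∀ l ∈ Icc (-1 : ℝ) 1, nsq (Rl M F l * Dl M F l * (l • M - F))
      ≤ 4 * β ^ 2 * (δ⁻¹) ^ 6 * nsq (F * M - M * F) := by
    intro l hl
    have hn1 : ‖l • M - F‖ ≤ 2 * β := by
      have hl' : |l| ≤ 1 := abs_le.2 hl
      calc ‖l • M - F‖ ≤ ‖l • M‖ + ‖F‖ := norm_sub_le _ _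
        _ ≤ 1 * β + β := by
            rw [norm_smul, Real.norm_eq_abs]
            have := norm_M_le h
            have := norm_F_le h
            gcongr
        _ = 2 * β := by ring
    have hn2 := norm_Rl_le h hl.1 hl.2
    have hd := nsq_Dl_le h hl.1 hl.2
    have h0 := nsq_nonneg (Dl M F l)
    calc nsq (Rl M F l * Dl M F l * (l • M - F))
        ≤ ‖l • M - F‖ ^ 2 * nsq (Rl M F l * Dl M F l) := nsq_mul_le_right _ _
      _ ≤ ‖l • M - F‖ ^ 2 * (‖Rl M F l‖ ^ 2 * nsq (Dl M F l)) := by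
          gcongr; exact nsq_mul_le_left _ _
      _ ≤ (2 * β) ^ 2 * ((δ⁻¹) ^ 2 * ((δ⁻¹) ^ 4 * nsq (F * M - M * F))) := by
          gcongr
      _ = _ := by ring
  have hint : ∫ l in (-1 : ℝ)..1, nsq (Rl M F l * Dl M F l * (l • M - F))
      ≤ ∫ _l in (-1 : ℝ)..1, (4 * β ^ 2 * (δ⁻¹) ^ 6 * nsq (F * M - M * F)) := by
    apply intervalIntegral.integral_mono_on (by norm_num)
    · apply ContinuousOn.intervalIntegrable
      rw [uIcc_eq]
      exact continuousOn_nsq hf
    · exact intervalIntegrable_const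
    · exact hb
  rw [intervalIntegral.integral_const, smul_eq_mul] at hint
  linarith

/-- integral of a continuous PSD-valued function is PSD -/
theorem posSemidef_integral {f : ℝ → Matrix ι ι ℂ} (hf : ContinuousOn f (Icc (-1) 1))
    (hp : ∀ l ∈ Icc (-1 : ℝ) 1, (f l).PosSemidef) :
    (∫ l in (-1 : ℝ)..1, f l).PosSemidef := by
  have hherm : (∫ l in (-1 : ℝ)..1, f l).IsHermitian := by
    unfold Matrix.IsHermitian
    let cT : Matrix ι ι ℂ →L[ℝ] Matrix ι ι ℂ := LinearMap.toContinuousLinearMap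
      { toFun := fun A => Aᴴ
        map_add' := fun A B => by simp
        map_smul' := fun c A => by simp }
    have := cT.intervalIntegral_comp_comm (intble hf)
    have e : cT (∫ l in (-1 : ℝ)..1, f l) = (∫ l in (-1 : ℝ)..1, f l)ᴴ := rfl
    rw [← e, ← this]
    apply intervalIntegral.integral_congr
    intro l hl
    rw [uIcc_eq] at hl
    exact (hp l hl).isHermitian
  refine Matrix.PosSemidef.of_dotProduct_mulVec_nonneg hherm fun x => ?_
  have key : ∀ A : Matrix ι ι ℂ, (A * vecMulVec x (star x)).trace = star x ⬝ᵥ A *ᵥ x := by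
    intro A
    rw [Matrix.mul_vecMulVec, Matrix.trace_vecMulVec, dotProduct_comm]
  rw [Complex.nonneg_iff]
  constructor
  · rw [← key, re_trace_integral (intble hf)]
    apply intervalIntegral.integral_nonneg (by norm_num)
    intro l hl
    rw [key]
    exact (Complex.nonneg_iff.1 ((hp l hl).dotProduct_mulVec_nonneg x)).1
  · exact (hherm.im_star_dotProduct_mulVec_self x).symm

theorem Lam_lo (h : Adm M F δ β) : ((β ^ 2)⁻¹ : ℝ) • (1 : Matrix ι ι ℂ) ≤ Lam M F := by
  have hβ := h.hβ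
  have hp : ∀ l ∈ Icc (-1 : ℝ) 1,
      (Rl M F l * Rl M F l - ((β ^ 2)⁻¹ : ℝ) • (1 : Matrix ι ι ℂ)).PosSemidef := by
    intro l hl
    have hP := norm_Pl_le h hl.1 hl.2
    have hPh : (Pl M F l)ᴴ = Pl M F l := (Pl_posDef h hl.1 hl.2).isHermitian
    have hsq : ‖Pl M F l * Pl M F l‖ ≤ β ^ 2 := by
      calc ‖Pl M F l * Pl M F l‖ ≤ ‖Pl M F l‖ * ‖Pl M F l‖ := norm_mul_le _ _
        _ ≤ β * β := by gcongr
        _ = β ^ 2 := by ring
    have h0 : 0 ≤ Pl M F l * Pl M F l := by
      rw [Matrix.nonneg_iff_posSemidef]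
      have := Matrix.posSemidef_conjTranspose_mul_self (Pl M F l)
      rwa [hPh] at this
    have h1 := (CStarAlgebra.norm_le_iff_le_algebraMap _ (by positivity) h0).1 hsq
    rw [Algebra.algebraMap_eq_smul_one] at h1
    have h2 := (Matrix.le_iff.1 h1).conjTranspose_mul_mul_same (Rl M F l)
    rw [Rl_herm h hl.1 hl.2] at h2
    have e1 := Rl_mul_Pl h hl.1 hl.2
    have e2 := Pl_mul_Rl h hl.1 hl.2
    have e3 : Rl M F l * (β ^ 2 • (1 : Matrix ι ι ℂ) - Pl M F l * Pl M F l) * Rl M F l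
        = β ^ 2 • (Rl M F l * Rl M F l) - 1 := by
      rw [mul_sub, sub_mul]
      have : Rl M F l * (Pl M F l * Pl M F l) * Rl M F l = 1 := by
        rw [← mul_assoc, e1, one_mul, e2]
      rw [this]
      simp
    rw [e3] at h2
    have h3 := posSemidef_real_smul (c := (β ^ 2)⁻¹) (by positivity) h2
    rw [smul_sub, smul_smul, inv_mul_cancel₀ (by positivity), one_smul] at h3
    exact h3
  have hc := continuousOn_RR h
  have hps := posSemidef_integral (f := fun l => Rl M F l * Rl M F l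
    - ((β ^ 2)⁻¹ : ℝ) • (1 : Matrix ι ι ℂ)) (by fun_prop) hp
  have h4 := posSemidef_real_smul (c := (1 / 2 : ℝ)) (by norm_num) hps
  rw [intervalIntegral.integral_sub (intble hc) intervalIntegrable_const,
    intervalIntegral.integral_const, smul_sub] at h4
  rw [Matrix.le_iff]
  unfold Lam
  have e5 : (1 / 2 : ℝ) • ((1 - -1 : ℝ) • ((β ^ 2)⁻¹ : ℝ) • (1 : Matrix ι ι ℂ))
      = ((β ^ 2)⁻¹ : ℝ) • (1 : Matrix ι ι ℂ) := by
    rw [smul_smul]; norm_num
  rw [e5] at h4
  exact h4

theorem norm_Lam_le (h : Adm M F δ β) : ‖Lam M F‖ ≤ (δ⁻¹) ^ 2 := by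
  unfold Lam
  rw [norm_smul]
  have hδ := h.hδ
  have : ‖∫ l in (-1 : ℝ)..1, Rl M F l * Rl M F l‖ ≤ (δ⁻¹) ^ 2 * |1 - (-1 : ℝ)| := by
    apply intervalIntegral.norm_integral_le_of_norm_le_const
    intro l hl
    rw [uIoc_of_le (by norm_num)] at hl
    have hR := norm_Rl_le h hl.1.le hl.2
    calc ‖Rl M F l * Rl M F l‖ ≤ ‖Rl M F l‖ * ‖Rl M F l‖ := norm_mul_le _ _
      _ ≤ δ⁻¹ * δ⁻¹ := by gcongr
      _ = _ := by ring
  have h2 : |1 - (-1 : ℝ)| = 2 := by norm_num
  rw [h2] at this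
  have h12 : ‖(1 / 2 : ℝ)‖ = 1 / 2 := by norm_num
  rw [h12]
  linarith

theorem Lam_posDef (h : Adm M F δ β) : (Lam M F).PosDef := by
  have hβ := h.hβ
  exact posDef_of_smul_one_le (by positivity) (Lam_lo h)

theorem norm_Lam_inv_le (h : Adm M F δ β) : ‖(Lam M F)⁻¹‖ ≤ β ^ 2 := by
  have hβ := h.hβ
  have := norm_inv_le (A := Lam M F) (δ := (β ^ 2)⁻¹) (by positivity) (Lam_lo h)
  rwa [inv_inv] at this

end

end Crest.Agent.R332.Coer
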