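import Crest.Agent.R332.CoerE

/-! Row 332 (F1): trace-log coercivity. -/

set_option autoImplicit false
set_option linter.unusedSectionVars false

open Matrix MeasureTheory Set
open scoped ComplexOrder MatrixOrder Matrix.Norms.L2Operator

namespace Crest.Agent.R332.Coer

variable {ι : Type*} [Fintype ι] [DecidableEq ι]

/-- scalar inequality -/
theorem scalar_log {t τ : ℝ} (ht : 0 < t) (hτ : 1 ≤ τ) (htτ : t ≤ τ) :
    (t - 1) ^ 2 / (2 * τ) ≤ t - 1 - Real.log t := by
  have hτ0 : 0 < τ := by linarith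
  rcases le_total t 1 with h | h
  · -- t ≤ 1
    have hlog : Real.log t ≤ t - 1 - (t - 1) ^ 2 / 2 := by
      -- -log t = log (1/t) ≥ ... use f(t) = t - 1 - (t-1)^2/2 - log t, decreasing to 0
      have hmono : ∀ x ∈ Icc t 1, 0 ≤ x - 1 - (x - 1) ^ 2 / 2 - Real.log x := by
        intro x hx
        have hx0 : 0 < x := lt_of_lt_of_le ht hx.1
        have hanti : AntitoneOn (fun y : ℝ => y - 1 - (y - 1) ^ 2 / 2 - Real.log y) (Icc x 1) := by
          apply antitoneOn_of_deriv_nonpos (convex_Icc _ _)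
          · apply ContinuousOn.sub
            · fun_prop
            · apply Real.continuousOn_log.mono
              intro y hy
              simp only [mem_compl_iff, mem_singleton_iff]
              linarith [hy.1]
          · intro y hy
            rw [interior_Icc] at hy
            have hy0 : y ≠ 0 := by linarith [hy.1]
            apply DifferentiableAt.differentiableWithinAt
            apply DifferentiableAt.sub
            · fun_prop
            · exact Real.differentiableAt_log hy0
          · intro y hy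
            rw [interior_Icc] at hy
            have hy0 : 0 < y := by linarith [hy.1]
            have hd : HasDerivAt (fun y : ℝ => y - 1 - (y - 1) ^ 2 / 2 - Real.log y)
                (1 - (2 * (y - 1)) / 2 - y⁻¹) y := by
              have h1 : HasDerivAt (fun y : ℝ => y - 1) 1 y := (hasDerivAt_id y).sub_const 1
              have h2 : HasDerivAt (fun y : ℝ => (y - 1) ^ 2 / 2) ((2 * (y - 1)) / 2) y := by
                have := (h1.pow 2).div_const 2
                simpa using this
              exact (h1.sub h2).sub (Real.hasDerivAt_log hy0.ne')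
            rw [hd.deriv]
            have : 1 - (2 * (y - 1)) / 2 - y⁻¹ = -((y - 1) ^ 2 / y) := by
              field_simp
              ring
            rw [this]
            have : 0 ≤ (y - 1) ^ 2 / y := by positivity
            linarith
        have := hanti (left_mem_Icc.2 hx.2) (right_mem_Icc.2 hx.2) hx.2
        simpa using this
      have := hmono t (left_mem_Icc.2 h)
      linarith
    have h2 : (t - 1) ^ 2 / (2 * τ) ≤ (t - 1) ^ 2 / 2 := by
      apply div_le_div_of_nonneg_left (sq_nonneg _) (by norm_num) (by linarith)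
    linarith
  · -- 1 ≤ t: derivative of x - 1 - log x - (x-1)^2/(2τ) is (x-1)(1/x-1/τ) ≥ 0
    have hmono : MonotoneOn (fun y : ℝ => y - 1 - (y - 1) ^ 2 / (2 * τ) - Real.log y)
        (Icc 1 t) := by
      apply monotoneOn_of_deriv_nonneg (convex_Icc _ _)
      · apply ContinuousOn.sub
        · fun_prop
        · apply Real.continuousOn_log.mono
          intro y hy
          simp only [mem_compl_iff, mem_singleton_iff]
          linarith [hy.1]
      · intro y hy
        rw [interior_Icc] at hy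
        have hy0 : y ≠ 0 := by linarith [hy.1]
        apply DifferentiableAt.differentiableWithinAt
        apply DifferentiableAt.sub
        · fun_prop
        · exact Real.differentiableAt_log hy0
      · intro y hy
        rw [interior_Icc] at hy
        have hy0 : 0 < y := by linarith [hy.1]
        have hd : HasDerivAt (fun y : ℝ => y - 1 - (y - 1) ^ 2 / (2 * τ) - Real.log y)
            (1 - (2 * (y - 1)) / (2 * τ) - y⁻¹) y := by
          have h1 : HasDerivAt (fun y : ℝ => y - 1) 1 y := (hasDerivAt_id y).sub_const 1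
          have h2 : HasDerivAt (fun y : ℝ => (y - 1) ^ 2 / (2 * τ))
              ((2 * (y - 1)) / (2 * τ)) y := by
            have := (h1.pow 2).div_const (2 * τ)
            simpa using this
          exact (h1.sub h2).sub (Real.hasDerivAt_log hy0.ne')
        rw [hd.deriv]
        have : 1 - (2 * (y - 1)) / (2 * τ) - y⁻¹ = (y - 1) * (τ - y) / (y * τ) := by
          field_simp
          ring
        rw [this]
        have h1 : 0 ≤ y - 1 := by linarith [hy.1]
        have h2 : 0 ≤ τ - y := by linarith [hy.2]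
        positivity
    have := hmono (left_mem_Icc.2 h) (right_mem_Icc.2 h) h
    simp at this
    linarith

theorem nsq_unitary {U : Matrix ι ι ℂ} (hU : Uᴴ * U = 1) (D : Matrix ι ι ℂ) :
    nsq (U * D * Uᴴ) = nsq D := by
  have h1 : (U * D * Uᴴ)ᴴ * (U * D * Uᴴ) = U * (Dᴴ * D) * Uᴴ := by
    simp only [Matrix.conjTranspose_mul, Matrix.conjTranspose_conjTranspose]
    calc U * (Dᴴ * Uᴴ) * (U * D * Uᴴ) = U * Dᴴ * (Uᴴ * U) * D * Uᴴ := by
          simp only [mul_assoc]
      _ = _ := by rw [hU, mul_one]; simp only [mul_assoc]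
  unfold nsq
  rw [h1, Matrix.trace_mul_comm, ← mul_assoc, hU, one_mul]

/-- `nsq (T - 1) = Σ (t_i - 1)²` -/
theorem nsq_sub_one {T : Matrix ι ι ℂ} (hT : T.IsHermitian) :
    nsq (T - 1) = ∑ i, (hT.eigenvalues i - 1) ^ 2 := by
  set U : Matrix ι ι ℂ := (hT.eigenvectorUnitary : Matrix ι ι ℂ) with hUdef
  have hU : Uᴴ * U = 1 := by
    have := Unitary.coe_star_mul_self hT.eigenvectorUnitary
    exact this
  have hU' : U * Uᴴ = 1 := by
    have := Unitary.coe_mul_star_self hT.eigenvectorUnitary
    exact this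
  have hs : T = U * Matrix.diagonal (fun i => (hT.eigenvalues i : ℂ)) * Uᴴ := by
    have := hT.spectral_theorem
    rw [Unitary.conjStarAlgAut_apply] at this
    exact this
  have e : T - 1 = U * Matrix.diagonal (fun i => ((hT.eigenvalues i - 1 : ℝ) : ℂ)) * Uᴴ := by
    have : Matrix.diagonal (fun i => ((hT.eigenvalues i - 1 : ℝ) : ℂ))
        = Matrix.diagonal (fun i => (hT.eigenvalues i : ℂ)) - 1 := by
      rw [← Matrix.diagonal_one, Matrix.diagonal_sub]
      congr 1; ext i; simp
    rw [this, mul_sub, sub_mul, ← hs, mul_one, hU']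
  rw [e, nsq_unitary hU]
  unfold nsq
  rw [Matrix.diagonal_conjTranspose, Matrix.diagonal_mul_diagonal, Matrix.trace_diagonal,
    Complex.re_sum]
  refine Finset.sum_congr rfl fun i _ => ?_
  simp [pow_two]

/-- trace-log coercivity -/
theorem trlog_coercive {A X : Matrix ι ι ℂ} (hA : A.PosDef) (hX : X.PosDef) {τ : ℝ}
    (hτ : 1 ≤ τ) (hb : ‖A‖ * ‖X‖ ≤ τ) :
    nsq (X - A⁻¹) ≤ 2 * τ * ‖A⁻¹‖ ^ 2 *
      ((A * X).trace.re - Fintype.card ι - Real.log X.det.re - Real.log A.det.re) := by
  set B := CFC.sqrt A with hB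
  have hA0 : 0 ≤ A := hA.posSemidef.nonneg
  have hB0 : 0 ≤ B := CFC.sqrt_nonneg A
  have hBB : B * B = A := CFC.sqrt_mul_sqrt_self A hA0
  have hBh : Bᴴ = B := (Matrix.nonneg_iff_posSemidef.1 hB0).isHermitian
  have hAdet : A.det ≠ 0 := hA.det_pos.ne'
  have hBdet : B.det ≠ 0 := by
    intro h0
    apply hAdet
    rw [← hBB, Matrix.det_mul, h0, zero_mul]
  have hBu : IsUnit B.det := isUnit_iff_ne_zero.2 hBdet
  have hAu : IsUnit A.det := isUnit_iff_ne_zero.2 hAdet
  have hBi : B⁻¹ * B = 1 := Matrix.nonsing_inv_mul _ hBu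
  have hBi' : B * B⁻¹ = 1 := Matrix.mul_nonsing_inv _ hBu
  set T := B * X * B with hT
  have hTpos : T.PosDef := by
    have h1 := (Matrix.IsUnit.posDef_star_right_conjugate_iff (U := B) (x := X)
      ((Matrix.isUnit_iff_isUnit_det _).2 hBu)).2 hX
    have h2 : star B = B := hBh
    rw [h2] at h1
    exact h1
  have hTh := hTpos.isHermitian
  have htr : (A * X).trace.re = ∑ i, hTh.eigenvalues i := by
    have e1 : (A * X).trace = T.trace := by
      rw [hT, Matrix.trace_mul_comm (B * X) B, ← mul_assoc, hBB]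
    rw [e1, hTh.trace_eq_sum_eigenvalues]
    simp
  have hdet : T.det = X.det * A.det := by
    rw [hT, Matrix.det_mul, Matrix.det_mul, ← hBB, Matrix.det_mul]; ring
  have hXd : 0 < X.det := hX.det_pos
  have hAd : 0 < A.det := hA.det_pos
  have hXre : 0 < X.det.re := (Complex.pos_iff.1 hXd).1
  have hAre : 0 < A.det.re := (Complex.pos_iff.1 hAd).1
  have hlog : Real.log X.det.re + Real.log A.det.re = ∑ i, Real.log (hTh.eigenvalues i) := by
    rw [← Real.log_mul hXre.ne' hAre.ne', ← Real.log_prod]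
    · congr 1
      have h1 := hTh.det_eq_prod_eigenvalues
      rw [hdet] at h1
      have h2 := congrArg Complex.re h1
      rw [Complex.mul_re, ← (Complex.pos_iff.1 hXd).2, zero_mul, sub_zero] at h2
      rw [h2]
      simp only [← RCLike.ofReal_prod]
      rfl
    · intro i _
      exact (hTpos.eigenvalues_pos i).ne'
  have hTn : ‖T‖ ≤ τ := by
    have hB2 : ‖B‖ * ‖B‖ = ‖A‖ := by
      have := Matrix.l2_opNorm_conjTranspose_mul_self B
      rw [hBh, hBB] at this
      exact this.symm
    calc ‖T‖ ≤ ‖B * X‖ * ‖B‖ := norm_mul_le _ _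
      _ ≤ (‖B‖ * ‖X‖) * ‖B‖ := by gcongr; exact norm_mul_le _ _
      _ = (‖B‖ * ‖B‖) * ‖X‖ := by ring
      _ = ‖A‖ * ‖X‖ := by rw [hB2]
      _ ≤ τ := hb
  have hev : ∀ i, hTh.eigenvalues i ≤ τ := by
    intro i
    have hmem : hTh.eigenvalues i ∈ spectrum ℝ T := by
      rw [hTh.spectrum_real_eq_range_eigenvalues]
      exact ⟨i, rfl⟩
    have := spectrum.norm_le_norm_mul_of_mem hmem
    by_cases hn : Nonempty ι
    · haveI : Nontrivial (Matrix ι ι ℂ) := inferInstance
      have h2 := spectrum.norm_le_norm_of_mem hmem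
      have h3 : hTh.eigenvalues i ≤ ‖hTh.eigenvalues i‖ := Real.le_norm_self _
      linarith
    · exact absurd ⟨i⟩ hn
  have hmain : nsq (T - 1) ≤ 2 * τ *
      ((A * X).trace.re - Fintype.card ι - Real.log X.det.re - Real.log A.det.re) := by
    rw [nsq_sub_one hTh, htr]
    have e : ∑ i, hTh.eigenvalues i - (Fintype.card ι : ℝ) - Real.log X.det.re
        - Real.log A.det.re
        = ∑ i, (hTh.eigenvalues i - 1 - Real.log (hTh.eigenvalues i)) := by
      rw [Finset.sum_sub_distrib, Finset.sum_sub_distrib, ← hlog]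
      simp
      ring
    rw [e, Finset.mul_sum]
    refine Finset.sum_le_sum fun i _ => ?_
    have := scalar_log (hTpos.eigenvalues_pos i) hτ (hev i)
    rw [div_le_iff₀ (by positivity)] at this
    linarith
  have hXA : X - A⁻¹ = B⁻¹ * (T - 1) * B⁻¹ := by
    rw [hT, mul_sub, sub_mul, mul_one]
    congr 1
    · calc X = (B⁻¹ * B) * X * (B * B⁻¹) := by rw [hBi, hBi', one_mul, mul_one]
        _ = _ := by simp only [mul_assoc]
    · rw [← hBB, Matrix.mul_inv_rev]
  have hBn : ‖B⁻¹‖ * ‖B⁻¹‖ = ‖A⁻¹‖ := by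
    have h1 := Matrix.l2_opNorm_conjTranspose_mul_self (B⁻¹)
    have h2 : (B⁻¹)ᴴ = B⁻¹ := by rw [Matrix.conjTranspose_nonsing_inv, hBh]
    rw [h2, ← Matrix.mul_inv_rev, hBB] at h1
    exact h1.symm
  rw [hXA]
  have h0 := nsq_nonneg (T - 1)
  calc nsq (B⁻¹ * (T - 1) * B⁻¹) ≤ ‖B⁻¹‖ ^ 2 * nsq (B⁻¹ * (T - 1)) := nsq_mul_le_right _ _
    _ ≤ ‖B⁻¹‖ ^ 2 * (‖B⁻¹‖ ^ 2 * nsq (T - 1)) := by gcongr; exact nsq_mul_le_left _ _
    _ = ‖A⁻¹‖ ^ 2 * nsq (T - 1) := by rw [← hBn]; ring
    _ ≤ ‖A⁻¹‖ ^ 2 * (2 * τ * ((A * X).trace.re - Fintype.card ι - Real.log X.det.re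
          - Real.log A.det.re)) := by gcongr
    _ = _ := by ring

end Crest.Agent.R332.Coer
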