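import Crest.Agent.R332.CoerF

/-! Row 332 (F1): the dimension free coercivity lemma. -/

set_option autoImplicit false
set_option linter.unusedSectionVars false

open Matrix MeasureTheory Set
open scoped ComplexOrder MatrixOrder Matrix.Norms.L2Operator

namespace Crest.Agent.R332.Coer

variable {ι : Type*} [Fintype ι] [DecidableEq ι]

section
variable {M F : Matrix ι ι ℂ} {δ β : ℝ} {l : ℝ}

/-- helper14's second deficit `q₃` at the positive definite matrix `X` -/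
noncomputable def defQ3 (M F X : Matrix ι ι ℂ) : ℝ :=
  (1 / 2) * (∫ l in (-1 : ℝ)..1, (Rl M F l * Rl M F l * X).trace.re) - Fintype.card ι
    - Real.log X.det.re + Real.log (M - F).det.re + Real.log (M + F).det.re

theorem defI1_nonneg (h : Adm M F δ β) : 0 ≤ defI1 M F := by
  have h1 := nsq_FM_le_defI1 h
  have h2 := nsq_nonneg (F * M - M * F)
  have hβ := h.hβ
  by_contra hneg
  push Not at hneg
  have : 3 * β ^ 4 * defI1 M F < 0 := mul_neg_of_pos_of_neg (by positivity) hneg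
  linarith

/-- `q₃ ≥ 0` at `Λ⁻¹` gives the determinant inequality -/
theorem det_ineq (h : Adm M F δ β) (hq : 0 ≤ defQ3 M F (Lam M F)⁻¹) :
    0 ≤ Real.log (Lam M F).det.re + Real.log (M - F).det.re + Real.log (M + F).det.re := by
  have hL := Lam_posDef h
  have hu : IsUnit (Lam M F).det := isUnit_iff_ne_zero.2 hL.det_pos.ne'
  unfold defQ3 at hq
  rw [← re_trace_Lam h, Matrix.mul_nonsing_inv _ hu, Matrix.trace_one] at hq
  have hdet : (Lam M F)⁻¹.det.re = ((Lam M F).det.re)⁻¹ := by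
    rw [Matrix.det_nonsing_inv, Ring.inverse_eq_inv']
    have him : (Lam M F).det.im = 0 := ((Complex.pos_iff.1 hL.det_pos).2).symm
    have : (Lam M F).det = (((Lam M F).det.re : ℝ) : ℂ) := by
      apply Complex.ext <;> simp [him]
    rw [this]
    rw [← Complex.ofReal_inv, Complex.ofReal_re, Complex.ofReal_re]
  rw [hdet, Real.log_inv] at hq
  simp at hq
  linarith

/-- dimension free coercivity of `i₁ + q₃` -/
theorem coercive_abs (h : Adm M F δ β) {X : Matrix ι ι ℂ} (hX : X.PosDef) {ξ : ℝ}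
    (hXξ : ‖X‖ ≤ ξ) (hq : 0 ≤ defQ3 M F (Lam M F)⁻¹) :
    nsq (X - (M * M - F * F)) ≤ 24 * β ^ 10 * (δ⁻¹) ^ 6 * defI1 M F
      + 4 * max 1 ((δ⁻¹) ^ 2 * ξ) * β ^ 4 * defQ3 M F X := by
  have hβ := h.hβ
  have hδ := h.hδ
  have hL := Lam_posDef h
  have hu : IsUnit (Lam M F).det := isUnit_iff_ne_zero.2 hL.det_pos.ne'
  have hξ0 : 0 ≤ ξ := (norm_nonneg X).trans hXξ
  have hτ : ‖Lam M F‖ * ‖X‖ ≤ max 1 ((δ⁻¹) ^ 2 * ξ) := by
    refine le_trans ?_ (le_max_right _ _)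
    have := norm_Lam_le h
    gcongr
  have h1 := trlog_coercive hL hX (le_max_left 1 ((δ⁻¹) ^ 2 * ξ)) hτ
  have hd := det_ineq h hq
  have hQ : (Lam M F * X).trace.re - Fintype.card ι - Real.log X.det.re
      - Real.log (Lam M F).det.re ≤ defQ3 M F X := by
    unfold defQ3
    rw [← re_trace_Lam h]
    linarith
  have hQ0 : 0 ≤ defQ3 M F X := by
    have := nsq_nonneg (X - (Lam M F)⁻¹)
    have h3 : 0 ≤ (Lam M F * X).trace.re - Fintype.card ι - Real.log X.det.re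
      - Real.log (Lam M F).det.re := by
      by_contra hneg
      push Not at hneg
      by_cases hz : ‖(Lam M F)⁻¹‖ = 0
      · -- then `Λ⁻¹ = 0`, so `1 = 0` and the index type is empty
        have hz' : (Lam M F)⁻¹ = 0 := norm_eq_zero.1 hz
        have h10 : (1 : Matrix ι ι ℂ) = 0 := by
          rw [← Matrix.mul_nonsing_inv _ hu, hz', mul_zero]
        have hemp : IsEmpty ι := by
          constructor
          intro i
          have := congrFun (congrFun h10 i) i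
          simp at this
        simp [Matrix.trace] at hneg
      · have hp : 0 < ‖(Lam M F)⁻¹‖ := lt_of_le_of_ne (norm_nonneg _) (Ne.symm hz)
        have : 2 * max 1 ((δ⁻¹) ^ 2 * ξ) * ‖(Lam M F)⁻¹‖ ^ 2 *
          ((Lam M F * X).trace.re - Fintype.card ι - Real.log X.det.re
            - Real.log (Lam M F).det.re) < 0 := by
          apply mul_neg_of_pos_of_neg _ hneg
          have : 0 < max 1 ((δ⁻¹) ^ 2 * ξ) := lt_of_lt_of_le one_pos (le_max_left _ _)
          positivity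
        linarith
    linarith
  have hLi := norm_Lam_inv_le h
  have h2 : nsq (X - (Lam M F)⁻¹) ≤ 2 * max 1 ((δ⁻¹) ^ 2 * ξ) * β ^ 4 * defQ3 M F X := by
    refine h1.trans ?_
    have hmax : 0 < max 1 ((δ⁻¹) ^ 2 * ξ) := lt_of_lt_of_le one_pos (le_max_left _ _)
    calc 2 * max 1 ((δ⁻¹) ^ 2 * ξ) * ‖(Lam M F)⁻¹‖ ^ 2 *
          ((Lam M F * X).trace.re - Fintype.card ι - Real.log X.det.re
            - Real.log (Lam M F).det.re)
        ≤ 2 * max 1 ((δ⁻¹) ^ 2 * ξ) * ‖(Lam M F)⁻¹‖ ^ 2 * defQ3 M F X := by gcongr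
      _ ≤ 2 * max 1 ((δ⁻¹) ^ 2 * ξ) * (β ^ 2) ^ 2 * defQ3 M F X := by gcongr
      _ = _ := by ring
  have h3 : nsq ((Lam M F)⁻¹ * (Lam M F * (M * M - F * F) - 1))
      ≤ 12 * β ^ 10 * (δ⁻¹) ^ 6 * defI1 M F := by
    calc nsq ((Lam M F)⁻¹ * (Lam M F * (M * M - F * F) - 1))
        ≤ ‖(Lam M F)⁻¹‖ ^ 2 * nsq (Lam M F * (M * M - F * F) - 1) := nsq_mul_le_left _ _
      _ ≤ (β ^ 2) ^ 2 * (4 * β ^ 2 * (δ⁻¹) ^ 6 * (3 * β ^ 4 * defI1 M F)) := by
          have a1 := nsq_Lam_mul_sub_one_le h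
          have a2 := nsq_FM_le_defI1 h
          have a3 := nsq_nonneg (Lam M F * (M * M - F * F) - 1)
          have a4 : nsq (Lam M F * (M * M - F * F) - 1)
              ≤ 4 * β ^ 2 * (δ⁻¹) ^ 6 * (3 * β ^ 4 * defI1 M F) := by
            refine a1.trans ?_
            gcongr
          gcongr
      _ = _ := by ring
  have e : X - (M * M - F * F) = (X - (Lam M F)⁻¹)
      + -((Lam M F)⁻¹ * (Lam M F * (M * M - F * F) - 1)) := by
    rw [mul_sub, ← mul_assoc, Matrix.nonsing_inv_mul _ hu, one_mul, mul_one]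
    abel
  rw [e]
  refine (nsq_add_le _ _).trans ?_
  rw [nsq_neg]
  linarith

theorem nsq_FMM_le (h : Adm M F δ β) :
    nsq (F * (M * M) - M * M * F) ≤ 12 * β ^ 6 * defI1 M F := by
  have hβ := h.hβ
  have hn := norm_M_le h
  have e : F * (M * M) - M * M * F = (F * M - M * F) * M + M * (F * M - M * F) := by
    simp only [mul_sub, sub_mul, mul_assoc]
    abel
  rw [e]
  have h0 := nsq_nonneg (F * M - M * F)
  have h1 := nsq_FM_le_defI1 h
  calc nsq ((F * M - M * F) * M + M * (F * M - M * F))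
      ≤ 2 * nsq ((F * M - M * F) * M) + 2 * nsq (M * (F * M - M * F)) := nsq_add_le _ _
    _ ≤ 2 * (‖M‖ ^ 2 * nsq (F * M - M * F)) + 2 * (‖M‖ ^ 2 * nsq (F * M - M * F)) := by
        gcongr
        · exact nsq_mul_le_right _ _
        · exact nsq_mul_le_left _ _
    _ ≤ 2 * (β ^ 2 * nsq (F * M - M * F)) + 2 * (β ^ 2 * nsq (F * M - M * F)) := by gcongr
    _ = 4 * β ^ 2 * nsq (F * M - M * F) := by ring
    _ ≤ 4 * β ^ 2 * (3 * β ^ 4 * defI1 M F) := by gcongr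
    _ = _ := by ring

end

/-- the diagonal matrix `K` -/
noncomputable def Kd (k : ι → ℝ) : Matrix ι ι ℂ := Matrix.diagonal fun i => (k i : ℂ)

/-- the diagonal matrix `M_s = (K² + s)^{1/2}` -/
noncomputable def Md (k : ι → ℝ) (s : ℝ) : Matrix ι ι ℂ :=
  Matrix.diagonal fun i => ((Real.sqrt (k i ^ 2 + s) : ℝ) : ℂ)

theorem diag_psd {d : ι → ℝ} (hd : ∀ i, 0 ≤ d i) :
    (Matrix.diagonal fun i => (d i : ℂ)).PosSemidef := by
  apply Matrix.PosSemidef.diagonal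
  intro i
  simp only [Pi.zero_apply]
  exact_mod_cast hd i

/-- admissibility of `(M_s, F)` -/
theorem adm_diag {k : ι → ℝ} {F : Matrix ι ι ℂ} {κ s s0 s1 : ℝ} (hk0 : ∀ i, 0 ≤ k i)
    (hk : ∀ i, k i ≤ κ) (hκ : 0 ≤ κ) (hs0 : 0 < s0) (hs : s0 ≤ s) (hs1 : s ≤ s1)
    (hF : F.IsHermitian)
    (hF1 : (Kd k - F).PosSemidef) (hF2 : (Kd k + F).PosSemidef) :
    Adm (Md k s) F (s0 / (2 * Real.sqrt (κ ^ 2 + s1))) (2 * Real.sqrt (κ ^ 2 + s1)) := by
  have hs1' : 0 < s1 := by linarith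
  have hspos : 0 < s := lt_of_lt_of_le hs0 hs
  have hr : 0 < Real.sqrt (κ ^ 2 + s1) := Real.sqrt_pos.2 (by positivity)
  have hm : ∀ i, Real.sqrt (k i ^ 2 + s) ≤ Real.sqrt (κ ^ 2 + s1) := by
    intro i
    apply Real.sqrt_le_sqrt
    have := hk0 i
    have := hk i
    nlinarith
  have hkm : ∀ i, k i ≤ Real.sqrt (k i ^ 2 + s) := by
    intro i
    apply Real.le_sqrt_of_sq_le
    linarith
  have hgap : ∀ i, s0 / (2 * Real.sqrt (κ ^ 2 + s1)) ≤ Real.sqrt (k i ^ 2 + s) - k i := by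
    intro i
    have h1 : 0 < Real.sqrt (k i ^ 2 + s) := Real.sqrt_pos.2 (by have := sq_nonneg (k i); linarith)
    have h2 : Real.sqrt (k i ^ 2 + s) ^ 2 = k i ^ 2 + s :=
      Real.sq_sqrt (by positivity)
    have h3 := hm i
    have h4 := hkm i
    have h5 := hk0 i
    rw [div_le_iff₀ (by positivity)]
    have h6 : (Real.sqrt (k i ^ 2 + s) - k i) * (Real.sqrt (k i ^ 2 + s) + k i) = s := by
      ring_nf
      rw [h2]; ring
    have h7 : Real.sqrt (k i ^ 2 + s) + k i ≤ 2 * Real.sqrt (κ ^ 2 + s1) := by linarith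
    have h8 : 0 ≤ Real.sqrt (k i ^ 2 + s) - k i := by linarith
    nlinarith [mul_le_mul_of_nonneg_left h7 h8]
  have hMK : ((Md k s - Kd k) - (s0 / (2 * Real.sqrt (κ ^ 2 + s1))) • (1 : Matrix ι ι ℂ)).PosSemidef := by
    have e : (Md k s - Kd k) - (s0 / (2 * Real.sqrt (κ ^ 2 + s1))) • (1 : Matrix ι ι ℂ)
        = Matrix.diagonal fun i => ((Real.sqrt (k i ^ 2 + s) - k i
            - s0 / (2 * Real.sqrt (κ ^ 2 + s1)) : ℝ) : ℂ) := by
      unfold Md Kd
      rw [← Matrix.diagonal_one, Matrix.diagonal_sub, ← Matrix.diagonal_smul, Matrix.diagonal_sub]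
      congr 1
      ext i
      simp
    rw [e]
    exact diag_psd fun i => by have := hgap i; linarith
  have hMK2 : ((2 * Real.sqrt (κ ^ 2 + s1)) • (1 : Matrix ι ι ℂ) - (Md k s + Kd k)).PosSemidef := by
    have e : (2 * Real.sqrt (κ ^ 2 + s1)) • (1 : Matrix ι ι ℂ) - (Md k s + Kd k)
        = Matrix.diagonal fun i => ((2 * Real.sqrt (κ ^ 2 + s1)
            - (Real.sqrt (k i ^ 2 + s) + k i) : ℝ) : ℂ) := by
      unfold Md Kd
      rw [← Matrix.diagonal_one, Matrix.diagonal_add, ← Matrix.diagonal_smul, Matrix.diagonal_sub]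
      congr 1
      ext i
      simp
    rw [e]
    exact diag_psd fun i => by have := hm i; have := hkm i; linarith
  refine ⟨?_, hF, by positivity, by positivity, ?_, ?_, ?_, ?_⟩
  · unfold Md
    rw [Matrix.isHermitian_diagonal_iff]
    intro i
    simp [IsSelfAdjoint]
  · rw [Matrix.le_iff]
    have e : Md k s - F - (s0 / (2 * Real.sqrt (κ ^ 2 + s1))) • (1 : Matrix ι ι ℂ)
        = ((Md k s - Kd k) - (s0 / (2 * Real.sqrt (κ ^ 2 + s1))) • (1 : Matrix ι ι ℂ))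
          + (Kd k - F) := by abel
    rw [e]; exact hMK.add hF1
  · rw [Matrix.le_iff]
    have e : Md k s + F - (s0 / (2 * Real.sqrt (κ ^ 2 + s1))) • (1 : Matrix ι ι ℂ)
        = ((Md k s - Kd k) - (s0 / (2 * Real.sqrt (κ ^ 2 + s1))) • (1 : Matrix ι ι ℂ))
          + (Kd k + F) := by abel
    rw [e]; exact hMK.add hF2
  · rw [Matrix.le_iff]
    have e : (2 * Real.sqrt (κ ^ 2 + s1)) • (1 : Matrix ι ι ℂ) - (Md k s - F)
        = ((2 * Real.sqrt (κ ^ 2 + s1)) • (1 : Matrix ι ι ℂ) - (Md k s + Kd k))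
          + (Kd k + F) := by abel
    rw [e]; exact hMK2.add hF2
  · rw [Matrix.le_iff]
    have e : (2 * Real.sqrt (κ ^ 2 + s1)) • (1 : Matrix ι ι ℂ) - (Md k s + F)
        = ((2 * Real.sqrt (κ ^ 2 + s1)) • (1 : Matrix ι ι ℂ) - (Md k s + Kd k))
          + (Kd k - F) := by abel
    rw [e]; exact hMK2.add hF1

theorem Md_mul_Md {k : ι → ℝ} {s : ℝ} (hs : 0 ≤ s) :
    Md k s * Md k s = Kd k * Kd k + s • (1 : Matrix ι ι ℂ) := by
  unfold Md Kd
  rw [Matrix.diagonal_mul_diagonal, Matrix.diagonal_mul_diagonal, ← Matrix.diagonal_one,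
    ← Matrix.diagonal_smul, Matrix.diagonal_add]
  congr 1
  ext i
  simp only [Pi.smul_apply, Complex.real_smul, mul_one]
  rw [← Complex.ofReal_mul, Real.mul_self_sqrt (by positivity)]
  push_cast
  ring

/-- **(F1)** dimension free coercivity of helper14's deficits: `C` depends only on
`κ ≥ sup k`, `ζ ≥ ‖Z‖` and the window `[s0, s1]`. -/
theorem coercive {k : ι → ℝ} {F Z : Matrix ι ι ℂ} {κ ζ s s0 s1 : ℝ} (hk0 : ∀ i, 0 ≤ k i)
    (hk : ∀ i, k i ≤ κ) (hκ : 0 ≤ κ) (hs0 : 0 < s0) (hs : s0 ≤ s) (hs1 : s ≤ s1)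
    (hF : F.IsHermitian)
    (hF1 : (Kd k - F).PosSemidef) (hF2 : (Kd k + F).PosSemidef)
    (hZ : Z.PosSemidef) (hZζ : ‖Z‖ ≤ ζ)
    (hq : ∀ X : Matrix ι ι ℂ, X.PosDef → 0 ≤ defQ3 (Md k s) F X) :
    nsq (F * (Kd k * Kd k) - Kd k * Kd k * F) + nsq (Z - (Kd k * Kd k - F * F))
      ≤ (12 * (2 * Real.sqrt (κ ^ 2 + s1)) ^ 6
          + 24 * (2 * Real.sqrt (κ ^ 2 + s1)) ^ 10
            * ((s0 / (2 * Real.sqrt (κ ^ 2 + s1)))⁻¹) ^ 6
          + 4 * max 1 (((s0 / (2 * Real.sqrt (κ ^ 2 + s1)))⁻¹) ^ 2 * (ζ + s1))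
            * (2 * Real.sqrt (κ ^ 2 + s1)) ^ 4)
        * (defI1 (Md k s) F + defQ3 (Md k s) F (Z + s • (1 : Matrix ι ι ℂ))) := by
  have hspos : 0 < s := lt_of_lt_of_le hs0 hs
  have h := adm_diag hk0 hk hκ hs0 hs hs1 hF hF1 hF2
  set β := 2 * Real.sqrt (κ ^ 2 + s1) with hβ
  set δ := s0 / β with hδ
  have hβ0 := h.hβ
  have hδ0 := h.hδ
  have hXpos : (Z + s • (1 : Matrix ι ι ℂ)).PosDef := by
    have : (s • (1 : Matrix ι ι ℂ)).PosDef := by
      have e : s • (1 : Matrix ι ι ℂ) = (s : ℂ) • 1 := by ext i j; simp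
      rw [e]
      exact Matrix.PosDef.one.smul (by exact_mod_cast hspos)
    exact this.posSemidef_add hZ
  have hXn : ‖Z + s • (1 : Matrix ι ι ℂ)‖ ≤ ζ + s1 := by
    refine (norm_add_le _ _).trans ?_
    have h1 : ‖s • (1 : Matrix ι ι ℂ)‖ ≤ s := by
      rw [norm_smul, Real.norm_of_nonneg hspos.le]
      have : ‖(1 : Matrix ι ι ℂ)‖ ≤ 1 := by
        rcases isEmpty_or_nonempty ι with he | he
        · have : (1 : Matrix ι ι ℂ) = 0 := by ext i; exact he.elim i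
          rw [this, norm_zero]; norm_num
        · exact le_of_eq norm_one
      nlinarith
    linarith
  have hMM := Md_mul_Md (k := k) hspos.le
  have a1 := coercive_abs h hXpos hXn (hq _ (Lam_posDef h).inv)
  have a2 := nsq_FMM_le h
  have e1 : F * (Md k s * Md k s) - Md k s * Md k s * F
      = F * (Kd k * Kd k) - Kd k * Kd k * F := by
    rw [hMM, mul_add, add_mul]
    simp
  have e2 : Z + s • (1 : Matrix ι ι ℂ) - (Md k s * Md k s - F * F)
      = Z - (Kd k * Kd k - F * F) := by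
    rw [hMM]; abel
  rw [e1] at a2
  rw [e2] at a1
  have hI := defI1_nonneg h
  have hQ := hq _ hXpos
  have b1 : 12 * β ^ 6 * defI1 (Md k s) F
      ≤ 12 * β ^ 6 * (defI1 (Md k s) F + defQ3 (Md k s) F (Z + s • (1 : Matrix ι ι ℂ))) := by
    gcongr; linarith
  have b2 : 24 * β ^ 10 * (δ⁻¹) ^ 6 * defI1 (Md k s) F
      ≤ 24 * β ^ 10 * (δ⁻¹) ^ 6
        * (defI1 (Md k s) F + defQ3 (Md k s) F (Z + s • (1 : Matrix ι ι ℂ))) := by
    gcongr; linarith
  have b3 : 4 * max 1 ((δ⁻¹) ^ 2 * (ζ + s1)) * β ^ 4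
        * defQ3 (Md k s) F (Z + s • (1 : Matrix ι ι ℂ))
      ≤ 4 * max 1 ((δ⁻¹) ^ 2 * (ζ + s1)) * β ^ 4
        * (defI1 (Md k s) F + defQ3 (Md k s) F (Z + s • (1 : Matrix ι ι ℂ))) := by
    have : 0 < max 1 ((δ⁻¹) ^ 2 * (ζ + s1)) := lt_of_lt_of_le one_pos (le_max_left _ _)
    gcongr; linarith
  nlinarith [a1, a2, b1, b2, b3]

end Crest.Agent.R332.Coer
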