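import Crest.Agent.R332.CoerIHS

/-! # Row 332, module (F1): averages over `l ∈ [-1,1]` of matrix functions -/

set_option autoImplicit false
set_option linter.unusedSectionVars false

namespace Crest.Agent.R332.CoerI

open Matrix MeasureTheory Set
open scoped ComplexOrder Interval

variable {n : Type*} [Fintype n] [DecidableEq n]

/-- Entrywise average over `[-1,1]`. -/
noncomputable def mavg (A : ℝ → Matrix n n ℂ) : Matrix n n ℂ :=
  Matrix.of fun i j => (1 / 2 : ℂ) * ∫ l in (-1 : ℝ)..1, A l i j

lemma mavg_apply (A : ℝ → Matrix n n ℂ) (i j : n) :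
    mavg A i j = (1 / 2 : ℂ) * ∫ l in (-1 : ℝ)..1, A l i j := rfl

lemma entry_contOn {A : ℝ → Matrix n n ℂ} (hA : ContinuousOn A (Icc (-1) 1)) (i j : n) :
    ContinuousOn (fun l => A l i j) (Icc (-1) 1) := by
  have h : Continuous fun B : Matrix n n ℂ => B i j := continuous_id.matrix_elem i j
  exact h.comp_continuousOn hA

lemma entry_intble {A : ℝ → Matrix n n ℂ} (hA : ContinuousOn A (Icc (-1) 1)) (i j : n) :
    IntervalIntegrable (fun l => A l i j) volume (-1) 1 := by
  apply ContinuousOn.intervalIntegrable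
  rw [uIcc_of_le (by norm_num)]
  exact entry_contOn hA i j

lemma rtr_contOn {A : ℝ → Matrix n n ℂ} (hA : ContinuousOn A (Icc (-1) 1)) :
    ContinuousOn (fun l => rtr (A l)) (Icc (-1) 1) := by
  have h : Continuous fun B : Matrix n n ℂ => rtr B :=
    Complex.continuous_re.comp continuous_id.matrix_trace
  exact h.comp_continuousOn hA

lemma rtr_intble {A : ℝ → Matrix n n ℂ} (hA : ContinuousOn A (Icc (-1) 1)) :
    IntervalIntegrable (fun l => rtr (A l)) volume (-1) 1 := by
  apply ContinuousOn.intervalIntegrable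
  rw [uIcc_of_le (by norm_num)]
  exact rtr_contOn hA

lemma mavg_const (C : Matrix n n ℂ) : mavg (fun _ => C) = C := by
  ext i j
  rw [mavg_apply, intervalIntegral.integral_const]
  simp
  ring

lemma mavg_sub {A B : ℝ → Matrix n n ℂ} (hA : ContinuousOn A (Icc (-1) 1))
    (hB : ContinuousOn B (Icc (-1) 1)) : mavg (fun l => A l - B l) = mavg A - mavg B := by
  ext i j
  rw [Matrix.sub_apply, mavg_apply, mavg_apply, mavg_apply, ← mul_sub,
    ← intervalIntegral.integral_sub (entry_intble hA i j) (entry_intble hB i j)]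
  rfl

lemma mavg_mul_right {A : ℝ → Matrix n n ℂ} (hA : ContinuousOn A (Icc (-1) 1))
    (X : Matrix n n ℂ) : mavg (fun l => A l * X) = mavg A * X := by
  ext i j
  rw [mavg_apply, Matrix.mul_apply]
  simp only [Matrix.mul_apply, mavg_apply]
  rw [intervalIntegral.integral_finsetSum]
  · rw [Finset.mul_sum]
    refine Finset.sum_congr rfl fun k _ => ?_
    rw [intervalIntegral.integral_mul_const, mul_assoc]
  · intro k _
    exact (entry_intble hA i k).mul_const _

lemma rtr_mavg {A : ℝ → Matrix n n ℂ} (hA : ContinuousOn A (Icc (-1) 1)) :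
    rtr (mavg A) = (1 / 2) * ∫ l in (-1 : ℝ)..1, rtr (A l) := by
  simp only [rtr, Matrix.trace, Matrix.diag_apply, mavg_apply, Complex.re_sum]
  rw [intervalIntegral.integral_finsetSum]
  · rw [Finset.mul_sum]
    refine Finset.sum_congr rfl fun k _ => ?_
    have h1 : (∫ l in (-1 : ℝ)..1, (A l k k).re) = (∫ l in (-1 : ℝ)..1, A l k k).re := by
      exact (Complex.reCLM.intervalIntegral_comp_comm (entry_intble hA k k))
    rw [h1]
    have : (1 / 2 : ℂ) = ((1 / 2 : ℝ) : ℂ) := by push_cast; ring
    rw [this, Complex.re_ofReal_mul]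
  · intro k _
    apply ContinuousOn.intervalIntegrable
    rw [uIcc_of_le (by norm_num)]
    exact Complex.continuous_re.comp_continuousOn (entry_contOn hA k k)

lemma normSq_avg_le {f : ℝ → ℂ} (hf : ContinuousOn f (Icc (-1) 1)) :
    Complex.normSq ((1 / 2 : ℂ) * ∫ l in (-1 : ℝ)..1, f l) ≤
      (1 / 2) * ∫ l in (-1 : ℝ)..1, Complex.normSq (f l) := by
  set c : ℂ := (1 / 2 : ℂ) * ∫ l in (-1 : ℝ)..1, f l with hc
  have hfi : IntervalIntegrable f volume (-1) 1 := by
    apply ContinuousOn.intervalIntegrable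
    rwa [uIcc_of_le (by norm_num)]
  have hf2 : IntervalIntegrable (fun l => Complex.normSq (f l)) volume (-1) 1 := by
    apply ContinuousOn.intervalIntegrable
    rw [uIcc_of_le (by norm_num)]
    exact Complex.continuous_normSq.comp_continuousOn hf
  have hfc : IntervalIntegrable (fun l => (f l * (starRingEnd ℂ) c).re) volume (-1) 1 := by
    apply ContinuousOn.intervalIntegrable
    rw [uIcc_of_le (by norm_num)]
    exact Complex.continuous_re.comp_continuousOn (hf.mul continuousOn_const)
  have h0 : 0 ≤ ∫ l in (-1 : ℝ)..1, Complex.normSq (f l - c) :=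
    intervalIntegral.integral_nonneg (by norm_num) fun _ _ => Complex.normSq_nonneg _
  have h1 : (fun l => Complex.normSq (f l - c)) = fun l =>
      Complex.normSq (f l) + Complex.normSq c - 2 * (f l * (starRingEnd ℂ) c).re := by
    ext l; rw [Complex.normSq_sub]
  rw [h1, intervalIntegral.integral_sub (hf2.add (by simp)) (hfc.const_mul 2),
    intervalIntegral.integral_add hf2 (by simp), intervalIntegral.integral_const_mul] at h0
  have h2 : (∫ l in (-1 : ℝ)..1, (f l * (starRingEnd ℂ) c).re) = 2 * Complex.normSq c := by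
    have e1 : (∫ l in (-1 : ℝ)..1, (f l * (starRingEnd ℂ) c).re) =
        (∫ l in (-1 : ℝ)..1, (f l * (starRingEnd ℂ) c)).re :=
      Complex.reCLM.intervalIntegral_comp_comm (hfi.mul_const _)
    rw [e1, intervalIntegral.integral_mul_const]
    have e2 : (∫ l in (-1 : ℝ)..1, f l) = 2 * c := by rw [hc]; ring
    rw [e2, mul_assoc, Complex.mul_conj]
    simp
  rw [h2] at h0
  simp at h0
  linarith

lemma hs_mavg_le {A : ℝ → Matrix n n ℂ} (hA : ContinuousOn A (Icc (-1) 1)) :
    hs (mavg A) ≤ (1 / 2) * ∫ l in (-1 : ℝ)..1, hs (A l) := by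
  have hc : ∀ i j, IntervalIntegrable (fun l => Complex.normSq (A l i j)) volume (-1) 1 := by
    intro i j
    apply ContinuousOn.intervalIntegrable
    rw [uIcc_of_le (by norm_num)]
    exact Complex.continuous_normSq.comp_continuousOn (entry_contOn hA i j)
  simp only [hs]
  rw [intervalIntegral.integral_finsetSum]
  · rw [Finset.mul_sum]
    refine Finset.sum_le_sum fun i _ => ?_
    rw [intervalIntegral.integral_finsetSum]
    · rw [Finset.mul_sum]
      refine Finset.sum_le_sum fun j _ => ?_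
      exact normSq_avg_le (entry_contOn hA i j)
    · intro j _; exact hc i j
  · intro i _
    apply ContinuousOn.intervalIntegrable
    rw [uIcc_of_le (by norm_num)]
    exact continuousOn_finsetSum _ fun j _ =>
      Complex.continuous_normSq.comp_continuousOn (entry_contOn hA i j)

lemma mavg_isHermitian {A : ℝ → Matrix n n ℂ} (hA : ContinuousOn A (Icc (-1) 1))
    (h : ∀ l ∈ Icc (-1 : ℝ) 1, (A l).IsHermitian) : (mavg A).IsHermitian := by
  ext i j
  rw [Matrix.conjTranspose_apply, mavg_apply, mavg_apply, star_mul', Complex.star_def]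
  have h1 : (starRingEnd ℂ) (1 / 2 : ℂ) = 1 / 2 := by
    rw [map_div₀, map_one, Complex.conj_ofNat]
  rw [h1]
  congr 1
  have h2 : (starRingEnd ℂ) (∫ l in (-1 : ℝ)..1, A l j i) =
      ∫ l in (-1 : ℝ)..1, (starRingEnd ℂ) (A l j i) :=
    (Complex.conjCLE.toContinuousLinearMap.intervalIntegral_comp_comm (entry_intble hA j i)).symm
  rw [h2]
  apply intervalIntegral.integral_congr
  intro l hl
  rw [uIcc_of_le (by norm_num)] at hl
  exact (h l hl).apply i j

lemma dot_mavg {A : ℝ → Matrix n n ℂ} (hA : ContinuousOn A (Icc (-1) 1)) (v w : n → ℂ) :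
    v ⬝ᵥ (mavg A *ᵥ w) = (1 / 2 : ℂ) * ∫ l in (-1 : ℝ)..1, v ⬝ᵥ (A l *ᵥ w) := by
  simp only [dotProduct, Matrix.mulVec, mavg_apply]
  rw [intervalIntegral.integral_finsetSum]
  · rw [Finset.mul_sum]
    refine Finset.sum_congr rfl fun i _ => ?_
    rw [intervalIntegral.integral_const_mul, intervalIntegral.integral_finsetSum]
    · simp only [intervalIntegral.integral_mul_const, Finset.mul_sum]
      refine Finset.sum_congr rfl fun j _ => ?_
      ring
    · intro j _
      exact (entry_intble hA i j).mul_const (w j)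
  · intro i _
    apply IntervalIntegrable.const_mul
    apply ContinuousOn.intervalIntegrable
    rw [uIcc_of_le (by norm_num)]
    exact continuousOn_finsetSum _ fun j _ => (entry_contOn hA i j).mul continuousOn_const

lemma mavg_posSemidef {A : ℝ → Matrix n n ℂ} (hA : ContinuousOn A (Icc (-1) 1))
    (h : ∀ l ∈ Icc (-1 : ℝ) 1, (A l).PosSemidef) : (mavg A).PosSemidef := by
  refine Matrix.PosSemidef.of_dotProduct_mulVec_nonneg
    (mavg_isHermitian hA fun l hl => (h l hl).isHermitian) fun v => ?_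
  rw [dot_mavg hA]
  have hcont : ContinuousOn (fun l => star v ⬝ᵥ (A l *ᵥ v)) (Icc (-1) 1) := by
    have : Continuous fun B : Matrix n n ℂ => star v ⬝ᵥ (B *ᵥ v) := by
      exact Continuous.dotProduct continuous_const
        (Continuous.matrix_mulVec continuous_id continuous_const)
    exact this.comp_continuousOn hA
  have hint : IntervalIntegrable (fun l => star v ⬝ᵥ (A l *ᵥ v)) volume (-1) 1 := by
    apply ContinuousOn.intervalIntegrable
    rwa [uIcc_of_le (by norm_num)]
  have hre : (∫ l in (-1 : ℝ)..1, star v ⬝ᵥ (A l *ᵥ v)) =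
      ((∫ l in (-1 : ℝ)..1, (star v ⬝ᵥ (A l *ᵥ v)).re : ℝ) : ℂ) := by
    rw [← intervalIntegral.integral_ofReal]
    apply intervalIntegral.integral_congr
    intro l hl
    rw [uIcc_of_le (by norm_num)] at hl
    have h1 := (h l hl).dotProduct_mulVec_nonneg v
    rw [Complex.le_def] at h1
    apply Complex.ext
    · simp
    · simp [← h1.2]
  rw [hre]
  have h2 : 0 ≤ ∫ l in (-1 : ℝ)..1, (star v ⬝ᵥ (A l *ᵥ v)).re := by
    apply intervalIntegral.integral_nonneg (by norm_num)
    intro l hl
    have h1 := (h l hl).dotProduct_mulVec_nonneg v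
    rw [Complex.le_def] at h1
    exact h1.1
  have h3 : (1 / 2 : ℂ) * ((∫ l in (-1 : ℝ)..1, (star v ⬝ᵥ (A l *ᵥ v)).re : ℝ) : ℂ) =
      (((1 / 2) * ∫ l in (-1 : ℝ)..1, (star v ⬝ᵥ (A l *ᵥ v)).re : ℝ) : ℂ) := by push_cast; ring
  rw [h3]
  exact_mod_cast (by positivity : 0 ≤ (1 / 2) * ∫ l in (-1 : ℝ)..1, (star v ⬝ᵥ (A l *ᵥ v)).re)

end Crest.Agent.R332.CoerI
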