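import Crest.Agent.R332.CoerIPath
import Crest.Agent.R332.ChanFinal

/-! # Row 332, module (F1): the N-channel theorem with a coercive deficit -/

set_option autoImplicit false
set_option linter.unusedSectionVars false

namespace Crest.Agent.R332.CoerI

open Matrix MeasureTheory Set
open scoped ComplexOrder Interval

variable {n : Type*} [Fintype n] [DecidableEq n]

open Chan

/-- the coefficient in front of the coercive deficit -/
noncomputable def coefD (α κ ζ : ℝ) : ℝ := (Real.sin (Real.pi * α) / Real.pi) / coerC κ ζ 1 2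

lemma coefD_pos {α κ ζ : ℝ} (hα : 0 < α) (hα1 : α < 1) (hζ : 0 ≤ ζ) : 0 < coefD α κ ζ := by
  unfold coefD
  refine div_pos (div_pos (Real.sin_pos_of_pos_of_lt_pi ?_ ?_) Real.pi_pos)
    (coerC_pos hζ (by norm_num) (by norm_num))
  · have := Real.pi_pos; positivity
  · have := Real.pi_pos; nlinarith

/-- **N-channel theorem with coercive deficit** (diagonal `K`). -/
theorem channel_defect {α L κ ζ : ℝ} {k : n → ℝ} {F Z : ℝ → Matrix n n ℂ}
    (h : Path α L k F Z) (hα : 0 < α) (hα1 : α < 1) (hk : ∀ i, 0 < k i)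
    (hS1 : ScalUpper α) (hS2 : ScalEndp α)
    (hInt : IntervalIntegrable (fun x => R332.rtr (cfc (fun t : ℝ => t ^ (1 + α)) (Z x)))
      volume (-L) L)
    (hκ : ∀ i, k i ≤ κ) (hζ : 0 ≤ ζ)
    (hZζ : ∀ x ∈ Icc (-L) L, (ζ • (1 : Matrix n n ℂ) - Z x).PosSemidef) :
    (∑ i, k i ^ (1 + 2 * α)) * (∫ t in (-1 : ℝ)..1, (1 - t ^ 2) ^ α) +
      coefD α κ ζ * (∫ x in (-L)..L, defect (dg k) (F x) (Z x)) ≤
      (1 / α) * ∫ x in (-L)..L, R332.rtr (cfc (fun t : ℝ => t ^ (1 + α)) (Z x)) := by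
  have h1 := channel h hα hα1 hk hS1 hS2 hInt (t0 := 1) (t1 := 2) (by norm_num) (by norm_num)
  have h2 := coer_path (s0 := 1) (s1 := 2) hα h (by norm_num) (by norm_num) (fun i => (hk i).le)
    hκ hζ hZζ
  have hC : 0 < coerC κ ζ 1 2 := coerC_pos hζ (by norm_num) (by norm_num)
  have hs : 0 < Real.sin (Real.pi * α) / Real.pi := by
    refine div_pos (Real.sin_pos_of_pos_of_lt_pi ?_ ?_) Real.pi_pos
    · have := Real.pi_pos; positivity
    · have := Real.pi_pos; nlinarith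
  have e : (∫ x in (-L)..L, ∫ s in (1:ℝ)..2, pathDef k α (F x) (Z x) s) =
      ∫ x in (-L)..L, ∫ s in (1:ℝ)..2, s ^ α * dfc α k (F x) (Z x) s := rfl
  rw [e, Real.one_rpow, one_mul, show (2:ℝ) - 1 = 1 by norm_num, div_one] at h2
  have h3 : coefD α κ ζ * (∫ x in (-L)..L, defect (dg k) (F x) (Z x)) ≤
      (Real.sin (Real.pi * α) / Real.pi) *
        (∫ x in (-L)..L, ∫ s in (1:ℝ)..2, s ^ α * dfc α k (F x) (Z x) s) := by
    unfold coefD
    rw [div_mul_eq_mul_div, div_le_iff₀ hC]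
    calc (Real.sin (Real.pi * α) / Real.pi) * (∫ x in (-L)..L, defect (dg k) (F x) (Z x))
        ≤ (Real.sin (Real.pi * α) / Real.pi) * (coerC κ ζ 1 2 *
          ∫ x in (-L)..L, ∫ s in (1:ℝ)..2, s ^ α * dfc α k (F x) (Z x) s) :=
          mul_le_mul_of_nonneg_left h2 hs.le
      _ = _ := by ring
  exact le_trans (by linarith) h1

lemma hs_conj {U : Matrix n n ℂ} (hU : U * Uᴴ = 1) (A : Matrix n n ℂ) :
    hs (Uᴴ * A * U) = hs A := by
  rw [hs_eq_rtr, hs_eq_rtr]
  have e : Uᴴ * A * U * (Uᴴ * A * U)ᴴ = Uᴴ * (A * (U * Uᴴ) * Aᴴ * U) := by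
    rw [Matrix.conjTranspose_mul, Matrix.conjTranspose_mul, Matrix.conjTranspose_conjTranspose]
    simp only [Matrix.mul_assoc]
  rw [e, hU, Matrix.mul_one, rtr_mul_comm, Matrix.mul_assoc, hU, Matrix.mul_one]

/-- unitary invariance of the defect -/
lemma defect_conj {U : Matrix n n ℂ} (hU : U * Uᴴ = 1) (K F Z : Matrix n n ℂ) :
    defect (Uᴴ * K * U) (Uᴴ * F * U) (Uᴴ * Z * U) = defect K F Z := by
  unfold defect
  have c : ∀ A B : Matrix n n ℂ, (Uᴴ * A * U) * (Uᴴ * B * U) = Uᴴ * (A * B) * U := by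
    intro A B
    calc (Uᴴ * A * U) * (Uᴴ * B * U) = Uᴴ * (A * (U * Uᴴ) * B) * U := by
          simp only [Matrix.mul_assoc]
      _ = _ := by rw [hU, Matrix.mul_one]
  simp only [c, ← Matrix.mul_sub, ← Matrix.sub_mul, hs_conj hU]

end Crest.Agent.R332.CoerI
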