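import Crest.Agent.R332.TrBasic

/-! # Row 332, module (F1): dimension-free coercivity, part 1 (Hilbert–Schmidt toolbox) -/

set_option autoImplicit false
set_option linter.unusedSectionVars false

namespace Crest.Agent.R332.CoerI

open Matrix MeasureTheory
open scoped ComplexOrder

variable {n : Type*} [Fintype n] [DecidableEq n]
variable {m : Type*} [Fintype m] [DecidableEq m]

/-- Hilbert–Schmidt norm squared. -/
noncomputable def hs (A : Matrix n m ℂ) : ℝ := ∑ i, ∑ j, Complex.normSq (A i j)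

lemma hs_nonneg (A : Matrix n m ℂ) : 0 ≤ hs A :=
  Finset.sum_nonneg fun _ _ => Finset.sum_nonneg fun _ _ => Complex.normSq_nonneg _

lemma hs_eq_rtr (A : Matrix n m ℂ) : hs A = rtr (A * Aᴴ) := by
  simp only [hs, rtr, Matrix.trace, Matrix.diag_apply, Complex.re_sum, Matrix.mul_apply,
    Matrix.conjTranspose_apply]
  refine Finset.sum_congr rfl fun i _ => Finset.sum_congr rfl fun j _ => ?_
  rw [Complex.star_def, Complex.mul_conj, Complex.ofReal_re]

lemma hs_eq_rtr' (A : Matrix n m ℂ) : hs A = rtr (Aᴴ * A) := by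
  rw [hs_eq_rtr, rtr_mul_comm]

lemma hs_conjTranspose (A : Matrix n m ℂ) : hs Aᴴ = hs A := by
  rw [hs_eq_rtr', hs_eq_rtr, conjTranspose_conjTranspose]

lemma hs_smul (c : ℝ) (A : Matrix n m ℂ) : hs (c • A) = c ^ 2 * hs A := by
  simp only [hs, Finset.mul_sum, Matrix.smul_apply]
  refine Finset.sum_congr rfl fun i _ => Finset.sum_congr rfl fun j _ => ?_
  rw [Complex.real_smul, map_mul, Complex.normSq_ofReal]; ring

lemma hs_neg (A : Matrix n m ℂ) : hs (-A) = hs A := by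
  simp [hs]

lemma normSq_add_le (z w : ℂ) : Complex.normSq (z + w) ≤ 2 * Complex.normSq z + 2 * Complex.normSq w := by
  simp only [Complex.normSq_apply, Complex.add_re, Complex.add_im]
  nlinarith [sq_nonneg (z.re - w.re), sq_nonneg (z.im - w.im)]

lemma hs_add_le (A B : Matrix n m ℂ) : hs (A + B) ≤ 2 * hs A + 2 * hs B := by
  simp only [hs, Finset.mul_sum, ← Finset.sum_add_distrib, Matrix.add_apply]
  exact Finset.sum_le_sum fun i _ => Finset.sum_le_sum fun j _ => normSq_add_le _ _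

lemma hs_sub_le (A B : Matrix n m ℂ) : hs (A - B) ≤ 2 * hs A + 2 * hs B := by
  rw [sub_eq_add_neg]
  exact (hs_add_le _ _).trans (by rw [hs_neg])

lemma rtr_nonneg {A : Matrix n n ℂ} (hA : A.PosSemidef) : 0 ≤ rtr A := by
  have := hA.trace_nonneg
  rw [Complex.le_def] at this
  exact this.1

/-- `OB A c`: the operator norm of `A` is at most `c` (in the sense `A* A ≤ c²`). -/
def OB (A : Matrix n n ℂ) (c : ℝ) : Prop := (((c ^ 2 : ℝ)) • (1 : Matrix n n ℂ) - Aᴴ * A).PosSemidef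

lemma OB.hs_mul_le {A : Matrix n n ℂ} {c : ℝ} (h : OB A c) (B : Matrix n n ℂ) :
    hs (A * B) ≤ c ^ 2 * hs B := by
  have h1 := rtr_nonneg (h.conjTranspose_mul_mul_same B)
  have h2 : Bᴴ * (((c ^ 2 : ℝ)) • (1 : Matrix n n ℂ) - Aᴴ * A) * B =
      (c ^ 2 : ℝ) • (Bᴴ * B) - (A * B)ᴴ * (A * B) := by
    rw [Matrix.conjTranspose_mul, Matrix.mul_sub, Matrix.sub_mul, Matrix.mul_smul, Matrix.mul_one,
      Matrix.smul_mul]
    simp only [Matrix.mul_assoc]
  rw [h2, rtr_sub, rtr_smul, ← hs_eq_rtr', ← hs_eq_rtr'] at h1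
  linarith

lemma OB.mul {A B : Matrix n n ℂ} {a b : ℝ} (hA : OB A a) (hB : OB B b) : OB (A * B) (a * b) := by
  unfold OB at *
  have h1 := hA.conjTranspose_mul_mul_same B
  have h2 : (0:ℝ) ≤ a ^ 2 := sq_nonneg a
  have h3 : (((a * b) ^ 2 : ℝ)) • (1 : Matrix n n ℂ) - (A * B)ᴴ * (A * B) =
      Bᴴ * (((a ^ 2 : ℝ)) • (1 : Matrix n n ℂ) - Aᴴ * A) * B +
      (a ^ 2 : ℝ) • (((b ^ 2 : ℝ)) • (1 : Matrix n n ℂ) - Bᴴ * B) := by
    rw [Matrix.conjTranspose_mul, Matrix.mul_sub, Matrix.sub_mul, Matrix.mul_smul, Matrix.mul_one,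
      Matrix.smul_mul, smul_sub, smul_smul, mul_pow]
    simp only [Matrix.mul_assoc]
    abel
  rw [h3]
  exact h1.add (hB.smul h2)

lemma OB.hs_mul_right_le {A : Matrix n n ℂ} {c : ℝ} (h : OB Aᴴ c) (B : Matrix n n ℂ) :
    hs (B * A) ≤ c ^ 2 * hs B := by
  rw [← hs_conjTranspose, Matrix.conjTranspose_mul]
  exact (h.hs_mul_le Bᴴ).trans (by rw [hs_conjTranspose])

lemma OB.hs_mul_right_le' {A : Matrix n n ℂ} {c : ℝ} (h : OB A c) (hA : A.IsHermitian)
    (B : Matrix n n ℂ) : hs (B * A) ≤ c ^ 2 * hs B :=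
  OB.hs_mul_right_le (by rw [hA.eq]; exact h) B

lemma OB.neg {A : Matrix n n ℂ} {c : ℝ} (h : OB A c) : OB (-A) c := by
  unfold OB at *
  rwa [Matrix.conjTranspose_neg, neg_mul_neg]

lemma OB.of_le {A : Matrix n n ℂ} (hA : A.IsHermitian) {c : ℝ} (hc : 0 < c)
    (h1 : (c • (1 : Matrix n n ℂ) - A).PosSemidef) (h2 : (c • (1 : Matrix n n ℂ) + A).PosSemidef) :
    OB A c := by
  unfold OB
  rw [hA.eq]
  have e1 := h1.mul_mul_conjTranspose_same (c • (1 : Matrix n n ℂ) + A)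
  have e2 := h2.mul_mul_conjTranspose_same (c • (1 : Matrix n n ℂ) - A)
  have e3 := (e1.add e2).smul (show (0:ℝ) ≤ (2 * c)⁻¹ by positivity)
  have e4 : (c ^ 2 : ℝ) • (1 : Matrix n n ℂ) - A * A = (2 * c)⁻¹ •
      ((c • (1 : Matrix n n ℂ) + A) * (c • (1 : Matrix n n ℂ) - A) * (c • (1 : Matrix n n ℂ) + A)ᴴ +
      (c • (1 : Matrix n n ℂ) - A) * (c • (1 : Matrix n n ℂ) + A) *
        (c • (1 : Matrix n n ℂ) - A)ᴴ) := by
    have h3 : (c • (1 : Matrix n n ℂ) + A)ᴴ = c • (1 : Matrix n n ℂ) + A := by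
      rw [Matrix.conjTranspose_add, Matrix.conjTranspose_smul, hA.eq]; simp
    have h4 : (c • (1 : Matrix n n ℂ) - A)ᴴ = c • (1 : Matrix n n ℂ) - A := by
      rw [Matrix.conjTranspose_sub, Matrix.conjTranspose_smul, hA.eq]; simp
    rw [h3, h4]
    simp only [Matrix.mul_add, Matrix.add_mul, Matrix.mul_sub, Matrix.sub_mul, Matrix.smul_mul,
      Matrix.mul_smul, Matrix.one_mul, Matrix.mul_one, smul_add, smul_sub, smul_smul, mul_assoc]
    match_scalars <;> field_simp <;> ring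
  rw [e4]
  exact e3

lemma posDef_of_ge {B : Matrix n n ℂ} {d : ℝ} (hd : 0 < d)
    (h : (B - d • (1 : Matrix n n ℂ)).PosSemidef) : B.PosDef := by
  have h1 : (d • (1 : Matrix n n ℂ)).PosDef := PosDef.one.smul hd
  have := h1.add_posSemidef h
  simpa using this

lemma OB_inv {B : Matrix n n ℂ} {d : ℝ} (hd : 0 < d)
    (h : (B - d • (1 : Matrix n n ℂ)).PosSemidef) : OB B⁻¹ d⁻¹ := by
  have hB := posDef_of_ge hd h
  have hBu : IsUnit B.det := by
    rw [← Matrix.isUnit_iff_isUnit_det]; exact hB.isUnit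
  have hBi : (B⁻¹)ᴴ = B⁻¹ := hB.inv.isHermitian.eq
  unfold OB
  rw [hBi]
  have e1 : (B - d • (1 : Matrix n n ℂ))ᴴ = B - d • (1 : Matrix n n ℂ) := h.isHermitian.eq
  have e2 : (B * B - (d ^ 2) • (1 : Matrix n n ℂ)).PosSemidef := by
    have h1 := (posSemidef_conjTranspose_mul_self (B - d • (1 : Matrix n n ℂ))).add
      (h.smul (show (0:ℝ) ≤ 2 * d by positivity))
    rw [e1] at h1
    convert h1 using 1
    simp only [Matrix.mul_sub, Matrix.sub_mul, Matrix.smul_mul,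
      Matrix.mul_smul, Matrix.one_mul, Matrix.mul_one, smul_sub, smul_smul]
    match_scalars <;> ring
  have e3 := (e2.mul_mul_conjTranspose_same B⁻¹).smul (show (0:ℝ) ≤ (d⁻¹)^2 by positivity)
  have e4 : (d⁻¹ ^ 2) • (1 : Matrix n n ℂ) - B⁻¹ * B⁻¹ =
      d⁻¹ ^ 2 • (B⁻¹ * (B * B - d ^ 2 • (1 : Matrix n n ℂ)) * B⁻¹ᴴ) := by
    rw [hBi, Matrix.mul_sub, Matrix.sub_mul, Matrix.mul_smul, Matrix.smul_mul, Matrix.mul_one,
      smul_sub, smul_smul]
    have e5 : B⁻¹ * (B * B) * B⁻¹ = 1 := by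
      rw [← Matrix.mul_assoc, Matrix.nonsing_inv_mul _ hBu, Matrix.one_mul,
        Matrix.mul_nonsing_inv _ hBu]
    rw [e5]
    have : d⁻¹ ^ 2 * d ^ 2 = 1 := by field_simp
    rw [this, one_smul]
  rw [e4]
  exact e3

lemma scalar_coer {t : ℝ} (ht : 0 < t) : (t - 1) ^ 2 ≤ 2 * (1 + t) * (t - 1 - Real.log t) := by
  set u := Real.sqrt t with hu
  have hu0 : 0 < u := Real.sqrt_pos.mpr ht
  have hut : u ^ 2 = t := Real.sq_sqrt ht.le
  have h1 : Real.log t = 2 * Real.log u := by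
    rw [← hut, Real.log_pow]; norm_num
  have h2 : Real.log u ≤ u - 1 := Real.log_le_sub_one_of_pos hu0
  have h3 : (u - 1) ^ 2 ≤ t - 1 - Real.log t := by rw [h1, ← hut]; nlinarith
  have h4 : (t - 1) ^ 2 = (u + 1) ^ 2 * (u - 1) ^ 2 := by rw [← hut]; ring
  have h5 : (u + 1) ^ 2 ≤ 2 * (1 + t) := by rw [← hut]; nlinarith [sq_nonneg (u - 1)]
  rw [h4]
  exact mul_le_mul h5 h3 (sq_nonneg _) (by positivity)

lemma det_re_eq_prod {A : Matrix n n ℂ} (hA : A.IsHermitian) :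
    A.det.re = ∏ i, hA.eigenvalues i := by
  rw [hA.det_eq_prod_eigenvalues]
  rw [← Complex.ofReal_re (∏ i, hA.eigenvalues i)]
  congr 1
  push_cast
  rfl

lemma log_det_re {A : Matrix n n ℂ} (hA : A.PosDef) :
    Real.log A.det.re = ∑ i, Real.log (hA.isHermitian.eigenvalues i) := by
  rw [det_re_eq_prod hA.isHermitian, Real.log_prod]
  intro i _
  exact (hA.eigenvalues_pos i).ne'

lemma cfc_id_mat {A : Matrix n n ℂ} (hA : A.IsHermitian) : cfc (fun x : ℝ => x) A = A := by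
  rw [cfc_eq_conj hA]
  exact (eq_conj hA).symm

lemma cfc_const_mat {A : Matrix n n ℂ} (hA : A.IsHermitian) (c : ℝ) :
    cfc (fun _ : ℝ => c) A = c • (1 : Matrix n n ℂ) := by
  rw [cfc_eq_conj hA]
  have : diagonal (fun _ : n => ((c : ℝ) : ℂ)) = c • (1 : Matrix n n ℂ) := by
    ext i j
    by_cases hij : i = j
    · subst hij; simp
    · simp [hij]
  rw [this, Matrix.mul_smul, Matrix.mul_one, Matrix.smul_mul, unitary_mul_conj]

lemma rtr_eq_sum {A : Matrix n n ℂ} (hA : A.IsHermitian) : rtr A = ∑ i, hA.eigenvalues i := by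
  have h := rtr_cfc hA (fun x => x)
  rwa [cfc_id_mat hA] at h

lemma eig_le {A : Matrix n n ℂ} (hA : A.IsHermitian) {c : ℝ}
    (h : (c • (1 : Matrix n n ℂ) - A).PosSemidef) (i : n) : hA.eigenvalues i ≤ c := by
  have h1 := h.conjTranspose_mul_mul_same (hA.eigenvectorUnitary : Matrix n n ℂ)
  have h2 : (hA.eigenvectorUnitary : Matrix n n ℂ)ᴴ * (c • (1 : Matrix n n ℂ) - A) *
      (hA.eigenvectorUnitary : Matrix n n ℂ) =
      diagonal (fun i => ((c - hA.eigenvalues i : ℝ) : ℂ)) := by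
    rw [Matrix.mul_sub, Matrix.sub_mul, Matrix.mul_smul, Matrix.mul_one, Matrix.smul_mul,
      unitary_conj_mul]
    have h3 : (hA.eigenvectorUnitary : Matrix n n ℂ)ᴴ * A *
        (hA.eigenvectorUnitary : Matrix n n ℂ) =
        diagonal (fun i => ((hA.eigenvalues i : ℝ) : ℂ)) := by
      have h4 : (hA.eigenvectorUnitary : Matrix n n ℂ)ᴴ *
        ((hA.eigenvectorUnitary : Matrix n n ℂ) *
          diagonal (fun i => ((hA.eigenvalues i : ℝ) : ℂ)) *
          (hA.eigenvectorUnitary : Matrix n n ℂ)ᴴ) * (hA.eigenvectorUnitary : Matrix n n ℂ) =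
        diagonal (fun i => ((hA.eigenvalues i : ℝ) : ℂ)) := by
        rw [← Matrix.mul_assoc, ← Matrix.mul_assoc, unitary_conj_mul, Matrix.one_mul,
          Matrix.mul_assoc, unitary_conj_mul, Matrix.mul_one]
      rwa [← eq_conj hA] at h4
    rw [h3]
    ext i j
    by_cases hij : i = j
    · subst hij; simp
    · simp [hij]
  rw [h2] at h1
  have h3 := h1.diag_nonneg (i := i)
  rw [Matrix.diagonal_apply_eq] at h3
  have h4 : (0:ℝ) ≤ c - hA.eigenvalues i := by exact_mod_cast h3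
  linarith

lemma trace_log_coer {T : Matrix n n ℂ} (hT : T.PosDef) {τ : ℝ}
    (hτ : (τ • (1 : Matrix n n ℂ) - T).PosSemidef) :
    hs (T - 1) ≤ 2 * (1 + τ) * (rtr T - Fintype.card n - Real.log T.det.re) := by
  have hH := hT.isHermitian
  have h1 : hs (T - 1) = ∑ i, (hH.eigenvalues i - 1) ^ 2 := by
    rw [← rtr_cfc hH (fun t => (t - 1) ^ 2)]
    have e1 : (T - 1)ᴴ = T - 1 := by rw [Matrix.conjTranspose_sub, hH.eq]; simp
    rw [hs_eq_rtr, e1]
    congr 1
    have e2 : (fun t : ℝ => (t - 1) ^ 2) = fun t => (t - 1) * (t - 1) := by ext t; ring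
    rw [e2, cfc_mul']
    have e3 : cfc (fun t : ℝ => t - 1) T = T - 1 := by
      have := cfc_sub (R := ℝ) (fun t : ℝ => t) (fun _ => 1) T (contOn_spec _) (contOn_spec _)
      rw [this, cfc_id_mat hH, cfc_const_mat hH, one_smul]
    rw [e3]
  have h2 : rtr T - Fintype.card n - Real.log T.det.re =
      ∑ i, (hH.eigenvalues i - 1 - Real.log (hH.eigenvalues i)) := by
    rw [log_det_re hT, rtr_eq_sum hH]
    simp [Finset.sum_sub_distrib]
  rw [h1, h2, Finset.mul_sum]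
  refine Finset.sum_le_sum fun i _ => ?_
  have hp := hT.eigenvalues_pos i
  have hle := eig_le hH hτ i
  have h3 := scalar_coer hp
  have h4 : 0 ≤ hH.eigenvalues i - 1 - Real.log (hH.eigenvalues i) := by
    have := Real.log_le_sub_one_of_pos hp
    linarith
  refine h3.trans (mul_le_mul_of_nonneg_right ?_ h4)
  linarith

lemma det_ofReal_re {A : Matrix n n ℂ} (hA : A.IsHermitian) : A.det = ((A.det.re : ℝ) : ℂ) := by
  rw [det_re_eq_prod hA, hA.det_eq_prod_eigenvalues]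
  push_cast
  rfl

lemma det_re_pos {A : Matrix n n ℂ} (hA : A.PosDef) : 0 < A.det.re := by
  rw [det_re_eq_prod hA.isHermitian]
  exact Finset.prod_pos fun i _ => hA.eigenvalues_pos i

lemma klein_coer {Λ X : Matrix n n ℂ} (hΛ : Λ.PosDef) (hX : X.PosDef) {a b ξ : ℝ} (ha : 0 < a)
    (hξ : 0 ≤ ξ) (h1 : (Λ - a • (1 : Matrix n n ℂ)).PosSemidef)
    (h2 : (b • (1 : Matrix n n ℂ) - Λ).PosSemidef)
    (h3 : (ξ • (1 : Matrix n n ℂ) - X).PosSemidef) :
    hs (X - Λ⁻¹) ≤ (a⁻¹) ^ 2 * (2 * (1 + ξ * b)) *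
      (rtr (Λ * X) - Fintype.card n - Real.log X.det.re - Real.log Λ.det.re) := by
  set G := mpow Λ (1 / 2) with hG
  have hGp : G.PosDef := mpow_posDef hΛ _
  have hGH : Gᴴ = G := hGp.isHermitian.eq
  have hGG : G * G = Λ := by
    rw [hG, mpow, ← cfc_mul']
    conv_rhs => rw [← cfc_id_mat hΛ.isHermitian]
    refine cfc_congr_eig hΛ.isHermitian fun i => ?_
    have := hΛ.eigenvalues_pos i
    rw [← Real.rpow_add this]
    norm_num
  have hGu : IsUnit G.det := by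
    rw [← Matrix.isUnit_iff_isUnit_det]; exact hGp.isUnit
  have hGiH : (G⁻¹)ᴴ = G⁻¹ := hGp.inv.isHermitian.eq
  have hΛi : Λ⁻¹ = G⁻¹ * G⁻¹ := by rw [← hGG, Matrix.mul_inv_rev]
  set T := G * X * G with hT
  have hTp : T.PosDef := by
    have := hX.mul_mul_conjTranspose_same (B := G) ?_
    · rwa [hGH] at this
    · exact Matrix.vecMul_injective_iff_isUnit.mpr hGp.isUnit
  have hTle : ((ξ * b) • (1 : Matrix n n ℂ) - T).PosSemidef := by
    have e1 := h3.mul_mul_conjTranspose_same G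
    have e2 := h2.smul hξ
    have e3 := e1.add e2
    rw [hGH] at e3
    convert e3 using 1
    rw [Matrix.mul_sub, Matrix.sub_mul, Matrix.mul_smul, Matrix.smul_mul, Matrix.mul_one, hGG,
      smul_sub, smul_smul, hT]
    abel
  have hrT : rtr T = rtr (Λ * X) := by
    rw [hT, rtr_mul_comm, ← Matrix.mul_assoc, hGG]
  have hdT : Real.log T.det.re = Real.log X.det.re + Real.log Λ.det.re := by
    have e1 : T.det = X.det * Λ.det := by
      rw [hT, ← hGG, Matrix.det_mul, Matrix.det_mul, Matrix.det_mul]; ring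
    rw [e1, det_ofReal_re hX.isHermitian, det_ofReal_re hΛ.isHermitian, ← Complex.ofReal_mul,
      Complex.ofReal_re, Complex.ofReal_re, Complex.ofReal_re,
      Real.log_mul (det_re_pos hX).ne' (det_re_pos hΛ).ne']
  have hc := trace_log_coer hTp hTle
  have hai : 0 < a⁻¹ := inv_pos.mpr ha
  have hOB : OB G⁻¹ (Real.sqrt a⁻¹) := by
    unfold OB
    rw [Real.sq_sqrt hai.le, hGiH]
    have e1 := (h1.mul_mul_conjTranspose_same G⁻¹).smul hai.le
    rw [hGiH] at e1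
    convert e1 using 1
    rw [Matrix.mul_sub, Matrix.sub_mul, Matrix.mul_smul, Matrix.smul_mul, Matrix.mul_one,
      smul_sub, smul_smul, inv_mul_cancel₀ ha.ne', one_smul]
    congr 2
    rw [← hGG, ← Matrix.mul_assoc, Matrix.nonsing_inv_mul _ hGu, Matrix.one_mul,
      Matrix.mul_nonsing_inv _ hGu]
  have hX' : X - Λ⁻¹ = G⁻¹ * ((T - 1) * G⁻¹) := by
    rw [hT, hΛi, Matrix.sub_mul, Matrix.one_mul, Matrix.mul_sub]
    congr 1
    rw [Matrix.mul_assoc, Matrix.mul_assoc, Matrix.mul_nonsing_inv _ hGu,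
      Matrix.mul_one, ← Matrix.mul_assoc, Matrix.nonsing_inv_mul _ hGu, Matrix.one_mul]
  rw [hX']
  have h4 := hOB.hs_mul_le ((T - 1) * G⁻¹)
  have h5 := hOB.hs_mul_right_le' hGp.inv.isHermitian (T - 1)
  rw [Real.sq_sqrt hai.le] at h4 h5
  rw [hrT, hdT] at hc
  calc hs (G⁻¹ * ((T - 1) * G⁻¹)) ≤ a⁻¹ * (a⁻¹ * hs (T - 1)) :=
        h4.trans (mul_le_mul_of_nonneg_left h5 hai.le)
    _ = a⁻¹ ^ 2 * hs (T - 1) := by ring
    _ ≤ a⁻¹ ^ 2 * (2 * (1 + ξ * b) * (rtr (Λ * X) - Fintype.card n -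
          (Real.log X.det.re + Real.log Λ.det.re))) :=
        mul_le_mul_of_nonneg_left hc (sq_nonneg _)
    _ = _ := by ring

end Crest.Agent.R332.CoerI
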