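import Crest.Agent.R332.CoerIK

/-! # Row 332, module (F1): integrated coercivity -/

set_option autoImplicit false
set_option linter.unusedSectionVars false

namespace Crest.Agent.R332.CoerI

open Matrix MeasureTheory Set
open scoped ComplexOrder Interval

variable {n : Type*} [Fintype n] [DecidableEq n]

open Chan

/-- `‖[F,K²]‖₂² + ‖Z - (K²-F²)‖₂²`. -/
noncomputable def defect (K F Z : Matrix n n ℂ) : ℝ :=
  hs (F * (K * K) - K * K * F) + hs (Z - (K * K - F * F))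

lemma defect_nonneg (K F Z : Matrix n n ℂ) : 0 ≤ defect K F Z :=
  add_nonneg (hs_nonneg _) (hs_nonneg _)

/-- the `s`-integrand of the channel deficit -/
noncomputable def chanDef (U : Matrix n n ℂ) (k : n → ℝ) (al : ℝ) (F Z : Matrix n n ℂ) (s : ℝ) : ℝ :=
  s ^ al * (def1 (U * dg (fun i => Real.sqrt (k i ^ 2 + s)) * Uᴴ) F +
      (1 + 1 / al) * def3 (U * dg (fun i => Real.sqrt (k i ^ 2 + s)) * Uᴴ) F ((s : ℂ) • 1 + Z))

lemma defect_le_chanDef {U F Z : Matrix n n ℂ} {k : n → ℝ} {κ ζ s0 s1 s al : ℝ} (hal : 0 < al)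
    (hU : U * Uᴴ = 1)
    (hk : ∀ i, 0 ≤ k i) (hκ : ∀ i, k i ≤ κ) (hζ : 0 ≤ ζ) (h0 : 0 < s0) (hs0 : s0 ≤ s)
    (hs1 : s ≤ s1)
    (hF : F.IsHermitian) (hF1 : (U * dg k * Uᴴ - F).PosSemidef)
    (hF2 : (U * dg k * Uᴴ + F).PosSemidef) (hZ : Z.PosSemidef)
    (hZζ : (ζ • (1 : Matrix n n ℂ) - Z).PosSemidef) :
    s0 ^ al / coerC κ ζ s0 s1 * defect (U * dg k * Uᴴ) F Z ≤ chanDef U k al F Z s := by
  have h := coer_K hU hk hκ hζ h0 hs0 hs1 hF hF1 hF2 hZ hZζ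
  have hs : 0 < s := lt_of_lt_of_le h0 hs0
  have hC : 0 < coerC κ ζ s0 s1 := coerC_pos hζ h0 (hs0.trans hs1)
  have hb := bd_of_K hU hk hκ h0 hs0 hs1 hF hF1 hF2
  have hX : ((s : ℂ) • (1 : Matrix n n ℂ) + Z).PosDef := by
    have hsm : ((s : ℂ) • (1 : Matrix n n ℂ)) = s • (1 : Matrix n n ℂ) := by
      ext i j; simp
    rw [hsm]
    exact (PosDef.one.smul hs).add_posSemidef hZ
  have p1 := def1_nonneg (U * dg (fun i => Real.sqrt (k i ^ 2 + s)) * Uᴴ) F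
  have p3 := hb.def3_nonneg hX
  have h2 : s0 ^ al ≤ s ^ al := Real.rpow_le_rpow h0.le hs0 hal.le
  have h3 : 0 < s0 ^ al := Real.rpow_pos_of_pos h0 al
  set D1 := def1 (U * dg (fun i => Real.sqrt (k i ^ 2 + s)) * Uᴴ) F
  set D3 := def3 (U * dg (fun i => Real.sqrt (k i ^ 2 + s)) * Uᴴ) F ((s : ℂ) • 1 + Z)
  have h4 : defect (U * dg k * Uᴴ) F Z ≤ coerC κ ζ s0 s1 * (D1 + D3) := h
  calc s0 ^ al / coerC κ ζ s0 s1 * defect (U * dg k * Uᴴ) F Z
      ≤ s0 ^ al / coerC κ ζ s0 s1 * (coerC κ ζ s0 s1 * (D1 + D3)) :=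
        mul_le_mul_of_nonneg_left h4 (by positivity)
    _ = s0 ^ al * (D1 + D3) := by field_simp
    _ ≤ s ^ al * (D1 + (1 + 1 / al) * D3) := by
        refine mul_le_mul h2 ?_ (by linarith) (by positivity)
        have : 0 ≤ 1 / al * D3 := by positivity
        linarith
    _ = _ := rfl

/-- **Integrated coercivity**: the channel deficit controls
`∫ (‖[F,K²]‖₂² + ‖Z - (K²-F²)‖₂²)`. -/
theorem coer_int {U : Matrix n n ℂ} {F Z : ℝ → Matrix n n ℂ} {k : n → ℝ} {κ ζ s0 s1 al L : ℝ}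
    (hal : 0 < al) (hU : U * Uᴴ = 1)
    (hk : ∀ i, 0 ≤ k i) (hκ : ∀ i, k i ≤ κ) (hζ : 0 ≤ ζ) (h0 : 0 < s0) (hs01 : s0 < s1)
    (hL : 0 ≤ L)
    (hF : ∀ x ∈ Icc (-L) L, (F x).IsHermitian)
    (hF1 : ∀ x ∈ Icc (-L) L, (U * dg k * Uᴴ - F x).PosSemidef)
    (hF2 : ∀ x ∈ Icc (-L) L, (U * dg k * Uᴴ + F x).PosSemidef)
    (hZ : ∀ x ∈ Icc (-L) L, (Z x).PosSemidef)
    (hZζ : ∀ x ∈ Icc (-L) L, (ζ • (1 : Matrix n n ℂ) - Z x).PosSemidef)
    (hi1 : IntervalIntegrable (fun x => defect (U * dg k * Uᴴ) (F x) (Z x)) volume (-L) L)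
    (hi2 : ∀ x ∈ Icc (-L) L, IntervalIntegrable (chanDef U k al (F x) (Z x)) volume s0 s1)
    (hi3 : IntervalIntegrable (fun x => ∫ s in s0..s1, chanDef U k al (F x) (Z x) s)
      volume (-L) L) :
    ∫ x in (-L)..L, defect (U * dg k * Uᴴ) (F x) (Z x) ≤
      coerC κ ζ s0 s1 / (s0 ^ al * (s1 - s0)) *
        ∫ x in (-L)..L, ∫ s in s0..s1, chanDef U k al (F x) (Z x) s := by
  have hC : 0 < coerC κ ζ s0 s1 := coerC_pos hζ h0 hs01.le
  have h3 : 0 < s0 ^ al := Real.rpow_pos_of_pos h0 al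
  have h4 : 0 < s1 - s0 := by linarith
  rw [← intervalIntegral.integral_const_mul]
  apply intervalIntegral.integral_mono_on (by linarith) hi1 (hi3.const_mul _)
  intro x hx
  have h5 : (∫ s in s0..s1, s0 ^ al / coerC κ ζ s0 s1 * defect (U * dg k * Uᴴ) (F x) (Z x)) ≤
      ∫ s in s0..s1, chanDef U k al (F x) (Z x) s := by
    apply intervalIntegral.integral_mono_on hs01.le intervalIntegrable_const (hi2 x hx)
    intro s hs
    exact defect_le_chanDef hal hU hk hκ hζ h0 hs.1 hs.2 (hF x hx) (hF1 x hx) (hF2 x hx)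
      (hZ x hx) (hZζ x hx)
  rw [intervalIntegral.integral_const, smul_eq_mul] at h5
  calc defect (U * dg k * Uᴴ) (F x) (Z x)
      = coerC κ ζ s0 s1 / (s0 ^ al * (s1 - s0)) * ((s1 - s0) *
        (s0 ^ al / coerC κ ζ s0 s1 * defect (U * dg k * Uᴴ) (F x) (Z x))) := by
        field_simp
    _ ≤ _ := mul_le_mul_of_nonneg_left h5 (by positivity)

end Crest.Agent.R332.CoerI
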