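import Crest.Agent.R332.CoerIMain

/-! # Row 332, module (F1): coercivity in the variables `K`, `s`, `Z` -/

set_option autoImplicit false
set_option linter.unusedSectionVars false

namespace Crest.Agent.R332.CoerI

open Matrix MeasureTheory Set
open scoped ComplexOrder Interval

variable {n : Type*} [Fintype n] [DecidableEq n]

open Chan

lemma conj_dg_mul {U : Matrix n n ℂ} (hU : Uᴴ * U = 1) (a b : n → ℝ) :
    (U * dg a * Uᴴ) * (U * dg b * Uᴴ) = U * dg (fun i => a i * b i) * Uᴴ := by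
  have e : (U * dg a * Uᴴ) * (U * dg b * Uᴴ) = U * (dg a * (Uᴴ * U) * dg b) * Uᴴ := by
    noncomm_ring
  rw [e, hU, Matrix.mul_one, dg_mul_dg]

lemma conj_dg_posSemidef {a : n → ℝ} (ha : ∀ i, 0 ≤ a i) (U : Matrix n n ℂ) :
    (U * dg a * Uᴴ).PosSemidef := by
  apply Matrix.PosSemidef.mul_mul_conjTranspose_same
  apply Matrix.PosSemidef.diagonal
  intro i
  show (0 : ℂ) ≤ ((a i : ℝ) : ℂ)
  exact_mod_cast ha i

lemma conj_dg_isHermitian (a : n → ℝ) (U : Matrix n n ℂ) :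
    (U * dg a * Uᴴ).IsHermitian := by
  unfold Matrix.IsHermitian
  rw [Matrix.conjTranspose_mul, Matrix.conjTranspose_mul, Matrix.conjTranspose_conjTranspose,
    dg_conjTranspose, Matrix.mul_assoc]

lemma conj_dg_add (a b : n → ℝ) (U : Matrix n n ℂ) :
    U * dg a * Uᴴ + U * dg b * Uᴴ = U * dg (fun i => a i + b i) * Uᴴ := by
  rw [← Matrix.add_mul, ← Matrix.mul_add]
  congr 2
  simp only [dg, Matrix.diagonal_add]
  congr 1; ext i; push_cast; rfl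

lemma conj_dg_sub (a b : n → ℝ) (U : Matrix n n ℂ) :
    U * dg a * Uᴴ - U * dg b * Uᴴ = U * dg (fun i => a i - b i) * Uᴴ := by
  rw [← Matrix.sub_mul, ← Matrix.mul_sub]
  congr 2
  simp only [dg, Matrix.diagonal_sub]
  congr 1; ext i; push_cast; rfl

lemma conj_dg_const {U : Matrix n n ℂ} (hU : U * Uᴴ = 1) (c : ℝ) :
    U * dg (fun _ => c) * Uᴴ = c • (1 : Matrix n n ℂ) := by
  have : dg (fun _ : n => c) = c • (1 : Matrix n n ℂ) := by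
    ext i j
    by_cases hij : i = j
    · subst hij; simp [dg]
    · simp [dg, hij]
  rw [this, Matrix.mul_smul, Matrix.mul_one, Matrix.smul_mul, hU]

/-- the gap `√(k²+s) - k ≥ s/(2√(κ²+s₁))` -/
lemma sqrt_gap {k κ s s0 s1 : ℝ} (hk : 0 ≤ k) (hκ : k ≤ κ) (h0 : 0 < s0) (hs0 : s0 ≤ s)
    (hs1 : s ≤ s1) : s0 / (2 * Real.sqrt (κ ^ 2 + s1)) ≤ Real.sqrt (k ^ 2 + s) - k := by
  have hs : 0 < s := lt_of_lt_of_le h0 hs0
  have h1 : Real.sqrt (k ^ 2 + s) ≤ Real.sqrt (κ ^ 2 + s1) :=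
    Real.sqrt_le_sqrt (by nlinarith)
  have h2 : 0 < Real.sqrt (k ^ 2 + s) := Real.sqrt_pos.mpr (by positivity)
  have h3 : Real.sqrt (k ^ 2 + s) ^ 2 = k ^ 2 + s := Real.sq_sqrt (by positivity)
  have h4 : k ≤ Real.sqrt (k ^ 2 + s) := Real.le_sqrt_of_sq_le (by linarith)
  rw [div_le_iff₀ (by linarith)]
  nlinarith

/-- The coercivity constant. -/
noncomputable def coerC (κ ζ s0 s1 : ℝ) : ℝ :=
  192 * (Real.sqrt (κ ^ 2 + s1)) ^ 6 +
  64 * (Real.sqrt (κ ^ 2 + s1)) ^ 4 *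
    (1 + (s1 + ζ) / (s0 / (2 * Real.sqrt (κ ^ 2 + s1))) ^ 2) +
  6144 * (Real.sqrt (κ ^ 2 + s1)) ^ 10 / (s0 / (2 * Real.sqrt (κ ^ 2 + s1))) ^ 6

lemma coerC_pos {κ ζ s0 s1 : ℝ} (hζ : 0 ≤ ζ) (h0 : 0 < s0) (h1 : s0 ≤ s1) :
    0 < coerC κ ζ s0 s1 := by
  have hs1 : 0 < s1 := lt_of_lt_of_le h0 h1
  have h2 : 0 < Real.sqrt (κ ^ 2 + s1) := Real.sqrt_pos.mpr (by positivity)
  unfold coerC
  positivity

lemma bd_of_K {U F : Matrix n n ℂ} {k : n → ℝ} {κ s0 s1 s : ℝ} (hU : U * Uᴴ = 1)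
    (hk : ∀ i, 0 ≤ k i) (hκ : ∀ i, k i ≤ κ) (h0 : 0 < s0) (hs0 : s0 ≤ s) (hs1 : s ≤ s1)
    (hF : F.IsHermitian) (hF1 : (U * dg k * Uᴴ - F).PosSemidef)
    (hF2 : (U * dg k * Uᴴ + F).PosSemidef) :
    Bd (U * dg (fun i => Real.sqrt (k i ^ 2 + s)) * Uᴴ) F (s0 / (2 * Real.sqrt (κ ^ 2 + s1)))
      (Real.sqrt (κ ^ 2 + s1)) := by
  have hs : 0 < s := lt_of_lt_of_le h0 hs0
  have hs1p : 0 < s1 := lt_of_lt_of_le hs hs1
  have h2 : 0 < Real.sqrt (κ ^ 2 + s1) := Real.sqrt_pos.mpr (by positivity)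
  have key : ∀ i, 0 ≤ Real.sqrt (k i ^ 2 + s) - k i - s0 / (2 * Real.sqrt (κ ^ 2 + s1)) :=
    fun i => by
      have := sqrt_gap (hk i) (hκ i) h0 hs0 hs1
      linarith
  refine ⟨by positivity, h2, conj_dg_isHermitian _ _, hF, ?_, ?_, ?_⟩
  · have e := (conj_dg_posSemidef key U).add hF1
    convert e using 1
    rw [← conj_dg_sub, ← conj_dg_sub, conj_dg_const hU]
    abel
  · have e := (conj_dg_posSemidef key U).add hF2
    convert e using 1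
    rw [← conj_dg_sub, ← conj_dg_sub, conj_dg_const hU]
    abel
  · rw [← conj_dg_const hU, conj_dg_sub]
    refine conj_dg_posSemidef (fun i => ?_) U
    have h3 : Real.sqrt (k i ^ 2 + s) ≤ Real.sqrt (κ ^ 2 + s1) :=
      Real.sqrt_le_sqrt (by nlinarith [hk i, hκ i])
    linarith

/-- **Coercivity (module F1), pointwise in `x` and `s`.** -/
theorem coer_K {U F Z : Matrix n n ℂ} {k : n → ℝ} {κ ζ s0 s1 s : ℝ} (hU : U * Uᴴ = 1)
    (hk : ∀ i, 0 ≤ k i) (hκ : ∀ i, k i ≤ κ) (hζ : 0 ≤ ζ) (h0 : 0 < s0) (hs0 : s0 ≤ s)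
    (hs1 : s ≤ s1)
    (hF : F.IsHermitian) (hF1 : (U * dg k * Uᴴ - F).PosSemidef)
    (hF2 : (U * dg k * Uᴴ + F).PosSemidef) (hZ : Z.PosSemidef)
    (hZζ : (ζ • (1 : Matrix n n ℂ) - Z).PosSemidef) :
    hs (F * ((U * dg k * Uᴴ) * (U * dg k * Uᴴ)) - (U * dg k * Uᴴ) * (U * dg k * Uᴴ) * F) +
      hs (Z - ((U * dg k * Uᴴ) * (U * dg k * Uᴴ) - F * F)) ≤
    coerC κ ζ s0 s1 * (def1 (U * dg (fun i => Real.sqrt (k i ^ 2 + s)) * Uᴴ) F +
      def3 (U * dg (fun i => Real.sqrt (k i ^ 2 + s)) * Uᴴ) F ((s : ℂ) • 1 + Z)) := by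
  have hs : 0 < s := lt_of_lt_of_le h0 hs0
  have hs1p : 0 < s1 := lt_of_lt_of_le hs hs1
  have hb := bd_of_K hU hk hκ h0 hs0 hs1 hF hF1 hF2
  have hUU : Uᴴ * U = 1 := mul_eq_one_comm.1 hU
  set K := U * dg k * Uᴴ with hK
  set M := U * dg (fun i => Real.sqrt (k i ^ 2 + s)) * Uᴴ with hM
  have hsm : ((s : ℂ) • (1 : Matrix n n ℂ)) = s • (1 : Matrix n n ℂ) := by
    ext i j; simp
  have hMM : M * M = K * K + s • (1 : Matrix n n ℂ) := by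
    rw [hM, hK, conj_dg_mul hUU, conj_dg_mul hUU, ← conj_dg_const hU, conj_dg_add]
    congr 3
    ext i
    rw [Real.mul_self_sqrt (by positivity)]
    ring
  have hX : ((s : ℂ) • (1 : Matrix n n ℂ) + Z).PosDef := by
    rw [hsm]
    exact (PosDef.one.smul hs).add_posSemidef hZ
  have hXξ : ((s1 + ζ) • (1 : Matrix n n ℂ) - ((s : ℂ) • (1 : Matrix n n ℂ) + Z)).PosSemidef := by
    rw [hsm]
    have e := (PosSemidef.one (n := n) (R := ℂ)).smul (show (0:ℝ) ≤ s1 - s by linarith)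
    convert e.add hZζ using 1
    rw [sub_smul, add_smul]
    abel
  have c1 := hb.coer_comm
  have c2 := hb.coer_main hX (by linarith : 0 ≤ s1 + ζ) hXξ
  have e1 : F * (M * M) - M * M * F = F * (K * K) - K * K * F := by
    rw [hMM, Matrix.mul_add, Matrix.add_mul, Matrix.mul_smul, Matrix.smul_mul, Matrix.mul_one,
      Matrix.one_mul]
    abel
  have e2 : (s : ℂ) • (1 : Matrix n n ℂ) + Z - (M * M - F * F) = Z - (K * K - F * F) := by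
    rw [hMM, hsm]; abel
  rw [e1] at c1
  rw [e2] at c2
  have p1 : 0 ≤ def1 M F := def1_nonneg M F
  have p3 : 0 ≤ def3 M F ((s : ℂ) • (1 : Matrix n n ℂ) + Z) := hb.def3_nonneg hX
  have hμ : 0 < Real.sqrt (κ ^ 2 + s1) := Real.sqrt_pos.mpr (by positivity)
  have q1 : 0 ≤ 192 * (Real.sqrt (κ ^ 2 + s1)) ^ 6 := by positivity
  have q2 : 0 ≤ 64 * (Real.sqrt (κ ^ 2 + s1)) ^ 4 *
    (1 + (s1 + ζ) / (s0 / (2 * Real.sqrt (κ ^ 2 + s1))) ^ 2) := by positivity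
  have q3 : 0 ≤ 6144 * (Real.sqrt (κ ^ 2 + s1)) ^ 10 /
    (s0 / (2 * Real.sqrt (κ ^ 2 + s1))) ^ 6 := by positivity
  unfold coerC
  nlinarith [mul_nonneg q1 p3, mul_nonneg q2 p1, mul_nonneg q3 p3]

end Crest.Agent.R332.CoerI
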