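import Crest.Agent.R332.CoerIAvg
import Crest.Agent.R332.ChanPS

/-! # Row 332, module (F1): dimension-free coercivity of the two deficits -/

set_option autoImplicit false
set_option linter.unusedSectionVars false

namespace Crest.Agent.R332.CoerI

open Matrix MeasureTheory Set
open scoped ComplexOrder Interval

variable {n : Type*} [Fintype n] [DecidableEq n]

open Chan

lemma mavg_mul_left {A : ℝ → Matrix n n ℂ} (hA : ContinuousOn A (Icc (-1) 1))
    (X : Matrix n n ℂ) : mavg (fun l => X * A l) = X * mavg A := by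
  ext i j
  rw [mavg_apply, Matrix.mul_apply]
  simp only [Matrix.mul_apply, mavg_apply]
  rw [intervalIntegral.integral_finsetSum]
  · rw [Finset.mul_sum]
    refine Finset.sum_congr rfl fun k _ => ?_
    rw [intervalIntegral.integral_const_mul]; ring
  · intro k _
    exact (entry_intble hA k j).const_mul _

lemma mavg_congr {A B : ℝ → Matrix n n ℂ} (h : ∀ l ∈ Icc (-1 : ℝ) 1, A l = B l) :
    mavg A = mavg B := by
  ext i j
  rw [mavg_apply, mavg_apply]
  congr 1
  apply intervalIntegral.integral_congr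
  intro l hl
  rw [uIcc_of_le (by norm_num)] at hl
  show A l i j = B l i j
  rw [h l hl]

lemma ldet_eq {A : Matrix n n ℂ} (hA : A.PosDef) : ldet A = Real.log A.det.re := by
  unfold ldet
  rw [det_ofReal_re hA.isHermitian, Complex.norm_real, Real.norm_of_nonneg (det_re_pos hA).le,
    Complex.ofReal_re]

lemma comm_conj {B R F : Matrix n n ℂ} (h1 : R * B = 1) (h2 : B * R = 1) :
    F * B - B * F = B * ((R * F - F * R) * B) := by
  have e1 : B * ((R * F - F * R) * B) = (B * R) * F * B - B * F * (R * B) := by noncomm_ring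
  rw [e1, h1, h2, Matrix.one_mul, Matrix.mul_one]

lemma comm_pencil (M F : Matrix n n ℂ) (l : ℝ) :
    F * (M - (l : ℂ) • F) - (M - (l : ℂ) • F) * F = F * M - M * F := by
  simp only [Matrix.mul_sub, Matrix.sub_mul, Matrix.mul_smul, Matrix.smul_mul]
  abel

section

variable {M F : Matrix n n ℂ} {d μ : ℝ}

/-- Assumptions for the coercivity lemmas. -/
structure Bd (M F : Matrix n n ℂ) (d μ : ℝ) : Prop where
  hd : 0 < d
  hμ : 0 < μ
  hM : M.IsHermitian
  hF : F.IsHermitian
  ha : (M - F - d • (1 : Matrix n n ℂ)).PosSemidef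
  hb : (M + F - d • (1 : Matrix n n ℂ)).PosSemidef
  hMμ : (μ • (1 : Matrix n n ℂ) - M).PosSemidef

namespace Bd

variable (h : Bd M F d μ)
include h

lemma posDef_a : (M - F).PosDef := posDef_of_ge h.hd h.ha

lemma posDef_b : (M + F).PosDef := posDef_of_ge h.hd h.hb

lemma posDef_M : M.PosDef := by
  have h1 := (h.posDef_a.add h.posDef_b).smul (show (0:ℝ) < 1/2 by norm_num)
  convert h1 using 1
  rw [show M - F + (M + F) = (2:ℝ) • M by rw [two_smul]; abel, smul_smul]
  norm_num

lemma nonempty_frame : Nonempty (Frame M F) :=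
  exists_frame h.posDef_M h.hF h.posDef_a h.posDef_b

lemma ge {l : ℝ} (hl : l ∈ Icc (-1 : ℝ) 1) :
    (M - (l : ℂ) • F - d • (1 : Matrix n n ℂ)).PosSemidef := by
  have h1 : (0:ℝ) ≤ (1 + l) / 2 := by linarith [hl.1]
  have h2 : (0:ℝ) ≤ (1 - l) / 2 := by linarith [hl.2]
  convert (h.ha.smul h1).add (h.hb.smul h2) using 1
  ext i j
  simp only [Matrix.sub_apply, Matrix.add_apply, Matrix.smul_apply, Complex.real_smul, smul_eq_mul]
  push_cast
  ring

lemma le {l : ℝ} (hl : l ∈ Icc (-1 : ℝ) 1) :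
    ((2 * μ) • (1 : Matrix n n ℂ) - (M - (l : ℂ) • F)).PosSemidef := by
  have h1 : (0:ℝ) ≤ (1 + l) / 2 := by linarith [hl.1]
  have h2 : (0:ℝ) ≤ (1 - l) / 2 := by linarith [hl.2]
  have h3 := ((h.hMμ.smul (show (0:ℝ) ≤ 2 by norm_num)).add
    ((h.posDef_a.posSemidef.smul h2).add (h.posDef_b.posSemidef.smul h1)))
  convert h3 using 1
  ext i j
  simp only [Matrix.sub_apply, Matrix.add_apply, Matrix.smul_apply, Complex.real_smul, smul_eq_mul]
  push_cast
  ring

lemma isHermitian_pencil (l : ℝ) : (M - (l : ℂ) • F).IsHermitian := by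
  unfold Matrix.IsHermitian
  rw [Matrix.conjTranspose_sub, Matrix.conjTranspose_smul, h.hM.eq, h.hF.eq]
  simp

lemma OB_pencil {l : ℝ} (hl : l ∈ Icc (-1 : ℝ) 1) : OB (M - (l : ℂ) • F) (2 * μ) := by
  have hμ := h.hμ
  refine OB.of_le (h.isHermitian_pencil l) (by positivity) (h.le hl) ?_
  have h1 : ((2 * μ) • (1 : Matrix n n ℂ)).PosSemidef :=
    PosSemidef.one.smul (by positivity)
  exact h1.add (posDef_of_ge h.hd (h.ge hl)).posSemidef

lemma OB_pencil' {l : ℝ} (hl : l ∈ Icc (-1 : ℝ) 1) : OB ((l : ℂ) • M - F) (2 * μ) := by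
  have hμ := h.hμ
  have hH : ((l : ℂ) • M - F).IsHermitian := by
    unfold Matrix.IsHermitian
    rw [Matrix.conjTranspose_sub, Matrix.conjTranspose_smul, h.hM.eq, h.hF.eq]
    simp
  have h1 : (0:ℝ) ≤ 1 + l := by linarith [hl.1]
  have h2 : (0:ℝ) ≤ 1 - l := by linarith [hl.2]
  refine OB.of_le hH (by positivity) ?_ ?_
  · have h3 := (h.hMμ.smul (show (0:ℝ) ≤ 2 by norm_num)).add
      (h.posDef_b.posSemidef.add (h.posDef_M.posSemidef.smul h2))
    convert h3 using 1
    ext i j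
    simp only [Matrix.sub_apply, Matrix.add_apply, Matrix.smul_apply, Complex.real_smul,
      smul_eq_mul]
    push_cast
    ring
  · have h3 := (h.hMμ.smul (show (0:ℝ) ≤ 2 by norm_num)).add
      (h.posDef_a.posSemidef.add (h.posDef_M.posSemidef.smul h1))
    convert h3 using 1
    ext i j
    simp only [Matrix.sub_apply, Matrix.add_apply, Matrix.smul_apply, Complex.real_smul,
      smul_eq_mul]
    push_cast
    ring

lemma OB_Res {l : ℝ} (hl : l ∈ Icc (-1 : ℝ) 1) : OB (Res M F l) d⁻¹ :=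
  OB_inv h.hd (h.ge hl)

lemma Res_posDef {l : ℝ} (hl : l ∈ Icc (-1 : ℝ) 1) : (Res M F l).PosDef :=
  (posDef_of_ge h.hd (h.ge hl)).inv

lemma Res_mul {l : ℝ} (hl : l ∈ Icc (-1 : ℝ) 1) : Res M F l * (M - (l : ℂ) • F) = 1 := by
  obtain ⟨fr⟩ := h.nonempty_frame
  exact (fr.res_mul (abs_le.2 hl)).2

lemma mul_Res {l : ℝ} (hl : l ∈ Icc (-1 : ℝ) 1) : (M - (l : ℂ) • F) * Res M F l = 1 := by
  obtain ⟨fr⟩ := h.nonempty_frame
  exact (fr.res_mul (abs_le.2 hl)).1

lemma hs_comm_le {l : ℝ} (hl : l ∈ Icc (-1 : ℝ) 1) :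
    hs (F * M - M * F) ≤ 16 * μ ^ 4 * hs (Res M F l * F - F * Res M F l) := by
  have e : F * M - M * F = (M - (l : ℂ) • F) * ((Res M F l * F - F * Res M F l) *
      (M - (l : ℂ) • F)) := by
    rw [← comm_conj (h.Res_mul hl) (h.mul_Res hl), comm_pencil]
  rw [e]
  refine ((h.OB_pencil hl).hs_mul_le _).trans ?_
  have h2 := (h.OB_pencil hl).hs_mul_right_le' (h.isHermitian_pencil l)
    (Res M F l * F - F * Res M F l)
  calc (2 * μ) ^ 2 * hs ((Res M F l * F - F * Res M F l) * (M - (l : ℂ) • F))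
      ≤ (2 * μ) ^ 2 * ((2 * μ) ^ 2 * hs (Res M F l * F - F * Res M F l)) :=
        mul_le_mul_of_nonneg_left h2 (sq_nonneg _)
    _ = _ := by ring

lemma hs_ResF_le {l : ℝ} (hl : l ∈ Icc (-1 : ℝ) 1) :
    hs (Res M F l * F - F * Res M F l) ≤ (d⁻¹) ^ 4 * hs (F * M - M * F) := by
  have e : Res M F l * F - F * Res M F l = Res M F l * ((F * M - M * F) * Res M F l) := by
    have e1 := comm_conj (F := F) (h.mul_Res hl) (h.Res_mul hl)
    have e2 := comm_pencil M F l
    rw [← e2, ← neg_sub ((M - (l : ℂ) • F) * F), Matrix.neg_mul, Matrix.mul_neg, ← e1, neg_sub]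
  rw [e]
  refine ((h.OB_Res hl).hs_mul_le _).trans ?_
  have h2 := (h.OB_Res hl).hs_mul_right_le' (h.Res_posDef hl).isHermitian (F * M - M * F)
  calc (d⁻¹) ^ 2 * hs ((F * M - M * F) * Res M F l)
      ≤ (d⁻¹) ^ 2 * ((d⁻¹) ^ 2 * hs (F * M - M * F)) :=
        mul_le_mul_of_nonneg_left h2 (sq_nonneg _)
    _ = _ := by ring

lemma OB_M : OB M μ := by
  refine OB.of_le h.hM h.hμ h.hMμ ?_
  exact (PosSemidef.one.smul h.hμ.le).add h.posDef_M.posSemidef

lemma hs_comm_sq : hs (F * (M * M) - M * M * F) ≤ 4 * μ ^ 2 * hs (F * M - M * F) := by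
  have e : F * (M * M) - M * M * F = (F * M - M * F) * M + M * (F * M - M * F) := by noncomm_ring
  rw [e]
  refine (hs_add_le _ _).trans ?_
  have h1 := h.OB_M.hs_mul_right_le' h.hM (F * M - M * F)
  have h2 := h.OB_M.hs_mul_le (F * M - M * F)
  nlinarith

lemma contOn_Res : ContinuousOn (fun l => Res M F l) (Icc (-1) 1) := by
  obtain ⟨fr⟩ := h.nonempty_frame
  exact fr.continuousOn_Res

lemma hs_comm_le_def1 : hs (F * M - M * F) ≤ 48 * μ ^ 4 * def1 M F := by
  have hμ := h.hμ
  have hc : ContinuousOn (fun l : ℝ => (1 - l ^ 2) *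
    rtr ((Res M F l * F - F * Res M F l)ᴴ * (Res M F l * F - F * Res M F l))) (Icc (-1) 1) := by
    refine ContinuousOn.mul (by fun_prop) ?_
    refine rtr_contOn ?_
    have h1 : ContinuousOn (fun l => Res M F l * F - F * Res M F l) (Icc (-1) 1) :=
      (h.contOn_Res.mul continuousOn_const).sub (continuousOn_const.mul h.contOn_Res)
    have h2 : Continuous fun A : Matrix n n ℂ => Aᴴ := continuous_id.matrix_conjTranspose
    exact (h2.comp_continuousOn h1).mul h1
  have h1 : (∫ l in (-1 : ℝ)..1, (1 - l ^ 2) * (hs (F * M - M * F) / (16 * μ ^ 4))) ≤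
      ∫ l in (-1 : ℝ)..1, (1 - l ^ 2) *
        rtr ((Res M F l * F - F * Res M F l)ᴴ * (Res M F l * F - F * Res M F l)) := by
    apply intervalIntegral.integral_mono_on (by norm_num)
    · apply Continuous.intervalIntegrable; fun_prop
    · apply ContinuousOn.intervalIntegrable
      rwa [uIcc_of_le (by norm_num)]
    · intro l hl
      refine mul_le_mul_of_nonneg_left ?_ (by nlinarith [hl.1, hl.2])
      rw [← hs_eq_rtr', div_le_iff₀ (by positivity)]
      have := h.hs_comm_le hl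
      linarith
  rw [intervalIntegral.integral_mul_const] at h1
  have h2 : (∫ l in (-1 : ℝ)..1, (1 - l ^ 2)) = 4 / 3 := by
    rw [intervalIntegral.integral_sub (by simp) (by
      apply Continuous.intervalIntegrable; fun_prop)]
    simp; norm_num
  rw [h2] at h1
  unfold def1
  have h3 : hs (F * M - M * F) = 48 * μ ^ 4 * (1 / 4 * (4 / 3 * (hs (F * M - M * F) /
      (16 * μ ^ 4)))) := by
    field_simp
    ring
  rw [h3]
  exact mul_le_mul_of_nonneg_left (mul_le_mul_of_nonneg_left h1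
    (by norm_num)) (by positivity)

lemma contOn_RR : ContinuousOn (fun l => Res M F l * Res M F l) (Icc (-1) 1) :=
  h.contOn_Res.mul h.contOn_Res

end Bd

/-- averaged square of the resolvent -/
noncomputable def Lam (M F : Matrix n n ℂ) : Matrix n n ℂ :=
  mavg fun l => Res M F l * Res M F l

namespace Bd

variable (h : Bd M F d μ)
include h

lemma lamTr_eq (X : Matrix n n ℂ) : lamTr M F X = rtr (Lam M F * X) := by
  unfold lamTr Lam
  rw [← mavg_mul_right h.contOn_RR]
  exact (rtr_mavg (A := fun l => Res M F l * Res M F l * X)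
    (h.contOn_RR.mul continuousOn_const)).symm

lemma Lam_ge : (Lam M F - ((2 * μ) ^ 2)⁻¹ • (1 : Matrix n n ℂ)).PosSemidef := by
  have hμ := h.hμ
  have e : Lam M F - ((2 * μ) ^ 2)⁻¹ • (1 : Matrix n n ℂ) =
      mavg (fun l => Res M F l * Res M F l - ((2 * μ) ^ 2)⁻¹ • (1 : Matrix n n ℂ)) := by
    rw [mavg_sub h.contOn_RR continuousOn_const, mavg_const]; rfl
  rw [e]
  refine mavg_posSemidef (h.contOn_RR.sub continuousOn_const) fun l hl => ?_
  have h1 := h.OB_pencil hl
  unfold OB at h1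
  rw [(h.isHermitian_pencil l).eq] at h1
  have h2 := (h1.mul_mul_conjTranspose_same (Res M F l)).smul
    (show (0:ℝ) ≤ ((2 * μ) ^ 2)⁻¹ by positivity)
  convert h2 using 1
  rw [(h.Res_posDef hl).isHermitian.eq, Matrix.mul_sub, Matrix.sub_mul, Matrix.mul_smul,
    Matrix.smul_mul, Matrix.mul_one, smul_sub, smul_smul, inv_mul_cancel₀ (by positivity),
    one_smul]
  congr 2
  rw [← Matrix.mul_assoc, h.Res_mul hl, Matrix.one_mul, h.mul_Res hl]

lemma Lam_le : ((d ^ 2)⁻¹ • (1 : Matrix n n ℂ) - Lam M F).PosSemidef := by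
  have e : (d ^ 2)⁻¹ • (1 : Matrix n n ℂ) - Lam M F =
      mavg (fun l => (d ^ 2)⁻¹ • (1 : Matrix n n ℂ) - Res M F l * Res M F l) := by
    rw [mavg_sub continuousOn_const h.contOn_RR, mavg_const]; rfl
  rw [e]
  refine mavg_posSemidef (continuousOn_const.sub h.contOn_RR) fun l hl => ?_
  have h1 := h.OB_Res hl
  unfold OB at h1
  rw [(h.Res_posDef hl).isHermitian.eq, inv_pow] at h1
  exact h1

lemma Lam_posDef : (Lam M F).PosDef := by
  have hμ := h.hμ
  exact posDef_of_ge (by positivity) h.Lam_ge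

lemma Lam_mul_inv : Lam M F * (Lam M F)⁻¹ = 1 := by
  apply Matrix.mul_nonsing_inv
  rw [← Matrix.isUnit_iff_isUnit_det]; exact h.Lam_posDef.isUnit

lemma Lam_inv_mul : (Lam M F)⁻¹ * Lam M F = 1 := by
  apply Matrix.nonsing_inv_mul
  rw [← Matrix.isUnit_iff_isUnit_det]; exact h.Lam_posDef.isUnit

lemma ldet_Lam : 0 ≤ ldet (Lam M F) + ldet (M - F) + ldet (M + F) := by
  obtain ⟨fr⟩ := h.nonempty_frame
  have h1 := fact3 fr h.Lam_posDef.inv
  rw [h.lamTr_eq, h.Lam_mul_inv, rtr_one] at h1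
  have h2 : ldet (Lam M F)⁻¹ = - ldet (Lam M F) := by
    unfold ldet
    rw [Matrix.det_nonsing_inv, Ring.inverse_eq_inv', norm_inv, Real.log_inv]
  rw [h2] at h1
  linarith

lemma hs_sub_Lam_inv {X : Matrix n n ℂ} (hX : X.PosDef) {ξ : ℝ} (hξ : 0 ≤ ξ)
    (hXξ : (ξ • (1 : Matrix n n ℂ) - X).PosSemidef) :
    hs (X - (Lam M F)⁻¹) ≤ 32 * μ ^ 4 * (1 + ξ / d ^ 2) * def3 M F X := by
  have hμ := h.hμ
  have hd := h.hd
  have h1 := klein_coer h.Lam_posDef hX (a := ((2 * μ) ^ 2)⁻¹) (b := (d ^ 2)⁻¹) (by positivity) hξ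
    h.Lam_ge h.Lam_le hXξ
  refine h1.trans ?_
  have h2 : rtr (Lam M F * X) - Fintype.card n - Real.log X.det.re - Real.log (Lam M F).det.re ≤
      def3 M F X := by
    have h3 := h.ldet_Lam
    unfold def3
    rw [h.lamTr_eq, ← ldet_eq hX, ← ldet_eq h.Lam_posDef]
    linarith
  calc (((2 * μ) ^ 2)⁻¹)⁻¹ ^ 2 * (2 * (1 + ξ * (d ^ 2)⁻¹)) *
      (rtr (Lam M F * X) - Fintype.card n - Real.log X.det.re - Real.log (Lam M F).det.re)
      ≤ (((2 * μ) ^ 2)⁻¹)⁻¹ ^ 2 * (2 * (1 + ξ * (d ^ 2)⁻¹)) * def3 M F X :=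
        mul_le_mul_of_nonneg_left h2 (by positivity)
    _ = _ := by rw [inv_inv]; ring

lemma isHermitian_pencil' (l : ℝ) : ((l : ℂ) • M - F).IsHermitian := by
  unfold Matrix.IsHermitian
  rw [Matrix.conjTranspose_sub, Matrix.conjTranspose_smul, h.hM.eq, h.hF.eq]
  simp

lemma contOn_MRM : ContinuousOn
    (fun l => Res M F l * (M * Res M F l * M - F * Res M F l * F)) (Icc (-1) 1) :=
  h.contOn_Res.mul (((continuousOn_const.mul h.contOn_Res).mul continuousOn_const).sub
    ((continuousOn_const.mul h.contOn_Res).mul continuousOn_const))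

lemma mavg_MRM : mavg (fun l => Res M F l * (M * Res M F l * M - F * Res M F l * F)) = 1 := by
  obtain ⟨fr⟩ := h.nonempty_frame
  have hT : IsUnit fr.T.det := (Matrix.isUnit_iff_isUnit_det fr.T).1 fr.isUnit_T
  have h1 : mavg (fun l => Res M F l * (M * Res M F l * M - F * Res M F l * F)) * fr.T = fr.T := by
    rw [← mavg_mul_right h.contOn_MRM]
    have h2 : ∀ l ∈ Icc (-1 : ℝ) 1,
        Res M F l * (M * Res M F l * M - F * Res M F l * F) * fr.T =
        fr.T * dg (fun i => (1 - fr.v i ^ 2) * ((1 - l * fr.v i)⁻¹) ^ 2) := by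
      intro l hl
      have e1 : Res M F l * (M * Res M F l * M - F * Res M F l * F) * fr.T =
          Res M F l * M * Res M F l * M * fr.T - Res M F l * F * Res M F l * F * fr.T := by
        noncomm_ring
      rw [e1, fr.Res_eq hl]
      have e2 : fr.T * fr.D l * fr.Tᴴ * M * (fr.T * fr.D l * fr.Tᴴ) * M * fr.T =
          fr.T * (fr.D l * (fr.Tᴴ * M * fr.T) * fr.D l * (fr.Tᴴ * M * fr.T)) := by noncomm_ring
      have e3 : fr.T * fr.D l * fr.Tᴴ * F * (fr.T * fr.D l * fr.Tᴴ) * F * fr.T =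
          fr.T * (fr.D l * (fr.Tᴴ * F * fr.T) * fr.D l * (fr.Tᴴ * F * fr.T)) := by noncomm_ring
      rw [e2, e3, fr.hM, fr.hF, ← Matrix.mul_sub]
      congr 1
      unfold Frame.D
      simp only [Matrix.mul_one, dg, Matrix.diagonal_mul_diagonal, Matrix.diagonal_sub]
      congr 1
      ext i
      push_cast
      ring
    rw [mavg_congr h2, mavg_mul_left (A := fun l => dg (fun i => (1 - fr.v i ^ 2) *
      ((1 - l * fr.v i)⁻¹) ^ 2))]
    · have h3 : mavg (fun l => dg (fun i => (1 - fr.v i ^ 2) * ((1 - l * fr.v i)⁻¹) ^ 2)) =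
          (1 : Matrix n n ℂ) := by
        ext i j
        rw [mavg_apply]
        by_cases hij : i = j
        · subst hij
          simp only [dg, Matrix.diagonal_apply_eq, Matrix.one_apply_eq]
          rw [intervalIntegral.integral_ofReal, intervalIntegral.integral_const_mul,
            integral_inv_sq (fr.hv i)]
          have hw : (1 - fr.v i ^ 2) ≠ 0 := by
            have h1 : 0 < 1 - fr.v i := by linarith [(abs_lt.1 (fr.hv i)).2]
            have h2 : 0 < 1 + fr.v i := by linarith [(abs_lt.1 (fr.hv i)).1]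
            have := mul_pos h1 h2
            nlinarith
          have : (1 - fr.v i ^ 2) * (2 / (1 - fr.v i ^ 2)) = 2 := by field_simp
          rw [this]
          norm_num
        · simp [dg, Matrix.diagonal_apply_ne _ hij, Matrix.one_apply_ne hij]
      rw [h3, Matrix.mul_one]
    · refine continuousOn_pi.2 fun i => continuousOn_pi.2 fun j => ?_
      by_cases hij : i = j
      · subst hij
        simp only [dg, Matrix.diagonal_apply_eq]
        exact Complex.continuous_ofReal.comp_continuousOn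
          (continuousOn_const.mul ((continuousOn_inv_one_sub (fr.hv i)).pow 2))
      · simp only [dg, Matrix.diagonal_apply_ne _ hij]
        exact continuousOn_const
  calc mavg (fun l => Res M F l * (M * Res M F l * M - F * Res M F l * F))
      = mavg (fun l => Res M F l * (M * Res M F l * M - F * Res M F l * F)) * fr.T * fr.T⁻¹ := by
        rw [Matrix.mul_assoc, Matrix.mul_nonsing_inv _ hT, Matrix.mul_one]
    _ = 1 := by rw [h1, Matrix.mul_nonsing_inv _ hT]

lemma Lam_mul_sub_one : hs (Lam M F * (M * M - F * F) - 1) ≤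
    4 * μ ^ 2 / d ^ 6 * hs (F * M - M * F) := by
  have hμ := h.hμ
  have hd := h.hd
  have hcont : ContinuousOn (fun l => Res M F l * ((Res M F l * F - F * Res M F l) *
      ((l : ℂ) • M - F))) (Icc (-1) 1) := by
    have h1 : ContinuousOn (fun l => Res M F l * F - F * Res M F l) (Icc (-1) 1) :=
      (h.contOn_Res.mul continuousOn_const).sub (continuousOn_const.mul h.contOn_Res)
    have h2 : ContinuousOn (fun l : ℝ => (l : ℂ) • M - F) (Icc (-1) 1) :=
      ((Complex.continuous_ofReal.continuousOn).smul continuousOn_const).sub continuousOn_const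
    exact h.contOn_Res.mul (h1.mul h2)
  have e : Lam M F * (M * M - F * F) - 1 = mavg (fun l => Res M F l *
      ((Res M F l * F - F * Res M F l) * ((l : ℂ) • M - F))) := by
    conv_lhs => rw [← h.mavg_MRM]
    unfold Lam
    rw [← mavg_mul_right h.contOn_RR]
    have hcc : ContinuousOn (fun l => Res M F l * Res M F l * (M * M - F * F)) (Icc (-1) 1) :=
      h.contOn_RR.mul continuousOn_const
    rw [← mavg_sub hcc h.contOn_MRM]
    refine mavg_congr fun l hl => ?_
    have h1 := h.Res_mul hl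
    have h2 := h.mul_Res hl
    have hcomm : Res M F l * M - M * Res M F l = (l : ℂ) • (Res M F l * F - F * Res M F l) := by
      have := h1.trans h2.symm
      rw [Matrix.mul_sub, Matrix.sub_mul, Matrix.mul_smul, Matrix.smul_mul] at this
      rw [smul_sub]
      have h3 : Res M F l * M - M * Res M F l = (Res M F l * M - (l : ℂ) • (Res M F l * F)) -
          (M * Res M F l - (l : ℂ) • (F * Res M F l))
          + ((l : ℂ) • (Res M F l * F) - (l : ℂ) • (F * Res M F l)) := by abel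
      rw [h3, this]; simp
    have h4 : Res M F l * Res M F l * (M * M - F * F) -
        Res M F l * (M * Res M F l * M - F * Res M F l * F) =
        Res M F l * ((Res M F l * M - M * Res M F l) * M - (Res M F l * F - F * Res M F l) * F) := by
      noncomm_ring
    rw [h4, hcomm]
    congr 1
    rw [Matrix.mul_sub, Matrix.mul_smul, Matrix.smul_mul]
  rw [e]
  refine (hs_mavg_le hcont).trans ?_
  have hbound : ∀ l ∈ Icc (-1 : ℝ) 1, hs (Res M F l *
      ((Res M F l * F - F * Res M F l) * ((l : ℂ) • M - F))) ≤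
      4 * μ ^ 2 / d ^ 6 * hs (F * M - M * F) := by
    intro l hl
    have h1 := (h.OB_Res hl).hs_mul_le ((Res M F l * F - F * Res M F l) * ((l : ℂ) • M - F))
    have h2 := (h.OB_pencil' hl).hs_mul_right_le' (h.isHermitian_pencil' l)
      (Res M F l * F - F * Res M F l)
    have h3 := h.hs_ResF_le hl
    calc _ ≤ d⁻¹ ^ 2 * hs ((Res M F l * F - F * Res M F l) * ((l : ℂ) • M - F)) := h1
      _ ≤ d⁻¹ ^ 2 * ((2 * μ) ^ 2 * hs (Res M F l * F - F * Res M F l)) :=
        mul_le_mul_of_nonneg_left h2 (by positivity)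
      _ ≤ d⁻¹ ^ 2 * ((2 * μ) ^ 2 * (d⁻¹ ^ 4 * hs (F * M - M * F))) :=
        mul_le_mul_of_nonneg_left (mul_le_mul_of_nonneg_left h3 (by positivity)) (by positivity)
      _ = _ := by field_simp; ring
  have hci : ContinuousOn (fun l => hs (Res M F l *
      ((Res M F l * F - F * Res M F l) * ((l : ℂ) • M - F)))) (Icc (-1) 1) := by
    simp only [hs]
    exact continuousOn_finsetSum _ fun i _ => continuousOn_finsetSum _ fun j _ =>
      Complex.continuous_normSq.comp_continuousOn (entry_contOn hcont i j)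
  have h5 : (∫ l in (-1 : ℝ)..1, hs (Res M F l *
      ((Res M F l * F - F * Res M F l) * ((l : ℂ) • M - F)))) ≤
      ∫ l in (-1 : ℝ)..1, 4 * μ ^ 2 / d ^ 6 * hs (F * M - M * F) := by
    apply intervalIntegral.integral_mono_on (by norm_num)
    · apply ContinuousOn.intervalIntegrable
      rwa [uIcc_of_le (by norm_num)]
    · exact intervalIntegrable_const
    · exact hbound
  rw [intervalIntegral.integral_const, smul_eq_mul] at h5
  calc (1 / 2) * ∫ l in (-1 : ℝ)..1, hs (Res M F l *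
      ((Res M F l * F - F * Res M F l) * ((l : ℂ) • M - F)))
      ≤ (1 / 2) * ((1 - (-1)) * (4 * μ ^ 2 / d ^ 6 * hs (F * M - M * F))) :=
        mul_le_mul_of_nonneg_left h5 (by norm_num)
    _ = _ := by ring

lemma hs_J_sub_Lam_inv : hs ((M * M - F * F) - (Lam M F)⁻¹) ≤
    3072 * μ ^ 10 / d ^ 6 * def1 M F := by
  have hμ := h.hμ
  have hd := h.hd
  have e : (M * M - F * F) - (Lam M F)⁻¹ = (Lam M F)⁻¹ * (Lam M F * (M * M - F * F) - 1) := by
    rw [Matrix.mul_sub, ← Matrix.mul_assoc, h.Lam_inv_mul, Matrix.one_mul, Matrix.mul_one]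
  have h1 := (OB_inv (by positivity) h.Lam_ge).hs_mul_le (Lam M F * (M * M - F * F) - 1)
  rw [← e, inv_inv] at h1
  calc hs ((M * M - F * F) - (Lam M F)⁻¹)
      ≤ ((2 * μ) ^ 2) ^ 2 * hs (Lam M F * (M * M - F * F) - 1) := h1
    _ ≤ ((2 * μ) ^ 2) ^ 2 * (4 * μ ^ 2 / d ^ 6 * (48 * μ ^ 4 * def1 M F)) :=
        mul_le_mul_of_nonneg_left (h.Lam_mul_sub_one.trans
          (mul_le_mul_of_nonneg_left h.hs_comm_le_def1 (by positivity))) (by positivity)
    _ = _ := by ring

/-- **Coercivity, commutator part.** -/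
theorem coer_comm : hs (F * (M * M) - M * M * F) ≤ 192 * μ ^ 6 * def1 M F := by
  have hμ := h.hμ
  calc hs (F * (M * M) - M * M * F) ≤ 4 * μ ^ 2 * hs (F * M - M * F) := h.hs_comm_sq
    _ ≤ 4 * μ ^ 2 * (48 * μ ^ 4 * def1 M F) :=
        mul_le_mul_of_nonneg_left h.hs_comm_le_def1 (by positivity)
    _ = _ := by ring

/-- **Coercivity, main part.** -/
theorem coer_main {X : Matrix n n ℂ} (hX : X.PosDef) {ξ : ℝ} (hξ : 0 ≤ ξ)
    (hXξ : (ξ • (1 : Matrix n n ℂ) - X).PosSemidef) :
    hs (X - (M * M - F * F)) ≤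
      64 * μ ^ 4 * (1 + ξ / d ^ 2) * def3 M F X + 6144 * μ ^ 10 / d ^ 6 * def1 M F := by
  have e : X - (M * M - F * F) = (X - (Lam M F)⁻¹) - ((M * M - F * F) - (Lam M F)⁻¹) := by abel
  rw [e]
  have h1 := hs_sub_le (X - (Lam M F)⁻¹) ((M * M - F * F) - (Lam M F)⁻¹)
  have h2 := h.hs_sub_Lam_inv hX hξ hXξ
  have h3 := h.hs_J_sub_Lam_inv
  calc _ ≤ 2 * hs (X - (Lam M F)⁻¹) + 2 * hs ((M * M - F * F) - (Lam M F)⁻¹) := h1
    _ ≤ 2 * (32 * μ ^ 4 * (1 + ξ / d ^ 2) * def3 M F X) +
        2 * (3072 * μ ^ 10 / d ^ 6 * def1 M F) := by gcongr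
    _ = _ := by ring

lemma def3_nonneg {X : Matrix n n ℂ} (hX : X.PosDef) : 0 ≤ def3 M F X := by
  obtain ⟨fr⟩ := h.nonempty_frame
  have := fact3 fr hX
  unfold def3
  linarith

end Bd

end

end Crest.Agent.R332.CoerI
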