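import Crest.Agent.R332.CoerIInt
import Crest.Agent.R332.ChanMain

/-! # Row 332, module (F1): integrated coercivity along a path -/

set_option autoImplicit false
set_option linter.unusedSectionVars false

namespace Crest.Agent.R332.CoerI

open Matrix MeasureTheory Set
open scoped ComplexOrder Interval

variable {n : Type*} [Fintype n] [DecidableEq n]

open Chan

/-- the `s`-integrand of the channel deficit, diagonal `K` -/
noncomputable def pathDef (k : n → ℝ) (al : ℝ) (F Z : Matrix n n ℂ) (s : ℝ) : ℝ :=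
  s ^ al * (def1 (Ms k s) F + (1 + 1 / al) * def3 (Ms k s) F ((s : ℂ) • 1 + Z))

lemma chanDef_one (k : n → ℝ) (al : ℝ) (F Z : Matrix n n ℂ) (s : ℝ) :
    chanDef 1 k al F Z s = pathDef k al F Z s := by
  unfold chanDef pathDef Ms
  simp only [Matrix.one_mul, Matrix.conjTranspose_one, Matrix.mul_one]

lemma continuousOn_hs {X : Type*} [TopologicalSpace X] {A : X → Matrix n n ℂ} {P : Set X}
    (hA : ContinuousOn A P) : ContinuousOn (fun p => hs (A p)) P := by
  simp only [hs]
  have h : ∀ i j, Continuous fun B : Matrix n n ℂ => B i j := fun i j =>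
    continuous_id.matrix_elem i j
  exact continuousOn_finsetSum _ fun i _ => continuousOn_finsetSum _ fun j _ =>
      Complex.continuous_normSq.comp_continuousOn ((h i j).comp_continuousOn hA)

lemma continuousOn_defect {X : Type*} [TopologicalSpace X] {K : Matrix n n ℂ}
    {F Z : X → Matrix n n ℂ} {P : Set X} (hF : ContinuousOn F P) (hZ : ContinuousOn Z P) :
    ContinuousOn (fun p => defect K (F p) (Z p)) P := by
  unfold defect
  refine (continuousOn_hs ?_).add (continuousOn_hs ?_)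
  · exact (hF.mul continuousOn_const).sub (continuousOn_const.mul hF)
  · exact hZ.sub (continuousOn_const.sub (hF.mul hF))

lemma continuousOn_pathDef {α L s0 s1 : ℝ} {k : n → ℝ} {F Z : ℝ → Matrix n n ℂ}
    (hα : 0 < α) (h : Path α L k F Z) (h0 : 0 < s0) :
    ContinuousOn (fun p : ℝ × ℝ => pathDef k α (F p.1) (Z p.1) p.2)
      (Icc (-L) L ×ˢ Icc s0 s1) := by
  unfold pathDef
  have hF : ContinuousOn (fun p : ℝ × ℝ => F p.1) (Icc (-L) L ×ˢ Icc s0 s1) :=
    h.hFc.comp continuous_fst.continuousOn fun q hq => hq.1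
  have hZ : ContinuousOn (fun p : ℝ × ℝ => Z p.1) (Icc (-L) L ×ˢ Icc s0 s1) :=
    h.hZc.comp continuous_fst.continuousOn fun q hq => hq.1
  have hS : ContinuousOn (fun p : ℝ × ℝ => p.2) (Icc (-L) L ×ˢ Icc s0 s1) :=
    continuous_snd.continuousOn
  have hpt : ∀ p ∈ Icc (-L) L ×ˢ Icc s0 s1, Pt k (F p.1) := fun p hp => h.hpt p.1 hp.1
  have hs : ∀ p ∈ Icc (-L) L ×ˢ Icc s0 s1, 0 < p.2 := fun p hp =>
    lt_of_lt_of_le h0 hp.2.1
  refine ContinuousOn.mul ?_ ((continuousOn_def1 hF hS hpt hs).add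
    (continuousOn_const.mul (continuousOn_def3 hF hS (continuousOn_sZ hZ hS) ?_ hpt hs)))
  · exact hS.rpow_const fun p hp => Or.inl (hs p hp).ne'
  · exact fun p hp => posDef_smul_add (hs p hp) (h.hZp p.1 hp.1)

/-- **Integrated coercivity along a path (diagonal `K = dg k`).** -/
theorem coer_path {α L s0 s1 κ ζ : ℝ} {k : n → ℝ} {F Z : ℝ → Matrix n n ℂ}
    (hα : 0 < α) (h : Path α L k F Z) (h0 : 0 < s0) (h01 : s0 < s1)
    (hk : ∀ i, 0 ≤ k i) (hκ : ∀ i, k i ≤ κ) (hζ : 0 ≤ ζ)
    (hZζ : ∀ x ∈ Icc (-L) L, (ζ • (1 : Matrix n n ℂ) - Z x).PosSemidef) :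
    ∫ x in (-L)..L, defect (dg k) (F x) (Z x) ≤
      coerC κ ζ s0 s1 / (s0 ^ α * (s1 - s0)) *
        ∫ x in (-L)..L, ∫ s in s0..s1, pathDef k α (F x) (Z x) s := by
  have hL := h.hL
  have e : (1 : Matrix n n ℂ) * dg k * (1 : Matrix n n ℂ)ᴴ = dg k := by
    simp only [Matrix.one_mul, Matrix.conjTranspose_one, Matrix.mul_one]
  have hc := continuousOn_pathDef (s1 := s1) hα h h0
  have key := coer_int (U := (1 : Matrix n n ℂ)) (F := F) (Z := Z) (k := k) (κ := κ) (ζ := ζ)
    (s0 := s0) (s1 := s1) (al := α) (L := L) hα (by simp) hk hκ hζ h0 h01 hL.le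
    (fun x hx => (h.hpt x hx).herm) (fun x hx => by rw [e]; exact (h.hpt x hx).sub)
    (fun x hx => by rw [e]; exact (h.hpt x hx).add) h.hZp hZζ ?_ ?_ ?_
  · simp only [chanDef_one, e] at key
    exact key
  · rw [e]
    apply ContinuousOn.intervalIntegrable
    rw [uIcc_of_le (by linarith)]
    exact continuousOn_defect h.hFc h.hZc
  · intro x hx
    apply ContinuousOn.intervalIntegrable
    rw [uIcc_of_le h01.le]
    have h2 : (chanDef (1 : Matrix n n ℂ) k α (F x) (Z x)) = pathDef k α (F x) (Z x) := by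
      ext s; exact chanDef_one _ _ _ _ _
    rw [h2]
    exact hc.comp (f := fun s : ℝ => (x, s)) (by fun_prop) fun s hs => ⟨hx, hs⟩
  · apply ContinuousOn.intervalIntegrable
    rw [uIcc_of_le (by linarith)]
    simp only [chanDef_one]
    exact continuousOn_param h01.le hc

end Crest.Agent.R332.CoerI
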