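import Crest.Agent.R332.CoerIFinal
import Crest.Agent.R332.ChanRot
import Crest.Agent.R332.ChanScalar
import Crest.Agent.R332.AsmCore

/-! # Row 332, module (F1): the N-channel theorem with a coercive deficit, general `K` -/

set_option autoImplicit false
set_option linter.unusedSectionVars false

namespace Crest.Agent.R332.CoerI

open Matrix MeasureTheory Set
open scoped ComplexOrder Interval
open Crest.MathPhysics.LiebThirring

variable {ι : Type*} [Fintype ι] [DecidableEq ι]

lemma scalUpper {α : ℝ} (hα : 0 < α) (hα1 : α < 1) : Chan.ScalUpper α :=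
  fun _ _ _ hy hs0 h => scal_upper hα hα1 hy hs0 h

lemma scalEndp {α : ℝ} (hα : 0 < α) (hα1 : α < 1) : Chan.ScalEndp α :=
  fun _ hk => scal_endp hα hα1 hk

lemma dg_entry_nonneg {k : ι → ℝ} (h : (Chan.dg k).PosSemidef) (i : ι) : 0 ≤ k i := by
  have := h.diag_nonneg (i := i)
  rw [Chan.dg, Matrix.diagonal_apply_eq] at this
  exact_mod_cast this

/-- **N-channel theorem with coercive deficit** for general positive definite `K`. -/
theorem gpath_channel_defect {α L κ ζ : ℝ} {K : Matrix ι ι ℂ} {P F : ℝ → Matrix ι ι ℂ}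
    (h : GPath α L K P F) (hα : 0 < α) (hα1 : α < 1) (hK : K.PosDef)
    (hκ : (κ • (1 : Matrix ι ι ℂ) - K).PosSemidef) (hζ : 0 ≤ ζ)
    (hPζ : ∀ x ∈ Icc (-L) L, (ζ • (1 : Matrix ι ι ℂ) - mpow (P x) (1 / α)).PosSemidef) :
    betaC α * trp K (1 + 2 * α) +
      coefD α κ ζ * (∫ x in (-L)..L, defect K (F x) (mpow (P x) (1 / α))) ≤
      (1 / α) * ∫ x in (-L)..L, trp (P x) (1 + 1 / α) := by
  obtain ⟨U, k, h1, h2, h3, h4⟩ := exists_diag hK.isHermitian
  have hp := h.toPath hα h1 h2 h3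
  have hL := h.hL
  have hUd : IsUnit U := ⟨⟨U, Uᴴ, h2, h1⟩, rfl⟩
  have hk : ∀ i, 0 < k i := by
    intro i
    have h5 : (cj U K).PosDef := by
      unfold cj
      have := (Matrix.IsUnit.posDef_star_left_conjugate_iff hUd (x := K)).2 hK
      rwa [Matrix.star_eq_conjTranspose] at this
    rw [h3] at h5
    exact Chan.posDef_dg_iff.1 h5 i
  have hkκ : ∀ i, k i ≤ κ := by
    intro i
    have h5 := cj_posSemidef (U := U) hκ
    rw [cj_sub, cj_rsmul, cj_one h1, h3] at h5
    have h6 : (κ • (1 : Matrix ι ι ℂ) - Chan.dg k) = Chan.dg (fun i => κ - k i) := by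
      ext a b
      by_cases hab : a = b
      · subst hab; simp [Chan.dg]
      · simp [Chan.dg, hab]
    rw [h6] at h5
    have := dg_entry_nonneg h5 i
    linarith
  have hZζ : ∀ x ∈ Icc (-L) L,
      (ζ • (1 : Matrix ι ι ℂ) - cj U (mpow (P x) (1 / α))).PosSemidef := by
    intro x hx
    have h5 := cj_posSemidef (U := U) (hPζ x hx)
    rwa [cj_sub, cj_rsmul, cj_one h1] at h5
  have htr : ∀ x ∈ Icc (-L) L, rtr (cfc (fun t : ℝ => t ^ (1 + α)) (cj U (mpow (P x) (1 / α)))) =
      trp (P x) (1 + 1 / α) := by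
    intro x hx
    have e1 : rtr (cfc (fun t : ℝ => t ^ (1 + α)) (cj U (mpow (P x) (1 / α)))) =
        trp (cj U (mpow (P x) (1 / α))) (1 + α) := rfl
    rw [e1, trp_cj h1 h2 (mpow_isHermitian _ _), trp, mpow_mpow (h.hPp x hx), trp]
    congr 2
    field_simp
    ring
  have hcont : ContinuousOn (fun x => trp (P x) (1 + 1 / α)) (Icc (-L) L) := by
    have := continuousOn_mpow h.hPc (fun x hx => (h.hPp x hx).1) (q := 1 + 1 / α) (by positivity)
    exact Chan.continuous_rtr.comp_continuousOn this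
  have hInt : IntervalIntegrable (fun x => R332.rtr (cfc (fun t : ℝ => t ^ (1 + α))
      (cj U (mpow (P x) (1 / α))))) volume (-L) L := by
    apply ContinuousOn.intervalIntegrable
    rw [uIcc_of_le (by linarith)]
    exact hcont.congr fun x hx => htr x hx
  have key := channel_defect hp hα hα1 hk (scalUpper hα hα1) (scalEndp hα hα1) hInt hkκ hζ hZζ
  have e2 : (∫ x in (-L)..L, R332.rtr (cfc (fun t : ℝ => t ^ (1 + α))
      (cj U (mpow (P x) (1 / α))))) = ∫ x in (-L)..L, trp (P x) (1 + 1 / α) := by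
    apply intervalIntegral.integral_congr
    intro x hx
    rw [uIcc_of_le (by linarith)] at hx
    exact htr x hx
  have e3 : (∫ x in (-L)..L, defect (Chan.dg k) (cj U (F x)) (cj U (mpow (P x) (1 / α)))) =
      ∫ x in (-L)..L, defect K (F x) (mpow (P x) (1 / α)) := by
    apply intervalIntegral.integral_congr
    intro x _
    show defect (Chan.dg k) (cj U (F x)) (cj U (mpow (P x) (1 / α))) = _
    rw [← h3]
    exact defect_conj h2 _ _ _
  rw [e2, e3] at key
  have e4 : (∑ i, k i ^ (1 + 2 * α)) = trp K (1 + 2 * α) :=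
    (trp_eq_sum_cj hK.isHermitian h1 h2 h3 _).symm
  rw [e4] at key
  rw [betaC]
  linarith

/-- **N-channel theorem** for general positive definite `K` (deficit dropped). -/
theorem gpath_channel {α L : ℝ} {K : Matrix ι ι ℂ} {P F : ℝ → Matrix ι ι ℂ}
    (h : GPath α L K P F) (hα : 0 < α) (hα1 : α < 1) (hK : K.PosDef) :
    betaC α * trp K (1 + 2 * α) ≤
      (1 / α) * ∫ x in (-L)..L, trp (P x) (1 + 1 / α) := by
  obtain ⟨U, k, h1, h2, h3, h4⟩ := exists_diag hK.isHermitian
  have hp := h.toPath hα h1 h2 h3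
  have hL := h.hL
  have hUd : IsUnit U := ⟨⟨U, Uᴴ, h2, h1⟩, rfl⟩
  have hk : ∀ i, 0 < k i := by
    intro i
    have h5 : (cj U K).PosDef := by
      unfold cj
      have := (Matrix.IsUnit.posDef_star_left_conjugate_iff hUd (x := K)).2 hK
      rwa [Matrix.star_eq_conjTranspose] at this
    rw [h3] at h5
    exact Chan.posDef_dg_iff.1 h5 i
  have htr : ∀ x ∈ Icc (-L) L, rtr (cfc (fun t : ℝ => t ^ (1 + α)) (cj U (mpow (P x) (1 / α)))) =
      trp (P x) (1 + 1 / α) := by
    intro x hx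
    have e1 : rtr (cfc (fun t : ℝ => t ^ (1 + α)) (cj U (mpow (P x) (1 / α)))) =
        trp (cj U (mpow (P x) (1 / α))) (1 + α) := rfl
    rw [e1, trp_cj h1 h2 (mpow_isHermitian _ _), trp, mpow_mpow (h.hPp x hx), trp]
    congr 2
    field_simp
    ring
  have hcont : ContinuousOn (fun x => trp (P x) (1 + 1 / α)) (Icc (-L) L) := by
    have := continuousOn_mpow h.hPc (fun x hx => (h.hPp x hx).1) (q := 1 + 1 / α) (by positivity)
    exact Chan.continuous_rtr.comp_continuousOn this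
  have hInt : IntervalIntegrable (fun x => R332.rtr (cfc (fun t : ℝ => t ^ (1 + α))
      (cj U (mpow (P x) (1 / α))))) volume (-L) L := by
    apply ContinuousOn.intervalIntegrable
    rw [uIcc_of_le (by linarith)]
    exact hcont.congr fun x hx => htr x hx
  have key := Chan.channel hp hα hα1 hk (scalUpper hα hα1) (scalEndp hα hα1) hInt (t0 := 1) (t1 := 1)
    (by norm_num) le_rfl
  have e2 : (∫ x in (-L)..L, R332.rtr (cfc (fun t : ℝ => t ^ (1 + α))
      (cj U (mpow (P x) (1 / α))))) = ∫ x in (-L)..L, trp (P x) (1 + 1 / α) := by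
    apply intervalIntegral.integral_congr
    intro x hx
    rw [uIcc_of_le (by linarith)] at hx
    exact htr x hx
  simp only [intervalIntegral.integral_same, intervalIntegral.integral_zero] at key
  have key' : (∑ i, k i ^ (1 + 2 * α)) * (∫ t in (-1 : ℝ)..1, (1 - t ^ 2) ^ α) ≤
      (1 / α) * ∫ x in (-L)..L, R332.rtr (cfc (fun t : ℝ => t ^ (1 + α))
      (cj U (mpow (P x) (1 / α)))) := by
    have k2 := key
    rw [mul_zero, add_zero] at k2
    exact k2
  rw [e2] at key'
  have e4 : (∑ i, k i ^ (1 + 2 * α)) = trp K (1 + 2 * α) :=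
    (trp_eq_sum_cj hK.isHermitian h1 h2 h3 _).symm
  rw [e4] at key'
  rw [betaC]
  linarith

/-- `GPath` from the assembly data. -/
lemma gpath_of_fullData {m : ℕ} {W : ℝ → Matrix (Fin m) (Fin m) ℂ} {ι : Type} [Fintype ι]
    [DecidableEq ι] {S : Red m W ι} {α : ℝ} {C K : Matrix ι ι ℂ} {F : ℝ → Matrix ι ι ℂ}
    (h : FullData S α C K F) : GPath α S.L K (S.P C) F where
  hL := S.L_pos
  hPc := (S.P_cont C).continuousOn
  hPp := fun x _ => S.P_pos C x
  herm := h.path.herm
  sub := h.sub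
  add := h.add
  deriv := h.path.deriv
  h0 := h.h0
  h1 := h.h1

/-- `hchan` of `final_of`. -/
theorem fullData_channel {m : ℕ} {W : ℝ → Matrix (Fin m) (Fin m) ℂ} {ι : Type} [Fintype ι]
    [DecidableEq ι] {S : Red m W ι} {α : ℝ} {C K : Matrix ι ι ℂ} {F : ℝ → Matrix ι ι ℂ}
    (h : FullData S α C K F) (hα : 0 < α) (hα1 : α < 1) :
    betaC α * trp K (1 + 2 * α) ≤ (1 / α) * ∫ x in (-S.L)..S.L, trp (S.P C x) (1 + 1 / α) :=
  gpath_channel (gpath_of_fullData h) hα hα1 h.hK

/-- channel inequality with coercive deficit for the assembly data -/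
theorem fullData_channel_defect {m : ℕ} {W : ℝ → Matrix (Fin m) (Fin m) ℂ} {ι : Type} [Fintype ι]
    [DecidableEq ι] {S : Red m W ι} {α κ ζ : ℝ} {C K : Matrix ι ι ℂ} {F : ℝ → Matrix ι ι ℂ}
    (h : FullData S α C K F) (hα : 0 < α) (hα1 : α < 1)
    (hκ : (κ • (1 : Matrix ι ι ℂ) - K).PosSemidef) (hζ : 0 ≤ ζ)
    (hPζ : ∀ x ∈ Icc (-S.L) S.L,
      (ζ • (1 : Matrix ι ι ℂ) - mpow (S.P C x) (1 / α)).PosSemidef) :
    betaC α * trp K (1 + 2 * α) +
      coefD α κ ζ * (∫ x in (-S.L)..S.L, defect K (F x) (mpow (S.P C x) (1 / α))) ≤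
      (1 / α) * ∫ x in (-S.L)..S.L, trp (S.P C x) (1 + 1 / α) :=
  gpath_channel_defect (gpath_of_fullData h) hα hα1 h.hK hκ hζ hPζ

end Crest.Agent.R332.CoerI
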