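import Crest.Agent.R332.FamStep

/-! # Row 332: the basic identity -/

set_option autoImplicit false
set_option linter.unusedSectionVars false

namespace Crest.Agent.R332

open Matrix Unitary MeasureTheory Set
open scoped ComplexOrder Topology ContDiff
open Crest.MathPhysics.LiebThirring

variable {m : ℕ} {W : ℝ → Matrix (Fin m) (Fin m) ℂ} {ι : Type} [Fintype ι] [DecidableEq ι]

lemma continuousOn_matmul {T : Type*} [TopologicalSpace T] {a b c : Type*} [Fintype b]
    {A : T → Matrix a b ℂ} {B : T → Matrix b c ℂ} {s : Set T} (hA : ContinuousOn A s)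
    (hB : ContinuousOn B s) : ContinuousOn (fun x => A x * B x) s := by
  have h : Continuous (fun p : Matrix a b ℂ × Matrix b c ℂ => p.1 * p.2) :=
    continuous_fst.matrix_mul continuous_snd
  exact h.comp_continuousOn (hA.prodMk hB)

namespace Red

variable (S : Red m W ι)

/-- derivative of `P = ΨᴴΨ` -/
noncomputable def DP (C : Matrix ι ι ℂ) (x : ℝ) : Matrix ι ι ℂ :=
  (S.DΨ C x)ᴴ * S.Ψ C x + (S.Ψ C x)ᴴ * S.DΨ C x

lemma P_hasDeriv (C : Matrix ι ι ℂ) (x : ℝ) (s : Set ℝ) (i j : ι) :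
    HasDerivWithinAt (fun y => S.P C y i j) (S.DP C x i j) s x :=
  hasDerivWithinAt_mul_entry
    (hasDerivWithinAt_conj_entry fun i j => (S.Ψ_hasDeriv C x i j).hasDerivWithinAt)
    (fun i j => (S.Ψ_hasDeriv C x i j).hasDerivWithinAt) i j

lemma DP_cont (C : Matrix ι ι ℂ) : Continuous (S.DP C) :=
  ((S.DΨ_cont C).matrix_conjTranspose.matrix_mul (S.Ψ_cont C)).add
    ((S.Ψ_cont C).matrix_conjTranspose.matrix_mul (S.DΨ_cont C))

/-- pointwise algebra for the kinetic defect -/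
lemma kd_eq (C : Matrix ι ι ℂ) (F : ℝ → Matrix ι ι ℂ) (x : ℝ) (hF : (F x).IsHermitian) :
    S.kd C F x = rtr ((S.DΨ C x)ᴴ * S.DΨ C x) - rtr (S.DP C x * F x) +
      rtr (S.P C x * (F x * F x)) := by
  set A := S.DΨ C x
  set B := S.Ψ C x
  set G := F x
  have hG : Gᴴ = G := hF.eq
  have e1 : (A - B * G)ᴴ * (A - B * G) = Aᴴ * A - Aᴴ * B * G - G * (Bᴴ * A) +
      G * (Bᴴ * B * G) := by
    rw [Matrix.conjTranspose_sub, Matrix.conjTranspose_mul, hG]
    simp only [Matrix.mul_sub, Matrix.sub_mul, Matrix.mul_assoc]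
    abel
  have e2 : S.DP C x * G = Aᴴ * B * G + Bᴴ * A * G := by
    rw [DP, Matrix.add_mul]
  show rtr ((A - B * G)ᴴ * (A - B * G)) = rtr (Aᴴ * A) - rtr (S.DP C x * G) +
      rtr (Bᴴ * B * (G * G))
  rw [e1, e2, rtr_add, rtr_sub, rtr_sub, rtr_add, rtr_mul_comm G, rtr_mul_comm G]
  simp only [Matrix.mul_assoc]
  ring

/-- The path hypotheses. -/
structure IsPath (α : ℝ) (C K : Matrix ι ι ℂ) (F : ℝ → Matrix ι ι ℂ) : Prop where
  herm : ∀ x ∈ Icc (-S.L) S.L, (F x).IsHermitian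
  deriv : ∀ x ∈ Icc (-S.L) S.L, ∀ i j, HasDerivWithinAt (fun y => F y i j)
    ((K * K - F x * F x - (1 + 1 / α) • mpow (S.P C x) (1 / α)) i j) (Icc (-S.L) S.L) x

variable {S}

lemma IsPath.continuousOn {α : ℝ} {C K : Matrix ι ι ℂ} {F : ℝ → Matrix ι ι ℂ}
    (h : S.IsPath α C K F) : ContinuousOn F (Icc (-S.L) S.L) := by
  refine continuousOn_pi.2 fun i => continuousOn_pi.2 fun j => ?_
  exact fun x hx => (h.deriv x hx i j).continuousWithinAt

variable (S)

theorem step_identity {α : ℝ} (hα : 0 < α) {C K : Matrix ι ι ℂ} (hC : C.IsHermitian)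
    {F : ℝ → Matrix ι ι ℂ} (hF : S.IsPath α C K F)
    (hWi : Integrable fun x => trp (W x) (1 + α)) :
    (α / (1 + α)) ^ α / (1 + α) * ∫ x, trp (W x) (1 + α) =
      (∫ x, S.yd α C x) + (∫ x in (-S.L)..S.L, S.kd C F x) + rtr (C * C * (S.E - K * K)) +
        (1 / α) * ∫ x in (-S.L)..S.L, trp (S.P C x) (1 + 1 / α) := by
  have hr : 0 < 1 + 1 / α := by positivity
  have hr0 : 0 ≤ 1 / α := by positivity
  have hL := S.L_pos
  have hLL : -S.L ≤ S.L := by linarith
  -- the boundary term vanishes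
  set D : ℝ → Matrix ι ι ℂ := fun x => K * K - F x * F x -
    (1 + 1 / α) • mpow (S.P C x) (1 / α) with hD
  have hFc := hF.continuousOn
  have hmc : Continuous fun x => mpow (S.P C x) (1 / α) :=
    continuous_mpow (S.P_cont C) (fun x => (S.P_pos C x).1) hr0
  have hmc2 : Continuous fun x => (1 + 1 / α) • mpow (S.P C x) (1 / α) := by
    exact hmc.const_smul (1 + 1 / α)
  have hDc : ContinuousOn D (Icc (-S.L) S.L) :=
    (continuousOn_const.sub (continuousOn_matmul hFc hFc)).sub hmc2.continuousOn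
  have hg : ∀ x ∈ Icc (-S.L) S.L, HasDerivWithinAt (fun y => rtr (S.P C y * F y))
      (rtr (S.DP C x * F x) + rtr (S.P C x * D x)) (Icc (-S.L) S.L) x := fun x hx =>
    hasDerivWithinAt_rtr_mul (fun i j => S.P_hasDeriv C x _ i j) (hF.deriv x hx)
  have hcg1 : ContinuousOn (fun x => rtr (S.DP C x * F x)) (Icc (-S.L) S.L) :=
    continuousOn_rtr (continuousOn_matmul (S.DP_cont C).continuousOn hFc)
  have hcg2 : ContinuousOn (fun x => rtr (S.P C x * D x)) (Icc (-S.L) S.L) :=
    continuousOn_rtr (continuousOn_matmul (S.P_cont C).continuousOn hDc)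
  have hI : ∀ g : ℝ → ℝ, ContinuousOn g (Icc (-S.L) S.L) →
      IntervalIntegrable g volume (-S.L) S.L := fun g hg => by
    apply ContinuousOn.intervalIntegrable
    rwa [uIcc_of_le hLL]
  have hzero : ∫ x in (-S.L)..S.L, (rtr (S.DP C x * F x) + rtr (S.P C x * D x)) = 0 := by
    rw [intervalIntegral.integral_eq_sub_of_hasDerivAt_of_le hLL
      (f := fun y => rtr (S.P C y * F y))
      (fun x hx => (hg x hx).continuousWithinAt)
      (fun x hx => (hg x (Ioo_subset_Icc_self hx)).hasDerivAt (Icc_mem_nhds hx.1 hx.2))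
      (hI _ (hcg1.add hcg2))]
    have h1 : S.P C S.L = 0 := S.P_supp C (by rw [abs_of_pos hL])
    have h2 : S.P C (-S.L) = 0 := S.P_supp C (by rw [abs_neg, abs_of_pos hL])
    simp only [h1, h2, Matrix.zero_mul, rtr_zero, sub_zero]
  -- pointwise identity on the interval
  have hpt : ∀ x ∈ Icc (-S.L) S.L, S.kd C F x = rtr ((S.DΨ C x)ᴴ * S.DΨ C x) -
      (rtr (S.DP C x * F x) + rtr (S.P C x * D x)) + rtr (S.P C x * (K * K)) -
      (1 + 1 / α) * trp (S.P C x) (1 + 1 / α) := by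
    intro x hx
    rw [S.kd_eq C F x (hF.herm x hx)]
    have h1 : S.P C x * D x = S.P C x * (K * K) - S.P C x * (F x * F x) -
        (1 + 1 / α) • mpow (S.P C x) (1 + 1 / α) := by
      rw [hD, mpow_add_one (S.P_pos C x) hr0]
      simp only [Matrix.mul_sub, Matrix.mul_smul]
    rw [h1, rtr_sub, rtr_sub, rtr_smul]
    simp only [trp]
    ring
  have hk : ∫ x in (-S.L)..S.L, S.kd C F x = (∫ x in (-S.L)..S.L, rtr ((S.DΨ C x)ᴴ * S.DΨ C x))
      + (∫ x in (-S.L)..S.L, rtr (S.P C x * (K * K))) -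
      (1 + 1 / α) * ∫ x in (-S.L)..S.L, trp (S.P C x) (1 + 1 / α) := by
    have hc1 : ContinuousOn (fun x => rtr ((S.DΨ C x)ᴴ * S.DΨ C x)) (Icc (-S.L) S.L) :=
      (continuous_rtr ((S.DΨ_cont C).matrix_conjTranspose.matrix_mul (S.DΨ_cont C))).continuousOn
    have hc2 : ContinuousOn (fun x => rtr (S.P C x * (K * K))) (Icc (-S.L) S.L) :=
      (continuous_rtr ((S.P_cont C).matrix_mul continuous_const)).continuousOn
    have hc3 : ContinuousOn (fun x => trp (S.P C x) (1 + 1 / α)) (Icc (-S.L) S.L) :=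
      (continuous_trp (S.P_cont C) (fun x => (S.P_pos C x).1) hr.le).continuousOn
    rw [intervalIntegral.integral_congr (g := fun x => rtr ((S.DΨ C x)ᴴ * S.DΨ C x) -
      (rtr (S.DP C x * F x) + rtr (S.P C x * D x)) + rtr (S.P C x * (K * K)) -
      (1 + 1 / α) * trp (S.P C x) (1 + 1 / α)) (by
        rw [uIcc_of_le hLL]; exact hpt)]
    have i12 : IntervalIntegrable (fun x => rtr (S.DP C x * F x) + rtr (S.P C x * D x))
        volume (-S.L) S.L := hI _ (hcg1.add hcg2)
    have i1 := hI _ hc1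
    have i2 := hI _ hc2
    have i3 : IntervalIntegrable (fun x => (1 + 1 / α) * trp (S.P C x) (1 + 1 / α))
        volume (-S.L) S.L := (hI _ hc3).const_mul _
    have i4 : IntervalIntegrable (fun x => rtr ((S.DΨ C x)ᴴ * S.DΨ C x) -
      (rtr (S.DP C x * F x) + rtr (S.P C x * D x))) volume (-S.L) S.L := i1.sub i12
    have i5 : IntervalIntegrable (fun x => rtr ((S.DΨ C x)ᴴ * S.DΨ C x) -
      (rtr (S.DP C x * F x) + rtr (S.P C x * D x)) + rtr (S.P C x * (K * K)))
      volume (-S.L) S.L := i4.add i2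
    rw [intervalIntegral.integral_sub i5 i3, intervalIntegral.integral_add i4 i2,
      intervalIntegral.integral_sub i1 i12, hzero, intervalIntegral.integral_const_mul]
    ring
  -- whole line integrals
  have hw1 : ∫ x in (-S.L)..S.L, rtr ((S.DΨ C x)ᴴ * S.DΨ C x) =
      ∫ x, rtr ((S.DΨ C x)ᴴ * S.DΨ C x) :=
    (integral_eq_interval hL fun x hx => by
      rw [S.DΨ_supp C hx, Matrix.mul_zero, rtr_zero]).symm
  have hw2 : ∫ x in (-S.L)..S.L, rtr (S.P C x * (K * K)) = rtr (C * C * (K * K)) := by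
    rw [← S.integral_P_mul hC]
    exact (integral_eq_interval hL fun x hx => by
      rw [S.P_supp C hx, Matrix.zero_mul, rtr_zero]).symm
  have hw3 : ∫ x in (-S.L)..S.L, trp (S.P C x) (1 + 1 / α) =
      ∫ x, trp (S.R C x) (1 + 1 / α) := by
    simp only [S.trp_R_eq C hr]
    exact (integral_eq_interval hL fun x hx => by
      rw [S.P_supp C hx, trp_supp hr]).symm
  have hkin := S.integral_kin hC
  rw [integral_sub (S.integrable_kin2 C) (S.integrable_kin hC)] at hkin
  have hyd : ∫ x, S.yd α C x = (α / (1 + α)) ^ α / (1 + α) * (∫ x, trp (W x) (1 + α)) -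
      (∫ x, rtr (W x * S.R C x)) + ∫ x, trp (S.R C x) (1 + 1 / α) := by
    simp only [yd]
    have i1 : Integrable (fun x => (α / (1 + α)) ^ α / (1 + α) * trp (W x) (1 + α)) :=
      hWi.const_mul _
    have i2 : Integrable (fun x => (α / (1 + α)) ^ α / (1 + α) * trp (W x) (1 + α) -
        rtr (W x * S.R C x)) := i1.sub (S.integrable_kin hC)
    rw [integral_add i2 (S.integrable_trp_R C hr), integral_sub i1 (S.integrable_kin hC),
      integral_const_mul]
  rw [Matrix.mul_sub, rtr_sub, hyd, hk, hw1, hw2, hw3]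
  linarith

end Red

end Crest.Agent.R332
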