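import Crest.Agent.R332.TrRect
import Crest.Prelude.Def_LiebThirring

/-! # Row 332: reduction of a trial family to a matrix path on the negative subspace -/

set_option autoImplicit false
set_option linter.unusedSectionVars false

namespace Crest.Agent.R332

open Matrix Unitary MeasureTheory
open scoped ComplexOrder Topology ContDiff
open Crest.MathPhysics.LiebThirring

lemma tracePow_eq {m : ℕ} (A : Matrix (Fin m) (Fin m) ℂ) (p : ℝ) : tracePow A p = trp A p := rfl

section Entry

variable {n : Type*} [Fintype n] [DecidableEq n]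

lemma trp_eq_sum {A : Matrix n n ℂ} (hA : A.IsHermitian) (q : ℝ) :
    trp A q = ∑ i, hA.eigenvalues i ^ q := rtr_cfc hA _

lemma trp_nonneg {A : Matrix n n ℂ} (hA : A.PosSemidef) (q : ℝ) : 0 ≤ trp A q := by
  rw [trp_eq_sum hA.1]
  exact Finset.sum_nonneg fun i _ => Real.rpow_nonneg (hA.eigenvalues_nonneg i) _

lemma rtr_eq_sum {A : Matrix n n ℂ} (hA : A.IsHermitian) : rtr A = ∑ i, hA.eigenvalues i := by
  conv_lhs => rw [← cfc_self hA]
  exact rtr_cfc hA _

/-- Entries of a positive semidefinite matrix are bounded by its trace. -/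
lemma norm_entry_le_rtr {A : Matrix n n ℂ} (hA : A.PosSemidef) (i j : n) :
    ‖A i j‖ ≤ rtr A := by
  set U : Matrix n n ℂ := (hA.1.eigenvectorUnitary : Matrix n n ℂ) with hU
  have h1 : A i j = ∑ k, U i k * ((hA.1.eigenvalues k : ℝ) : ℂ) * (starRingEnd ℂ) (U j k) := by
    conv_lhs => rw [eq_conj hA.1]
    rw [Matrix.mul_apply]
    refine Finset.sum_congr rfl fun k _ => ?_
    rw [Matrix.mul_diagonal, Matrix.conjTranspose_apply]
    rfl
  have hb : ∀ a b, ‖U a b‖ ≤ 1 := fun a b =>
    entry_norm_bound_of_unitary (hA.1.eigenvectorUnitary).2 a b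
  rw [h1, rtr_eq_sum hA.1]
  refine (norm_sum_le _ _).trans (Finset.sum_le_sum fun k _ => ?_)
  rw [norm_mul, norm_mul, Complex.norm_real, RCLike.norm_conj, Real.norm_of_nonneg
    (hA.eigenvalues_nonneg k)]
  have h0 := hA.eigenvalues_nonneg k
  calc ‖U i k‖ * hA.1.eigenvalues k * ‖U j k‖ ≤ 1 * hA.1.eigenvalues k * 1 := by
        gcongr
        · exact hb i k
        · exact hb j k
    _ = hA.1.eigenvalues k := by ring

lemma rtr_le_card_add_trp {A : Matrix n n ℂ} (hA : A.PosSemidef) {q : ℝ} (hq : 1 ≤ q) :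
    rtr A ≤ Fintype.card n + trp A q := by
  rw [rtr_eq_sum hA.1, trp_eq_sum hA.1]
  have : (Fintype.card n : ℝ) = ∑ _i : n, (1 : ℝ) := by simp
  rw [this, ← Finset.sum_add_distrib]
  refine Finset.sum_le_sum fun i _ => ?_
  have h0 := hA.eigenvalues_nonneg i
  rcases le_total (hA.1.eigenvalues i) 1 with h | h
  · have := Real.rpow_nonneg h0 q
    linarith
  · have h2 : hA.1.eigenvalues i ≤ hA.1.eigenvalues i ^ q := Real.self_le_rpow_of_one_le h hq
    linarith

end Entry

/-- Reduced data: `N` orthonormal compactly supported functions (columns of `Φ`) on which the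
quadratic form of `-d²/dx² - W` is the diagonal matrix `-e`. -/
structure Red (m : ℕ) (W : ℝ → Matrix (Fin m) (Fin m) ℂ) (ι : Type) [Fintype ι]
    [DecidableEq ι] where
  Φ : ℝ → Matrix (Fin m) ι ℂ
  DΦ : ℝ → Matrix (Fin m) ι ℂ
  e : ι → ℝ
  L : ℝ
  e_pos : ∀ i, 0 < e i
  L_pos : 0 < L
  hasDeriv : ∀ x a i, HasDerivAt (fun y => Φ y a i) (DΦ x a i) x
  cont : Continuous Φ
  contD : Continuous DΦ
  supp : ∀ x, L ≤ |x| → Φ x = 0
  suppD : ∀ x, L ≤ |x| → DΦ x = 0
  orth : ∀ i j, ∫ x, ((Φ x)ᴴ * Φ x) i j = (1 : Matrix ι ι ℂ) i j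
  integ : ∀ i j, Integrable fun x => ((Φ x)ᴴ * W x * Φ x) i j
  energy : ∀ i j, ∫ x, ((DΦ x)ᴴ * DΦ x - (Φ x)ᴴ * W x * Φ x) i j =
    -(diagonal (fun i => ((e i : ℝ) : ℂ)) : Matrix ι ι ℂ) i j

section TrialFam

variable {m n : ℕ} {W : ℝ → Matrix (Fin m) (Fin m) ℂ} {φ : Fin n → ℝ → Vec m}

/-- matrix of the family -/
def famMat (φ : Fin n → ℝ → Vec m) (x : ℝ) : Matrix (Fin m) (Fin n) ℂ :=
  Matrix.of fun a k => φ k x a

lemma inner_eq (φ : Fin n → ℝ → Vec m) (x : ℝ) (k l : Fin n) :
    inner ℂ (φ k x) (φ l x) = ((famMat φ x)ᴴ * famMat φ x) k l := by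
  rw [Matrix.mul_apply, PiLp.inner_apply]
  refine Finset.sum_congr rfl fun a _ => ?_
  rw [Matrix.conjTranspose_apply]
  simp [famMat, RCLike.inner_apply, mul_comm]

lemma inner_W_eq (W : ℝ → Matrix (Fin m) (Fin m) ℂ) (φ : Fin n → ℝ → Vec m) (x : ℝ)
    (k l : Fin n) :
    inner ℂ (φ k x) (Matrix.toEuclideanLin (W x) (φ l x)) =
      ((famMat φ x)ᴴ * W x * famMat φ x) k l := by
  rw [Matrix.mul_assoc, Matrix.mul_apply, PiLp.inner_apply]
  refine Finset.sum_congr rfl fun a _ => ?_
  rw [Matrix.conjTranspose_apply]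
  simp only [famMat, Matrix.of_apply, RCLike.inner_apply, Matrix.toLpLin_apply,
    Matrix.mulVec, dotProduct, Matrix.mul_apply]
  rw [mul_comm]
  rfl

lemma trial_cont (hφ : IsTrialFamily φ) : Continuous (famMat φ) := by
  refine continuous_matrix fun a k => ?_
  have h := (hφ.1 k).continuous
  exact (EuclideanSpace.proj a : Vec m →L[ℂ] ℂ).continuous.comp h

lemma trial_contD (hφ : IsTrialFamily φ) : Continuous (famMat (fun k => deriv (φ k))) := by
  refine continuous_matrix fun a k => ?_
  have h : Continuous (deriv (φ k)) := (hφ.1 k).continuous_deriv (by simp)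
  exact (EuclideanSpace.proj a : Vec m →L[ℂ] ℂ).continuous.comp h

lemma trial_hasDeriv (hφ : IsTrialFamily φ) (x : ℝ) (a : Fin m) (k : Fin n) :
    HasDerivAt (fun y => famMat φ y a k) (famMat (fun k => deriv (φ k)) x a k) x := by
  have h : HasDerivAt (φ k) (deriv (φ k) x) x :=
    ((hφ.1 k).differentiable (by simp)).differentiableAt.hasDerivAt
  have h2 := ((EuclideanSpace.proj a : Vec m →L[ℂ] ℂ).restrictScalars ℝ).hasFDerivAt.comp_hasDerivAt
    x h
  exact h2

lemma trial_supp (hφ : IsTrialFamily φ) : ∃ L : ℝ, 0 < L ∧ ∀ x, L ≤ |x| →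
    famMat φ x = 0 ∧ famMat (fun k => deriv (φ k)) x = 0 := by
  have h1 : ∀ k, ∃ L : ℝ, 0 < L ∧ ∀ x, L ≤ |x| → φ k x = 0 ∧ deriv (φ k) x = 0 := by
    intro k
    have hc := (hφ.2.1 k).isCompact
    obtain ⟨R, hR⟩ := hc.isBounded.subset_closedBall (0 : ℝ)
    refine ⟨|R| + 1, by positivity, fun x hx => ?_⟩
    have hx' : x ∉ tsupport (φ k) := by
      intro hmem
      have := hR hmem
      rw [Metric.mem_closedBall, dist_zero_right, Real.norm_eq_abs] at this
      have h2 := le_abs_self R
      linarith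
    refine ⟨image_eq_zero_of_notMem_tsupport hx', ?_⟩
    have : x ∉ tsupport (deriv (φ k)) := fun h => hx' (closure_minimal
      (support_deriv_subset (f := φ k)) (isClosed_tsupport _) h)
    exact image_eq_zero_of_notMem_tsupport this
  choose L hL h2 using h1
  refine ⟨∑ k, L k + 1, by
    have : 0 ≤ ∑ k, L k := Finset.sum_nonneg fun k _ => (hL k).le
    linarith, fun x hx => ?_⟩
  have h3 : ∀ k, L k ≤ |x| := fun k => by
    have : L k ≤ ∑ k, L k :=
      Finset.single_le_sum (f := L) (fun k _ => (hL k).le) (Finset.mem_univ k)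
    linarith
  constructor
  · ext a k
    simp [famMat, (h2 k x (h3 k)).1]
  · ext a k
    simp [famMat, (h2 k x (h3 k)).2]

/-- entrywise integral -/
noncomputable def mint {a b : Type*} (M : ℝ → Matrix a b ℂ) : Matrix a b ℂ :=
  Matrix.of fun i j => ∫ x, M x i j

lemma integrable_mul_mul {a b c d : Type*} [Fintype a] [Fintype b] [Fintype c] [Fintype d]
    (B : Matrix a b ℂ) (C : Matrix c d ℂ) {M : ℝ → Matrix b c ℂ}
    (hM : ∀ i j, Integrable fun x => M x i j) (i : a) (j : d) :
    Integrable fun x => (B * M x * C) i j := by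
  simp only [Matrix.mul_apply]
  refine integrable_finsetSum _ fun l _ => ?_
  refine Integrable.mul_const ?_ _
  exact integrable_finsetSum _ fun k _ => (hM k l).const_mul _

lemma integral_mul_mul {a b c d : Type*} [Fintype a] [Fintype b] [Fintype c] [Fintype d]
    (B : Matrix a b ℂ) (C : Matrix c d ℂ) {M : ℝ → Matrix b c ℂ}
    (hM : ∀ i j, Integrable fun x => M x i j) (i : a) (j : d) :
    ∫ x, (B * M x * C) i j = (B * mint M * C) i j := by
  simp only [Matrix.mul_apply, mint, Matrix.of_apply]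
  rw [integral_finsetSum]
  · refine Finset.sum_congr rfl fun l _ => ?_
    rw [integral_mul_const]
    congr 1
    rw [integral_finsetSum]
    · refine Finset.sum_congr rfl fun k _ => ?_
      rw [integral_const_mul]
    · exact fun k _ => (hM k l).const_mul _
  · intro l _
    refine Integrable.mul_const ?_ _
    exact integrable_finsetSum _ fun k _ => (hM k l).const_mul _

lemma integrable_W_mul {m : ℕ} {W : ℝ → Matrix (Fin m) (Fin m) ℂ} {p : ℝ} (hp : 1 ≤ p)
    (hW : ∀ i j, Measurable fun x => W x i j)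
    (hWp : ∀ x, (W x).PosSemidef) (hWi : Integrable fun x => tracePow (W x) p)
    {g : ℝ → ℂ} (hg : Continuous g) {L : ℝ} (hgL : ∀ x, L ≤ |x| → g x = 0) (a b : Fin m) :
    Integrable fun x => W x a b * g x := by
  obtain ⟨C, hC⟩ : ∃ C : ℝ, ∀ x, ‖g x‖ ≤ C := by
    have hcs : HasCompactSupport g := by
      refine HasCompactSupport.intro (isCompact_Icc (a := -L) (b := L)) fun x hx => hgL x ?_
      rw [Set.mem_Icc, not_and_or, not_le, not_le] at hx
      rcases hx with h | h
      · exact (by linarith [neg_le_abs x] : L ≤ |x|)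
      · exact h.le.trans (le_abs_self x)
    obtain ⟨C, hC⟩ := hcs.exists_bound_of_continuous hg
    exact ⟨C, hC⟩
  have hC0 : 0 ≤ C := (norm_nonneg _).trans (hC 0)
  have hbound : Integrable fun x => C * ((Set.Icc (-L) L).indicator (fun _ => (m : ℝ)) x +
      tracePow (W x) p) := by
    refine Integrable.const_mul ?_ _
    refine Integrable.add ?_ hWi
    refine (integrable_indicator_iff measurableSet_Icc).2 ?_
    exact integrableOn_const (by simp) (by simp)
  refine hbound.mono' ?_ ?_
  · exact ((hW a b).mul hg.measurable).aestronglyMeasurable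
  · refine Filter.Eventually.of_forall fun x => ?_
    by_cases hx : L ≤ |x|
    · rw [hgL x hx, mul_zero, norm_zero]
      refine mul_nonneg hC0 (add_nonneg (Set.indicator_nonneg (fun _ _ => by positivity) _) ?_)
      rw [tracePow_eq]
      exact trp_nonneg (hWp x) p
    · have hx' : x ∈ Set.Icc (-L) L := by
        rw [not_le, abs_lt] at hx
        exact ⟨hx.1.le, hx.2.le⟩
      rw [Set.indicator_of_mem hx', norm_mul, mul_comm]
      have h1 := norm_entry_le_rtr (hWp x) a b
      have h2 := rtr_le_card_add_trp (hWp x) hp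
      rw [Fintype.card_fin] at h2
      have h3 : ‖W x a b‖ ≤ m + tracePow (W x) p := h1.trans h2
      have h4 := hC x
      have h5 := norm_nonneg (W x a b)
      exact mul_le_mul h4 h3 h5 hC0

end TrialFam

end Crest.Agent.R332
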