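import Crest.Agent.R332.FamRed

/-! # Row 332: existence of reduced data -/

set_option autoImplicit false
set_option linter.unusedSectionVars false

namespace Crest.Agent.R332

open Matrix Unitary MeasureTheory
open scoped ComplexOrder Topology ContDiff
open Crest.MathPhysics.LiebThirring

variable {m n : ℕ} {W : ℝ → Matrix (Fin m) (Fin m) ℂ} {φ : Fin n → ℝ → Vec m}

lemma integrable_of_cont_supp {g : ℝ → ℂ} (hg : Continuous g) {L : ℝ}
    (hgL : ∀ x, L ≤ |x| → g x = 0) : Integrable g := by
  refine hg.integrable_of_hasCompactSupport ?_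
  refine HasCompactSupport.intro (isCompact_Icc (a := -L) (b := L)) fun x hx => hgL x ?_
  rw [Set.mem_Icc, not_and_or, not_le, not_le] at hx
  rcases hx with h | h
  · exact (by linarith [neg_le_abs x] : L ≤ |x|)
  · exact h.le.trans (le_abs_self x)

lemma integrable_conj_W {κ : Type*} [Fintype κ] {Φ : ℝ → Matrix (Fin m) κ ℂ}
    {p : ℝ} (hp : 1 ≤ p)
    (hW : ∀ i j, Measurable fun x => W x i j)
    (hWp : ∀ x, (W x).PosSemidef) (hWi : Integrable fun x => tracePow (W x) p)
    (hΦ : Continuous Φ) {L : ℝ} (hL : ∀ x, L ≤ |x| → Φ x = 0) (i j : κ) :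
    Integrable fun x => ((Φ x)ᴴ * W x * Φ x) i j := by
  simp only [Matrix.mul_apply, Matrix.conjTranspose_apply, Finset.sum_mul]
  refine integrable_finsetSum _ fun b _ => integrable_finsetSum _ fun a _ => ?_
  have h := integrable_W_mul hp hW hWp hWi (g := fun x => star (Φ x a i) * Φ x b j)
    (by
      have h1 : Continuous fun x => Φ x a i := hΦ.matrix_elem a i
      have h2 : Continuous fun x => Φ x b j := hΦ.matrix_elem b j
      fun_prop) (L := L) (fun x hx => by simp [hL x hx]) a b
  refine h.congr (Filter.Eventually.of_forall fun x => ?_)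
  show W x a b * (star (Φ x a i) * Φ x b j) = star (Φ x a i) * W x a b * Φ x b j
  ring

lemma integrable_conj_self {κ : Type*} [Fintype κ] {Φ : ℝ → Matrix (Fin m) κ ℂ}
    (hΦ : Continuous Φ) {L : ℝ} (hL : ∀ x, L ≤ |x| → Φ x = 0) (i j : κ) :
    Integrable fun x => ((Φ x)ᴴ * Φ x) i j := by
  refine integrable_of_cont_supp (L := L) ?_ ?_
  · exact (hΦ.matrix_conjTranspose.matrix_mul hΦ).matrix_elem i j
  · intro x hx
    simp [hL x hx]

/-- The integrand of the energy matrix. -/
lemma energyMatrix_eq (W : ℝ → Matrix (Fin m) (Fin m) ℂ) (φ : Fin n → ℝ → Vec m) :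
    energyMatrix W φ = mint (fun x => (famMat (fun k => deriv (φ k)) x)ᴴ *
      famMat (fun k => deriv (φ k)) x - (famMat φ x)ᴴ * W x * famMat φ x) := by
  ext k l
  simp only [energyMatrix, mint, Matrix.of_apply]
  refine integral_congr_ae (Filter.Eventually.of_forall fun x => ?_)
  have h1 := inner_W_eq W φ x k l
  have h2 := inner_eq (fun k => deriv (φ k)) x k l
  beta_reduce at h2 ⊢
  rw [h1, h2, Matrix.sub_apply]

lemma isHermitian_mint {κ : Type*} {M : ℝ → Matrix κ κ ℂ} (hM : ∀ x, (M x).IsHermitian) :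
    (mint M).IsHermitian := by
  ext i j
  rw [Matrix.conjTranspose_apply]
  simp only [mint, Matrix.of_apply]
  rw [RCLike.star_def, ← integral_conj]
  refine integral_congr_ae (Filter.Eventually.of_forall fun x => ?_)
  exact (hM x).apply i j

theorem exists_red {p : ℝ} (hp : 1 ≤ p)
    (hW : ∀ i j, Measurable fun x => W x i j)
    (hWp : ∀ x, (W x).PosSemidef) (hWi : Integrable fun x => tracePow (W x) p)
    (hφ : IsTrialFamily φ) {γ : ℝ} (hγ : 0 < γ) :
    ∃ (ι : Type) (_ : Fintype ι) (_ : DecidableEq ι) (S : Red m W ι),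
      ∑ i, S.e i ^ γ = negMoment (energyMatrix W φ) γ := by
  classical
  set Φ₀ := famMat φ with hΦ₀
  set D₀ := famMat (fun k => deriv (φ k)) with hD₀
  have hcΦ : Continuous Φ₀ := trial_cont hφ
  have hcD : Continuous D₀ := trial_contD hφ
  obtain ⟨L, hL, hsupp⟩ := trial_supp hφ
  set M₀ : ℝ → Matrix (Fin n) (Fin n) ℂ := fun x => (D₀ x)ᴴ * D₀ x - (Φ₀ x)ᴴ * W x * Φ₀ x
    with hM₀
  set A := energyMatrix W φ with hAdef
  have hAeq : A = mint M₀ := energyMatrix_eq W φ
  have hMh : ∀ x, (M₀ x).IsHermitian := fun x =>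
    (conj_posSemidef (D₀ x)).1.sub (Matrix.isHermitian_conjTranspose_mul_mul _ (hWp x).1)
  have hA : A.IsHermitian := by rw [hAeq]; exact isHermitian_mint hMh
  have hMint : ∀ i j, Integrable fun x => M₀ x i j := by
    intro i j
    simp only [hM₀, Matrix.sub_apply]
    exact (integrable_conj_self hcD (fun x hx => (hsupp x hx).2) i j).sub
      (integrable_conj_W hp hW hWp hWi hcΦ (fun x hx => (hsupp x hx).1) i j)
  have hPint : ∀ i j, Integrable fun x => ((Φ₀ x)ᴴ * Φ₀ x) i j := fun i j =>
    integrable_conj_self hcΦ (fun x hx => (hsupp x hx).1) i j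
  have hP1 : mint (fun x => (Φ₀ x)ᴴ * Φ₀ x) = 1 := by
    ext k l
    simp only [mint, Matrix.of_apply]
    have h := hφ.2.2 k l
    rw [Matrix.one_apply, ← h]
    refine integral_congr_ae (Filter.Eventually.of_forall fun x => ?_)
    exact (inner_eq φ x k l).symm
  let ι := {i : Fin n // hA.eigenvalues i < 0}
  set U : Matrix (Fin n) (Fin n) ℂ := (hA.eigenvectorUnitary : Matrix (Fin n) (Fin n) ℂ) with hU
  let V : Matrix (Fin n) ι ℂ := U.submatrix id Subtype.val
  have hU1 : Uᴴ * U = 1 := unitary_conj_mul hA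
  have hVV : Vᴴ * V = 1 := by
    ext i j
    have h := congrFun (congrFun hU1 i.1) j.1
    rw [Matrix.mul_apply] at h ⊢
    simp only [Matrix.conjTranspose_apply, V, Matrix.submatrix_apply, id] at h ⊢
    rw [h, Matrix.one_apply, Matrix.one_apply]
    by_cases hij : i = j
    · subst hij; simp
    · have hij' : i.1 ≠ j.1 := fun h => hij (Subtype.ext h)
      rw [if_neg hij, if_neg hij']
  have hVA : Vᴴ * A * V = diagonal (fun i : ι => ((hA.eigenvalues i.1 : ℝ) : ℂ)) := by
    have h1 : Uᴴ * A * U = diagonal (fun i => ((hA.eigenvalues i : ℝ) : ℂ)) := by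
      conv_lhs => rw [eq_conj hA]
      calc Uᴴ * (U * diagonal (fun i => ((hA.eigenvalues i : ℝ) : ℂ)) * Uᴴ) * U
          = (Uᴴ * U) * diagonal (fun i => ((hA.eigenvalues i : ℝ) : ℂ)) * (Uᴴ * U) := by
            simp only [Matrix.mul_assoc]
        _ = _ := by rw [hU1, Matrix.one_mul, Matrix.mul_one]
    ext i j
    have h := congrFun (congrFun h1 i.1) j.1
    have h2 : (Vᴴ * A * V) i j = (Uᴴ * A * U) i.1 j.1 := by
      simp only [Matrix.mul_apply, Matrix.conjTranspose_apply, V, Matrix.submatrix_apply, id]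
    rw [h2, h, Matrix.diagonal_apply, Matrix.diagonal_apply]
    by_cases hij : i = j
    · subst hij; simp
    · have hij' : i.1 ≠ j.1 := fun h => hij (Subtype.ext h)
      rw [if_neg hij, if_neg hij']
  have hderiv : ∀ x a (i : ι), HasDerivAt (fun y => (Φ₀ y * V) a i) ((D₀ x * V) a i) x := by
    intro x a i
    simp only [Matrix.mul_apply]
    have h1 : ∀ k ∈ Finset.univ, HasDerivAt (fun y => Φ₀ y a k * V k i) (D₀ x a k * V k i) x :=
      fun k _ => (trial_hasDeriv hφ x a k).mul_const _
    have h2 := HasDerivAt.sum h1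
    have h3 : (∑ k, fun y => Φ₀ y a k * V k i) = fun y => ∑ k, Φ₀ y a k * V k i := by
      funext y; simp
    rw [h3] at h2
    exact h2
  refine ⟨ι, inferInstance, inferInstance,
    { Φ := fun x => Φ₀ x * V
      DΦ := fun x => D₀ x * V
      e := fun i => -hA.eigenvalues i.1
      L := L
      e_pos := fun i => by have := i.2; linarith
      L_pos := hL
      hasDeriv := hderiv
      cont := hcΦ.matrix_mul continuous_const
      contD := hcD.matrix_mul continuous_const
      supp := fun x hx => by rw [show Φ₀ x = 0 from (hsupp x hx).1, Matrix.zero_mul]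
      suppD := fun x hx => by rw [show D₀ x = 0 from (hsupp x hx).2, Matrix.zero_mul]
      orth := ?_
      integ := ?_
      energy := ?_ }, ?_⟩
  · intro i j
    have h : ∀ x, (Φ₀ x * V)ᴴ * (Φ₀ x * V) = Vᴴ * ((Φ₀ x)ᴴ * Φ₀ x) * V := by
      intro x
      rw [Matrix.conjTranspose_mul]
      simp only [Matrix.mul_assoc]
    simp only [h]
    rw [integral_mul_mul Vᴴ V hPint i j, hP1, Matrix.mul_one, hVV]
  · intro i j
    have h : ∀ x, (Φ₀ x * V)ᴴ * W x * (Φ₀ x * V) = Vᴴ * ((Φ₀ x)ᴴ * W x * Φ₀ x) * V := by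
      intro x
      rw [Matrix.conjTranspose_mul]
      simp only [Matrix.mul_assoc]
    simp only [h]
    exact integrable_mul_mul Vᴴ V (fun i j =>
      integrable_conj_W hp hW hWp hWi hcΦ (fun x hx => (hsupp x hx).1) i j) i j
  · intro i j
    have h : ∀ x, (D₀ x * V)ᴴ * (D₀ x * V) - (Φ₀ x * V)ᴴ * W x * (Φ₀ x * V) =
        Vᴴ * M₀ x * V := by
      intro x
      rw [Matrix.conjTranspose_mul, Matrix.conjTranspose_mul, hM₀]
      simp only [Matrix.mul_sub, Matrix.sub_mul, Matrix.mul_assoc]
    simp only [h]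
    rw [integral_mul_mul Vᴴ V hMint i j, ← hAeq, hVA]
    rw [Matrix.diagonal_apply, Matrix.diagonal_apply]
    split_ifs with h
    · push_cast; ring
    · simp
  · show ∑ i : ι, (-hA.eigenvalues i.1) ^ γ = negMoment A γ
    have h1 : negMoment A γ = ∑ i, (max (-hA.eigenvalues i) 0) ^ γ := rtr_cfc hA _
    rw [h1]
    have h2 : ∑ i : ι, (-hA.eigenvalues i.1) ^ γ =
        ∑ i ∈ Finset.univ.filter (fun i => hA.eigenvalues i < 0), (-hA.eigenvalues i) ^ γ := by
      rw [← Finset.sum_subtype_eq_sum_filter]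
      simp only [Finset.subtype_univ]
      rfl
    rw [h2, Finset.sum_filter]
    refine Finset.sum_congr rfl fun i _ => ?_
    split_ifs with h
    · rw [max_eq_left (by linarith)]
    · rw [max_eq_right (by linarith), Real.zero_rpow hγ.ne']

end Crest.Agent.R332
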