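import Crest.Agent.R332.FamRed2

/-! # Row 332: the basic identity (step (1)) for reduced data and a Riccati path -/

set_option autoImplicit false
set_option linter.unusedSectionVars false

namespace Crest.Agent.R332

open Matrix Unitary MeasureTheory Set
open scoped ComplexOrder Topology ContDiff
open Crest.MathPhysics.LiebThirring

section matcalc

variable {a b : Type*} [Fintype a] [Fintype b] [DecidableEq a] [DecidableEq b]

lemma rtr_mul_eq (A : Matrix a b ℂ) (B : Matrix b a ℂ) :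
    rtr (A * B) = ∑ i, ∑ j, (A i j * B j i).re := by
  simp only [rtr, Matrix.trace, Matrix.diag_apply, Matrix.mul_apply, Complex.re_sum]

lemma hasDerivWithinAt_mul_entry {κ : Type*} {A : ℝ → Matrix κ a ℂ} {B : ℝ → Matrix a b ℂ}
    {A' : Matrix κ a ℂ} {B' : Matrix a b ℂ} {s : Set ℝ} {x : ℝ}
    (hA : ∀ i j, HasDerivWithinAt (fun y => A y i j) (A' i j) s x)
    (hB : ∀ i j, HasDerivWithinAt (fun y => B y i j) (B' i j) s x) (i : κ) (j : b) :
    HasDerivWithinAt (fun y => (A y * B y) i j) ((A' * B x + A x * B') i j) s x := by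
  simp only [Matrix.mul_apply, Matrix.add_apply, ← Finset.sum_add_distrib]
  have h := HasDerivWithinAt.sum (u := (Finset.univ : Finset a))
    (A := fun k y => A y i k * B y k j) (A' := fun k => A' i k * B x k j + A x i k * B' k j)
    (s := s) (x := x) (fun k _ => (hA i k).mul (hB k j))
  have e : (∑ k, fun y => A y i k * B y k j) = fun y => ∑ k, A y i k * B y k j := by
    funext y; simp
  rw [e] at h
  exact h

lemma hasDerivWithinAt_conj_entry {A : ℝ → Matrix a b ℂ} {A' : Matrix a b ℂ} {s : Set ℝ} {x : ℝ}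
    (hA : ∀ i j, HasDerivWithinAt (fun y => A y i j) (A' i j) s x) (i : b) (j : a) :
    HasDerivWithinAt (fun y => (A y)ᴴ i j) (A'ᴴ i j) s x := by
  simp only [Matrix.conjTranspose_apply]
  exact (hA j i).star

lemma hasDerivWithinAt_rtr {A : ℝ → Matrix a a ℂ} {A' : Matrix a a ℂ} {s : Set ℝ} {x : ℝ}
    (hA : ∀ i j, HasDerivWithinAt (fun y => A y i j) (A' i j) s x) :
    HasDerivWithinAt (fun y => rtr (A y)) (rtr A') s x := by
  have h := HasDerivWithinAt.sum (u := (Finset.univ : Finset a))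
    (A := fun k y => A y k k) (A' := fun k => A' k k)
    (s := s) (x := x) (fun k _ => hA k k)
  have h2 := Complex.reCLM.hasFDerivAt.comp_hasDerivWithinAt x h
  have e : (fun y => rtr (A y)) = Complex.reCLM ∘ (∑ k, fun y => A y k k) := by
    funext y; simp [rtr, Matrix.trace]
  have e2 : rtr A' = Complex.reCLM (∑ k, A' k k) := by
    simp [rtr, Matrix.trace]
  rw [e, e2]
  exact h2

lemma hasDerivWithinAt_rtr_mul {A : ℝ → Matrix a b ℂ} {B : ℝ → Matrix b a ℂ}
    {A' : Matrix a b ℂ} {B' : Matrix b a ℂ} {s : Set ℝ} {x : ℝ}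
    (hA : ∀ i j, HasDerivWithinAt (fun y => A y i j) (A' i j) s x)
    (hB : ∀ i j, HasDerivWithinAt (fun y => B y i j) (B' i j) s x) :
    HasDerivWithinAt (fun y => rtr (A y * B y)) (rtr (A' * B x) + rtr (A x * B')) s x := by
  have h := hasDerivWithinAt_rtr (A := fun y => A y * B y) (A' := A' * B x + A x * B')
    (hasDerivWithinAt_mul_entry hA hB)
  rwa [rtr_add] at h

end matcalc

variable {m : ℕ} {W : ℝ → Matrix (Fin m) (Fin m) ℂ} {ι : Type} [Fintype ι] [DecidableEq ι]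

namespace Red

variable (S : Red m W ι)

/-- the weight matrix `p(x) = Φᴴ Φ` -/
noncomputable def p (x : ℝ) : Matrix ι ι ℂ := (S.Φ x)ᴴ * S.Φ x

/-- `Ψ = Φ C` -/
noncomputable def Ψ (C : Matrix ι ι ℂ) (x : ℝ) : Matrix (Fin m) ι ℂ := S.Φ x * C

noncomputable def DΨ (C : Matrix ι ι ℂ) (x : ℝ) : Matrix (Fin m) ι ℂ := S.DΦ x * C

/-- `P = Ψᴴ Ψ` -/
noncomputable def P (C : Matrix ι ι ℂ) (x : ℝ) : Matrix ι ι ℂ := (S.Ψ C x)ᴴ * S.Ψ C x

/-- `R = Ψ Ψᴴ` -/
noncomputable def R (C : Matrix ι ι ℂ) (x : ℝ) : Matrix (Fin m) (Fin m) ℂ :=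
  S.Ψ C x * (S.Ψ C x)ᴴ

/-- `E = diag e` -/
noncomputable def E : Matrix ι ι ℂ := diagonal (fun i => ((S.e i : ℝ) : ℂ))

lemma p_cont : Continuous S.p := S.cont.matrix_conjTranspose.matrix_mul S.cont

lemma p_pos (x : ℝ) : (S.p x).PosSemidef := conj_posSemidef _

lemma Ψ_cont (C : Matrix ι ι ℂ) : Continuous (S.Ψ C) := S.cont.matrix_mul continuous_const

lemma DΨ_cont (C : Matrix ι ι ℂ) : Continuous (S.DΨ C) := S.contD.matrix_mul continuous_const

lemma P_cont (C : Matrix ι ι ℂ) : Continuous (S.P C) :=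
  (S.Ψ_cont C).matrix_conjTranspose.matrix_mul (S.Ψ_cont C)

lemma R_cont (C : Matrix ι ι ℂ) : Continuous (S.R C) :=
  (S.Ψ_cont C).matrix_mul (S.Ψ_cont C).matrix_conjTranspose

lemma P_pos (C : Matrix ι ι ℂ) (x : ℝ) : (S.P C x).PosSemidef := conj_posSemidef _

lemma R_pos (C : Matrix ι ι ℂ) (x : ℝ) : (S.R C x).PosSemidef := self_conj_posSemidef _

lemma P_eq {C : Matrix ι ι ℂ} (hC : C.IsHermitian) (x : ℝ) : S.P C x = C * S.p x * C := by
  rw [P, Ψ, Matrix.conjTranspose_mul, hC.eq, p]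
  simp only [Matrix.mul_assoc]

lemma Ψ_supp (C : Matrix ι ι ℂ) {x : ℝ} (hx : S.L ≤ |x|) : S.Ψ C x = 0 := by
  rw [Ψ, S.supp x hx, Matrix.zero_mul]

lemma DΨ_supp (C : Matrix ι ι ℂ) {x : ℝ} (hx : S.L ≤ |x|) : S.DΨ C x = 0 := by
  rw [DΨ, S.suppD x hx, Matrix.zero_mul]

lemma Ψ_hasDeriv (C : Matrix ι ι ℂ) (x : ℝ) (i : Fin m) (j : ι) :
    HasDerivAt (fun y => S.Ψ C y i j) (S.DΨ C x i j) x := by
  have h := hasDerivWithinAt_mul_entry (A := S.Φ) (A' := S.DΦ x) (B := fun _ => C) (B' := 0)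
    (s := univ) (x := x) (fun i j => (S.hasDeriv x i j).hasDerivWithinAt)
    (fun i j => hasDerivWithinAt_const _ _ _) i j
  rw [Matrix.mul_zero, add_zero, hasDerivWithinAt_univ] at h
  exact h

/-- The Young defect density. -/
noncomputable def yd (α : ℝ) (C : Matrix ι ι ℂ) (x : ℝ) : ℝ :=
  (α / (1 + α)) ^ α / (1 + α) * trp (W x) (1 + α) - rtr (W x * S.R C x) +
    trp (S.R C x) (1 + 1 / α)

/-- The kinetic defect density `|Ψ' - Ψ F|²`. -/
noncomputable def kd (C : Matrix ι ι ℂ) (F : ℝ → Matrix ι ι ℂ) (x : ℝ) : ℝ :=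
  rtr ((S.DΨ C x - S.Ψ C x * F x)ᴴ * (S.DΨ C x - S.Ψ C x * F x))

lemma rtr_conj_self_nonneg {a b : Type*} [Fintype a] [Fintype b] [DecidableEq a] [DecidableEq b]
    (X : Matrix a b ℂ) : 0 ≤ rtr (Xᴴ * X) := by
  rw [rtr_eq_sum (conj_posSemidef X).1]
  exact Finset.sum_nonneg fun i _ => (conj_posSemidef X).eigenvalues_nonneg i

lemma kd_nonneg (C : Matrix ι ι ℂ) (F : ℝ → Matrix ι ι ℂ) (x : ℝ) : 0 ≤ S.kd C F x :=
  rtr_conj_self_nonneg _

lemma yd_nonneg {α : ℝ} (hα : 0 < α) (hWp : ∀ x, (W x).PosSemidef) (C : Matrix ι ι ℂ) (x : ℝ) :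
    0 ≤ S.yd α C x := matrix_young hα (hWp x) (S.R_pos C x)

end Red

section ints

variable {a : Type*} [Fintype a] [DecidableEq a]

lemma integrable_rtr {M : ℝ → Matrix a a ℂ} (hM : ∀ i j, Integrable fun x => M x i j) :
    Integrable fun x => rtr (M x) := by
  simp only [rtr, Matrix.trace, Matrix.diag_apply, Complex.re_sum]
  exact integrable_finsetSum _ fun i _ => (hM i i).re

lemma integral_rtr {M : ℝ → Matrix a a ℂ} (hM : ∀ i j, Integrable fun x => M x i j) :
    ∫ x, rtr (M x) = rtr (mint M) := by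
  simp only [rtr, Matrix.trace, Matrix.diag_apply, Complex.re_sum, mint, Matrix.of_apply]
  rw [integral_finsetSum]
  · refine Finset.sum_congr rfl fun i _ => ?_
    exact integral_re (hM i i)
  · exact fun i _ => (hM i i).re

lemma integrable_mul_right {b c : Type*} [Fintype b] (C : Matrix b c ℂ) {M : ℝ → Matrix a b ℂ}
    (hM : ∀ i j, Integrable fun x => M x i j) (i : a) (j : c) :
    Integrable fun x => (M x * C) i j := by
  simp only [Matrix.mul_apply]
  exact integrable_finsetSum _ fun l _ => (hM i l).mul_const _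

lemma mint_mul_right {b c : Type*} [Fintype b] (C : Matrix b c ℂ) {M : ℝ → Matrix a b ℂ}
    (hM : ∀ i j, Integrable fun x => M x i j) : mint (fun x => M x * C) = mint M * C := by
  ext i j
  simp only [Matrix.mul_apply, mint, Matrix.of_apply]
  rw [integral_finsetSum]
  · refine Finset.sum_congr rfl fun l _ => ?_
    rw [integral_mul_const]
  · exact fun l _ => (hM i l).mul_const _

end ints

namespace Red

variable (S : Red m W ι)

lemma p_integrable (i j : ι) : Integrable fun x => S.p x i j :=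
  integrable_conj_self S.cont S.supp i j

lemma mint_p : mint S.p = 1 := by
  ext i j
  exact S.orth i j

lemma integral_p_mul (B : Matrix ι ι ℂ) : ∫ x, rtr (S.p x * B) = rtr B := by
  rw [integral_rtr (M := fun x => S.p x * B) (integrable_mul_right B S.p_integrable),
    mint_mul_right B S.p_integrable, mint_p, Matrix.one_mul]

lemma integrable_p_mul (B : Matrix ι ι ℂ) : Integrable fun x => rtr (S.p x * B) :=
  integrable_rtr (integrable_mul_right B S.p_integrable)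

lemma q_integrable (i j : ι) :
    Integrable fun x => ((S.DΦ x)ᴴ * S.DΦ x - (S.Φ x)ᴴ * W x * S.Φ x) i j := by
  simp only [Matrix.sub_apply]
  exact (integrable_conj_self S.contD S.suppD i j).sub (S.integ i j)

lemma mint_q : mint (fun x => (S.DΦ x)ᴴ * S.DΦ x - (S.Φ x)ᴴ * W x * S.Φ x) = -S.E := by
  ext i j
  exact S.energy i j

lemma integral_q_mul (B : Matrix ι ι ℂ) :
    ∫ x, rtr (((S.DΦ x)ᴴ * S.DΦ x - (S.Φ x)ᴴ * W x * S.Φ x) * B) = -rtr (S.E * B) := by
  rw [integral_rtr (M := fun x => ((S.DΦ x)ᴴ * S.DΦ x - (S.Φ x)ᴴ * W x * S.Φ x) * B)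
    (integrable_mul_right B S.q_integrable), mint_mul_right B S.q_integrable, mint_q,
    Matrix.neg_mul, rtr_neg]

lemma integrable_q_mul (B : Matrix ι ι ℂ) :
    Integrable fun x => rtr (((S.DΦ x)ᴴ * S.DΦ x - (S.Φ x)ᴴ * W x * S.Φ x) * B) :=
  integrable_rtr (integrable_mul_right B S.q_integrable)

lemma rtr_P_mul {C : Matrix ι ι ℂ} (hC : C.IsHermitian) (B : Matrix ι ι ℂ) (x : ℝ) :
    rtr (S.P C x * B) = rtr (S.p x * (C * B * C)) := by
  rw [S.P_eq hC, rtr_mul_comm (S.p x)]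
  rw [show C * S.p x * C * B = C * (S.p x * (C * B)) by simp only [Matrix.mul_assoc],
    rtr_mul_comm C, show S.p x * (C * B) * C = S.p x * (C * B * C) by
      simp only [Matrix.mul_assoc], rtr_mul_comm]

lemma integral_P_mul {C : Matrix ι ι ℂ} (hC : C.IsHermitian) (B : Matrix ι ι ℂ) :
    ∫ x, rtr (S.P C x * B) = rtr (C * C * B) := by
  simp only [S.rtr_P_mul hC]
  rw [integral_p_mul, rtr_mul_comm (C * B) C, ← Matrix.mul_assoc]

lemma integrable_P_mul {C : Matrix ι ι ℂ} (hC : C.IsHermitian) (B : Matrix ι ι ℂ) :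
    Integrable fun x => rtr (S.P C x * B) := by
  simp only [S.rtr_P_mul hC]
  exact S.integrable_p_mul _

/-- `∫ (|Ψ'|² - tr(W R)) = - tr(C² E)`. -/
lemma integral_kin {C : Matrix ι ι ℂ} (hC : C.IsHermitian) :
    ∫ x, (rtr ((S.DΨ C x)ᴴ * S.DΨ C x) - rtr (W x * S.R C x)) = -rtr (C * C * S.E) := by
  have h : ∀ x, rtr ((S.DΨ C x)ᴴ * S.DΨ C x) - rtr (W x * S.R C x) =
      rtr (((S.DΦ x)ᴴ * S.DΦ x - (S.Φ x)ᴴ * W x * S.Φ x) * (C * C)) := by
    intro x
    have h1 : rtr (W x * S.R C x) = rtr ((S.Φ x)ᴴ * W x * S.Φ x * (C * C)) := by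
      rw [R, Ψ, Matrix.conjTranspose_mul, hC.eq]
      rw [show W x * (S.Φ x * C * (C * (S.Φ x)ᴴ)) = (W x * S.Φ x * (C * C)) * (S.Φ x)ᴴ by
        simp only [Matrix.mul_assoc], rtr_mul_comm]
      simp only [Matrix.mul_assoc]
    have h2 : rtr ((S.DΨ C x)ᴴ * S.DΨ C x) = rtr ((S.DΦ x)ᴴ * S.DΦ x * (C * C)) := by
      rw [DΨ, Matrix.conjTranspose_mul, hC.eq]
      rw [show C * (S.DΦ x)ᴴ * (S.DΦ x * C) = C * ((S.DΦ x)ᴴ * S.DΦ x * C) by
        simp only [Matrix.mul_assoc], rtr_mul_comm]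
      simp only [Matrix.mul_assoc]
    rw [h1, h2, Matrix.sub_mul, rtr_sub]
  simp only [h]
  rw [integral_q_mul, rtr_mul_comm]

lemma integrable_kin {C : Matrix ι ι ℂ} (hC : C.IsHermitian) :
    Integrable fun x => rtr (W x * S.R C x) := by
  have h1 : ∀ x, rtr (W x * S.R C x) = rtr ((S.Φ x)ᴴ * W x * S.Φ x * (C * C)) := by
    intro x
    rw [R, Ψ, Matrix.conjTranspose_mul, hC.eq]
    rw [show W x * (S.Φ x * C * (C * (S.Φ x)ᴴ)) = (W x * S.Φ x * (C * C)) * (S.Φ x)ᴴ by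
      simp only [Matrix.mul_assoc], rtr_mul_comm]
    simp only [Matrix.mul_assoc]
  simp only [h1]
  exact integrable_rtr (integrable_mul_right _ S.integ)

lemma integrable_real_of_cont_supp {g : ℝ → ℝ} (hg : Continuous g) {L : ℝ}
    (hgL : ∀ x, L ≤ |x| → g x = 0) : Integrable g := by
  refine hg.integrable_of_hasCompactSupport ?_
  refine HasCompactSupport.intro (isCompact_Icc (a := -L) (b := L)) fun x hx => hgL x ?_
  rw [Set.mem_Icc, not_and_or, not_le, not_le] at hx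
  rcases hx with h | h
  · exact (by linarith [neg_le_abs x] : L ≤ |x|)
  · exact h.le.trans (le_abs_self x)

lemma integral_eq_interval {g : ℝ → ℝ} {L : ℝ} (hL : 0 < L)
    (hgL : ∀ x, L ≤ |x| → g x = 0) : ∫ x, g x = ∫ x in (-L)..L, g x := by
  rw [intervalIntegral.integral_of_le (by linarith)]
  refine (setIntegral_eq_integral_of_forall_compl_eq_zero fun x hx => hgL x ?_).symm
  rw [Set.mem_Ioc, not_and_or, not_lt, not_le] at hx
  rcases hx with h | h
  · exact (by linarith [neg_le_abs x] : L ≤ |x|)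
  · exact h.le.trans (le_abs_self x)

lemma trp_supp {a : Type*} [Fintype a] [DecidableEq a] {q : ℝ} (hq : 0 < q) :
    trp (0 : Matrix a a ℂ) q = 0 := by
  rw [trp, mpow, cfc_apply_zero, Real.zero_rpow hq.ne', map_zero, rtr_zero]

lemma R_supp (C : Matrix ι ι ℂ) {x : ℝ} (hx : S.L ≤ |x|) : S.R C x = 0 := by
  rw [R, S.Ψ_supp C hx, Matrix.zero_mul]

lemma P_supp (C : Matrix ι ι ℂ) {x : ℝ} (hx : S.L ≤ |x|) : S.P C x = 0 := by
  rw [P, S.Ψ_supp C hx, Matrix.mul_zero]

lemma integrable_kin2 (C : Matrix ι ι ℂ) :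
    Integrable fun x => rtr ((S.DΨ C x)ᴴ * S.DΨ C x) := by
  refine integrable_real_of_cont_supp (L := S.L) ?_ ?_
  · exact continuous_rtr ((S.DΨ_cont C).matrix_conjTranspose.matrix_mul (S.DΨ_cont C))
  · intro x hx
    rw [S.DΨ_supp C hx, Matrix.mul_zero, rtr_zero]

lemma integrable_trp_R (C : Matrix ι ι ℂ) {q : ℝ} (hq : 0 < q) :
    Integrable fun x => trp (S.R C x) q := by
  refine integrable_real_of_cont_supp (L := S.L) ?_ ?_
  · exact continuous_trp (S.R_cont C) (fun x => (S.R_pos C x).1) hq.le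
  · intro x hx
    rw [S.R_supp C hx, trp_supp hq]

lemma trp_R_eq (C : Matrix ι ι ℂ) {q : ℝ} (hq : 0 < q) (x : ℝ) :
    trp (S.R C x) q = trp (S.P C x) q := trp_rect (S.Ψ C x) hq

end Red

end Crest.Agent.R332
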