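import Mathlib

/-! # Row 332: trace toolbox for Hermitian matrices and the functional calculus

`rtr A = Re tr A`; spectral formulas for `cfc`, the Klein-type pair lemma, intertwining. -/

set_option autoImplicit false
set_option linter.unusedSectionVars false

namespace Crest.Agent.R332

open Matrix Unitary
open scoped ComplexOrder

variable {n : Type*} [Fintype n] [DecidableEq n]
variable {m : Type*} [Fintype m] [DecidableEq m]

/-- Real part of the trace. -/
noncomputable def rtr {ι : Type*} [Fintype ι] (A : Matrix ι ι ℂ) : ℝ := A.trace.re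

lemma rtr_add (A B : Matrix n n ℂ) : rtr (A + B) = rtr A + rtr B := by
  simp [rtr]

lemma rtr_sub (A B : Matrix n n ℂ) : rtr (A - B) = rtr A - rtr B := by
  simp [rtr]

lemma rtr_neg (A : Matrix n n ℂ) : rtr (-A) = -rtr A := by
  simp [rtr]

lemma rtr_zero : rtr (0 : Matrix n n ℂ) = 0 := by
  simp [rtr]

lemma rtr_one : rtr (1 : Matrix n n ℂ) = Fintype.card n := by
  simp [rtr]

lemma rtr_smul (c : ℝ) (A : Matrix n n ℂ) : rtr (c • A) = c * rtr A := by
  simp [rtr, Matrix.trace_smul]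

lemma rtr_mul_comm (A : Matrix n m ℂ) (B : Matrix m n ℂ) : rtr (A * B) = rtr (B * A) := by
  simp only [rtr]
  rw [Matrix.trace_mul_comm]

lemma rtr_conjTranspose (A : Matrix n n ℂ) : rtr (Aᴴ) = rtr A := by
  simp only [rtr, Matrix.trace_conjTranspose]
  simp

/-- Spectral formula: `A = U D Uᴴ`. -/
lemma cfc_eq_conj {A : Matrix n n ℂ} (hA : A.IsHermitian) (f : ℝ → ℝ) :
    cfc f A = (hA.eigenvectorUnitary : Matrix n n ℂ) *
      diagonal (fun i => ((f (hA.eigenvalues i) : ℝ) : ℂ)) *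
      (hA.eigenvectorUnitary : Matrix n n ℂ)ᴴ := by
  rw [hA.cfc_eq, Matrix.IsHermitian.cfc, conjStarAlgAut_apply]
  rfl

lemma eq_conj {A : Matrix n n ℂ} (hA : A.IsHermitian) :
    A = (hA.eigenvectorUnitary : Matrix n n ℂ) *
      diagonal (fun i => ((hA.eigenvalues i : ℝ) : ℂ)) *
      (hA.eigenvectorUnitary : Matrix n n ℂ)ᴴ := by
  have := hA.spectral_theorem
  rw [conjStarAlgAut_apply] at this
  exact this

lemma unitary_conj_mul {A : Matrix n n ℂ} (hA : A.IsHermitian) :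
    (hA.eigenvectorUnitary : Matrix n n ℂ)ᴴ * (hA.eigenvectorUnitary : Matrix n n ℂ) = 1 := by
  rw [← star_eq_conjTranspose]
  exact Unitary.coe_star_mul_self _

lemma unitary_mul_conj {A : Matrix n n ℂ} (hA : A.IsHermitian) :
    (hA.eigenvectorUnitary : Matrix n n ℂ) * (hA.eigenvectorUnitary : Matrix n n ℂ)ᴴ = 1 := by
  rw [← star_eq_conjTranspose]
  exact Unitary.coe_mul_star_self _

lemma rtr_cfc {A : Matrix n n ℂ} (hA : A.IsHermitian) (f : ℝ → ℝ) :
    rtr (cfc f A) = ∑ i, f (hA.eigenvalues i) := by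
  rw [cfc_eq_conj hA, rtr_mul_comm, ← Matrix.mul_assoc, unitary_conj_mul, Matrix.one_mul]
  simp [rtr, Matrix.trace]

/-- Transition weights between the eigenbases of two Hermitian matrices. -/
noncomputable def wt {A B : Matrix n n ℂ} (hA : A.IsHermitian) (hB : B.IsHermitian)
    (i j : n) : ℝ :=
  Complex.normSq (((hA.eigenvectorUnitary : Matrix n n ℂ)ᴴ *
    (hB.eigenvectorUnitary : Matrix n n ℂ)) i j)

lemma wt_nonneg {A B : Matrix n n ℂ} (hA : A.IsHermitian) (hB : B.IsHermitian) (i j : n) :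
    0 ≤ wt hA hB i j := Complex.normSq_nonneg _

/-- General pair formula for `tr (U D₁ Uᴴ V D₂ Vᴴ)`. -/
lemma trace_pair (U V : Matrix n n ℂ) (d e : n → ℝ) :
    rtr ((U * diagonal (fun i => ((d i : ℝ) : ℂ)) * Uᴴ) *
      (V * diagonal (fun i => ((e i : ℝ) : ℂ)) * Vᴴ)) =
    ∑ i, ∑ j, d i * e j * Complex.normSq ((Uᴴ * V) i j) := by
  have h1 : (U * diagonal (fun i => ((d i : ℝ) : ℂ)) * Uᴴ) *
      (V * diagonal (fun i => ((e i : ℝ) : ℂ)) * Vᴴ) =
      U * (diagonal (fun i => ((d i : ℝ) : ℂ)) * (Uᴴ * V) *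
        diagonal (fun i => ((e i : ℝ) : ℂ)) * Vᴴ) := by
    simp only [Matrix.mul_assoc]
  rw [h1, rtr_mul_comm]
  have h2 : diagonal (fun i => ((d i : ℝ) : ℂ)) * (Uᴴ * V) *
        diagonal (fun i => ((e i : ℝ) : ℂ)) * Vᴴ * U =
      (diagonal (fun i => ((d i : ℝ) : ℂ)) * (Uᴴ * V) *
        diagonal (fun i => ((e i : ℝ) : ℂ))) * (Uᴴ * V)ᴴ := by
    rw [Matrix.conjTranspose_mul, Matrix.conjTranspose_conjTranspose]
    simp only [Matrix.mul_assoc]
  rw [h2]
  simp only [rtr, Matrix.trace, Matrix.diag_apply, Complex.re_sum]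
  refine Finset.sum_congr rfl fun i _ => ?_
  rw [Matrix.mul_apply, Complex.re_sum]
  refine Finset.sum_congr rfl fun j _ => ?_
  rw [Matrix.mul_diagonal, Matrix.diagonal_mul, Matrix.conjTranspose_apply]
  have : (((d i : ℝ) : ℂ) * (Uᴴ * V) i j * ((e j : ℝ) : ℂ) * star ((Uᴴ * V) i j)) =
      ((d i * e j : ℝ) : ℂ) * ((Uᴴ * V) i j * (starRingEnd ℂ) ((Uᴴ * V) i j)) := by
    push_cast
    rw [starRingEnd_apply]
    ring
  rw [this, Complex.mul_conj, ← Complex.ofReal_mul, Complex.ofReal_re]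

lemma rtr_cfc_mul {A B : Matrix n n ℂ} (hA : A.IsHermitian) (hB : B.IsHermitian)
    (f g : ℝ → ℝ) :
    rtr (cfc f A * cfc g B) =
      ∑ i, ∑ j, f (hA.eigenvalues i) * g (hB.eigenvalues j) * wt hA hB i j := by
  rw [cfc_eq_conj hA, cfc_eq_conj hB, trace_pair]
  rfl

/-- **Klein-type lemma** (general finite sum form). -/
lemma klein {κ : Type*} (s : Finset κ) {A B : Matrix n n ℂ} (hA : A.IsHermitian)
    (hB : B.IsHermitian) (f g : κ → ℝ → ℝ)
    (h : ∀ i j, 0 ≤ ∑ k ∈ s, f k (hA.eigenvalues i) * g k (hB.eigenvalues j)) :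
    0 ≤ ∑ k ∈ s, rtr (cfc (f k) A * cfc (g k) B) := by
  simp only [rtr_cfc_mul hA hB]
  rw [Finset.sum_comm]
  refine Finset.sum_nonneg fun i _ => ?_
  rw [Finset.sum_comm]
  refine Finset.sum_nonneg fun j _ => ?_
  rw [← Finset.sum_mul]
  exact mul_nonneg (h i j) (wt_nonneg _ _ _ _)


/-- Real power of a Hermitian matrix through the real functional calculus. -/
noncomputable def mpow (A : Matrix n n ℂ) (q : ℝ) : Matrix n n ℂ := cfc (fun t : ℝ => t ^ q) A

/-- `Re tr A^q`. On `Fin m` this is `tracePow` by definition. -/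
noncomputable def trp (A : Matrix n n ℂ) (q : ℝ) : ℝ := rtr (mpow A q)

lemma mpow_isHermitian (A : Matrix n n ℂ) (q : ℝ) : (mpow A q).IsHermitian :=
  cfc_predicate (R := ℝ) (p := IsSelfAdjoint) (fun t : ℝ => t ^ q) A

lemma contOn_spec {A : Matrix n n ℂ} (f : ℝ → ℝ) : ContinuousOn f (spectrum ℝ A) := by
  by_cases hA : A.IsHermitian
  · exact (Matrix.finite_real_spectrum (A := A)).continuousOn f
  · exact (Matrix.finite_real_spectrum (A := A)).continuousOn f

lemma cfc_mul' {A : Matrix n n ℂ} (f g : ℝ → ℝ) :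
    cfc (fun t => f t * g t) A = cfc f A * cfc g A :=
  cfc_mul f g A (contOn_spec f) (contOn_spec g)

lemma cfc_congr_eig {A : Matrix n n ℂ} (hA : A.IsHermitian) {f g : ℝ → ℝ}
    (h : ∀ i, f (hA.eigenvalues i) = g (hA.eigenvalues i)) : cfc f A = cfc g A := by
  rw [cfc_eq_conj hA, cfc_eq_conj hA]
  simp only [h]

lemma cfc_posSemidef {A : Matrix n n ℂ} (hA : A.IsHermitian) {f : ℝ → ℝ}
    (h : ∀ i, 0 ≤ f (hA.eigenvalues i)) : (cfc f A).PosSemidef := by
  rw [cfc_eq_conj hA]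
  have h1 : (diagonal (fun i => ((f (hA.eigenvalues i) : ℝ) : ℂ))).PosSemidef := by
    apply Matrix.PosSemidef.diagonal
    intro i
    show (0 : ℂ) ≤ ((f (hA.eigenvalues i) : ℝ) : ℂ)
    exact_mod_cast h i
  exact h1.mul_mul_conjTranspose_same _

lemma cfc_posDef {A : Matrix n n ℂ} (hA : A.IsHermitian) {f : ℝ → ℝ}
    (h : ∀ i, 0 < f (hA.eigenvalues i)) : (cfc f A).PosDef := by
  rw [cfc_eq_conj hA]
  have h1 : (diagonal (fun i => ((f (hA.eigenvalues i) : ℝ) : ℂ))).PosDef := by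
    apply Matrix.PosDef.diagonal
    intro i
    exact_mod_cast h i
  have h2 := h1.mul_mul_conjTranspose_same (B := (hA.eigenvectorUnitary : Matrix n n ℂ)) ?_
  · exact h2
  · have : IsUnit (hA.eigenvectorUnitary : Matrix n n ℂ) :=
      ⟨⟨_, _, unitary_mul_conj hA, unitary_conj_mul hA⟩, rfl⟩
    exact Matrix.vecMul_injective_iff_isUnit.mpr this

lemma mpow_posSemidef {A : Matrix n n ℂ} (hA : A.PosSemidef) (q : ℝ) :
    (mpow A q).PosSemidef :=
  cfc_posSemidef hA.1 fun i => Real.rpow_nonneg (hA.eigenvalues_nonneg i) q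

lemma mpow_posDef {A : Matrix n n ℂ} (hA : A.PosDef) (q : ℝ) :
    (mpow A q).PosDef :=
  cfc_posDef hA.1 fun i => Real.rpow_pos_of_pos (hA.eigenvalues_pos i) q

end Crest.Agent.R332
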