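import Crest.Agent.R332.FullMain
import Crest.Agent.R332.TrBasic

/-! # Instances of `exists_full` for `Y = (1+r) (C_K p C_K)^r` (row 332) -/

set_option autoImplicit false

open scoped ComplexOrder Matrix
open scoped Matrix.Norms.Frobenius
open Matrix Set

namespace Crest.Agent.R332.Full

variable {ι : Type*} [Fintype ι] [DecidableEq ι]

lemma mpow_eq_cf (A : Matrix ι ι ℂ) (q : ℝ) : mpow A q = cf (fun t => t ^ q) A := rfl

/-- tangent line inequality for `t ↦ t^r`, `r ≥ 1`. -/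
lemma rpow_tangent {r : ℝ} (hr : 1 ≤ r) {a t : ℝ} (ha : 0 < a) (ht : 0 ≤ t) :
    r * a ^ (r - 1) * t - (r - 1) * a ^ r ≤ t ^ r := by
  have h1 : 1 + r * (t / a - 1) ≤ (1 + (t / a - 1)) ^ r :=
    one_add_mul_self_le_rpow_one_add (by
      have : 0 ≤ t / a := by positivity
      linarith) hr
  have h2 : (1 + (t / a - 1)) ^ r = t ^ r / a ^ r := by
    rw [show 1 + (t / a - 1) = t / a by ring, Real.div_rpow ht ha.le]
  rw [h2] at h1
  have h3 : 0 < a ^ r := Real.rpow_pos_of_pos ha r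
  have h4 : a ^ (r - 1) * a = a ^ r := by
    rw [← Real.rpow_add_one ha.ne']; ring_nf
  have h5 : (1 + r * (t / a - 1)) * a ^ r ≤ t ^ r := by
    rwa [le_div_iff₀ h3] at h1
  have h6 : (1 + r * (t / a - 1)) * a ^ r = r * a ^ (r - 1) * t - (r - 1) * a ^ r := by
    rw [← h4]; field_simp; ring
  linarith

/-- Lower bound for the mean of the quadratic form of a power. -/
lemma integral_qf_mpow_ge {r L : ℝ} (hr : 1 ≤ r) (hL : 0 < L) {X : ℝ → Matrix ι ι ℂ}
    (hX : ∀ x ∈ Icc (-L) L, (X x).PosSemidef) (hXc : ContinuousOn X (Icc (-L) L))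
    (hXr : ContinuousOn (fun x => mpow (X x) r) (Icc (-L) L)) {v : ι → ℂ}
    (hv : (star v ⬝ᵥ v).re = 1) {w : ℝ} (hw : 0 < w)
    (hwX : w ≤ ∫ x in (-L)..L, qf v (X x)) :
    2 * L * (w / (2 * L)) ^ r ≤ ∫ x in (-L)..L, qf v (mpow (X x) r) := by
  have hle : -L ≤ L := by linarith
  have hcq : Continuous (qf v) := (qf v).continuous_of_finiteDimensional
  set a : ℝ := w / (2 * L) with ha
  have ha0 : 0 < a := by positivity
  have h1 : ∫ x in (-L)..L, (r * a ^ (r - 1) * qf v (X x) - (r - 1) * a ^ r) ≤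
      ∫ x in (-L)..L, qf v (mpow (X x) r) := by
    refine intervalIntegral.integral_mono_on hle ?_ ?_ fun x hx => ?_
    · refine ContinuousOn.intervalIntegrable ?_
      rw [uIcc_of_le hle]
      exact (continuousOn_const.mul (hcq.comp_continuousOn hXc)).sub continuousOn_const
    · refine ContinuousOn.intervalIntegrable ?_
      rw [uIcc_of_le hle]
      exact hcq.comp_continuousOn hXr
    · have h4 : (cf (fun t => t ^ r - (r * a ^ (r - 1) * t - (r - 1) * a ^ r)) (X x)).PosSemidef := by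
        refine posSemidef_cf fun t ht => ?_
        have := rpow_tangent hr ha0 (nonneg_spectrum_of_posSemidef (hX x hx) t ht)
        linarith
      rw [← cf_sub, ← cf_sub, ← cf_smul, cf_const (hX x hx).1, cf_id (hX x hx).1] at h4
      have h5 := qf_nonneg v h4
      rw [map_sub, map_sub, map_smul, map_smul, smul_eq_mul, smul_eq_mul, qf_one, hv] at h5
      rw [mpow_eq_cf]
      linarith
  have h2 : ∫ x in (-L)..L, (r * a ^ (r - 1) * qf v (X x) - (r - 1) * a ^ r) =
      r * a ^ (r - 1) * (∫ x in (-L)..L, qf v (X x)) - 2 * L * ((r - 1) * a ^ r) := by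
    rw [intervalIntegral.integral_sub, intervalIntegral.integral_const,
      intervalIntegral.integral_const_mul]
    · rw [smul_eq_mul]; ring
    · refine ContinuousOn.intervalIntegrable ?_
      rw [uIcc_of_le hle]
      exact (continuousOn_const.mul (hcq.comp_continuousOn hXc))
    · exact intervalIntegrable_const
  have h3 : r * a ^ (r - 1) * w ≤ r * a ^ (r - 1) * (∫ x in (-L)..L, qf v (X x)) :=
    mul_le_mul_of_nonneg_left hwX (by positivity)
  have h4 : a ^ (r - 1) * a = a ^ r := by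
    rw [← Real.rpow_add_one ha0.ne']; ring_nf
  have h5 : w = a * (2 * L) := by rw [ha]; field_simp
  have h6 : r * a ^ (r - 1) * w = 2 * L * (r * a ^ r) := by
    rw [← h4]
    conv_lhs => rw [h5]
    ring
  linarith

/-- Lipschitz bound for powers `r ≥ 1` on bounded sets. -/
lemma abs_rpow_sub_le {r β : ℝ} (hr : 1 ≤ r) {x y : ℝ} (hx : x ∈ Icc 0 β) (hy : y ∈ Icc 0 β) :
    |x ^ r - y ^ r| ≤ r * β ^ (r - 1) * |x - y| := by
  have h := (convex_Icc (0:ℝ) β).norm_image_sub_le_of_norm_hasDerivWithin_le (𝕜 := ℝ)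
    (f := fun t : ℝ => t ^ r) (f' := fun t => r * t ^ (r - 1)) (C := r * β ^ (r - 1))
    (fun t _ => (Real.hasDerivAt_rpow_const (Or.inr hr)).hasDerivWithinAt)
    (fun t ht => by
      rw [Real.norm_eq_abs, abs_mul, abs_of_nonneg (by linarith : (0:ℝ) ≤ r),
        abs_of_nonneg (Real.rpow_nonneg ht.1 _)]
      exact mul_le_mul_of_nonneg_left (Real.rpow_le_rpow ht.1 ht.2 (by linarith)) (by linarith))
    hy hx
  simpa using h

/-- Lipschitz bound for powers `q ≤ 0` away from zero. -/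
lemma abs_rpow_sub_le_of_nonpos {q d : ℝ} (hq : q ≤ 0) (hd : 0 < d) {x y : ℝ} (hx : d ≤ x)
    (hy : d ≤ y) : |x ^ q - y ^ q| ≤ -q * d ^ (q - 1) * |x - y| := by
  have h := (convex_Ici d).norm_image_sub_le_of_norm_hasDerivWithin_le (𝕜 := ℝ)
    (f := fun t : ℝ => t ^ q) (f' := fun t => q * t ^ (q - 1)) (C := -q * d ^ (q - 1))
    (fun t ht => (Real.hasDerivAt_rpow_const (Or.inl (ne_of_gt
      (lt_of_lt_of_le hd ht)))).hasDerivWithinAt)
    (fun t ht => by
      have ht0 : 0 < t := lt_of_lt_of_le hd ht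
      rw [Real.norm_eq_abs, abs_mul, abs_of_nonpos hq, abs_of_nonneg (Real.rpow_nonneg ht0.le _)]
      exact mul_le_mul_of_nonneg_left
        (Real.rpow_le_rpow_of_nonpos hd ht (by linarith)) (by linarith))
    hy hx
  simpa using h

/-- Continuity of `X ↦ X^r` along continuous maps into bounded positive matrices. -/
lemma continuousOn_mpow_of_le {α : Type*} [TopologicalSpace α] {r β : ℝ} (hr : 1 ≤ r)
    {S : Set α} {X : α → Matrix ι ι ℂ} (hXc : ContinuousOn X S)
    (hX : ∀ a ∈ S, (X a).PosSemidef) (hXβ : ∀ a ∈ S, (β • (1 : Matrix ι ι ℂ) - X a).PosSemidef) :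
    ContinuousOn (fun a => mpow (X a) r) S := by
  have hsp : ∀ a ∈ S, ∀ t ∈ spectrum ℝ (X a), t ∈ Icc 0 β := fun a ha t ht =>
    ⟨nonneg_spectrum_of_posSemidef (hX a ha) t ht, spectrum_le_of_posSemidef (hXβ a ha) t ht⟩
  have hlip : ∀ a ∈ S, ∀ b ∈ S, ‖mpow (X a) r - mpow (X b) r‖ ≤
      |r * β ^ (r - 1)| * ‖X a - X b‖ := by
    intro a ha b hb
    have h := tp_cf_sub_cf_le (f := fun t => t ^ r) (c := |r * β ^ (r - 1)|) (hX a ha).1
      (hX b hb).1 (fun x hx y hy => (abs_rpow_sub_le hr (hsp a ha x hx) (hsp b hb y hy)).trans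
        (mul_le_mul_of_nonneg_right (le_abs_self _) (abs_nonneg _)))
    rw [← frob_sq ((isHermitian_cf _ _).sub (isHermitian_cf _ _)),
      ← frob_sq ((hX a ha).1.sub (hX b hb).1), ← mul_pow] at h
    exact (abs_le_of_sq_le_sq' h (by positivity)).2
  intro a ha
  have h1 : Filter.Tendsto (fun b => ‖mpow (X b) r - mpow (X a) r‖) (nhdsWithin a S) (nhds 0) := by
    have h2 : Filter.Tendsto (fun b => |r * β ^ (r - 1)| * ‖X b - X a‖) (nhdsWithin a S)
        (nhds (|r * β ^ (r - 1)| * 0)) := by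
      refine Filter.Tendsto.const_mul _ ?_
      have h3 : Filter.Tendsto X (nhdsWithin a S) (nhds (X a)) := hXc a ha
      exact tendsto_iff_norm_sub_tendsto_zero.mp h3
    rw [mul_zero] at h2
    refine squeeze_zero' (Filter.Eventually.of_forall fun _ => norm_nonneg _) ?_ h2
    filter_upwards [self_mem_nhdsWithin] with b hb
    exact hlip b hb a ha
  exact tendsto_iff_norm_sub_tendsto_zero.mpr h1

/-- Continuity of `K ↦ K^q`, `q ≤ 0`, on `{K ≥ d}`. -/
lemma continuousOn_mpow_of_nonpos {q d : ℝ} (hq : q ≤ 0) (hd : 0 < d) :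
    ContinuousOn (fun K : Matrix ι ι ℂ => mpow K q)
      {K | K.IsHermitian ∧ (K - d • (1 : Matrix ι ι ℂ)).PosSemidef} := by
  set S : Set (Matrix ι ι ℂ) := {K | K.IsHermitian ∧ (K - d • (1 : Matrix ι ι ℂ)).PosSemidef}
  have hlip : ∀ a ∈ S, ∀ b ∈ S, ‖mpow a q - mpow b q‖ ≤ (-q * d ^ (q - 1)) * ‖a - b‖ := by
    intro a ha b hb
    have hc : 0 ≤ -q * d ^ (q - 1) := by
      have := Real.rpow_nonneg hd.le (q - 1)
      nlinarith
    have h := tp_cf_sub_cf_le (f := fun t => t ^ q) (c := -q * d ^ (q - 1)) ha.1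
      hb.1 (fun x hx y hy => abs_rpow_sub_le_of_nonpos hq hd
        (le_spectrum_of_posSemidef ha.2 x hx) (le_spectrum_of_posSemidef hb.2 y hy))
    rw [← frob_sq ((isHermitian_cf _ _).sub (isHermitian_cf _ _)),
      ← frob_sq (ha.1.sub hb.1), ← mul_pow] at h
    exact (abs_le_of_sq_le_sq' h (by positivity)).2
  intro a ha
  have h1 : Filter.Tendsto (fun b : Matrix ι ι ℂ => ‖mpow b q - mpow a q‖) (nhdsWithin a S)
      (nhds 0) := by
    have h2 : Filter.Tendsto (fun b : Matrix ι ι ℂ => (-q * d ^ (q - 1)) * ‖b - a‖)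
        (nhdsWithin a S) (nhds ((-q * d ^ (q - 1)) * 0)) := by
      refine Filter.Tendsto.const_mul _ ?_
      have h3 : Filter.Tendsto (fun b : Matrix ι ι ℂ => b) (nhdsWithin a S) (nhds a) :=
        Filter.tendsto_id.mono_left nhdsWithin_le_nhds
      exact tendsto_iff_norm_sub_tendsto_zero.mp h3
    rw [mul_zero] at h2
    refine squeeze_zero' (Filter.Eventually.of_forall fun _ => norm_nonneg _) ?_ h2
    filter_upwards [self_mem_nhdsWithin] with b hb
    exact hlip b hb a ha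
  exact tendsto_iff_norm_sub_tendsto_zero.mpr h1

end Crest.Agent.R332.Full
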