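import Mathlib

/-! # Functional calculus wrapper `cf`, trace pairing `tp`, spectral double-sum formula (row 332)

No norm on matrices is used in this file. -/

set_option autoImplicit false

open scoped ComplexOrder Matrix
open Matrix

namespace Crest.Agent.R332.Full

variable {ι : Type*} [Fintype ι]

/-! ### trace pairing -/

/-- The real trace pairing. -/
noncomputable def tp (A B : Matrix ι ι ℂ) : ℝ := (A * B).trace.re

lemma tp_comm (A B : Matrix ι ι ℂ) : tp A B = tp B A := by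
  unfold tp; rw [Matrix.trace_mul_comm]

lemma tp_add_left (A B C : Matrix ι ι ℂ) : tp (A + B) C = tp A C + tp B C := by
  simp [tp, add_mul, Matrix.trace_add]

lemma tp_add_right (A B C : Matrix ι ι ℂ) : tp A (B + C) = tp A B + tp A C := by
  simp [tp, mul_add, Matrix.trace_add]

lemma tp_sub_left (A B C : Matrix ι ι ℂ) : tp (A - B) C = tp A C - tp B C := by
  simp [tp, sub_mul, Matrix.trace_sub]

lemma tp_sub_right (A B C : Matrix ι ι ℂ) : tp A (B - C) = tp A B - tp A C := by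
  simp [tp, mul_sub, Matrix.trace_sub]

lemma tp_neg_left (A B : Matrix ι ι ℂ) : tp (-A) B = - tp A B := by
  simp [tp, Matrix.trace_neg]

lemma tp_neg_right (A B : Matrix ι ι ℂ) : tp A (-B) = - tp A B := by
  simp [tp, Matrix.trace_neg]

lemma tp_smul_left (c : ℝ) (A B : Matrix ι ι ℂ) : tp (c • A) B = c * tp A B := by
  simp [tp, Matrix.trace_smul]

lemma tp_smul_right (c : ℝ) (A B : Matrix ι ι ℂ) : tp A (c • B) = c * tp A B := by
  simp [tp, Matrix.trace_smul]

@[simp] lemma tp_zero_right (A : Matrix ι ι ℂ) : tp A 0 = 0 := by simp [tp]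

@[simp] lemma tp_zero_left (A : Matrix ι ι ℂ) : tp 0 A = 0 := by simp [tp]

lemma tp_eq_sum (A B : Matrix ι ι ℂ) : tp A B = ∑ i, ∑ j, (A i j * B j i).re := by
  rw [tp, Matrix.trace, Complex.re_sum]
  refine Finset.sum_congr rfl fun i _ => ?_
  rw [Matrix.diag_apply, Matrix.mul_apply, Complex.re_sum]

lemma tp_self_eq {A : Matrix ι ι ℂ} (hA : A.IsHermitian) : tp A A = ∑ i, ∑ j, ‖A i j‖ ^ 2 := by
  rw [tp_eq_sum]
  refine Finset.sum_congr rfl fun i _ => Finset.sum_congr rfl fun j _ => ?_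
  have h := hA.apply j i
  rw [← h, RCLike.star_def, Complex.mul_conj, Complex.ofReal_re, Complex.normSq_eq_norm_sq]

open scoped MatrixOrder in
/-- Pairing of positive semidefinite matrices is nonnegative. -/
lemma tp_nonneg {A B : Matrix ι ι ℂ} (hA : A.PosSemidef) (hB : B.PosSemidef) : 0 ≤ tp A B := by
  classical
  obtain ⟨C, rfl⟩ : ∃ C : Matrix ι ι ℂ, A = star C * C :=
    CStarAlgebra.nonneg_iff_eq_star_mul_self.mp hA.nonneg
  have : (star C * C * B).trace = (C * B * Cᴴ).trace := by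
    rw [mul_assoc, Matrix.trace_mul_comm, star_eq_conjTranspose]
  rw [tp, this]
  have h := hB.mul_mul_conjTranspose_same C
  exact (RCLike.nonneg_iff.mp h.trace_nonneg).1

variable [DecidableEq ι]

/-! ### functional calculus wrapper -/

/-- All functions are continuous on the (finite) spectrum of a matrix. -/
theorem continuousOn_spectrum {A : Matrix ι ι ℂ} (f : ℝ → ℝ) :
    ContinuousOn f (spectrum ℝ A) :=
  (Matrix.finite_real_spectrum (A := A)).continuousOn f

/-- `cfc` for matrices (wrapper to avoid instance problems). -/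
noncomputable def cf (f : ℝ → ℝ) (A : Matrix ι ι ℂ) : Matrix ι ι ℂ := cfc f A

lemma cf_def (f : ℝ → ℝ) (A : Matrix ι ι ℂ) : cf f A = cfc f A := rfl

lemma isHermitian_cf (f : ℝ → ℝ) (A : Matrix ι ι ℂ) : (cf f A).IsHermitian :=
  cfc_predicate f A

lemma posSemidef_cf {f : ℝ → ℝ} {A : Matrix ι ι ℂ} (h : ∀ x ∈ spectrum ℝ A, 0 ≤ f x) :
    (cf f A).PosSemidef := by
  open scoped MatrixOrder in
  exact (cfc_nonneg h).posSemidef

lemma cf_mul (f g : ℝ → ℝ) (A : Matrix ι ι ℂ) : cf f A * cf g A = cf (fun x => f x * g x) A :=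
  (cfc_mul f g A (continuousOn_spectrum f) (continuousOn_spectrum g)).symm

lemma cf_add (f g : ℝ → ℝ) (A : Matrix ι ι ℂ) : cf f A + cf g A = cf (fun x => f x + g x) A :=
  (cfc_add A f g (continuousOn_spectrum f) (continuousOn_spectrum g)).symm

lemma cf_sub (f g : ℝ → ℝ) (A : Matrix ι ι ℂ) : cf f A - cf g A = cf (fun x => f x - g x) A :=
  (cfc_sub f g A (continuousOn_spectrum f) (continuousOn_spectrum g)).symm

lemma cf_smul (c : ℝ) (f : ℝ → ℝ) (A : Matrix ι ι ℂ) : c • cf f A = cf (fun x => c * f x) A :=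
  (cfc_smul c f A (continuousOn_spectrum f)).symm

lemma cf_comm (f g : ℝ → ℝ) (A : Matrix ι ι ℂ) : cf f A * cf g A = cf g A * cf f A := by
  rw [cf_mul, cf_mul]; congr 1; ext x; ring

lemma cf_id {A : Matrix ι ι ℂ} (hA : A.IsHermitian) : cf (fun x => x) A = A :=
  cfc_id' ℝ A hA

lemma cf_one {A : Matrix ι ι ℂ} (hA : A.IsHermitian) : cf (fun _ => (1 : ℝ)) A = 1 :=
  cfc_const_one ℝ A hA

lemma cf_const {A : Matrix ι ι ℂ} (hA : A.IsHermitian) (c : ℝ) :
    cf (fun _ => c) A = c • (1 : Matrix ι ι ℂ) := by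
  have := cf_smul c (fun _ => (1 : ℝ)) A
  rw [cf_one hA] at this
  rw [this]
  congr 1
  ext x
  ring

lemma cf_congr {f g : ℝ → ℝ} {A : Matrix ι ι ℂ} (h : ∀ x ∈ spectrum ℝ A, f x = g x) :
    cf f A = cf g A :=
  cfc_congr h

/-- Spectral formula for `tr (f(A) g(B))`. -/
theorem exists_trace_cfc_mul_cfc {A B : Matrix ι ι ℂ} (hA : A.IsHermitian) (hB : B.IsHermitian) :
    ∃ w : ι → ι → ℝ, (∀ i j, 0 ≤ w i j) ∧
      ∀ f g : ℝ → ℝ, ((cfc f A) * (cfc g B)).trace.re =
        ∑ i, ∑ j, w i j * (f (hA.eigenvalues i) * g (hB.eigenvalues j)) := by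
  set U : Matrix ι ι ℂ := (hA.eigenvectorUnitary : Matrix ι ι ℂ) with hU
  set V : Matrix ι ι ℂ := (hB.eigenvectorUnitary : Matrix ι ι ℂ) with hV
  set X : Matrix ι ι ℂ := star U * V with hX
  refine ⟨fun i j => Complex.normSq (X i j), fun i j => Complex.normSq_nonneg _, fun f g => ?_⟩
  rw [hA.cfc_eq f, hB.cfc_eq g]
  simp only [IsHermitian.cfc, Unitary.conjStarAlgAut_apply]
  have h1 : (U * diagonal (RCLike.ofReal ∘ f ∘ hA.eigenvalues) * star U *
      (V * diagonal (RCLike.ofReal ∘ g ∘ hB.eigenvalues) * star V)).trace =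
      (diagonal (RCLike.ofReal ∘ f ∘ hA.eigenvalues) * X *
        diagonal (RCLike.ofReal ∘ g ∘ hB.eigenvalues) * star X).trace := by
    rw [hX, star_mul, star_star]
    have := Matrix.trace_mul_comm U (diagonal (RCLike.ofReal ∘ f ∘ hA.eigenvalues) * star U *
      (V * diagonal (RCLike.ofReal ∘ g ∘ hB.eigenvalues) * star V))
    simp only [mul_assoc] at this ⊢
    rw [this]
  have h2 : ((hA.eigenvectorUnitary : Matrix ι ι ℂ) *
      diagonal (RCLike.ofReal ∘ f ∘ hA.eigenvalues) * (star hA.eigenvectorUnitary : Matrix ι ι ℂ) *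
      ((hB.eigenvectorUnitary : Matrix ι ι ℂ) * diagonal (RCLike.ofReal ∘ g ∘ hB.eigenvalues) *
        (star hB.eigenvectorUnitary : Matrix ι ι ℂ))).trace =
      (diagonal (RCLike.ofReal ∘ f ∘ hA.eigenvalues) * X *
        diagonal (RCLike.ofReal ∘ g ∘ hB.eigenvalues) * star X).trace := h1
  rw [h2]
  simp only [Matrix.trace, Matrix.diag, Matrix.mul_apply, Matrix.diagonal_apply, ite_mul, zero_mul,
    mul_ite, mul_zero, Finset.sum_ite_eq, Finset.sum_ite_eq', Finset.mem_univ, if_true,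
    Function.comp_apply, star_apply, RCLike.star_def]
  rw [Complex.re_sum]
  refine Finset.sum_congr rfl fun i _ => ?_
  rw [Complex.re_sum]
  refine Finset.sum_congr rfl fun j _ => ?_
  have : (RCLike.ofReal (f (hA.eigenvalues i)) : ℂ) * X i j * RCLike.ofReal (g (hB.eigenvalues j)) *
      (starRingEnd ℂ) (X i j) = ((f (hA.eigenvalues i) * g (hB.eigenvalues j) *
        Complex.normSq (X i j) : ℝ) : ℂ) := by
    rw [Complex.ofReal_mul, Complex.ofReal_mul, ← Complex.mul_conj]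
    simp only [Complex.coe_algebraMap]
    ring
  rw [this, Complex.ofReal_re]
  ring

theorem exists_tp_cf_cf {A B : Matrix ι ι ℂ} (hA : A.IsHermitian) (hB : B.IsHermitian) :
    ∃ w : ι → ι → ℝ, (∀ i j, 0 ≤ w i j) ∧
      ∀ f g : ℝ → ℝ, tp (cf f A) (cf g B) =
        ∑ i, ∑ j, w i j * (f (hA.eigenvalues i) * g (hB.eigenvalues j)) :=
  exists_trace_cfc_mul_cfc hA hB

/-- **Klein's lemma**: a pointwise inequality `0 ≤ ∑ₖ fₖ(x) gₖ(y)` on the spectra implies
`0 ≤ ∑ₖ tr (fₖ(A) gₖ(B))`. -/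
theorem klein_sum {A B : Matrix ι ι ℂ} (hA : A.IsHermitian) (hB : B.IsHermitian)
    {κ : Type*} (s : Finset κ) (f g : κ → ℝ → ℝ)
    (h : ∀ x ∈ spectrum ℝ A, ∀ y ∈ spectrum ℝ B, 0 ≤ ∑ k ∈ s, f k x * g k y) :
    0 ≤ ∑ k ∈ s, tp (cf (f k) A) (cf (g k) B) := by
  obtain ⟨w, hw, hfg⟩ := exists_tp_cf_cf hA hB
  have : ∑ k ∈ s, tp (cf (f k) A) (cf (g k) B) =
      ∑ i, ∑ j, w i j * ∑ k ∈ s, f k (hA.eigenvalues i) * g k (hB.eigenvalues j) := by
    simp_rw [hfg, Finset.mul_sum]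
    rw [Finset.sum_comm]
    refine Finset.sum_congr rfl fun i _ => ?_
    rw [Finset.sum_comm]
  rw [this]
  refine Finset.sum_nonneg fun i _ => Finset.sum_nonneg fun j _ => mul_nonneg (hw i j) ?_
  exact h _ (hA.eigenvalues_mem_spectrum_real i) _ (hB.eigenvalues_mem_spectrum_real j)

/-- Operator Lipschitz estimate for the Hilbert–Schmidt norm (squared form). -/
theorem tp_cf_sub_cf_le {f : ℝ → ℝ} {c : ℝ} {A B : Matrix ι ι ℂ} (hA : A.IsHermitian)
    (hB : B.IsHermitian)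
    (hf : ∀ x ∈ spectrum ℝ A, ∀ y ∈ spectrum ℝ B, |f x - f y| ≤ c * |x - y|) :
    tp (cf f A - cf f B) (cf f A - cf f B) ≤ c ^ 2 * tp (A - B) (A - B) := by
  obtain ⟨w, hw, h⟩ := exists_tp_cf_cf hA hB
  have key : ∀ f : ℝ → ℝ, tp (cf f A - cf f B) (cf f A - cf f B) =
      ∑ i, ∑ j, w i j * (f (hA.eigenvalues i) - f (hB.eigenvalues j)) ^ 2 := by
    intro f
    have e1 : tp (cf f A) (cf f A) =
        ∑ i, ∑ j, w i j * (f (hA.eigenvalues i) ^ 2 * 1) := by
      have := h (fun x => f x * f x) (fun _ => 1)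
      rw [← cf_mul, cf_one hB, tp, mul_one] at this
      rw [tp, this]
      simp only [pow_two]
    have e2 : tp (cf f B) (cf f B) =
        ∑ i, ∑ j, w i j * (1 * f (hB.eigenvalues j) ^ 2) := by
      have := h (fun _ => 1) (fun x => f x * f x)
      rw [← cf_mul, cf_one hA, tp, one_mul] at this
      rw [tp, this]
      simp only [pow_two]
    have e3 : tp (cf f A) (cf f B) =
        ∑ i, ∑ j, w i j * (f (hA.eigenvalues i) * f (hB.eigenvalues j)) := h f f
    rw [tp_sub_left, tp_sub_right, tp_sub_right, tp_comm (cf f B) (cf f A), e1, e2, e3,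
      ← Finset.sum_sub_distrib, ← Finset.sum_sub_distrib, ← Finset.sum_sub_distrib]
    refine Finset.sum_congr rfl fun i _ => ?_
    rw [← Finset.sum_sub_distrib, ← Finset.sum_sub_distrib, ← Finset.sum_sub_distrib]
    refine Finset.sum_congr rfl fun j _ => ?_
    ring
  have k1 := key f
  have k2 := key (fun x => x)
  rw [cf_id hA, cf_id hB] at k2
  rw [k1, k2, Finset.mul_sum]
  refine Finset.sum_le_sum fun i _ => ?_
  rw [Finset.mul_sum]
  refine Finset.sum_le_sum fun j _ => ?_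
  have h1 := hf (hA.eigenvalues i) (hA.eigenvalues_mem_spectrum_real i) (hB.eigenvalues j)
    (hB.eigenvalues_mem_spectrum_real j)
  have h2 : (f (hA.eigenvalues i) - f (hB.eigenvalues j)) ^ 2 ≤
      c ^ 2 * (hA.eigenvalues i - hB.eigenvalues j) ^ 2 := by
    rw [← sq_abs, ← sq_abs (hA.eigenvalues i - hB.eigenvalues j), ← mul_pow]
    exact pow_le_pow_left₀ (abs_nonneg _) h1 2
  nlinarith [hw i j]

end Crest.Agent.R332.Full
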