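import Crest.Agent.R332.FullSol

/-! # Existence of an `N`-full `K` with its Riccati path (row 332) -/

set_option autoImplicit false

open scoped ComplexOrder Matrix
open scoped Matrix.Norms.Frobenius
open Matrix Set

namespace Crest.Agent.R332.Full

variable {ι : Type*} [Fintype ι] [DecidableEq ι]

/-- the quadratic form as a linear map of the matrix -/
noncomputable def qf (v : ι → ℂ) : Matrix ι ι ℂ →ₗ[ℝ] ℝ where
  toFun A := (star v ⬝ᵥ (A *ᵥ v)).re
  map_add' A B := by rw [add_mulVec, dotProduct_add, Complex.add_re]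
  map_smul' c A := by
    rw [smul_mulVec, dotProduct_smul]
    simp

omit [DecidableEq ι] in
lemma qf_apply (v : ι → ℂ) (A : Matrix ι ι ℂ) : qf v A = (star v ⬝ᵥ (A *ᵥ v)).re := rfl

omit [DecidableEq ι] in
lemma qf_nonneg (v : ι → ℂ) {A : Matrix ι ι ℂ} (hA : A.PosSemidef) : 0 ≤ qf v A :=
  hA.re_dotProduct_nonneg v

lemma qf_one (v : ι → ℂ) : qf v 1 = (star v ⬝ᵥ v).re := by
  rw [qf_apply, one_mulVec]

omit [DecidableEq ι] in
lemma qf_mul_left {v : ι → ℂ} {K : Matrix ι ι ℂ} (hK : K.IsHermitian) {μ : ℝ}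
    (h : K *ᵥ v = (μ : ℂ) • v) (A : Matrix ι ι ℂ) : qf v (K * A) = μ * qf v A := by
  have h1 : star v ᵥ* K = (μ : ℂ) • star v := by
    have := congrArg star h
    rw [star_mulVec, hK.eq] at this
    rw [this]
    ext i
    simp
  rw [qf_apply, qf_apply, ← mulVec_mulVec, dotProduct_mulVec, h1, smul_dotProduct]
  simp

omit [DecidableEq ι] in
lemma qf_mul_right {v : ι → ℂ} {K : Matrix ι ι ℂ} {μ : ℝ}
    (h : K *ᵥ v = (μ : ℂ) • v) (A : Matrix ι ι ℂ) : qf v (A * K) = μ * qf v A := by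
  rw [qf_apply, qf_apply, ← mulVec_mulVec, h, mulVec_smul, dotProduct_smul]
  simp

lemma qf_vf {v : ι → ℂ} {K : Matrix ι ι ℂ} (hK : K.IsHermitian) {μ : ℝ}
    (h : K *ᵥ v = (μ : ℂ) • v) (B : ℝ) (Y e : Matrix ι ι ℂ) :
    qf v (vf B K Y e) = 2 * μ * qf v (cc B e) - qf v (gg B e) - qf v Y := by
  unfold vf
  rw [map_sub, map_sub, map_add, qf_mul_left hK h, qf_mul_right h]
  ring

namespace IsSol

variable {B L : ℝ} {K : Matrix ι ι ℂ} {Y : ℝ → Matrix ι ι ℂ} {e : ℝ → Matrix ι ι ℂ}

lemma continuousOn_vf (h : IsSol B L K Y e) (hB : 0 ≤ B) (hYc : ContinuousOn Y (Icc (-L) L)) :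
    ContinuousOn (fun x => vf B K (Y x) (e x)) (Icc (-L) L) := by
  have hc : Continuous (cc B : Matrix ι ι ℂ → Matrix ι ι ℂ) := by
    refine (LipschitzWith.of_dist_le_mul (K := 1) fun x y => ?_).continuous
    rw [dist_eq_norm, dist_eq_norm, NNReal.coe_one, one_mul]
    exact norm_cc_sub_le B x y
  have hg : Continuous (gg B : Matrix ι ι ℂ → Matrix ι ι ℂ) := by
    refine (LipschitzWith.of_dist_le_mul (K := Real.toNNReal (3 * B)) fun x y => ?_).continuous
    rw [dist_eq_norm, dist_eq_norm, Real.coe_toNNReal _ (by positivity)]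
    exact norm_gg_sub_le hB x y
  have he := h.continuousOn
  have h1 : ContinuousOn (fun x => cc B (e x)) (Icc (-L) L) := hc.comp_continuousOn he
  have h2 : ContinuousOn (fun x => gg B (e x)) (Icc (-L) L) := hg.comp_continuousOn he
  unfold vf
  exact (((continuousOn_const.mul h1).add (h1.mul continuousOn_const)).sub h2).sub hYc

lemma integral_qf (h : IsSol B L K Y e) (hB : 0 ≤ B) (hL : 0 < L)
    (hYc : ContinuousOn Y (Icc (-L) L)) (v : ι → ℂ) :
    ∫ x in (-L)..L, qf v (vf B K (Y x) (e x)) = qf v (e L) - qf v (e (-L)) := by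
  have hcq : Continuous (qf v) := (qf v).continuous_of_finiteDimensional
  have hle : -L ≤ L := by linarith
  refine intervalIntegral.integral_eq_sub_of_hasDeriv_right_of_le hle
    (hcq.comp_continuousOn h.continuousOn) (fun x hx => ?_) ?_
  · have h1 := h.deriv_Ici (Ioo_subset_Ico_self hx)
    have h2 := (LinearMap.toContinuousLinearMap (qf v)).hasFDerivAt.comp_hasDerivWithinAt x h1
    exact h2.mono Ioi_subset_Ici_self
  · refine ContinuousOn.intervalIntegrable ?_
    rw [uIcc_of_le hle]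
    exact hcq.comp_continuousOn (h.continuousOn_vf hB hYc)

/-- the spectrum of the solution is bounded by `2R` -/
lemma spectrum_le (h : IsSol B L K Y e) (hL : 0 < L) (hK : K.IsHermitian) {R : ℝ}
    (hKR : (R • (1 : Matrix ι ι ℂ) - K).PosSemidef)
    (hY : ∀ x ∈ Icc (-L) L, (Y x).PosSemidef) :
    ∀ x ∈ Icc (-L) L, ∀ t ∈ spectrum ℝ (hp (e x)), t ≤ 2 * R := by
  intro x hx
  have hH := h.isHermitian hK (fun x hx => (hY x hx).1) x hx
  rw [hp_eq hH]
  refine spectrum_le_of_posSemidef ?_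
  have h1 := h.le_two_smul hL hK hY x hx
  have h2 : ((2 : ℝ) • (R • (1 : Matrix ι ι ℂ) - K)).PosSemidef := by
    rw [two_smul]
    exact hKR.add hKR
  have := h2.add h1
  convert this using 1
  rw [smul_sub, smul_smul]
  abel

theorem top (h : IsSol B L K Y e) (hL : 0 < L) (hK : K.IsHermitian) {R : ℝ} (hR : 0 ≤ R)
    (hRB : 2 * R ≤ B) (hKR : (R • (1 : Matrix ι ι ℂ) - K).PosSemidef)
    (hYc : ContinuousOn Y (Icc (-L) L))
    (hY : ∀ x ∈ Icc (-L) L, (Y x).PosSemidef) {v : ι → ℂ} (hv : K *ᵥ v = (R : ℂ) • v) :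
    2 * R * (star v ⬝ᵥ v).re - ∫ x in (-L)..L, qf v (Y x) ≤ qf v (e L) := by
  have hB : 0 ≤ B := by linarith
  have hle : -L ≤ L := by linarith
  have hcq : Continuous (qf v) := (qf v).continuous_of_finiteDimensional
  have h1 := h.integral_qf hB hL hYc v
  have h2 : qf v (e (-L)) = 2 * R * (star v ⬝ᵥ v).re := by
    rw [h.init, map_smul, smul_eq_mul]
    have := qf_mul_right hv (1 : Matrix ι ι ℂ)
    rw [one_mul, qf_one] at this
    rw [this]
    ring
  have h3 : ∫ x in (-L)..L, - qf v (Y x) ≤ ∫ x in (-L)..L, qf v (vf B K (Y x) (e x)) := by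
    refine intervalIntegral.integral_mono_on hle ?_ ?_ fun x hx => ?_
    · refine ContinuousOn.intervalIntegrable ?_
      rw [uIcc_of_le hle]
      exact (hcq.comp_continuousOn hYc).neg
    · refine ContinuousOn.intervalIntegrable ?_
      rw [uIcc_of_le hle]
      exact hcq.comp_continuousOn (h.continuousOn_vf hB hYc)
    · rw [qf_vf hK hv]
      have hs := h.spectrum_le hL hK hKR hY x hx
      have h4 : (cf (fun t => 2 * R * tent B t - gt B t) (hp (e x))).PosSemidef := by
        refine posSemidef_cf fun t ht => ?_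
        have := hs t ht
        unfold gt
        nlinarith [tent_nonneg B t]
      rw [← cf_sub, ← cf_smul] at h4
      have h5 := qf_nonneg v h4
      rw [map_sub, map_smul, smul_eq_mul] at h5
      unfold cc gg
      linarith
  rw [intervalIntegral.integral_neg, h1, h2] at h3
  linarith

theorem bot (h : IsSol B L K Y e) (hL : 0 < L) (hK : K.IsHermitian) {R d : ℝ} (hR : 0 ≤ R)
    (hRB : 2 * R ≤ B) (hKR : (R • (1 : Matrix ι ι ℂ) - K).PosSemidef)
    (hYc : ContinuousOn Y (Icc (-L) L))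
    (hY : ∀ x ∈ Icc (-L) L, (Y x).PosSemidef) {v : ι → ℂ} (hv : K *ᵥ v = (d : ℂ) • v) :
    qf v (e L) ≤ (2 * d + 2 * L * d ^ 2) * (star v ⬝ᵥ v).re - ∫ x in (-L)..L, qf v (Y x) := by
  have hB : 0 ≤ B := by linarith
  have hle : -L ≤ L := by linarith
  have hcq : Continuous (qf v) := (qf v).continuous_of_finiteDimensional
  have h1 := h.integral_qf hB hL hYc v
  have h2 : qf v (e (-L)) = 2 * d * (star v ⬝ᵥ v).re := by
    rw [h.init, map_smul, smul_eq_mul]
    have := qf_mul_right hv (1 : Matrix ι ι ℂ)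
    rw [one_mul, qf_one] at this
    rw [this]
    ring
  have h3 : ∫ x in (-L)..L, qf v (vf B K (Y x) (e x)) ≤
      ∫ x in (-L)..L, (d ^ 2 * (star v ⬝ᵥ v).re - qf v (Y x)) := by
    refine intervalIntegral.integral_mono_on hle ?_ ?_ fun x hx => ?_
    · refine ContinuousOn.intervalIntegrable ?_
      rw [uIcc_of_le hle]
      exact hcq.comp_continuousOn (h.continuousOn_vf hB hYc)
    · refine ContinuousOn.intervalIntegrable ?_
      rw [uIcc_of_le hle]
      exact continuousOn_const.sub (hcq.comp_continuousOn hYc)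
    · rw [qf_vf hK hv]
      have hs := h.spectrum_le hL hK hKR hY x hx
      have h4 : (cf (fun t => d ^ 2 - (2 * d * tent B t - gt B t)) (hp (e x))).PosSemidef := by
        refine posSemidef_cf fun t ht => ?_
        have := hs t ht
        unfold gt
        rcases le_total t 0 with h0 | h0
        · rw [tent_of_nonpos h0]
          nlinarith [sq_nonneg d]
        · rw [tent_of_mem h0 (by linarith)]
          nlinarith [sq_nonneg (t - d)]
      rw [← cf_sub, ← cf_sub, ← cf_smul, cf_const (isHermitian_hp _)] at h4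
      have h5 := qf_nonneg v h4
      rw [map_sub, map_sub, map_smul, map_smul, smul_eq_mul, smul_eq_mul, qf_one] at h5
      unfold cc gg
      linarith
  have h6 : ∫ x in (-L)..L, (d ^ 2 * (star v ⬝ᵥ v).re - qf v (Y x)) =
      2 * L * (d ^ 2 * (star v ⬝ᵥ v).re) - ∫ x in (-L)..L, qf v (Y x) := by
    rw [intervalIntegral.integral_sub, intervalIntegral.integral_const]
    · rw [smul_eq_mul]; ring
    · exact intervalIntegrable_const
    · refine ContinuousOn.intervalIntegrable ?_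
      rw [uIcc_of_le hle]
      exact hcq.comp_continuousOn hYc
  rw [h6, h1, h2] at h3
  linarith

end IsSol

/-- Continuous dependence of the solution on `K`. -/
theorem isSol_dist_le {B L : ℝ} (hB : 0 < B) (hL : 0 < L) {K K' : Matrix ι ι ℂ}
    {Y Y' : ℝ → Matrix ι ι ℂ} {e e' : ℝ → Matrix ι ι ℂ} (h : IsSol B L K Y e)
    (h' : IsSol B L K' Y' e') {η : ℝ} (hη : ∀ x ∈ Icc (-L) L, ‖Y' x - Y x‖ ≤ η) :
    ‖e' L - e L‖ ≤ gronwallBound (2 * ‖K' - K‖) (2 * ‖K‖ + 3 * B)
      (2 * ‖K' - K‖ * (B * Real.sqrt (Fintype.card ι)) + η) (2 * L) := by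
  have hle : -L ≤ L := by linarith
  have key := dist_le_of_approx_trajectories_ODE (E := Matrix ι ι ℂ)
    (v := fun t z => vf B K (Y t) z) (K := Real.toNNReal (2 * ‖K‖ + 3 * B))
    (f := e') (f' := fun t => vf B K' (Y' t) (e' t)) (g := e) (g' := fun t => vf B K (Y t) (e t))
    (a := -L) (b := L) (εf := 2 * ‖K' - K‖ * (B * Real.sqrt (Fintype.card ι)) + η) (εg := 0)
    (δ := 2 * ‖K' - K‖)
    (fun t => LipschitzWith.of_dist_le_mul fun x y => by
      rw [dist_eq_norm, dist_eq_norm, Real.coe_toNNReal _ (by positivity)]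
      exact norm_vf_sub_le hB.le K (Y t) x y)
    h'.continuousOn (fun t ht => h'.deriv_Ici ht)
    (fun t ht => by
      rw [dist_eq_norm]
      refine (norm_vf_sub_vf_le hB.le K' K (Y' t) (Y t) (e' t)).trans ?_
      have := hη t ⟨ht.1, ht.2.le⟩
      linarith)
    h.continuousOn (fun t ht => h.deriv_Ici ht)
    (fun t ht => by rw [dist_self])
    (by
      rw [dist_eq_norm, h.init, h'.init, ← smul_sub, norm_smul]
      simp)
    L ⟨hle, le_rfl⟩
  rw [dist_eq_norm, Real.coe_toNNReal _ (by positivity), add_zero] at key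
  have e1 : L - -L = 2 * L := by ring
  rwa [e1] at key

lemma mem_boxSet_iff {d R : ℝ} {K : Matrix ι ι ℂ} : K ∈ boxSet ι d R ↔
    K.IsHermitian ∧ (K - d • (1 : Matrix ι ι ℂ)).PosSemidef ∧
      (R • (1 : Matrix ι ι ℂ) - K).PosSemidef := by
  have h : ∀ c : ℝ, ((c : ℂ) • (1 : Matrix ι ι ℂ)) = c • (1 : Matrix ι ι ℂ) := by
    intro c; ext i j; simp
  unfold boxSet
  rw [Set.mem_ofPred_eq, h, h]

/-- **Existence of an `N`-full `K`** together with its Riccati path. -/
theorem exists_full (d R L : ℝ) (hd : 0 ≤ d) (hdR : d < R) (hL : 0 < L)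
    (Y : Matrix ι ι ℂ → ℝ → Matrix ι ι ℂ)
    (hYc : ContinuousOn (fun p : Matrix ι ι ℂ × ℝ => Y p.1 p.2) (boxSet ι d R ×ˢ Icc (-L) L))
    (hY : ∀ K ∈ boxSet ι d R, ∀ x ∈ Icc (-L) L, (Y K x).PosSemidef)
    (htop : ∀ K ∈ boxSet ι d R, ∀ v : ι → ℂ, (star v ⬝ᵥ v).re = 1 → K *ᵥ v = (R : ℂ) • v →
      ∫ x in (-L)..L, (star v ⬝ᵥ (Y K x *ᵥ v)).re < 2 * R)
    (hbot : ∀ K ∈ boxSet ι d R, ∀ v : ι → ℂ, (star v ⬝ᵥ v).re = 1 → K *ᵥ v = (d : ℂ) • v →
      2 * d + 2 * L * d ^ 2 ≤ ∫ x in (-L)..L, (star v ⬝ᵥ (Y K x *ᵥ v)).re) :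
    ∃ K ∈ boxSet ι d R, ∃ F : ℝ → Matrix ι ι ℂ, F (-L) = K ∧ F L = -K ∧
      (∀ x ∈ Icc (-L) L, HasDerivWithinAt F (K * K - F x * F x - Y K x) (Icc (-L) L) x) ∧
      ∀ x ∈ Icc (-L) L, (F x).IsHermitian ∧ (K - F x).PosSemidef ∧ (K + F x).PosSemidef := by
  classical
  have hle : -L ≤ L := by linarith
  have hR : 0 < R := by linarith
  set B : ℝ := 2 * R with hBdef
  have hB : 0 < B := by positivity
  set S := boxSet ι d R with hS
  have hYcK : ∀ K ∈ S, ContinuousOn (Y K) (Icc (-L) L) := by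
    intro K hK
    have : ContinuousOn (fun x : ℝ => ((K, x) : Matrix ι ι ℂ × ℝ)) (Icc (-L) L) :=
      (continuous_const.prodMk continuous_id).continuousOn
    exact hYc.comp this fun x hx => ⟨hK, hx⟩
  have hex : ∀ K : Matrix ι ι ℂ, ∃ e : ℝ → Matrix ι ι ℂ, K ∈ S → IsSol B L K (Y K) e := by
    intro K
    by_cases hK : K ∈ S
    · obtain ⟨e, he⟩ := exists_isSol hB.le hL K (Y K) (hYcK K hK)
      exact ⟨e, fun _ => he⟩
    · exact ⟨fun _ => 0, fun h => absurd h hK⟩
  choose sol hsol using hex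
  have hKh : ∀ K ∈ S, K.IsHermitian := fun K hK => (mem_boxSet_iff.mp hK).1
  have hKR : ∀ K ∈ S, (R • (1 : Matrix ι ι ℂ) - K).PosSemidef :=
    fun K hK => (mem_boxSet_iff.mp hK).2.2
  -- continuity of the end value
  have hcont : ContinuousOn (fun K => sol K L) S := by
    have hcpt : IsCompact (S ×ˢ Icc (-L) L) := (isCompact_boxSet d R).prod isCompact_Icc
    have huc := Metric.uniformContinuousOn_iff.mp (hcpt.uniformContinuousOn_of_continuous hYc)
    refine Metric.continuousOn_iff.mpr ?_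
    intro K hK ε hε
    set C : ℝ := 2 * ‖K‖ + 3 * B with hC
    have hC0 : 0 < C := by positivity
    set E : ℝ := Real.exp (C * (2 * L)) with hE
    have hE0 : 0 < E := Real.exp_pos _
    set b : ℝ := B * Real.sqrt (Fintype.card ι) with hb
    have hb0 : 0 ≤ b := by positivity
    set η : ℝ := ε * C / (4 * E) with hη
    have hη0 : 0 < η := by positivity
    obtain ⟨δ1, hδ1, huc1⟩ := huc η hη0
    set m : ℝ := 2 * E + 2 * b * E / C with hm
    have hm0 : 0 < m := by positivity
    refine ⟨min δ1 (ε / (4 * m)), lt_min hδ1 (by positivity), fun K' hK' hdist => ?_⟩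
    have hd1 : dist K' K < δ1 := lt_of_lt_of_le hdist (min_le_left _ _)
    have hd2 : dist K' K < ε / (4 * m) := lt_of_lt_of_le hdist (min_le_right _ _)
    have hYY : ∀ x ∈ Icc (-L) L, ‖Y K' x - Y K x‖ ≤ η := by
      intro x hx
      have := huc1 (K', x) ⟨hK', hx⟩ (K, x) ⟨hK, hx⟩ (by
        rw [Prod.dist_eq]
        simpa using hd1)
      rw [dist_eq_norm] at this
      exact this.le
    have key := isSol_dist_le hB hL (hsol K hK) (hsol K' hK') hYY
    rw [gronwallBound_of_K_ne_0 hC0.ne'] at key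
    rw [dist_eq_norm]
    rw [dist_eq_norm] at hd2
    set δ := ‖K' - K‖ with hδ
    have hδ0 : 0 ≤ δ := norm_nonneg _
    refine lt_of_le_of_lt key ?_
    have h1 : (2 * δ * b + η) / C * (E - 1) ≤ (2 * δ * b + η) / C * E :=
      mul_le_mul_of_nonneg_left (by linarith) (by positivity)
    have h2 : 2 * δ * E + (2 * δ * b + η) / C * E = δ * m + η * E / C := by
      rw [hm]; field_simp; ring
    have h3 : δ * m < ε / 4 := by
      have := mul_lt_mul_of_pos_right hd2 hm0
      have e : ε / (4 * m) * m = ε / 4 := by field_simp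
      linarith
    have h4 : η * E / C = ε / 4 := by
      rw [hη]; field_simp
    change 2 * δ * E + (2 * δ * b + η) / C * (E - 1) < ε
    linarith
  -- scaling
  have hscale : ∀ v : ι → ℂ, v ≠ 0 → ∃ (c : ℝ) (w : ι → ℂ), 0 < c ∧ v = (c : ℂ) • w ∧
      (star w ⬝ᵥ w).re = 1 := by
    intro v hv
    have hpos : 0 < (star v ⬝ᵥ v).re := by
      have := dotProduct_star_self_pos_iff.mpr hv
      exact (Complex.pos_iff.mp this).1
    set c := Real.sqrt (star v ⬝ᵥ v).re with hc
    have hc0 : 0 < c := Real.sqrt_pos.mpr hpos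
    refine ⟨c, ((c⁻¹ : ℝ) : ℂ) • v, hc0, ?_, ?_⟩
    · rw [smul_smul, ← Complex.ofReal_mul, mul_inv_cancel₀ hc0.ne']; simp
    · rw [star_smul, smul_dotProduct, dotProduct_smul, smul_smul]
      have e1 : (star ((c⁻¹ : ℝ) : ℂ) * ((c⁻¹ : ℝ) : ℂ)) = ((c⁻¹ * c⁻¹ : ℝ) : ℂ) := by
        simp
      rw [e1, smul_eq_mul, Complex.re_ofReal_mul]
      have e2 : c * c = (star v ⬝ᵥ v).re := Real.mul_self_sqrt hpos.le
      rw [← e2]
      field_simp
  have hqscale : ∀ (c : ℝ) (w : ι → ℂ) (A : Matrix ι ι ℂ),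
      (star ((c : ℂ) • w) ⬝ᵥ (A *ᵥ ((c : ℂ) • w))).re = c ^ 2 * qf w A := by
    intro c w A
    rw [star_smul, smul_dotProduct, mulVec_smul, dotProduct_smul, smul_smul]
    have e1 : (star (c : ℂ) * (c : ℂ)) = ((c ^ 2 : ℝ) : ℂ) := by
      simp [pow_two]
    rw [e1, smul_eq_mul, Complex.re_ofReal_mul, qf_apply]
  obtain ⟨K, hK, hT⟩ := exists_zero_of_boundary d R hdR (fun K => sol K L) hcont
    (fun K hK => (hsol K hK).isHermitian (hKh K hK) (fun x hx => (hY K hK x hx).1) L
      ⟨hle, le_rfl⟩)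
    (fun K hK v hv hKv => by
      obtain ⟨c, w, hc, hvw, hw⟩ := hscale v hv
      have hKw : K *ᵥ w = (R : ℂ) • w := by
        rw [hvw, mulVec_smul, smul_comm] at hKv
        exact smul_right_injective _ (by exact_mod_cast hc.ne' : (c : ℂ) ≠ 0) hKv
      rw [hvw, hqscale]
      have h1 := (hsol K hK).top hL (hKh K hK) hR.le le_rfl (hKR K hK) (hYcK K hK)
        (hY K hK) hKw
      have h2 := htop K hK w hw hKw
      rw [hw] at h1
      have h3 : 0 < qf w (sol K L) := by
        have : ∫ x in (-L)..L, qf w (Y K x) < 2 * R := h2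
        linarith
      positivity)
    (fun K hK v hv hKv => by
      obtain ⟨c, w, hc, hvw, hw⟩ := hscale v hv
      have hKw : K *ᵥ w = (d : ℂ) • w := by
        rw [hvw, mulVec_smul, smul_comm] at hKv
        exact smul_right_injective _ (by exact_mod_cast hc.ne' : (c : ℂ) ≠ 0) hKv
      rw [hvw, hqscale]
      have h1 := (hsol K hK).bot hL (hKh K hK) hR.le le_rfl (hKR K hK) (hYcK K hK)
        (hY K hK) hKw
      have h2 := hbot K hK w hw hKw
      rw [hw] at h1
      have h3 : qf w (sol K L) ≤ 0 := by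
        have : 2 * d + 2 * L * d ^ 2 ≤ ∫ x in (-L)..L, qf w (Y K x) := h2
        linarith
      nlinarith [sq_nonneg c])
  have hs := hsol K hK
  have hT' : sol K L = 0 := hT
  have hpos := hs.nonneg hL (hKh K hK) (hY K hK) hT'
  have hle2 := hs.le_two_smul hL (hKh K hK) (hY K hK)
  have hspec := hs.spectrum_le hL (hKh K hK) (hKR K hK) (hY K hK)
  refine ⟨K, hK, fun x => sol K x - K, ?_, ?_, fun x hx => ?_, fun x hx => ⟨?_, ?_, ?_⟩⟩
  · simp only [hs.init]
    rw [two_smul, add_sub_cancel_right]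
  · simp only [hT']
    rw [zero_sub]
  · have h1 := (hs.deriv x hx).sub_const K
    have hH : (sol K x).IsHermitian := (hpos x hx).1
    have hcc : cc B (sol K x) = sol K x := by
      unfold cc
      rw [hp_eq hH]
      conv_rhs => rw [← cf_id hH]
      refine cf_congr fun t ht => ?_
      refine tent_of_mem (nonneg_spectrum_of_posSemidef (hpos x hx) t ht) ?_
      have := hspec x hx t (by rwa [hp_eq hH])
      exact this
    have hgg : gg B (sol K x) = sol K x * sol K x := by
      rw [IsSol.gg_eq hH, hcc]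
    have e : vf B K (Y K x) (sol K x) =
        K * K - (sol K x - K) * (sol K x - K) - Y K x := by
      unfold vf
      rw [hcc, hgg]
      noncomm_ring
    rw [e] at h1
    exact h1
  · exact (hpos x hx).1.sub (hKh K hK)
  · have e : K - (sol K x - K) = (2 : ℝ) • K - sol K x := by rw [two_smul]; abel
    change (K - (sol K x - K)).PosSemidef
    rw [e]
    exact hle2 x hx
  · have e : K + (sol K x - K) = sol K x := by abel
    change (K + (sol K x - K)).PosSemidef
    rw [e]
    exact hpos x hx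

end Crest.Agent.R332.Full
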