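import Crest.Agent.R332.FullPos
import Crest.Agent.R332.FullTop

/-! # The truncated Riccati equation (row 332) -/

set_option autoImplicit false

open scoped ComplexOrder Matrix
open scoped Matrix.Norms.Frobenius
open Matrix Set

namespace Crest.Agent.R332.Full

variable {ι : Type*} [Fintype ι] [DecidableEq ι]

open scoped MatrixOrder in
lemma spectrum_le_of_posSemidef {A : Matrix ι ι ℂ} {c : ℝ}
    (h : (c • (1 : Matrix ι ι ℂ) - A).PosSemidef) : ∀ t ∈ spectrum ℝ A, t ≤ c := by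
  intro t ht
  have h1 : c - t ∈ spectrum ℝ (algebraMap ℝ (Matrix ι ι ℂ) c - A) := by
    rw [← spectrum.singleton_sub_eq]
    exact ⟨c, rfl, t, ht, rfl⟩
  have h2 : (0 : Matrix ι ι ℂ) ≤ algebraMap ℝ (Matrix ι ι ℂ) c - A := by
    rw [Algebra.algebraMap_eq_smul_one]; exact h.nonneg
  have := spectrum_nonneg_of_nonneg h2 h1
  linarith

open scoped MatrixOrder in
lemma le_spectrum_of_posSemidef {A : Matrix ι ι ℂ} {c : ℝ}
    (h : (A - c • (1 : Matrix ι ι ℂ)).PosSemidef) : ∀ t ∈ spectrum ℝ A, c ≤ t := by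
  intro t ht
  have h1 : t - c ∈ spectrum ℝ (A - algebraMap ℝ (Matrix ι ι ℂ) c) := by
    rw [← spectrum.sub_singleton_eq]
    exact ⟨t, ht, c, rfl, rfl⟩
  have h2 : (0 : Matrix ι ι ℂ) ≤ A - algebraMap ℝ (Matrix ι ι ℂ) c := by
    rw [Algebra.algebraMap_eq_smul_one]; exact h.nonneg
  have := spectrum_nonneg_of_nonneg h2 h1
  linarith

open scoped MatrixOrder in
lemma nonneg_spectrum_of_posSemidef {A : Matrix ι ι ℂ}
    (h : A.PosSemidef) : ∀ t ∈ spectrum ℝ A, 0 ≤ t := by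
  intro t ht
  exact spectrum_nonneg_of_nonneg h.nonneg ht

/-! ### Hermitian part -/

/-- Hermitian part. -/
noncomputable def hp (A : Matrix ι ι ℂ) : Matrix ι ι ℂ := (1 / 2 : ℝ) • (A + Aᴴ)

omit [Fintype ι] [DecidableEq ι] in
lemma isHermitian_hp (A : Matrix ι ι ℂ) : (hp A).IsHermitian := by
  unfold hp Matrix.IsHermitian
  rw [conjTranspose_smul, conjTranspose_add, conjTranspose_conjTranspose, add_comm]
  simp

omit [Fintype ι] [DecidableEq ι] in
lemma hp_eq {A : Matrix ι ι ℂ} (hA : A.IsHermitian) : hp A = A := by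
  unfold hp
  rw [hA.eq, ← two_smul ℝ A, smul_smul]
  norm_num

lemma norm_hp_sub_le (A B : Matrix ι ι ℂ) : ‖hp A - hp B‖ ≤ ‖A - B‖ := by
  have : hp A - hp B = (1 / 2 : ℝ) • ((A - B) + (A - B)ᴴ) := by
    unfold hp
    rw [← smul_sub, conjTranspose_sub]
    congr 1
    abel
  rw [this, norm_smul]
  have h2 := norm_add_le (A - B) (A - B)ᴴ
  rw [frobenius_norm_conjTranspose] at h2
  have : ‖(1 / 2 : ℝ)‖ = 1 / 2 := by norm_num
  rw [this]
  linarith

/-! ### the tent function -/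

/-- `tent B t = max 0 (min t (2B - t))` -/
noncomputable def tent (B t : ℝ) : ℝ := max 0 (min t (2 * B - t))

lemma tent_nonneg (B t : ℝ) : 0 ≤ tent B t := le_max_left _ _

lemma tent_le {B : ℝ} (hB : 0 ≤ B) (t : ℝ) : tent B t ≤ B := by
  unfold tent
  refine max_le hB ?_
  rcases le_total t B with h | h
  · exact (min_le_left _ _).trans h
  · exact (min_le_right _ _).trans (by linarith)

lemma tent_of_nonpos {B t : ℝ} (ht : t ≤ 0) : tent B t = 0 := by
  unfold tent
  exact max_eq_left ((min_le_left _ _).trans ht)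

lemma tent_of_mem {B t : ℝ} (h0 : 0 ≤ t) (h1 : t ≤ B) : tent B t = t := by
  unfold tent
  rw [min_eq_left (by linarith), max_eq_right h0]

lemma tent_of_ge {B t : ℝ} (h1 : 2 * B ≤ t) : tent B t = 0 := by
  unfold tent
  exact max_eq_left ((min_le_right _ _).trans (by linarith))

lemma abs_tent_sub_le (B x y : ℝ) : |tent B x - tent B y| ≤ |x - y| := by
  unfold tent
  have h1 : |max 0 (min x (2 * B - x)) - max 0 (min y (2 * B - y))| ≤
      |min x (2 * B - x) - min y (2 * B - y)| := by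
    rw [max_comm 0, max_comm 0]; exact abs_max_sub_max_le_abs _ _ _
  refine h1.trans ((abs_min_sub_min_le_max _ _ _ _).trans (max_le le_rfl ?_))
  rw [show 2 * B - x - (2 * B - y) = -(x - y) by ring, abs_neg]

/-- `gt B t = t * tent B t` -/
noncomputable def gt (B t : ℝ) : ℝ := t * tent B t

lemma abs_gt_le {B : ℝ} (hB : 0 ≤ B) (t : ℝ) : |gt B t| ≤ 2 * B * B := by
  unfold gt
  rcases le_total t 0 with h | h
  · rw [tent_of_nonpos h]; simp; positivity
  · rcases le_total (2 * B) t with h2 | h2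
    · rw [tent_of_ge h2]; simp; positivity
    · rw [abs_mul, abs_of_nonneg h, abs_of_nonneg (tent_nonneg B t)]
      exact mul_le_mul h2 (tent_le hB t) (tent_nonneg B t) (by positivity)

lemma abs_gt_sub_le {B : ℝ} (hB : 0 ≤ B) (x y : ℝ) : |gt B x - gt B y| ≤ 3 * B * |x - y| := by
  -- reduce to `x ≤ 2B` and `0 ≤ x`
  have key : ∀ x y : ℝ, x ≤ 2 * B → 0 ≤ x → |gt B x - gt B y| ≤ 3 * B * |x - y| := by
    intro x y h2 h0
    have e : gt B x - gt B y = x * (tent B x - tent B y) + (x - y) * tent B y := by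
      unfold gt; ring
    rw [e]
    refine (abs_add_le _ _).trans ?_
    rw [abs_mul, abs_mul, abs_of_nonneg h0, abs_of_nonneg (tent_nonneg B y)]
    have h3 := abs_tent_sub_le B x y
    have h4 := tent_le hB y
    have h5 : x * |tent B x - tent B y| ≤ 2 * B * |x - y| :=
      mul_le_mul h2 h3 (abs_nonneg _) (by positivity)
    have h6 : |x - y| * tent B y ≤ |x - y| * B := mul_le_mul_of_nonneg_left h4 (abs_nonneg _)
    nlinarith
  by_cases hx : x ≤ 2 * B ∧ 0 ≤ x
  · exact key x y hx.1 hx.2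
  · by_cases hy : y ≤ 2 * B ∧ 0 ≤ y
    · have := key y x hy.1 hy.2
      rwa [abs_sub_comm, abs_sub_comm y x] at this
    · have hz : ∀ z : ℝ, ¬ (z ≤ 2 * B ∧ 0 ≤ z) → gt B z = 0 := by
        intro z hz
        unfold gt
        rcases le_total z 0 with h | h
        · rw [tent_of_nonpos h, mul_zero]
        · rw [tent_of_ge, mul_zero]
          by_contra hc
          exact hz ⟨(not_le.mp hc).le, h⟩
      rw [hz x hx, hz y hy]
      simp
      positivity

/-- matrix versions -/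
noncomputable def cc (B : ℝ) (A : Matrix ι ι ℂ) : Matrix ι ι ℂ := cf (tent B) (hp A)

/-- matrix versions -/
noncomputable def gg (B : ℝ) (A : Matrix ι ι ℂ) : Matrix ι ι ℂ := cf (gt B) (hp A)

lemma isHermitian_cc (B : ℝ) (A : Matrix ι ι ℂ) : (cc B A).IsHermitian := isHermitian_cf _ _

lemma isHermitian_gg (B : ℝ) (A : Matrix ι ι ℂ) : (gg B A).IsHermitian := isHermitian_cf _ _

lemma posSemidef_cc (B : ℝ) (A : Matrix ι ι ℂ) : (cc B A).PosSemidef :=
  posSemidef_cf fun _ _ => tent_nonneg _ _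

lemma norm_cc_sub_le (B : ℝ) (A A' : Matrix ι ι ℂ) : ‖cc B A - cc B A'‖ ≤ ‖A - A'‖ := by
  have h := norm_cf_sub_cf_le (f := tent B) (c := 1) zero_le_one
    (fun x y => by rw [one_mul]; exact abs_tent_sub_le B x y)
    (isHermitian_hp A) (isHermitian_hp A')
  rw [one_mul] at h
  exact h.trans (norm_hp_sub_le A A')

lemma norm_gg_sub_le {B : ℝ} (hB : 0 ≤ B) (A A' : Matrix ι ι ℂ) :
    ‖gg B A - gg B A'‖ ≤ 3 * B * ‖A - A'‖ := by
  have h := norm_cf_sub_cf_le (f := gt B) (c := 3 * B) (by positivity)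
    (fun x y => abs_gt_sub_le hB x y)
    (isHermitian_hp A) (isHermitian_hp A')
  exact h.trans (mul_le_mul_of_nonneg_left (norm_hp_sub_le A A') (by positivity))

lemma norm_cc_le {B : ℝ} (hB : 0 ≤ B) (A : Matrix ι ι ℂ) :
    ‖cc B A‖ ≤ B * Real.sqrt (Fintype.card ι) := by
  have h := norm_cf_le hB (isHermitian_hp A) (f := tent B) (fun x _ => by
    rw [abs_of_nonneg (tent_nonneg B x)]; exact tent_le hB x)
  refine (abs_le_of_sq_le_sq' (b := B * Real.sqrt (Fintype.card ι)) ?_ (by positivity)).2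
  rw [mul_pow, Real.sq_sqrt (by positivity)]
  exact h

lemma norm_gg_le {B : ℝ} (hB : 0 ≤ B) (A : Matrix ι ι ℂ) :
    ‖gg B A‖ ≤ 2 * B * B * Real.sqrt (Fintype.card ι) := by
  have h := norm_cf_le (by positivity) (isHermitian_hp A) (f := gt B)
    (fun x _ => abs_gt_le hB x)
  refine (abs_le_of_sq_le_sq' (b := 2 * B * B * Real.sqrt (Fintype.card ι)) ?_ (by positivity)).2
  rw [mul_pow, Real.sq_sqrt (by positivity)]
  exact h

/-- the truncated Riccati vector field -/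
noncomputable def vf (B : ℝ) (K Y e : Matrix ι ι ℂ) : Matrix ι ι ℂ :=
  K * cc B e + cc B e * K - gg B e - Y

lemma isHermitian_vf {B : ℝ} {K Y : Matrix ι ι ℂ} (hK : K.IsHermitian) (hY : Y.IsHermitian)
    (e : Matrix ι ι ℂ) : (vf B K Y e).IsHermitian := by
  unfold vf
  refine (IsHermitian.sub (IsHermitian.sub ?_ (isHermitian_gg B e)) hY)
  unfold Matrix.IsHermitian
  rw [conjTranspose_add, conjTranspose_mul, conjTranspose_mul, hK.eq, (isHermitian_cc B e).eq,
    add_comm]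

lemma norm_vf_sub_le {B : ℝ} (hB : 0 ≤ B) (K Y e e' : Matrix ι ι ℂ) :
    ‖vf B K Y e - vf B K Y e'‖ ≤ (2 * ‖K‖ + 3 * B) * ‖e - e'‖ := by
  have e1 : vf B K Y e - vf B K Y e' = K * (cc B e - cc B e') + (cc B e - cc B e') * K -
      (gg B e - gg B e') := by
    unfold vf; rw [mul_sub, sub_mul]; abel
  rw [e1]
  have h1 := norm_cc_sub_le B e e'
  have h2 := norm_gg_sub_le hB e e'
  have h3 : ‖K * (cc B e - cc B e')‖ ≤ ‖K‖ * ‖e - e'‖ :=
    (frobenius_norm_mul _ _).trans (mul_le_mul_of_nonneg_left h1 (norm_nonneg _))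
  have h4 : ‖(cc B e - cc B e') * K‖ ≤ ‖e - e'‖ * ‖K‖ :=
    (frobenius_norm_mul _ _).trans (mul_le_mul_of_nonneg_right h1 (norm_nonneg _))
  have h5 := norm_sub_le (K * (cc B e - cc B e') + (cc B e - cc B e') * K) (gg B e - gg B e')
  have h6 := norm_add_le (K * (cc B e - cc B e')) ((cc B e - cc B e') * K)
  nlinarith

lemma norm_vf_le {B : ℝ} (hB : 0 ≤ B) (K Y e : Matrix ι ι ℂ) :
    ‖vf B K Y e‖ ≤ (2 * ‖K‖ * B + 2 * B * B) * Real.sqrt (Fintype.card ι) + ‖Y‖ := by
  have h1 := norm_cc_le hB e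
  have h2 := norm_gg_le hB e
  have h3 : ‖K * cc B e‖ ≤ ‖K‖ * (B * Real.sqrt (Fintype.card ι)) :=
    (frobenius_norm_mul _ _).trans (mul_le_mul_of_nonneg_left h1 (norm_nonneg _))
  have h4 : ‖cc B e * K‖ ≤ (B * Real.sqrt (Fintype.card ι)) * ‖K‖ :=
    (frobenius_norm_mul _ _).trans (mul_le_mul_of_nonneg_right h1 (norm_nonneg _))
  have h5 := norm_sub_le (K * cc B e + cc B e * K - gg B e) Y
  have h6 := norm_sub_le (K * cc B e + cc B e * K) (gg B e)
  have h7 := norm_add_le (K * cc B e) (cc B e * K)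
  unfold vf
  nlinarith

lemma norm_vf_sub_vf_le {B : ℝ} (hB : 0 ≤ B) (K K' Y Y' e : Matrix ι ι ℂ) :
    ‖vf B K Y e - vf B K' Y' e‖ ≤ 2 * ‖K - K'‖ * (B * Real.sqrt (Fintype.card ι)) + ‖Y - Y'‖ := by
  have e1 : vf B K Y e - vf B K' Y' e = (K - K') * cc B e + cc B e * (K - K') - (Y - Y') := by
    unfold vf; rw [mul_sub, sub_mul]; abel
  rw [e1]
  have h1 := norm_cc_le hB e
  have h3 : ‖(K - K') * cc B e‖ ≤ ‖K - K'‖ * (B * Real.sqrt (Fintype.card ι)) :=
    (frobenius_norm_mul _ _).trans (mul_le_mul_of_nonneg_left h1 (norm_nonneg _))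
  have h4 : ‖cc B e * (K - K')‖ ≤ (B * Real.sqrt (Fintype.card ι)) * ‖K - K'‖ :=
    (frobenius_norm_mul _ _).trans (mul_le_mul_of_nonneg_right h1 (norm_nonneg _))
  have h5 := norm_sub_le ((K - K') * cc B e + cc B e * (K - K')) (Y - Y')
  have h6 := norm_add_le ((K - K') * cc B e) (cc B e * (K - K'))
  nlinarith

end Crest.Agent.R332.Full
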