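import Crest.Agent.R332.FullKlein

/-! # Frobenius norm, Lipschitz functional calculus, positive part (row 332) -/

set_option autoImplicit false

open scoped ComplexOrder Matrix
open scoped Matrix.Norms.Frobenius
open Matrix

namespace Crest.Agent.R332.Full

variable {ι : Type*} [Fintype ι]

/-- Squared Frobenius norm. -/
lemma frob_sq' (A : Matrix ι ι ℂ) : ‖A‖ ^ 2 = ∑ i, ∑ j, ‖A i j‖ ^ 2 := by
  rw [frobenius_norm_def, ← Real.rpow_natCast, ← Real.rpow_mul (by positivity)]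
  norm_num

lemma frob_sq {A : Matrix ι ι ℂ} (hA : A.IsHermitian) : ‖A‖ ^ 2 = tp A A := by
  rw [frob_sq', tp_self_eq hA]

lemma abs_tp_le (A B : Matrix ι ι ℂ) : |tp A B| ≤ ‖A‖ * ‖B‖ := by
  have h1 : |tp A B| ≤ ∑ i, ∑ j, ‖A i j‖ * ‖B j i‖ := by
    rw [tp_eq_sum]
    refine (Finset.abs_sum_le_sum_abs _ _).trans (Finset.sum_le_sum fun i _ => ?_)
    refine (Finset.abs_sum_le_sum_abs _ _).trans (Finset.sum_le_sum fun j _ => ?_)
    rw [← norm_mul]
    exact Complex.abs_re_le_norm _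
  have h2 : (∑ i, ∑ j, ‖A i j‖ * ‖B j i‖) =
      ∑ q : ι × ι, ‖A q.1 q.2‖ * ‖B q.2 q.1‖ := by
    rw [← Finset.univ_product_univ, Finset.sum_product]
  have h3 := Finset.sum_mul_sq_le_sq_mul_sq (Finset.univ : Finset (ι × ι))
    (fun q => ‖A q.1 q.2‖) (fun q => ‖B q.2 q.1‖)
  have h4 : (∑ q : ι × ι, ‖A q.1 q.2‖ ^ 2) = ‖A‖ ^ 2 := by
    rw [frob_sq', ← Finset.univ_product_univ, Finset.sum_product]
  have h5 : (∑ q : ι × ι, ‖B q.2 q.1‖ ^ 2) = ‖B‖ ^ 2 := by
    rw [frob_sq', ← Finset.univ_product_univ, Finset.sum_product, Finset.sum_comm]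
  rw [h4, h5, ← mul_pow] at h3
  rw [h2] at h1
  refine h1.trans ?_
  exact (abs_le_of_sq_le_sq' h3 (by positivity)).2

variable [DecidableEq ι]

/-- Lipschitz functions are operator Lipschitz for the Frobenius norm. -/
theorem norm_cf_sub_cf_le {f : ℝ → ℝ} {c : ℝ} (hc : 0 ≤ c)
    (hf : ∀ x y, |f x - f y| ≤ c * |x - y|)
    {A B : Matrix ι ι ℂ} (hA : A.IsHermitian) (hB : B.IsHermitian) :
    ‖cf f A - cf f B‖ ≤ c * ‖A - B‖ := by
  have h := tp_cf_sub_cf_le hA hB (fun x _ y _ => hf x y)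
  rw [← frob_sq ((isHermitian_cf f A).sub (isHermitian_cf f B)), ← frob_sq (hA.sub hB),
    ← mul_pow] at h
  exact (abs_le_of_sq_le_sq' h (by positivity)).2

/-- Bound for `cf` of a bounded function. -/
theorem norm_cf_le {f : ℝ → ℝ} {c : ℝ} (hc : 0 ≤ c) {A : Matrix ι ι ℂ} (hA : A.IsHermitian)
    (hf : ∀ x ∈ spectrum ℝ A, |f x| ≤ c) :
    ‖cf f A‖ ^ 2 ≤ c ^ 2 * Fintype.card ι := by
  rw [frob_sq (isHermitian_cf f A)]
  have h : 0 ≤ tp (cf (fun x => c ^ 2 - f x * f x) A) 1 := by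
    refine tp_nonneg (posSemidef_cf fun x hx => ?_) PosSemidef.one
    have h1 := hf x hx
    have h2 : f x * f x ≤ c * c := by
      rw [← abs_mul_abs_self (f x)]
      exact mul_le_mul h1 h1 (abs_nonneg _) hc
    nlinarith
  have e : cf (fun x => c ^ 2 - f x * f x) A = (c ^ 2) • (1 : Matrix ι ι ℂ) - cf f A * cf f A := by
    rw [cf_mul, ← cf_const hA, cf_sub]
  rw [e, tp_sub_left, tp_smul_left] at h
  have e1 : tp (1 : Matrix ι ι ℂ) 1 = Fintype.card ι := by
    simp [tp]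
  have e2 : tp (cf f A * cf f A) 1 = tp (cf f A) (cf f A) := by
    simp [tp]
  rw [e1, e2] at h
  linarith

/-! ### positive and negative parts -/

/-- positive part -/
noncomputable def pp (A : Matrix ι ι ℂ) : Matrix ι ι ℂ := cf (fun t => max t 0) A

/-- negative part -/
noncomputable def np (A : Matrix ι ι ℂ) : Matrix ι ι ℂ := cf (fun t => max (-t) 0) A

lemma posSemidef_pp (A : Matrix ι ι ℂ) : (pp A).PosSemidef :=
  posSemidef_cf fun _ _ => le_max_right _ _

lemma posSemidef_np (A : Matrix ι ι ℂ) : (np A).PosSemidef :=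
  posSemidef_cf fun _ _ => le_max_right _ _

lemma pp_sub_np {A : Matrix ι ι ℂ} (hA : A.IsHermitian) : pp A - np A = A := by
  rw [pp, np, cf_sub]
  conv_rhs => rw [← cf_id hA]
  refine cf_congr fun x _ => ?_
  rcases le_total x 0 with h | h
  · rw [max_eq_right h, max_eq_left (by linarith)]; ring
  · rw [max_eq_left h, max_eq_right (by linarith)]; ring

lemma cf_mul_np_eq_zero {f : ℝ → ℝ} (hf : ∀ t, t < 0 → f t = 0) (A : Matrix ι ι ℂ) :
    cf f A * np A = 0 := by
  rw [np, cf_mul]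
  have : cf (fun x => f x * max (-x) 0) A = cf (fun _ => (0:ℝ)) A := by
    refine cf_congr fun x _ => ?_
    rcases lt_or_ge x 0 with h | h
    · rw [hf x h]; ring
    · rw [max_eq_right (by linarith)]; ring
  rw [this]
  exact cfc_const_zero ℝ A

lemma np_mul_cf_eq_zero {f : ℝ → ℝ} (hf : ∀ t, t < 0 → f t = 0) (A : Matrix ι ι ℂ) :
    np A * cf f A = 0 := by
  rw [np, cf_comm]; exact cf_mul_np_eq_zero hf A

lemma pp_mul_np (A : Matrix ι ι ℂ) : pp A * np A = 0 :=
  cf_mul_np_eq_zero (fun _ ht => max_eq_right ht.le) A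

lemma np_mul_pp (A : Matrix ι ι ℂ) : np A * pp A = 0 :=
  np_mul_cf_eq_zero (fun _ ht => max_eq_right ht.le) A

lemma posSemidef_of_np_eq_zero {A : Matrix ι ι ℂ} (hA : A.IsHermitian) (h : np A = 0) :
    A.PosSemidef := by
  rw [← pp_sub_np hA, h, sub_zero]
  exact posSemidef_pp A

lemma norm_np_sub_np_le {A B : Matrix ι ι ℂ} (hA : A.IsHermitian) (hB : B.IsHermitian) :
    ‖np A - np B‖ ≤ ‖A - B‖ := by
  have := norm_cf_sub_cf_le (f := fun t => max (-t) 0) (c := 1) zero_le_one (fun x y => by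
    rw [one_mul]
    have := abs_max_sub_max_le_abs (-x) (-y) 0
    rwa [neg_sub_neg, abs_sub_comm y x] at this) hA hB
  rwa [one_mul] at this

/-- the squared distance to the positive cone -/
noncomputable def nsq (A : Matrix ι ι ℂ) : ℝ := tp (np A) (np A)

lemma nsq_nonneg (A : Matrix ι ι ℂ) : 0 ≤ nsq A := tp_nonneg (posSemidef_np A) (posSemidef_np A)

/-- Convexity bound. -/
lemma nsq_ge {A B : Matrix ι ι ℂ} (hA : A.IsHermitian) (hB : B.IsHermitian) :
    nsq A - 2 * tp (np A) (B - A) ≤ nsq B := by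
  have h1 : 0 ≤ tp (np B - np A) (np B - np A) := by
    rw [← frob_sq ((posSemidef_np B).1.sub (posSemidef_np A).1)]
    positivity
  have h2 : 0 ≤ tp (np A) (pp B) := tp_nonneg (posSemidef_np A) (posSemidef_pp B)
  have h3 : tp (np A) (pp A) = 0 := by rw [tp, np_mul_pp]; simp
  have h4 : tp (np A) (B - A) = tp (np A) (pp B) - tp (np A) (np B) - tp (np A) (pp A)
      + tp (np A) (np A) := by
    have e : B - A = (pp B - np B) - (pp A - np A) := by rw [pp_sub_np hA, pp_sub_np hB]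
    rw [e, tp_sub_right, tp_sub_right, tp_sub_right]
    ring
  rw [tp_sub_left, tp_sub_right, tp_sub_right, tp_comm (np B) (np A)] at h1
  rw [nsq, nsq, h4, h3]
  linarith

lemma nsq_sub_le {A B : Matrix ι ι ℂ} (hA : A.IsHermitian) (hB : B.IsHermitian) :
    |nsq B - nsq A - (-2 * tp (np A) (B - A))| ≤ 2 * ‖B - A‖ ^ 2 := by
  have h1 := nsq_ge hA hB
  have h2 := nsq_ge hB hA
  have h3 : |tp (np B - np A) (B - A)| ≤ ‖B - A‖ ^ 2 := by
    refine (abs_tp_le _ _).trans ?_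
    rw [pow_two]
    exact mul_le_mul_of_nonneg_right (norm_np_sub_np_le hB hA) (norm_nonneg _)
  rw [abs_le] at h3 ⊢
  have h4 : tp (np B) (A - B) = - tp (np B - np A) (B - A) - tp (np A) (B - A) := by
    rw [tp_sub_left, ← neg_sub B A, tp_neg_right]; ring
  rw [h4] at h2
  constructor <;> nlinarith [h3.1, h3.2, sq_nonneg ‖B - A‖]

end Crest.Agent.R332.Full
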