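import Crest.Agent.R332.FullODE

/-! # Solutions of the truncated Riccati equation (row 332) -/

set_option autoImplicit false

open scoped ComplexOrder Matrix
open scoped Matrix.Norms.Frobenius
open Matrix Set

namespace Crest.Agent.R332.Full

variable {ι : Type*} [Fintype ι] [DecidableEq ι]

/-- `e` solves the truncated Riccati equation on `[-L, L]`. -/
structure IsSol (B L : ℝ) (K : Matrix ι ι ℂ) (Y : ℝ → Matrix ι ι ℂ) (e : ℝ → Matrix ι ι ℂ) :
    Prop where
  init : e (-L) = (2 : ℝ) • K
  deriv : ∀ x ∈ Icc (-L) L, HasDerivWithinAt e (vf B K (Y x) (e x)) (Icc (-L) L) x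

theorem exists_isSol {B L : ℝ} (hB : 0 ≤ B) (hL : 0 < L) (K : Matrix ι ι ℂ)
    (Y : ℝ → Matrix ι ι ℂ) (hY : ContinuousOn Y (Icc (-L) L)) :
    ∃ e : ℝ → Matrix ι ι ℂ, IsSol B L K Y e := by
  obtain ⟨CY, hCY⟩ : ∃ C, ∀ x ∈ Icc (-L) L, ‖Y x‖ ≤ C :=
    isCompact_Icc.exists_bound_of_continuousOn hY
  have hCY0 : 0 ≤ CY := (norm_nonneg _).trans (hCY (-L) ⟨le_rfl, by linarith⟩)
  set C : ℝ := (2 * ‖K‖ * B + 2 * B * B) * Real.sqrt (Fintype.card ι) + CY with hC
  have hC0 : 0 ≤ C := by positivity
  let t0 : Icc (-L) L := ⟨-L, ⟨le_rfl, by linarith⟩⟩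
  have hPL : IsPicardLindelof (fun x e => vf B K (Y x) e) t0 ((2 : ℝ) • K)
      (Real.toNNReal (C * (2 * L))) 0 (Real.toNNReal C) (Real.toNNReal (2 * ‖K‖ + 3 * B)) := by
    refine ⟨fun t _ => ?_, fun x _ => ?_, fun t ht x _ => ?_, ?_⟩
    · refine LipschitzOnWith.of_dist_le_mul fun x _ y _ => ?_
      rw [dist_eq_norm, dist_eq_norm, Real.coe_toNNReal _ (by positivity)]
      exact norm_vf_sub_le hB K (Y t) x y
    · exact (continuousOn_const).sub hY
    · rw [Real.coe_toNNReal _ hC0]
      exact (norm_vf_le hB K (Y t) x).trans (by rw [hC]; linarith [hCY t ht])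
    · rw [Real.coe_toNNReal _ hC0, Real.coe_toNNReal _ (by positivity)]
      have : max (L - (t0 : ℝ)) ((t0 : ℝ) - (-L)) = 2 * L := by
        change max (L - -L) (-L - -L) = 2 * L
        rw [max_eq_left (by linarith)]
        ring
      rw [this]
      simp
  obtain ⟨e, he0, he⟩ := hPL.exists_eq_forall_mem_Icc_hasDerivWithinAt₀
  exact ⟨e, he0, he⟩

namespace IsSol

variable {B L : ℝ} {K : Matrix ι ι ℂ} {Y : ℝ → Matrix ι ι ℂ} {e : ℝ → Matrix ι ι ℂ}

theorem continuousOn (h : IsSol B L K Y e) : ContinuousOn e (Icc (-L) L) :=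
  fun x hx => (h.deriv x hx).continuousWithinAt

theorem deriv_Ici (h : IsSol B L K Y e) {x : ℝ} (hx : x ∈ Ico (-L) L) :
    HasDerivWithinAt e (vf B K (Y x) (e x)) (Ici x) x := by
  refine (h.deriv x ⟨hx.1, hx.2.le⟩).mono_of_mem_nhdsWithin ?_
  exact Icc_mem_nhdsGE_of_mem hx

/-- The solution is Hermitian. -/
theorem isHermitian (h : IsSol B L K Y e) (hK : K.IsHermitian)
    (hY : ∀ x ∈ Icc (-L) L, (Y x).IsHermitian) : ∀ x ∈ Icc (-L) L, (e x).IsHermitian := by
  have key := constant_of_has_deriv_right_zero (f := fun x => e x - star (e x))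
    (a := -L) (b := L) (h.continuousOn.sub (continuous_star.comp_continuousOn h.continuousOn))
    (fun x hx => by
      have h1 := h.deriv_Ici hx
      have h2 := h1.sub h1.star
      have h3 : star (vf B K (Y x) (e x)) = vf B K (Y x) (e x) :=
        (isHermitian_vf hK (hY x ⟨hx.1, hx.2.le⟩) (e x))
      rw [h3, sub_self] at h2
      exact h2)
  intro x hx
  have h1 := key x hx
  simp only [h.init] at h1
  have h2 : star ((2 : ℝ) • K) = (2 : ℝ) • K := by
    rw [star_smul, star_trivial]
    congr 1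
  rw [h2, sub_self, sub_eq_zero] at h1
  exact h1.symm

end IsSol

/-! ### derivative of `nsq` along a path -/

lemma nsq_zero : nsq (0 : Matrix ι ι ℂ) = 0 := by
  have h1 : np (0 : Matrix ι ι ℂ) = 0 := by
    have h2 : (0 : Matrix ι ι ℂ).IsHermitian := isHermitian_zero
    have h3 := norm_np_sub_np_le h2 h2
    have h4 := pp_sub_np h2
    have h5 : np (0 : Matrix ι ι ℂ) * np 0 = 0 := by
      have h6 : np (0 : Matrix ι ι ℂ) = pp 0 := (sub_eq_zero.mp h4).symm
      conv_lhs => rw [h6]
      rw [← h6]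
      conv_lhs => rw [h6]
      rw [← h6, h6]
      have := pp_mul_np (0 : Matrix ι ι ℂ)
      rwa [h6] at this
    have h7 : nsq (0 : Matrix ι ι ℂ) = 0 := by rw [nsq, tp, h5]; simp
    have h8 : ‖np (0 : Matrix ι ι ℂ)‖ ^ 2 = 0 := by
      rw [frob_sq (posSemidef_np 0).1]; exact h7
    exact norm_eq_zero.mp (pow_eq_zero_iff two_ne_zero |>.mp h8)
  rw [nsq, h1, tp_zero_left]

lemma np_eq_zero_of_nsq {A : Matrix ι ι ℂ} (h : nsq A = 0) : np A = 0 := by
  have h8 : ‖np A‖ ^ 2 = 0 := by
    rw [frob_sq (posSemidef_np A).1]; exact h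
  exact norm_eq_zero.mp (pow_eq_zero_iff two_ne_zero |>.mp h8)

/-- Derivative of the squared distance to the positive cone along a path. -/
theorem hasDerivWithinAt_nsq {A : ℝ → Matrix ι ι ℂ} {A' : Matrix ι ι ℂ} {s : Set ℝ} {x : ℝ}
    (hx : x ∈ s) (hA : ∀ y ∈ s, (A y).IsHermitian) (h : HasDerivWithinAt A A' s x) :
    HasDerivWithinAt (fun y => nsq (A y)) (-2 * tp (np (A x)) A') s x := by
  have h := hasDerivWithinAt_iff_isLittleO.mp h
  refine hasDerivWithinAt_iff_isLittleO.mpr ?_
  have h1 : (fun y => A y - A x) =O[nhdsWithin x s] (fun y => y - x) := by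
    have h2 : (fun y => (y - x) • A') =O[nhdsWithin x s] (fun y => y - x) := by
      refine Asymptotics.IsBigO.of_bound ‖A'‖ (Filter.Eventually.of_forall fun y => ?_)
      rw [norm_smul, mul_comm]
    have := h.isBigO.add h2
    refine this.congr_left fun y => ?_
    abel
  have h3 : (fun y => nsq (A y) - nsq (A x) - (-2 * tp (np (A x)) (A y - A x)))
      =o[nhdsWithin x s] (fun y => y - x) := by
    have h4 : (fun y => nsq (A y) - nsq (A x) - (-2 * tp (np (A x)) (A y - A x)))
        =O[nhdsWithin x s] (fun y => ‖A y - A x‖ ^ 2) := by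
      refine Asymptotics.IsBigO.of_bound 2 ?_
      filter_upwards [self_mem_nhdsWithin] with y hy
      rw [Real.norm_eq_abs, norm_pow, norm_norm]
      exact nsq_sub_le (hA x hx) (hA y hy)
    have h5 : (fun y => ‖A y - A x‖ ^ 2) =O[nhdsWithin x s] (fun y => (y - x) ^ 2) :=
      h1.norm_left.pow 2
    have h6 : (fun y => (y - x) ^ 2) =o[nhdsWithin x s] (fun y => y - x) := by
      have h7 : (fun y : ℝ => y - x) =o[nhdsWithin x s] (fun _ => (1 : ℝ)) := by
        rw [Asymptotics.isLittleO_one_iff]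
        have : Filter.Tendsto (fun y : ℝ => y - x) (nhds x) (nhds (x - x)) :=
          (continuous_id.sub continuous_const).tendsto x
        rw [sub_self] at this
        exact this.mono_left nhdsWithin_le_nhds
      have := h7.mul_isBigO (Asymptotics.isBigO_refl (fun y : ℝ => y - x) (nhdsWithin x s))
      refine (this.congr_left fun y => ?_).congr_right fun y => ?_
      · ring
      · ring
    exact (h4.trans h5).trans_isLittleO h6
  have h7 : (fun y => -2 * tp (np (A x)) (A y - A x - (y - x) • A'))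
      =o[nhdsWithin x s] (fun y => y - x) := by
    have h8 : (fun y => -2 * tp (np (A x)) (A y - A x - (y - x) • A'))
        =O[nhdsWithin x s] (fun y => A y - A x - (y - x) • A') := by
      refine Asymptotics.IsBigO.of_bound (2 * ‖np (A x)‖) (Filter.Eventually.of_forall fun y => ?_)
      rw [norm_mul, Real.norm_eq_abs, Real.norm_eq_abs, mul_assoc]
      have := abs_tp_le (np (A x)) (A y - A x - (y - x) • A')
      have h9 : |(-2 : ℝ)| = 2 := by norm_num
      rw [h9]
      linarith
    exact h8.trans_isLittleO h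
  refine (h3.add h7).congr_left fun y => ?_
  rw [tp_sub_right (np (A x)) (A y - A x), tp_smul_right, smul_eq_mul]
  ring

namespace IsSol

variable {B L : ℝ} {K : Matrix ι ι ℂ} {Y : ℝ → Matrix ι ι ℂ} {e : ℝ → Matrix ι ι ℂ}

lemma gg_eq {A : Matrix ι ι ℂ} (hA : A.IsHermitian) (B : ℝ) : gg B A = A * cc B A := by
  unfold gg cc
  rw [hp_eq hA]
  conv_rhs => rw [← cf_id hA]
  rw [cf_id hA]
  have : A * cf (tent B) A = cf (fun x => x) A * cf (tent B) A := by rw [cf_id hA]
  rw [this, cf_mul]
  rfl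

lemma gg_eq' {A : Matrix ι ι ℂ} (hA : A.IsHermitian) (B : ℝ) : gg B A = cc B A * A := by
  unfold gg cc
  rw [hp_eq hA]
  have : cf (tent B) A * A = cf (tent B) A * cf (fun x => x) A := by rw [cf_id hA]
  rw [this, cf_mul]
  congr 1
  ext x
  unfold gt
  ring

/-- `e ≤ 2K` along the solution. -/
theorem le_two_smul (h : IsSol B L K Y e) (hL : 0 < L) (hK : K.IsHermitian)
    (hY : ∀ x ∈ Icc (-L) L, (Y x).PosSemidef) :
    ∀ x ∈ Icc (-L) L, ((2 : ℝ) • K - e x).PosSemidef := by
  have hH := h.isHermitian hK (fun x hx => (hY x hx).1)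
  have h2K : ((2 : ℝ) • K).IsHermitian := by
    unfold Matrix.IsHermitian
    rw [conjTranspose_smul, hK.eq]; simp
  have hDH : ∀ y ∈ Icc (-L) L, ((2 : ℝ) • K - e y).IsHermitian := fun y hy => h2K.sub (hH y hy)
  have hd : ∀ x ∈ Icc (-L) L, HasDerivWithinAt (fun y => nsq ((2 : ℝ) • K - e y))
      (-2 * tp (np ((2 : ℝ) • K - e x)) (-(vf B K (Y x) (e x)))) (Icc (-L) L) x := by
    intro x hx
    refine hasDerivWithinAt_nsq hx hDH ?_
    have := (h.deriv x hx).const_sub ((2 : ℝ) • K)
    exact this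
  have hsign : ∀ x ∈ Icc (-L) L,
      -2 * tp (np ((2 : ℝ) • K - e x)) (-(vf B K (Y x) (e x))) ≤ 0 := by
    intro x hx
    set D := (2 : ℝ) • K - e x with hD
    set c := cc B (e x) with hc
    have hvf : -(vf B K (Y x) (e x)) = -((1 / 2 : ℝ) • (c * D + D * c)) + Y x := by
      unfold vf
      have e1 : gg B (e x) = (1 / 2 : ℝ) • (c * e x + e x * c) := by
        rw [hc, ← gg_eq (hH x hx), ← gg_eq' (hH x hx), ← two_smul ℝ, smul_smul]
        norm_num
      rw [e1, hD, mul_sub, sub_mul, mul_smul_comm, smul_mul_assoc]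
      have e2 : (1 / 2 : ℝ) • ((2 : ℝ) • (c * K) - c * e x + ((2 : ℝ) • (K * c) - e x * c)) =
          c * K + K * c - (1 / 2 : ℝ) • (c * e x + e x * c) := by
        rw [smul_add, smul_sub, smul_sub, smul_smul, smul_smul, smul_add]
        norm_num
        abel
      rw [e2]
      abel
    have hDx : D.IsHermitian := hDH x hx
    have hDn : D * np D = -(np D * np D) := by
      have : D * np D = (pp D - np D) * np D := by rw [pp_sub_np hDx]
      rw [this, sub_mul, pp_mul_np, zero_sub]
    have hnD : np D * D = -(np D * np D) := by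
      have : np D * D = np D * (pp D - np D) := by rw [pp_sub_np hDx]
      rw [this, mul_sub, np_mul_pp, zero_sub]
    have hn2 : (np D * np D).PosSemidef := by
      have := posSemidef_conjTranspose_mul_self (np D)
      rwa [(posSemidef_np D).1.eq] at this
    have t1 : tp (np D) (c * D) = - tp (np D * np D) c := by
      rw [← tp_neg_left, ← hDn]
      unfold tp
      rw [mul_assoc, Matrix.trace_mul_comm D (np D * c), ← mul_assoc]
    have t2 : tp (np D) (D * c) = - tp (np D * np D) c := by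
      rw [← tp_neg_left, ← hnD]
      unfold tp
      rw [mul_assoc]
    have t3 : 0 ≤ tp (np D * np D) c := tp_nonneg hn2 (posSemidef_cc B (e x))
    have t4 : 0 ≤ tp (np D) (Y x) := tp_nonneg (posSemidef_np D) (hY x hx)
    rw [hvf, tp_add_right, tp_neg_right, tp_smul_right, tp_add_right, t1, t2]
    linarith
  have hanti : AntitoneOn (fun y => nsq ((2 : ℝ) • K - e y)) (Icc (-L) L) := by
    refine antitoneOn_of_hasDerivWithinAt_nonpos (convex_Icc _ _)
      (fun x hx => (hd x hx).continuousWithinAt)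
      (fun x hx => (hd x (interior_subset hx)).mono interior_subset)
      (fun x hx => hsign x (interior_subset hx))
  intro x hx
  refine posSemidef_of_np_eq_zero (hDH x hx) (np_eq_zero_of_nsq ?_)
  refine le_antisymm ?_ (nsq_nonneg _)
  have h0 : (-L) ∈ Icc (-L) L := ⟨le_rfl, by linarith⟩
  refine (hanti h0 hx hx.1).trans ?_
  simp only [h.init, sub_self]
  exact nsq_zero.le

/-- If the solution vanishes at the end, it is nonnegative. -/
theorem nonneg (h : IsSol B L K Y e) (hL : 0 < L) (hK : K.IsHermitian)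
    (hY : ∀ x ∈ Icc (-L) L, (Y x).PosSemidef) (hend : e L = 0) :
    ∀ x ∈ Icc (-L) L, (e x).PosSemidef := by
  have hH := h.isHermitian hK (fun x hx => (hY x hx).1)
  have hd : ∀ x ∈ Icc (-L) L, HasDerivWithinAt (fun y => nsq (e y))
      (-2 * tp (np (e x)) (vf B K (Y x) (e x))) (Icc (-L) L) x :=
    fun x hx => hasDerivWithinAt_nsq hx hH (h.deriv x hx)
  have hsign : ∀ x ∈ Icc (-L) L, 0 ≤ -2 * tp (np (e x)) (vf B K (Y x) (e x)) := by
    intro x hx
    have hc1 : cc B (e x) * np (e x) = 0 := by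
      unfold cc
      rw [hp_eq (hH x hx)]
      exact cf_mul_np_eq_zero (fun t ht => tent_of_nonpos ht.le) _
    have hc2 : np (e x) * cc B (e x) = 0 := by
      unfold cc
      rw [hp_eq (hH x hx)]
      exact np_mul_cf_eq_zero (fun t ht => tent_of_nonpos ht.le) _
    have hg2 : np (e x) * gg B (e x) = 0 := by
      unfold gg
      rw [hp_eq (hH x hx)]
      exact np_mul_cf_eq_zero (fun t ht => by unfold gt; rw [tent_of_nonpos ht.le, mul_zero]) _
    have t1 : tp (np (e x)) (K * cc B (e x)) = 0 := by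
      unfold tp
      rw [← mul_assoc, Matrix.trace_mul_comm, ← mul_assoc, hc1, zero_mul]
      simp
    have t2 : tp (np (e x)) (cc B (e x) * K) = 0 := by
      unfold tp
      rw [← mul_assoc, hc2, zero_mul]
      simp
    have t3 : tp (np (e x)) (gg B (e x)) = 0 := by
      unfold tp
      rw [hg2]
      simp
    have t4 : 0 ≤ tp (np (e x)) (Y x) := tp_nonneg (posSemidef_np _) (hY x hx)
    unfold vf
    rw [tp_sub_right, tp_sub_right, tp_add_right, t1, t2, t3]
    linarith
  have hmono : MonotoneOn (fun y => nsq (e y)) (Icc (-L) L) := by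
    refine monotoneOn_of_hasDerivWithinAt_nonneg (convex_Icc _ _)
      (fun x hx => (hd x hx).continuousWithinAt)
      (fun x hx => (hd x (interior_subset hx)).mono interior_subset)
      (fun x hx => hsign x (interior_subset hx))
  intro x hx
  refine posSemidef_of_np_eq_zero (hH x hx) (np_eq_zero_of_nsq ?_)
  refine le_antisymm ?_ (nsq_nonneg _)
  have h0 : L ∈ Icc (-L) L := ⟨by linarith, le_rfl⟩
  refine (hmono hx h0 hx.2).trans ?_
  simp only [hend]
  exact nsq_zero.le

end IsSol

end Crest.Agent.R332.Full
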