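import Crest.Agent.R332.OdeLA
import Crest.Prelude.Def_LiebThirring

/-! # Row 332: classification of the limit system of S0516 (F4). -/

set_option autoImplicit false
open Matrix MeasureTheory Set Filter Topology
open scoped ComplexOrder Matrix.Norms.Frobenius
open Crest.MathPhysics.LiebThirring

namespace Crest.Agent.R332.Ode

/-- The limit system (matrix level). -/
structure RSQ {m : ℕ} (r κ : ℝ) (R S Q : ℝ → Matrix (Fin m) (Fin m) ℂ) : Prop where
  hR : ∀ x, (R x).PosSemidef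
  hS : ∀ x, (S x).IsHermitian
  dR : ∀ x, HasDerivAt R ((2:ℂ) • S x) x
  dS : ∀ x, HasDerivAt S ((2:ℂ) • Q x - (r:ℂ) • mpow (R x) (1 + r)) x
  cQ : Continuous Q
  comm : ∀ x, R x * S x = S x * R x
  RQ : ∀ x, mpow (R x) r * Q x = S x * mpow (R x) (r - 1) * S x
  b1 : ∀ x, (κ • R x - S x).PosSemidef
  b2 : ∀ x, (κ • R x + S x).PosSemidef

variable {m : ℕ} {r κ : ℝ} {R S Q : ℝ → Matrix (Fin m) (Fin m) ℂ}

lemma RSQ.contR (h : RSQ r κ R S Q) : Continuous R :=
  continuous_iff_continuousAt.2 fun x => (h.dR x).continuousAt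

lemma RSQ.contS (h : RSQ r κ R S Q) : Continuous S :=
  continuous_iff_continuousAt.2 fun x => (h.dS x).continuousAt

/-- `R Q = S²`. -/
lemma RSQ.RQ' (h : RSQ r κ R S Q) (x : ℝ) : R x * Q x = S x * S x := by
  set A := R x with hA
  have hAh : A.IsHermitian := (h.hR x).1
  set U : Matrix (Fin m) (Fin m) ℂ := (hAh.eigenvectorUnitary : Matrix (Fin m) (Fin m) ℂ) with hU
  have u1 : Uᴴ * U = 1 := unitary_conj_mul hAh
  have u2 : U * Uᴴ = 1 := unitary_mul_conj hAh
  set d : Fin m → ℝ := hAh.eigenvalues with hd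
  have hd0 : ∀ i, 0 ≤ d i := fun i => (h.hR x).eigenvalues_nonneg i
  have eA : A = U * diagonal (fun i => ((d i : ℝ) : ℂ)) * Uᴴ := eq_conj hAh
  have eP : ∀ q, mpow A q = U * diagonal (fun i => ((d i ^ q : ℝ) : ℂ)) * Uᴴ := fun q =>
    cfc_eq_conj hAh _
  set S' := Uᴴ * S x * U with hS'
  set Q' := Uᴴ * Q x * U with hQ'
  have hS'h : S'.IsHermitian := by
    have := Matrix.isHermitian_conjTranspose_mul_mul U (h.hS x)
    exact this
  have eS : S x = U * S' * Uᴴ := by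
    rw [hS']
    calc S x = (U * Uᴴ) * S x * (U * Uᴴ) := by rw [u2]; simp
      _ = _ := by simp only [Matrix.mul_assoc]
  have eQ : Q x = U * Q' * Uᴴ := by
    rw [hQ']
    calc Q x = (U * Uᴴ) * Q x * (U * Uᴴ) := by rw [u2]; simp
      _ = _ := by simp only [Matrix.mul_assoc]
  -- conj: cancel U
  have cancel : ∀ X Y : Matrix (Fin m) (Fin m) ℂ, U * X * Uᴴ = U * Y * Uᴴ → X = Y := by
    intro X Y hXY
    have : Uᴴ * (U * X * Uᴴ) * U = Uᴴ * (U * Y * Uᴴ) * U := by rw [hXY]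
    calc X = (Uᴴ * U) * X * (Uᴴ * U) := by rw [u1]; simp
      _ = Uᴴ * (U * X * Uᴴ) * U := by simp only [Matrix.mul_assoc]
      _ = Uᴴ * (U * Y * Uᴴ) * U := this
      _ = (Uᴴ * U) * Y * (Uᴴ * U) := by simp only [Matrix.mul_assoc]
      _ = Y := by rw [u1]; simp
  have mm : ∀ X Y : Matrix (Fin m) (Fin m) ℂ, (U * X * Uᴴ) * (U * Y * Uᴴ) = U * (X * Y) * Uᴴ := by
    intro X Y
    calc (U * X * Uᴴ) * (U * Y * Uᴴ) = U * X * (Uᴴ * U) * Y * Uᴴ := by simp only [Matrix.mul_assoc]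
      _ = _ := by rw [u1]; simp only [Matrix.mul_one, Matrix.mul_assoc]
  have hcomm : diagonal (fun i => ((d i : ℝ) : ℂ)) * S' = S' * diagonal (fun i => ((d i : ℝ) : ℂ)) := by
    apply cancel
    rw [← mm (diagonal (fun i => ((d i : ℝ) : ℂ))) S', ← mm S' (diagonal (fun i => ((d i : ℝ) : ℂ))),
      ← eA, ← eS]
    exact h.comm x
  have hc : ∀ i j, d i ≠ d j → S' i j = 0 := by
    intro i j hij
    have := congrFun (congrFun hcomm i) j
    rw [Matrix.diagonal_mul, Matrix.mul_diagonal] at this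
    have h3 : (((d i : ℝ) : ℂ) - ((d j : ℝ) : ℂ)) * S' i j = 0 := by
      linear_combination this
    rcases mul_eq_zero.1 h3 with h4 | h4
    · exfalso; apply hij; exact_mod_cast sub_eq_zero.1 h4
    · exact h4
  have hRQ : diagonal (fun i => ((d i ^ r : ℝ) : ℂ)) * Q' =
      S' * diagonal (fun i => ((d i ^ (r - 1) : ℝ) : ℂ)) * S' := by
    apply cancel
    rw [← mm (diagonal (fun i => ((d i ^ r : ℝ) : ℂ))) Q',
      ← mm (S' * diagonal (fun i => ((d i ^ (r - 1) : ℝ) : ℂ))) S',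
      ← mm S' (diagonal (fun i => ((d i ^ (r - 1) : ℝ) : ℂ))), ← eP, ← eP, ← eS, ← eQ]
    exact h.RQ x
  -- kernel
  have hker : ∀ i, d i = 0 → ∀ j, S' i j = 0 := by
    intro i hi j
    have h1 : A *ᵥ (U *ᵥ Pi.single i 1) = 0 := by
      rw [Matrix.mulVec_mulVec, eA, Matrix.mul_assoc, u1, Matrix.mul_one, ← Matrix.mulVec_mulVec]
      have : diagonal (fun i => ((d i : ℝ) : ℂ)) *ᵥ (Pi.single i 1) = 0 := by
        ext k
        rw [Matrix.mulVec_diagonal]
        by_cases hk : k = i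
        · subst hk; simp [hi]
        · simp [hk]
      rw [this, Matrix.mulVec_zero]
    have h2 := mulVec_eq_zero_of_bound (h.b1 x) (h.b2 x) h1
    have h3 : S' *ᵥ Pi.single i 1 = 0 := by
      rw [hS', ← Matrix.mulVec_mulVec, ← Matrix.mulVec_mulVec, h2, Matrix.mulVec_zero]
    have h4 : S' j i = 0 := by
      have := congrFun h3 j
      simpa using this
    rw [← hS'h.apply, h4]; simp
  have hfin : diagonal (fun i => ((d i : ℝ) : ℂ)) * Q' = S' * S' := by
    ext i j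
    rw [Matrix.diagonal_mul]
    by_cases hi : d i = 0
    · rw [hi, Matrix.mul_apply]
      simp [hker i hi]
    · have h1 := congrFun (congrFun hRQ i) j
      rw [Matrix.diagonal_mul, Matrix.mul_apply] at h1
      have h2 : ∀ k, (S' * diagonal (fun i => ((d i ^ (r - 1) : ℝ) : ℂ))) i k * S' k j =
          ((d i ^ (r - 1) : ℝ) : ℂ) * (S' i k * S' k j) := by
        intro k
        rw [Matrix.mul_diagonal]
        by_cases hk : d i = d k
        · rw [← hk]; ring
        · rw [hc i k hk]; ring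
      simp_rw [h2] at h1
      rw [← Finset.mul_sum, ← Matrix.mul_apply] at h1
      have hdi : 0 < d i := lt_of_le_of_ne (hd0 i) (Ne.symm hi)
      have h3 : ((d i ^ r : ℝ) : ℂ) = ((d i ^ (r - 1) : ℝ) : ℂ) * ((d i : ℝ) : ℂ) := by
        rw [← Complex.ofReal_mul, ← Real.rpow_add_one hdi.ne']
        congr 2; ring
      rw [h3, mul_assoc] at h1
      have h4 : ((d i ^ (r - 1) : ℝ) : ℂ) ≠ 0 := by
        have : 0 < d i ^ (r - 1) := Real.rpow_pos_of_pos hdi _
        exact_mod_cast this.ne'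
      exact mul_left_cancel₀ h4 h1
  rw [eA, eQ, eS, mm (diagonal (fun i => ((d i : ℝ) : ℂ))) Q', mm S' S', hfin]


/-- reflection symmetry -/
lemma RSQ.reflect (h : RSQ r κ R S Q) :
    RSQ r κ (fun x => R (-x)) (fun x => -S (-x)) (fun x => Q (-x)) where
  hR x := h.hR (-x)
  hS x := (h.hS (-x)).neg
  dR x := by
    have h1 := (h.dR (-x)).scomp x (hasDerivAt_neg x)
    refine h1.congr_deriv ?_
    simp
  dS x := by
    have h1 := ((h.dS (-x)).scomp x (hasDerivAt_neg x)).neg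
    refine h1.congr_deriv ?_
    simp
  cQ := h.cQ.comp continuous_neg
  comm x := by rw [mul_neg, neg_mul, h.comm]
  RQ x := by rw [h.RQ (-x)]; simp
  b1 x := by simpa using h.b2 (-x)
  b2 x := by simpa [sub_eq_add_neg] using h.b1 (-x)

/-- unitary covariance -/
lemma RSQ.conj (h : RSQ r κ R S Q) (V : Matrix.unitaryGroup (Fin m) ℂ) :
    RSQ r κ (fun x => (V : Matrix (Fin m) (Fin m) ℂ) * R x * star (V : Matrix (Fin m) (Fin m) ℂ))
      (fun x => (V : Matrix (Fin m) (Fin m) ℂ) * S x * star (V : Matrix (Fin m) (Fin m) ℂ))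
      (fun x => (V : Matrix (Fin m) (Fin m) ℂ) * Q x * star (V : Matrix (Fin m) (Fin m) ℂ)) where
  hR x := (h.hR x).mul_mul_conjTranspose_same _
  hS x := Matrix.isHermitian_mul_mul_conjTranspose _ (h.hS x)
  dR x := by
    have h1 := ((h.dR x).const_mul (V : Matrix (Fin m) (Fin m) ℂ)).mul_const
      (star (V : Matrix (Fin m) (Fin m) ℂ))
    refine h1.congr_deriv ?_
    simp
  dS x := by
    have h1 := ((h.dS x).const_mul (V : Matrix (Fin m) (Fin m) ℂ)).mul_const
      (star (V : Matrix (Fin m) (Fin m) ℂ))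
    refine h1.congr_deriv ?_
    unfold mpow
    rw [cfc_unitary_conj V (h.hR x).1]
    simp [mul_sub, sub_mul]
  cQ := (continuous_const.mul h.cQ).mul continuous_const
  comm x := by
    have hV : star (V : Matrix (Fin m) (Fin m) ℂ) * (V : Matrix (Fin m) (Fin m) ℂ) = 1 :=
      Unitary.coe_star_mul_self V
    have mm : ∀ X Y : Matrix (Fin m) (Fin m) ℂ,
        ((V : Matrix (Fin m) (Fin m) ℂ) * X * star (V : Matrix (Fin m) (Fin m) ℂ)) *
        ((V : Matrix (Fin m) (Fin m) ℂ) * Y * star (V : Matrix (Fin m) (Fin m) ℂ)) =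
        (V : Matrix (Fin m) (Fin m) ℂ) * (X * Y) * star (V : Matrix (Fin m) (Fin m) ℂ) := by
      intro X Y
      calc _ = (V : Matrix (Fin m) (Fin m) ℂ) * X *
            (star (V : Matrix (Fin m) (Fin m) ℂ) * (V : Matrix (Fin m) (Fin m) ℂ)) * Y *
            star (V : Matrix (Fin m) (Fin m) ℂ) := by simp only [mul_assoc]
        _ = _ := by rw [hV]; simp only [mul_one, mul_assoc]
    rw [mm, mm, h.comm]
  RQ x := by
    have hV : star (V : Matrix (Fin m) (Fin m) ℂ) * (V : Matrix (Fin m) (Fin m) ℂ) = 1 :=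
      Unitary.coe_star_mul_self V
    have mm : ∀ X Y : Matrix (Fin m) (Fin m) ℂ,
        ((V : Matrix (Fin m) (Fin m) ℂ) * X * star (V : Matrix (Fin m) (Fin m) ℂ)) *
        ((V : Matrix (Fin m) (Fin m) ℂ) * Y * star (V : Matrix (Fin m) (Fin m) ℂ)) =
        (V : Matrix (Fin m) (Fin m) ℂ) * (X * Y) * star (V : Matrix (Fin m) (Fin m) ℂ) := by
      intro X Y
      calc _ = (V : Matrix (Fin m) (Fin m) ℂ) * X *
            (star (V : Matrix (Fin m) (Fin m) ℂ) * (V : Matrix (Fin m) (Fin m) ℂ)) * Y *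
            star (V : Matrix (Fin m) (Fin m) ℂ) := by simp only [mul_assoc]
        _ = _ := by rw [hV]; simp only [mul_one, mul_assoc]
    unfold mpow
    rw [cfc_unitary_conj V (h.hR x).1, cfc_unitary_conj V (h.hR x).1, mm, mm, mm]
    have := h.RQ x
    unfold mpow at this
    rw [this]
  b1 x := by
    have := (h.b1 x).mul_mul_conjTranspose_same (V : Matrix (Fin m) (Fin m) ℂ)
    convert this using 1
    simp [mul_sub, sub_mul, star_eq_conjTranspose]
  b2 x := by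
    have := (h.b2 x).mul_mul_conjTranspose_same (V : Matrix (Fin m) (Fin m) ℂ)
    convert this using 1
    simp [mul_add, add_mul, star_eq_conjTranspose]

/-- the kernel of `R` can only grow to the right -/
lemma RSQ.ker_right (h : RSQ r κ R S Q) {x0 : ℝ} {v : Fin m → ℂ} (hv : R x0 *ᵥ v = 0) :
    ∀ x, x0 ≤ x → R x *ᵥ v = 0 := by
  intro x hx
  let f : ℝ → ℝ := fun x => (star v ⬝ᵥ (R x *ᵥ v)).re
  let f' : ℝ → ℝ := fun x => 2 * (star v ⬝ᵥ (S x *ᵥ v)).re
  let Lc : Matrix (Fin m) (Fin m) ℂ →ₗ[ℝ] ℝ :=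
    { toFun := fun A => (star v ⬝ᵥ (A *ᵥ v)).re
      map_add' := fun A B => by simp [Matrix.add_mulVec, dotProduct_add]
      map_smul' := fun c A => by
        rw [Matrix.smul_mulVec, dotProduct_smul]; simp }
  have hLc : ∀ A, Lc A = (star v ⬝ᵥ (A *ᵥ v)).re := fun A => rfl
  have hf : ∀ x, HasDerivAt f (f' x) x := by
    intro x
    have h1 := (LinearMap.toContinuousLinearMap Lc).hasFDerivAt.comp_hasDerivAt x (h.dR x)
    refine h1.congr_deriv ?_
    show Lc ((2:ℂ) • S x) = 2 * (star v ⬝ᵥ (S x *ᵥ v)).re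
    rw [hLc, Matrix.smul_mulVec, dotProduct_smul]
    simp
  have hb : ∀ x, ‖f' x‖ ≤ (2 * κ) * ‖f x‖ := by
    intro x
    have p0 := (h.hR x).dotProduct_mulVec_nonneg v
    have p1 := (h.b1 x).dotProduct_mulVec_nonneg v
    have p2 := (h.b2 x).dotProduct_mulVec_nonneg v
    have q0 := (Complex.le_def.1 p0).1
    have q1 := (Complex.le_def.1 p1).1
    have q2 := (Complex.le_def.1 p2).1
    rw [Matrix.sub_mulVec, Matrix.smul_mulVec, dotProduct_sub, dotProduct_smul] at q1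
    rw [Matrix.add_mulVec, Matrix.smul_mulVec, dotProduct_add, dotProduct_smul] at q2
    simp only [Complex.zero_re, Complex.sub_re, Complex.add_re, Complex.real_smul, Complex.mul_re,
      Complex.ofReal_re, Complex.ofReal_im, zero_mul, sub_zero] at q0 q1 q2
    rw [Real.norm_eq_abs, Real.norm_eq_abs, abs_of_nonneg (show 0 ≤ f x from q0)]
    rw [abs_le]
    constructor
    · show -(2 * κ * (star v ⬝ᵥ (R x *ᵥ v)).re) ≤ 2 * (star v ⬝ᵥ (S x *ᵥ v)).re
      linarith
    · show 2 * (star v ⬝ᵥ (S x *ᵥ v)).re ≤ 2 * κ * (star v ⬝ᵥ (R x *ᵥ v)).re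
      linarith
  have h0 := eq_zero_of_abs_deriv_le_mul_abs_self_of_eq_zero_right (f := f) (f' := f') (K := 2 * κ)
    (a := x0) (b := x)
    (continuous_iff_continuousAt.2 fun x => (hf x).continuousAt).continuousOn
    (fun x _ => (hf x).hasDerivWithinAt) (by simp [f, hv]) (fun x _ => hb x) x ⟨hx, le_rfl⟩
  have p0 := (h.hR x).dotProduct_mulVec_nonneg v
  apply ((h.hR x).dotProduct_mulVec_zero_iff v).1
  apply Complex.ext
  · exact h0
  · exact (Complex.le_def.1 p0).2.symm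

/-- the kernel of `R` is constant -/
lemma RSQ.ker_const (h : RSQ r κ R S Q) {x0 : ℝ} {v : Fin m → ℂ} (hv : R x0 *ᵥ v = 0) (x : ℝ) :
    R x *ᵥ v = 0 := by
  rcases le_total x0 x with hx | hx
  · exact h.ker_right hv x hx
  · have := h.reflect.ker_right (x0 := -x0) (v := v) (by simpa using hv) (-x) (by linarith)
    simpa using this


lemma mpow_one_add {A : Matrix (Fin m) (Fin m) ℂ} (hA : A.PosSemidef) (hr : 0 < r) :
    mpow A (1 + r) = mpow A r * A := by
  have hid : cfc (fun t : ℝ => t) A = A := cfc_id' ℝ A hA.1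
  have h1 : mpow A (1 + r) = cfc (fun t : ℝ => t ^ r * t) A := by
    apply cfc_congr_eig hA.1
    intro i
    have h0 := hA.eigenvalues_nonneg i
    rcases h0.eq_or_lt with h | h
    · simp only [← h]
      rw [Real.zero_rpow (by linarith), mul_zero]
    · rw [add_comm, Real.rpow_add_one h.ne']
  rw [h1, cfc_mul', hid]
  rfl

/-- rows with vanishing initial eigenvalue vanish for all times -/
lemma RSQ.row_zero (hr : 0 < r) (h : RSQ r κ R S Q) {ρ : Fin m → ℝ}
    (h0 : R 0 = diagonal (fun i => (ρ i : ℂ))) {i : Fin m} (hi : ρ i = 0) (x : ℝ) (j : Fin m) :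
    R x i j = 0 ∧ S x i j = 0 ∧ mpow (R x) (1 + r) i j = 0 ∧ Q x i j = 0 := by
  have hk0 : R 0 *ᵥ (Pi.single i 1) = 0 := by
    rw [h0]
    ext k
    rw [Matrix.mulVec_diagonal]
    by_cases hk : k = i
    · subst hk; simp [hi]
    · simp [hk]
  have hk : ∀ x, R x *ᵥ (Pi.single i 1) = 0 := fun x => h.ker_const hk0 x
  have hs : ∀ x, S x *ᵥ (Pi.single i 1) = 0 := fun x => mulVec_eq_zero_of_bound (h.b1 x) (h.b2 x) (hk x)
  have hp : ∀ x, mpow (R x) (1 + r) *ᵥ (Pi.single i 1) = 0 := fun x => by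
    rw [mpow_one_add (h.hR x) hr, ← Matrix.mulVec_mulVec, hk, Matrix.mulVec_zero]
  have tr : ∀ {A : Matrix (Fin m) (Fin m) ℂ}, A.IsHermitian → A *ᵥ (Pi.single i 1) = 0 → ∀ j, A i j = 0 := by
    intro A hA hA0 j
    have h1 := congrFun hA0 j
    have h2 : A j i = 0 := by simpa using h1
    rw [← hA.apply, h2]; simp
  have eR : ∀ x j, R x i j = 0 := fun x => tr (h.hR x).1 (hk x)
  have eS : ∀ x j, S x i j = 0 := fun x => tr (h.hS x) (hs x)
  have eP : ∀ x j, mpow (R x) (1 + r) i j = 0 := fun x => tr (mpow_isHermitian _ _) (hp x)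
  refine ⟨eR x j, eS x j, eP x j, ?_⟩
  have h1 := hasDerivAt_pi.1 (hasDerivAt_pi.1 (h.dS x) i) j
  have h2 : HasDerivAt (fun x => S x i j) 0 x := by
    have : (fun x => S x i j) = fun _ => 0 := funext fun x => eS x j
    rw [this]; exact hasDerivAt_const _ _
  have h3 := h1.unique h2
  simp only [Matrix.sub_apply, Matrix.smul_apply, smul_eq_mul, eP x j, mul_zero, sub_zero] at h3
  simpa using h3

/-- projection on the common kernel -/
noncomputable def kerProj (ρ : Fin m → ℝ) : Matrix (Fin m) (Fin m) ℂ :=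
  diagonal (fun i => if ρ i = 0 then (1:ℂ) else 0)

lemma RSQ.isUnit_add (h : RSQ r κ R S Q) {ρ : Fin m → ℝ}
    (h0 : R 0 = diagonal (fun i => (ρ i : ℂ))) (x : ℝ) : IsUnit (R x + kerProj ρ) := by
  rw [← Matrix.mulVec_injective_iff_isUnit]
  have hP : (kerProj ρ).PosSemidef := by
    apply Matrix.PosSemidef.diagonal
    intro i
    show (0:ℂ) ≤ if ρ i = 0 then (1:ℂ) else 0
    split_ifs <;> simp
  intro v w hvw
  rw [← sub_eq_zero]
  set u := v - w with hu
  have hu0 : (R x + kerProj ρ) *ᵥ u = 0 := by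
    rw [hu, Matrix.mulVec_sub, sub_eq_zero]; exact hvw
  have h1 : star u ⬝ᵥ (R x *ᵥ u) + star u ⬝ᵥ (kerProj ρ *ᵥ u) = 0 := by
    rw [← dotProduct_add, ← Matrix.add_mulVec, hu0, dotProduct_zero]
  have p1 := (h.hR x).dotProduct_mulVec_nonneg u
  have p2 := hP.dotProduct_mulVec_nonneg u
  have h2 : star u ⬝ᵥ (R x *ᵥ u) = 0 := le_antisymm (by
    calc star u ⬝ᵥ (R x *ᵥ u) ≤ star u ⬝ᵥ (R x *ᵥ u) + star u ⬝ᵥ (kerProj ρ *ᵥ u) := le_add_of_nonneg_right p2
      _ = 0 := h1) p1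
  have h3 : star u ⬝ᵥ (kerProj ρ *ᵥ u) = 0 := by rw [h2, zero_add] at h1; exact h1
  have k1 : R x *ᵥ u = 0 := ((h.hR x).dotProduct_mulVec_zero_iff u).1 h2
  have k2 : kerProj ρ *ᵥ u = 0 := (hP.dotProduct_mulVec_zero_iff u).1 h3
  have k3 := h.ker_const k1 0
  rw [h0] at k3
  ext i
  have e3 := congrFun k3 i
  have e2 := congrFun k2 i
  rw [Matrix.mulVec_diagonal] at e3
  unfold kerProj at e2
  rw [Matrix.mulVec_diagonal] at e2
  by_cases hi : ρ i = 0
  · simpa [hi] using e2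
  · rcases mul_eq_zero.1 e3 with e4 | e4
    · exfalso; apply hi; exact_mod_cast e4
    · simpa using e4

lemma RSQ.continuous_inv (h : RSQ r κ R S Q) {ρ : Fin m → ℝ}
    (h0 : R 0 = diagonal (fun i => (ρ i : ℂ))) : Continuous (fun x => (R x + kerProj ρ)⁻¹) := by
  have hc : Continuous (fun x => R x + kerProj ρ) := h.contR.add continuous_const
  simp only [Matrix.inv_def, Ring.inverse_eq_inv']
  refine Continuous.smul (Continuous.inv₀ hc.matrix_det fun x => ?_) hc.matrix_adjugate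
  have := h.isUnit_add h0 x
  rw [Matrix.isUnit_iff_isUnit_det] at this
  exact this.ne_zero

lemma eig_le_frob {A : Matrix (Fin m) (Fin m) ℂ} (hA : A.IsHermitian) (i : Fin m) :
    hA.eigenvalues i ≤ ‖A‖ := by
  have h1 : ‖A‖ ^ 2 = ∑ j, hA.eigenvalues j ^ 2 := by
    rw [frob_sq_herm hA]
    have hid : cfc (fun t : ℝ => t) A = A := cfc_id' ℝ A hA
    have : A * A = cfc (fun t : ℝ => t ^ 2) A := by
      have := cfc_mul' (A := A) (fun t : ℝ => t) (fun t => t)
      rw [hid] at this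
      rw [← this]
      congr 1; funext t; ring
    rw [this, rtr_cfc hA]
  have h2 : hA.eigenvalues i ^ 2 ≤ ‖A‖ ^ 2 := by
    rw [h1]
    exact Finset.single_le_sum (f := fun j => hA.eigenvalues j ^ 2) (fun j _ => sq_nonneg _) (Finset.mem_univ i)
  exact (abs_le_of_sq_le_sq' h2 (norm_nonneg _)).2

lemma rpow_lip {q C : ℝ} (hq : 1 ≤ q) {a b : ℝ} (ha : 0 ≤ a) (haC : a ≤ C) (hb : 0 ≤ b)
    (hbC : b ≤ C) : |a ^ q - b ^ q| ≤ q * C ^ (q - 1) * |a - b| := by
  have := Convex.norm_image_sub_le_of_norm_hasDerivWithin_le (f := fun t : ℝ => t ^ q)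
    (f' := fun t => q * t ^ (q - 1)) (s := Icc 0 C) (x := b) (y := a) (C := q * C ^ (q - 1))
    (fun x hx => (Real.hasDerivAt_rpow_const (Or.inr hq)).hasDerivWithinAt)
    (fun x hx => by
      rw [Real.norm_eq_abs, abs_mul, abs_of_nonneg (by linarith : 0 ≤ q),
        abs_of_nonneg (Real.rpow_nonneg hx.1 _)]
      exact mul_le_mul_of_nonneg_left (Real.rpow_le_rpow hx.1 hx.2 (by linarith)) (by linarith))
    (convex_Icc 0 C) ⟨hb, hbC⟩ ⟨ha, haC⟩
  simpa [Real.norm_eq_abs] using this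

lemma mpow_lip {A B : Matrix (Fin m) (Fin m) ℂ} (hA : A.PosSemidef) (hB : B.PosSemidef) {q C : ℝ}
    (hq : 1 ≤ q) (hC : 0 ≤ C) (hAC : ‖A‖ ≤ C) (hBC : ‖B‖ ≤ C) :
    ‖mpow A q - mpow B q‖ ≤ q * C ^ (q - 1) * ‖A - B‖ := by
  apply frob_cfc_sub_le hA.1 hB.1
  · have := Real.rpow_nonneg hC (q - 1)
    positivity
  · intro i j
    exact rpow_lip hq (hA.eigenvalues_nonneg i) ((eig_le_frob hA.1 i).trans hAC)
      (hB.eigenvalues_nonneg j) ((eig_le_frob hB.1 j).trans hBC)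


/-- forward uniqueness for the limit system with diagonal initial density -/
theorem RSQ.unique_right (hr : 0 < r) {R₁ S₁ Q₁ R₂ S₂ Q₂ : ℝ → Matrix (Fin m) (Fin m) ℂ}
    (h₁ : RSQ r κ R₁ S₁ Q₁) (h₂ : RSQ r κ R₂ S₂ Q₂) {ρ : Fin m → ℝ}
    (hR₁ : R₁ 0 = diagonal (fun i => (ρ i : ℂ))) (hR₂ : R₂ 0 = diagonal (fun i => (ρ i : ℂ)))
    (hS : S₁ 0 = S₂ 0) : ∀ x, 0 ≤ x → R₁ x = R₂ x := by
  intro T hT
  have cG := h₁.continuous_inv hR₁
  set G : ℝ → Matrix (Fin m) (Fin m) ℂ := fun x => (R₁ x + kerProj ρ)⁻¹ with hG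
  -- common bound
  obtain ⟨C, hC⟩ := (isCompact_Icc (a := (0:ℝ)) (b := T)).exists_bound_of_continuousOn
    (f := fun x => ‖G x‖ + ‖S₁ x‖ + ‖S₂ x‖ + ‖Q₂ x‖ + ‖R₁ x‖ + ‖R₂ x‖)
    (((((cG.norm.add h₁.contS.norm).add h₂.contS.norm).add h₂.cQ.norm).add h₁.contR.norm).add
      h₂.contR.norm).continuousOn
  have hC' : ∀ x ∈ Icc (0:ℝ) T, ‖G x‖ ≤ C ∧ ‖S₁ x‖ ≤ C ∧ ‖S₂ x‖ ≤ C ∧ ‖Q₂ x‖ ≤ C ∧
      ‖R₁ x‖ ≤ C ∧ ‖R₂ x‖ ≤ C := by
    intro x hx
    have h0 := hC x hx
    rw [Real.norm_eq_abs] at h0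
    have h1 := (le_abs_self _).trans h0
    have n1 := norm_nonneg (G x)
    have n2 := norm_nonneg (S₁ x)
    have n3 := norm_nonneg (S₂ x)
    have n4 := norm_nonneg (Q₂ x)
    have n5 := norm_nonneg (R₁ x)
    have n6 := norm_nonneg (R₂ x)
    refine ⟨?_, ?_, ?_, ?_, ?_, ?_⟩ <;> linarith
  have hC0 : 0 ≤ C := (norm_nonneg _).trans (hC' 0 ⟨le_rfl, hT⟩).1
  set K : ℝ := 2 + 6 * C ^ 2 + r * ((1 + r) * C ^ r) with hK
  let f : ℝ → Matrix (Fin m) (Fin m) ℂ × Matrix (Fin m) (Fin m) ℂ := fun x => (R₁ x - R₂ x, S₁ x - S₂ x)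
  let f' : ℝ → Matrix (Fin m) (Fin m) ℂ × Matrix (Fin m) (Fin m) ℂ := fun x =>
    ((2:ℂ) • S₁ x - (2:ℂ) • S₂ x, ((2:ℂ) • Q₁ x - (r:ℂ) • mpow (R₁ x) (1 + r)) -
      ((2:ℂ) • Q₂ x - (r:ℂ) • mpow (R₂ x) (1 + r)))
  have hf : ∀ x, HasDerivAt f (f' x) x := fun x =>
    ((h₁.dR x).sub (h₂.dR x)).prodMk ((h₁.dS x).sub (h₂.dS x))
  have hb : ∀ x ∈ Ico (0:ℝ) T, ‖f' x‖ ≤ K * ‖f x‖ := by
    intro x hx
    obtain ⟨cG, c1, c2, c3, c4, c5⟩ := hC' x ⟨hx.1, hx.2.le⟩
    have nR : ‖R₁ x - R₂ x‖ ≤ ‖f x‖ := norm_fst_le (f x)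
    have nS : ‖S₁ x - S₂ x‖ ≤ ‖f x‖ := norm_snd_le (f x)
    have nf := norm_nonneg (f x)
    have hQ : Q₁ x - Q₂ x = G x * (S₁ x * (S₁ x - S₂ x) + (S₁ x - S₂ x) * S₂ x - (R₁ x - R₂ x) * Q₂ x) := by
      have hu := h₁.isUnit_add hR₁ x
      have hinv : G x * (R₁ x + kerProj ρ) = 1 :=
        Matrix.nonsing_inv_mul _ ((Matrix.isUnit_iff_isUnit_det _).1 hu)
      have hP : ∀ {R' S' Q' : ℝ → Matrix (Fin m) (Fin m) ℂ} (_ : RSQ r κ R' S' Q')
          (_ : R' 0 = diagonal (fun i => (ρ i : ℂ))), kerProj ρ * Q' x = 0 := by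
        intro R' S' Q' h' h0'
        ext i j
        unfold kerProj
        rw [Matrix.diagonal_mul]
        by_cases hi : ρ i = 0
        · rw [(h'.row_zero hr h0' hi x j).2.2.2]; simp
        · simp [hi]
      have e1 : (R₁ x + kerProj ρ) * (Q₁ x - Q₂ x) =
          S₁ x * (S₁ x - S₂ x) + (S₁ x - S₂ x) * S₂ x - (R₁ x - R₂ x) * Q₂ x := by
        have a1 := h₁.RQ' x
        have a2 := h₂.RQ' x
        have a3 := hP h₁ hR₁
        have a4 := hP h₂ hR₂
        calc (R₁ x + kerProj ρ) * (Q₁ x - Q₂ x)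
            = R₁ x * Q₁ x + kerProj ρ * Q₁ x - kerProj ρ * Q₂ x - R₂ x * Q₂ x
              - (R₁ x - R₂ x) * Q₂ x := by noncomm_ring
          _ = S₁ x * S₁ x - S₂ x * S₂ x - (R₁ x - R₂ x) * Q₂ x := by rw [a1, a2, a3, a4]; simp
          _ = _ := by noncomm_ring
      rw [← e1, ← mul_assoc, hinv, one_mul]
    have nQ : ‖Q₁ x - Q₂ x‖ ≤ 3 * C ^ 2 * ‖f x‖ := by
      rw [hQ]
      have b1 : ‖S₁ x * (S₁ x - S₂ x)‖ ≤ C * ‖f x‖ :=
        (norm_mul_le _ _).trans (mul_le_mul c1 nS (norm_nonneg _) hC0)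
      have b2 : ‖(S₁ x - S₂ x) * S₂ x‖ ≤ ‖f x‖ * C :=
        (norm_mul_le _ _).trans (mul_le_mul nS c2 (norm_nonneg _) nf)
      have b3 : ‖(R₁ x - R₂ x) * Q₂ x‖ ≤ ‖f x‖ * C :=
        (norm_mul_le _ _).trans (mul_le_mul nR c3 (norm_nonneg _) nf)
      calc ‖G x * (S₁ x * (S₁ x - S₂ x) + (S₁ x - S₂ x) * S₂ x - (R₁ x - R₂ x) * Q₂ x)‖
          ≤ ‖G x‖ * ‖S₁ x * (S₁ x - S₂ x) + (S₁ x - S₂ x) * S₂ x - (R₁ x - R₂ x) * Q₂ x‖ := norm_mul_le _ _
        _ ≤ C * (C * ‖f x‖ + ‖f x‖ * C + ‖f x‖ * C) := by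
            apply mul_le_mul cG _ (norm_nonneg _) hC0
            exact (norm_sub_le _ _).trans (add_le_add ((norm_add_le _ _).trans (add_le_add b1 b2)) b3)
        _ = 3 * C ^ 2 * ‖f x‖ := by ring
    have nP : ‖mpow (R₁ x) (1 + r) - mpow (R₂ x) (1 + r)‖ ≤ (1 + r) * C ^ r * ‖f x‖ := by
      have := mpow_lip (h₁.hR x) (h₂.hR x) (q := 1 + r) (by linarith) hC0 c4 c5
      rw [show 1 + r - 1 = r by ring] at this
      refine this.trans (mul_le_mul_of_nonneg_left nR ?_)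
      have := Real.rpow_nonneg hC0 r
      positivity
    have e1 : ‖(2:ℂ) • S₁ x - (2:ℂ) • S₂ x‖ ≤ K * ‖f x‖ := by
      rw [← smul_sub, norm_smul]
      have h2 : ‖(2:ℂ)‖ = 2 := by simp
      rw [h2]
      have h3 : 0 ≤ 6 * C ^ 2 + r * ((1 + r) * C ^ r) := by
        have := Real.rpow_nonneg hC0 r
        positivity
      calc 2 * ‖S₁ x - S₂ x‖ ≤ 2 * ‖f x‖ := by linarith
        _ ≤ K * ‖f x‖ := by
          apply mul_le_mul_of_nonneg_right _ nf
          rw [hK]; linarith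
    have e2 : ‖((2:ℂ) • Q₁ x - (r:ℂ) • mpow (R₁ x) (1 + r)) -
      ((2:ℂ) • Q₂ x - (r:ℂ) • mpow (R₂ x) (1 + r))‖ ≤ K * ‖f x‖ := by
      have e3 : ((2:ℂ) • Q₁ x - (r:ℂ) • mpow (R₁ x) (1 + r)) -
          ((2:ℂ) • Q₂ x - (r:ℂ) • mpow (R₂ x) (1 + r)) = (2:ℂ) • (Q₁ x - Q₂ x) -
          (r:ℂ) • (mpow (R₁ x) (1 + r) - mpow (R₂ x) (1 + r)) := by
        rw [smul_sub, smul_sub]; abel
      rw [e3]
      have h2 : ‖(2:ℂ)‖ = 2 := by simp
      have h3 : ‖(r:ℂ)‖ = r := by simp [abs_of_pos hr]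
      calc ‖(2:ℂ) • (Q₁ x - Q₂ x) - (r:ℂ) • (mpow (R₁ x) (1 + r) - mpow (R₂ x) (1 + r))‖
          ≤ 2 * ‖Q₁ x - Q₂ x‖ + r * ‖mpow (R₁ x) (1 + r) - mpow (R₂ x) (1 + r)‖ := by
            refine (norm_sub_le _ _).trans ?_
            rw [norm_smul, norm_smul, h2, h3]
        _ ≤ 2 * (3 * C ^ 2 * ‖f x‖) + r * ((1 + r) * C ^ r * ‖f x‖) :=
            add_le_add (by linarith) (mul_le_mul_of_nonneg_left nP hr.le)
        _ ≤ K * ‖f x‖ := by
            rw [hK]
            nlinarith [nf]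
    exact max_le e1 e2
  have := eq_zero_of_abs_deriv_le_mul_abs_self_of_eq_zero_right (f := f) (f' := f') (K := K)
    (a := 0) (b := T)
    (continuous_iff_continuousAt.2 fun x => (hf x).continuousAt).continuousOn
    (fun x _ => (hf x).hasDerivWithinAt) (by
      show (R₁ 0 - R₂ 0, S₁ 0 - S₂ 0) = 0
      rw [hR₁, hR₂, hS]; simp) hb T ⟨hT, le_rfl⟩
  exact sub_eq_zero.1 (congrArg Prod.fst this)

theorem RSQ.unique (hr : 0 < r) {R₁ S₁ Q₁ R₂ S₂ Q₂ : ℝ → Matrix (Fin m) (Fin m) ℂ}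
    (h₁ : RSQ r κ R₁ S₁ Q₁) (h₂ : RSQ r κ R₂ S₂ Q₂) {ρ : Fin m → ℝ}
    (hR₁ : R₁ 0 = diagonal (fun i => (ρ i : ℂ))) (hR₂ : R₂ 0 = diagonal (fun i => (ρ i : ℂ)))
    (hS : S₁ 0 = S₂ 0) (x : ℝ) : R₁ x = R₂ x := by
  rcases le_total 0 x with hx | hx
  · exact RSQ.unique_right hr h₁ h₂ hR₁ hR₂ hS x hx
  · have := RSQ.unique_right hr h₁.reflect h₂.reflect (ρ := ρ) (by simpa using hR₁)
      (by simpa using hR₂) (by simpa using hS) (-x) (by linarith)
    simpa using this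


/-- the scalar soliton ODE -/
lemma scalar_soliton (hr : 0 < r) {ρ σ q : ℝ → ℝ} (hρ : ∀ x, 0 < ρ x)
    (dρ : ∀ x, HasDerivAt ρ (2 * σ x) x)
    (dσ : ∀ x, HasDerivAt σ (2 * q x - r * (ρ x) ^ (1 + r)) x)
    (hq : ∀ x, ρ x * q x = σ x ^ 2) :
    ∃ k c : ℝ, 0 ≤ k ∧ ∀ x, (r + 1) * (ρ x) ^ r = soliton r k c x := by
  set v : ℝ → ℝ := fun x => σ x / ρ x with hv
  have hpow : ∀ x, ρ x ^ (1 + r) = ρ x * ρ x ^ r := fun x => by
    rw [Real.rpow_add (hρ x), Real.rpow_one]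
  have dv : ∀ x, HasDerivAt v (-(r * ρ x ^ r)) x := by
    intro x
    have h1 := (dσ x).div (dρ x) (hρ x).ne'
    refine h1.congr_deriv ?_
    have := (hρ x).ne'
    rw [hpow, div_eq_iff (by positivity)]
    have := hq x
    linear_combination 2 * this
  have dE : ∀ x, HasDerivAt (fun x => v x ^ 2 + ρ x ^ r) 0 x := by
    intro x
    have h1 := ((dv x).pow 2).add ((dρ x).rpow_const (p := r) (Or.inl (hρ x).ne'))
    refine h1.congr_deriv ?_
    rw [Real.rpow_sub_one (hρ x).ne']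
    have h0 := (hρ x).ne'
    have hs : σ x = v x * ρ x := by simp only [hv]; field_simp
    rw [hs]
    generalize v x = w
    field_simp
    push_cast
    ring
  have cE : ∀ x, v x ^ 2 + ρ x ^ r = v 0 ^ 2 + ρ 0 ^ r := by
    intro x
    exact is_const_of_deriv_eq_zero (fun x => (dE x).differentiableAt) (fun x => (dE x).deriv) x 0
  have hE0 : 0 < v 0 ^ 2 + ρ 0 ^ r := by
    have := Real.rpow_pos_of_pos (hρ 0) r
    positivity
  set k : ℝ := Real.sqrt (v 0 ^ 2 + ρ 0 ^ r) with hk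
  have hk0 : 0 < k := Real.sqrt_pos.2 hE0
  have hk2 : ∀ x, ρ x ^ r = k ^ 2 - v x ^ 2 := by
    intro x
    rw [hk, Real.sq_sqrt hE0.le, ← cE x]; ring
  have hlt : ∀ x, v x ^ 2 < k ^ 2 := by
    intro x
    have := Real.rpow_pos_of_pos (hρ x) r
    rw [hk2] at this; linarith
  have hvk : ∀ x, -k < v x ∧ v x < k := fun x => abs_lt.1 (by
    have := (sq_lt_sq.1 (hlt x)); rwa [abs_of_pos hk0] at this)
  have dL : ∀ x, HasDerivAt (fun x => Real.log (k + v x) - Real.log (k - v x) + 2 * k * r * x) 0 x := by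
    intro x
    have p1 : 0 < k + v x := by linarith [(hvk x).1]
    have p2 : 0 < k - v x := by linarith [(hvk x).2]
    have h1 := (((dv x).const_add k).log p1.ne').sub (((dv x).const_sub k).log p2.ne')
    have h2 := h1.add ((hasDerivAt_id x).const_mul (2 * k * r))
    refine h2.congr_deriv ?_
    rw [hk2]
    have : k ^ 2 - v x ^ 2 = (k + v x) * (k - v x) := by ring
    rw [this]
    field_simp
    ring
  have cL : ∀ x, Real.log (k + v x) - Real.log (k - v x) + 2 * k * r * x =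
      Real.log (k + v 0) - Real.log (k - v 0) := by
    intro x
    have := is_const_of_deriv_eq_zero (fun x => (dL x).differentiableAt) (fun x => (dL x).deriv) x 0
    simpa using this
  set c : ℝ := (Real.log (k + v 0) - Real.log (k - v 0)) / (2 * k * r) with hc
  refine ⟨k, c, hk0.le, fun x => ?_⟩
  have p1 : 0 < k + v x := by linarith [(hvk x).1]
  have p2 : 0 < k - v x := by linarith [(hvk x).2]
  have hLx : Real.log (k + v x) - Real.log (k - v x) = -(2 * (r * k * (x - c))) := by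
    have h1 := cL x
    have h2 : 2 * k * r * c = Real.log (k + v 0) - Real.log (k - v 0) := by
      rw [hc]; field_simp
    linear_combination h1 + h2.symm
  have hratio : (k + v x) = (k - v x) * Real.exp (-(2 * (r * k * (x - c)))) := by
    rw [← hLx, Real.exp_sub, Real.exp_log p1, Real.exp_log p2]
    field_simp
  unfold soliton
  rw [hk2, eq_div_iff (by positivity)]
  set y := r * k * (x - c) with hy
  have e1 : Real.exp (-(2 * y)) = Real.exp (-y) * Real.exp (-y) := by rw [← Real.exp_add]; ring_nf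
  have e2 : Real.exp y * Real.exp (-y) = 1 := by rw [← Real.exp_add]; simp
  rw [e1] at hratio
  rw [Real.cosh_eq]
  -- (k+v) e^{y} = (k-v) e^{-y}
  have h3 : (k + v x) * Real.exp y = (k - v x) * Real.exp (-y) := by
    rw [hratio]
    linear_combination (k - v x) * Real.exp (-y) * e2
  -- v (e^y + e^{-y}) = -k (e^y - e^{-y})
  have h4 : v x * (Real.exp y + Real.exp (-y)) = -k * (Real.exp y - Real.exp (-y)) := by
    linear_combination h3
  have h5 : (v x * (Real.exp y + Real.exp (-y))) ^ 2 = (-k * (Real.exp y - Real.exp (-y))) ^ 2 := by rw [h4]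
  linear_combination (-(r + 1) / 4) * h5 + (r + 1) * k ^ 2 * e2

/-- diagonality is preserved -/
lemma RSQ.offdiag (hr : 0 < r) (h : RSQ r κ R S Q) {ρ σ : Fin m → ℝ}
    (h0 : R 0 = diagonal (fun i => (ρ i : ℂ))) (h0' : S 0 = diagonal (fun i => (σ i : ℂ)))
    {i j : Fin m} (hij : i ≠ j) (x : ℝ) : R x i j = 0 := by
  let θ : Fin m → ℂ := fun k => if k = i then -1 else 1
  have hθ : ∀ k, θ k * star (θ k) = 1 := by
    intro k; simp only [θ]; split_ifs <;> simp
  have hVm : diagonal θ ∈ Matrix.unitaryGroup (Fin m) ℂ := by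
    rw [Matrix.mem_unitaryGroup_iff, star_eq_conjTranspose, Matrix.diagonal_conjTranspose,
      Matrix.diagonal_mul_diagonal]
    ext a b
    by_cases hab : a = b
    · subst hab
      rw [Matrix.diagonal_apply_eq, Matrix.one_apply_eq]
      exact hθ a
    · simp [hab]
  let V : Matrix.unitaryGroup (Fin m) ℂ := ⟨diagonal θ, hVm⟩
  have hVd : ∀ d : Fin m → ℝ, (V : Matrix (Fin m) (Fin m) ℂ) * diagonal (fun i => (d i : ℂ)) *
      star (V : Matrix (Fin m) (Fin m) ℂ) = diagonal (fun i => (d i : ℂ)) := by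
    intro d
    show diagonal θ * diagonal (fun i => (d i : ℂ)) * star (diagonal θ) = _
    rw [star_eq_conjTranspose, Matrix.diagonal_conjTranspose, Matrix.diagonal_mul_diagonal,
      Matrix.diagonal_mul_diagonal]
    congr 1
    funext k
    have := hθ k
    simp only [Pi.star_apply]
    linear_combination (d k : ℂ) * this
  have h2 := RSQ.unique hr h (h.conj V) h0 (by simp only [h0]; exact hVd ρ)
    (by simp only [h0']; exact (hVd σ).symm) x
  have h3 := congrFun (congrFun h2 i) j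
  have h4 : ((V : Matrix (Fin m) (Fin m) ℂ) * R x * star (V : Matrix (Fin m) (Fin m) ℂ)) i j =
      - R x i j := by
    show (diagonal θ * R x * star (diagonal θ)) i j = _
    rw [star_eq_conjTranspose, Matrix.diagonal_conjTranspose, Matrix.mul_diagonal, Matrix.diagonal_mul]
    simp [θ, Ne.symm hij]
  simp only [h4] at h3
  have h5 : (2:ℂ) * R x i j = 0 := by linear_combination h3
  simpa using h5


/-- classification with diagonal initial data -/
theorem RSQ.classify_diag (hr : 0 < r) (h : RSQ r κ R S Q) {ρ σ : Fin m → ℝ}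
    (h0 : R 0 = diagonal (fun i => (ρ i : ℂ))) (h0' : S 0 = diagonal (fun i => (σ i : ℂ))) :
    ∃ a c : Fin m → ℝ, (∀ i, 0 ≤ a i) ∧ ∀ x, ((r + 1 : ℝ) : ℂ) • mpow (R x) r =
      diagonal (fun i => ((soliton r (a i) (c i) x : ℝ) : ℂ)) := by
  have hoff : ∀ i j, i ≠ j → ∀ x, R x i j = 0 := fun i j hij x => h.offdiag hr h0 h0' hij x
  have hSoff : ∀ i j, i ≠ j → ∀ x, S x i j = 0 := by
    intro i j hij x
    have h1 := hasDerivAt_pi.1 (hasDerivAt_pi.1 (h.dR x) i) j
    have h2 : HasDerivAt (fun x => R x i j) 0 x := by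
      have : (fun x => R x i j) = fun _ => 0 := funext fun x => hoff i j hij x
      rw [this]; exact hasDerivAt_const _ _
    have h3 := h1.unique h2
    simpa [Matrix.smul_apply] using h3
  set p : Fin m → ℝ → ℝ := fun i x => (R x i i).re with hp
  have hRd : ∀ x, R x = diagonal (fun i => ((p i x : ℝ) : ℂ)) := by
    intro x
    ext i j
    by_cases hij : i = j
    · subst hij
      rw [Matrix.diagonal_apply_eq]
      exact ((h.hR x).1.coe_re_apply_self i).symm
    · rw [Matrix.diagonal_apply_ne _ hij, hoff i j hij x]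
  have hpos : ∀ i x, 0 ≤ p i x := by
    intro i x
    have := (h.hR x).diag_nonneg (i := i)
    exact (Complex.le_def.1 this).1
  have hscal : ∀ i, ∃ k c : ℝ, 0 ≤ k ∧ ∀ x, (r + 1) * (p i x) ^ r = soliton r k c x := by
    intro i
    by_cases hi : ρ i = 0
    · refine ⟨0, 0, le_rfl, fun x => ?_⟩
      have h1 : p i x = 0 := by
        show (R x i i).re = 0
        rw [(h.row_zero hr h0 hi x i).1]; simp
      rw [h1, Real.zero_rpow hr.ne']
      unfold soliton
      simp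
    · have hp0 : ∀ x, 0 < p i x := by
        intro x
        refine lt_of_le_of_ne (hpos i x) (fun h1 => hi ?_)
        have h2 : R x *ᵥ (Pi.single i 1) = 0 := by
          rw [hRd x]
          ext k
          rw [Matrix.mulVec_diagonal]
          by_cases hk : k = i
          · subst hk; simp [← h1]
          · simp [hk]
        have h3 := h.ker_const h2 0
        rw [h0] at h3
        have h4 := congrFun h3 i
        rw [Matrix.mulVec_diagonal] at h4
        simpa using h4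
      have hSre : ∀ x, S x i i = (((S x i i).re : ℝ) : ℂ) := fun x =>
        ((h.hS x).coe_re_apply_self i).symm
      refine scalar_soliton hr (ρ := p i) (σ := fun x => (S x i i).re) (q := fun x => (Q x i i).re)
        hp0 ?_ ?_ ?_
      · intro x
        have h1 := hasDerivAt_pi.1 (hasDerivAt_pi.1 (h.dR x) i) i
        have h2 := (Complex.reCLM.hasFDerivAt (x := R x i i)).comp_hasDerivAt x h1
        refine h2.congr_deriv ?_
        simp [Matrix.smul_apply]
      · intro x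
        have h1 := hasDerivAt_pi.1 (hasDerivAt_pi.1 (h.dS x) i) i
        have h2 := (Complex.reCLM.hasFDerivAt (x := S x i i)).comp_hasDerivAt x h1
        refine h2.congr_deriv ?_
        have h3 : mpow (R x) (1 + r) i i = ((p i x ^ (1 + r) : ℝ) : ℂ) := by
          unfold mpow
          conv_lhs => rw [hRd x]
          rw [cfc_diagonal (fun i => p i x) (fun t => t ^ (1 + r)), Matrix.diagonal_apply_eq]
        simp only [Matrix.sub_apply, Matrix.smul_apply, h3, smul_eq_mul, Complex.reCLM_apply]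
        simp only [Complex.sub_re, Complex.mul_re, Complex.ofReal_re, Complex.ofReal_im, mul_zero,
          sub_zero]
        simp
      · intro x
        have h1 := congrFun (congrFun (h.RQ' x) i) i
        have h2 : (R x * Q x) i i = ((p i x : ℝ) : ℂ) * Q x i i := by
          rw [hRd x, Matrix.diagonal_mul]
        have h3 : (S x * S x) i i = ((((S x i i).re) ^ 2 : ℝ) : ℂ) := by
          rw [Matrix.mul_apply, Finset.sum_eq_single i]
          · conv_lhs => rw [hSre x]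
            push_cast; ring
          · intro k _ hk
            rw [hSoff i k (Ne.symm hk) x, zero_mul]
          · intro hk; exact absurd (Finset.mem_univ i) hk
        rw [h2, h3] at h1
        have h4 := congrArg Complex.re h1
        rw [Complex.re_ofReal_mul, Complex.ofReal_re] at h4
        exact h4
  choose a c ha hac using hscal
  refine ⟨a, c, ha, fun x => ?_⟩
  have h3 : mpow (R x) r = diagonal (fun i => ((p i x ^ r : ℝ) : ℂ)) := by
    unfold mpow
    conv_lhs => rw [hRd x]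
    rw [cfc_diagonal (fun i => p i x) (fun t => t ^ r)]
  rw [h3]
  ext i j
  by_cases hij : i = j
  · subst hij
    rw [Matrix.smul_apply, Matrix.diagonal_apply_eq, Matrix.diagonal_apply_eq, ← hac i x]
    push_cast
    rfl
  · rw [Matrix.smul_apply, Matrix.diagonal_apply_ne _ hij, Matrix.diagonal_apply_ne _ hij, smul_zero]

/-- **(F4)** classification of the limit system. -/
theorem RSQ.classify (hr : 0 < r) (h : RSQ r κ R S Q) :
    ∃ (U : Matrix.unitaryGroup (Fin m) ℂ) (a c : Fin m → ℝ), (∀ i, 0 ≤ a i) ∧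
      ∀ x, ((r + 1 : ℝ) : ℂ) • mpow (R x) r = (U : Matrix (Fin m) (Fin m) ℂ) *
        diagonal (fun i => ((soliton r (a i) (c i) x : ℝ) : ℂ)) *
          star (U : Matrix (Fin m) (Fin m) ℂ) := by
  obtain ⟨U, d, e, hd, he⟩ := simul_diag (R 0) (S 0) (h.hR 0).1 (h.hS 0) (h.comm 0)
  have u1 : star (U : Matrix (Fin m) (Fin m) ℂ) * (U : Matrix (Fin m) (Fin m) ℂ) = 1 :=
    Unitary.coe_star_mul_self U
  have u2 : (U : Matrix (Fin m) (Fin m) ℂ) * star (U : Matrix (Fin m) (Fin m) ℂ) = 1 :=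
    Unitary.coe_mul_star_self U
  have hV : ((star U : Matrix.unitaryGroup (Fin m) ℂ) : Matrix (Fin m) (Fin m) ℂ) =
      star (U : Matrix (Fin m) (Fin m) ℂ) := rfl
  have hcancel : ∀ D : Matrix (Fin m) (Fin m) ℂ,
      ((star U : Matrix.unitaryGroup (Fin m) ℂ) : Matrix (Fin m) (Fin m) ℂ) *
        ((U : Matrix (Fin m) (Fin m) ℂ) * D * star (U : Matrix (Fin m) (Fin m) ℂ)) *
        star ((star U : Matrix.unitaryGroup (Fin m) ℂ) : Matrix (Fin m) (Fin m) ℂ) = D := by
    intro D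
    rw [hV, star_star]
    calc _ = (star (U : Matrix (Fin m) (Fin m) ℂ) * (U : Matrix (Fin m) (Fin m) ℂ)) * D *
          (star (U : Matrix (Fin m) (Fin m) ℂ) * (U : Matrix (Fin m) (Fin m) ℂ)) := by
          simp only [mul_assoc]
      _ = D := by rw [u1]; simp
  obtain ⟨a, c, ha, hac⟩ := (h.conj (star U)).classify_diag hr (ρ := d) (σ := e)
    (by rw [hd]; exact hcancel _) (by rw [he]; exact hcancel _)
  refine ⟨U, a, c, ha, fun x => ?_⟩
  rw [← hac x]
  have h1 : mpow (((star U : Matrix.unitaryGroup (Fin m) ℂ) : Matrix (Fin m) (Fin m) ℂ) * R x *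
      star ((star U : Matrix.unitaryGroup (Fin m) ℂ) : Matrix (Fin m) (Fin m) ℂ)) r =
      ((star U : Matrix.unitaryGroup (Fin m) ℂ) : Matrix (Fin m) (Fin m) ℂ) * mpow (R x) r *
      star ((star U : Matrix.unitaryGroup (Fin m) ℂ) : Matrix (Fin m) (Fin m) ℂ) :=
    cfc_unitary_conj (star U) (h.hR x).1 _
  rw [h1, hV, star_star, Matrix.mul_smul, Matrix.smul_mul]
  congr 1
  calc mpow (R x) r = ((U : Matrix (Fin m) (Fin m) ℂ) * star (U : Matrix (Fin m) (Fin m) ℂ)) * mpow (R x) r *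
        ((U : Matrix (Fin m) (Fin m) ℂ) * star (U : Matrix (Fin m) (Fin m) ℂ)) := by rw [u2]; simp
    _ = _ := by simp only [mul_assoc]

/-- **(F4)**, entrywise interface. -/
theorem ode_classification (hr : 0 < r) (hR : ∀ x, (R x).PosSemidef) (hS : ∀ x, (S x).IsHermitian)
    (dR : ∀ x i j, HasDerivAt (fun x => R x i j) (2 * S x i j) x)
    (dS : ∀ x i j, HasDerivAt (fun x => S x i j) (2 * Q x i j - r * mpow (R x) (1 + r) i j) x)
    (cQ : ∀ i j, Continuous fun x => Q x i j)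
    (comm : ∀ x, R x * S x = S x * R x)
    (RQ : ∀ x, mpow (R x) r * Q x = S x * mpow (R x) (r - 1) * S x)
    (b1 : ∀ x, (κ • R x - S x).PosSemidef) (b2 : ∀ x, (κ • R x + S x).PosSemidef) :
    ∃ (U : Matrix.unitaryGroup (Fin m) ℂ) (a c : Fin m → ℝ), (∀ i, 0 ≤ a i) ∧
      ∀ x, ((r + 1 : ℝ) : ℂ) • mpow (R x) r = (U : Matrix (Fin m) (Fin m) ℂ) *
        diagonal (fun i => ((soliton r (a i) (c i) x : ℝ) : ℂ)) *
          star (U : Matrix (Fin m) (Fin m) ℂ) := by
  have h : RSQ r κ R S Q :=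
    { hR := hR
      hS := hS
      dR := fun x => hasDerivAt_pi.2 fun i => hasDerivAt_pi.2 fun j => by
        simpa [Matrix.smul_apply] using dR x i j
      dS := fun x => hasDerivAt_pi.2 fun i => hasDerivAt_pi.2 fun j => by
        simpa [Matrix.smul_apply] using dS x i j
      cQ := continuous_matrix cQ
      comm := comm
      RQ := RQ
      b1 := b1
      b2 := b2 }
  exact h.classify hr

end Crest.Agent.R332.Ode
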