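import Crest.Agent.R332.GlueNear
import Crest.Agent.R332.OdeClass

/-! # Row 332: extremal potentials are sums of solitons -/

set_option autoImplicit false
set_option linter.unusedSectionVars false

namespace Crest.Agent.R332.Glue

open Matrix Unitary MeasureTheory Set
open scoped ComplexOrder Topology ContDiff
open Crest.MathPhysics.LiebThirring
open Crest.Agent.R332

theorem soliton_of_extremal
    (γ : ℝ) (hγ : 1 / 2 < γ) (hγ' : γ < 3 / 2) (m : ℕ)
    (W : ℝ → Matrix (Fin m) (Fin m) ℂ) (hW : ∀ i j, Measurable fun x => W x i j)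
    (hWp : ∀ x, (W x).PosSemidef)
    (hWi : Integrable fun x => tracePow (W x) (γ + 1 / 2))
    (H : ∀ ε : ℝ, 0 < ε → ∃ (n : ℕ) (φ : Fin n → ℝ → Vec m), IsTrialFamily φ ∧
        sharpConst γ * (∫ x, tracePow (W x) (γ + 1 / 2)) - ε < negMoment (energyMatrix W φ) γ) :
      ∃ (U : Matrix.unitaryGroup (Fin m) ℂ) (a c : Fin m → ℝ), (∀ i, 0 ≤ a i) ∧
        ∀ᵐ x : ℝ, W x = (U : Matrix (Fin m) (Fin m) ℂ) *
          Matrix.diagonal (fun i => ((soliton (γ - 1 / 2)⁻¹ (a i) (c i) x : ℝ) : ℂ)) *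
            star (U : Matrix (Fin m) (Fin m) ℂ) := by
  obtain ⟨α, hαdef⟩ : ∃ α, α = γ - 1 / 2 := ⟨_, rfl⟩
  have hγα : γ = α + 1 / 2 := by linarith
  have hα : 0 < α := by linarith
  have hα1 : α < 1 := by linarith
  have hβ := betaC_pos hα
  have hs : sharpConst γ * betaC α = cC α := by
    rw [hαdef]; exact sharpConst_mul_betaC hγ
  rw [← hαdef]
  have e1 : γ + 1 / 2 = 1 + α := by rw [hγα]; ring
  have hWi' : Integrable fun x => trp (W x) (1 + α) := by
    rw [← e1]; exact hWi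
  obtain ⟨w, hw⟩ : ∃ w, w = ∫ x, trp (W x) (1 + α) := ⟨_, rfl⟩
  have hw' : (∫ x, tracePow (W x) (γ + 1 / 2)) = w := by
    rw [hw, ← e1]; rfl
  have hw0 : 0 ≤ w := by
    rw [hw]
    exact integral_nonneg fun x => Lim.rtr_nonneg_of_posSemidef (mpow_posSemidef (hWp x) _)
  have hK0 := KK_pos hα hw0
  have hD0 := DD_pos hα hw0
  have near : ∀ ε : ℝ, 0 < ε → ∃ (ι : Type) (_ : Fintype ι) (_ : DecidableEq ι) (L : ℝ)
      (Ψ Ψ' : ℝ → Matrix (Fin m) ι ℂ) (K : Matrix ι ι ℂ) (F : ℝ → Matrix ι ι ℂ),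
      Lim.NearData α (KK α w) (DD α w) ε W L Ψ Ψ' K F := by
    intro ε hε
    have hζ0 : 0 ≤ ZZ m α w := by
      unfold ZZ Lim.supB
      positivity
    have hcoef := CoerI.coefD_pos (κ := KK α w) (ζ := ZZ m α w) hα hα1 hζ0
    obtain ⟨δ, hδ0, hδ1, hδ2, hδ3⟩ : ∃ δ : ℝ, 0 < δ ∧ δ ≤ betaC α ∧ δ ≤ ε ∧
        δ ≤ CoerI.coefD α (KK α w) (ZZ m α w) * ε :=
      ⟨min (betaC α) (min ε (CoerI.coefD α (KK α w) (ZZ m α w) * ε)),
        lt_min hβ (lt_min hε (mul_pos hcoef hε)), min_le_left _ _,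
        (min_le_right _ _).trans (min_le_left _ _),
        (min_le_right _ _).trans (min_le_right _ _)⟩
    obtain ⟨n, φ, hφ, hlt⟩ := H (δ / betaC α) (div_pos hδ0 hβ)
    obtain ⟨ι, i1, i2, S, hS⟩ := exists_red (p := γ + 1 / 2) (by linarith) hW hWp hWi hφ
      (show 0 < γ by linarith)
    obtain ⟨C, K, F, h⟩ := exists_fullData S hα hα1
    refine ⟨ι, i1, i2, S.L, S.Ψ C, S.DΨ C, K, F,
      nearData_of_fullData h hα hα1 hWp hWi' hw hδ1 hδ2 hδ3 ?_⟩
    rw [← hγα, hS, ← hs]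
    rw [hw'] at hlt
    have h1 := mul_lt_mul_of_pos_left hlt hβ
    have h2 : betaC α * (sharpConst γ * w - δ / betaC α) = sharpConst γ * betaC α * w - δ := by
      field_simp
    rw [h2] at h1
    linarith
  obtain ⟨R, S, Q, hR, hS, cR, cS, cQ, dR, dS, hcomm, hRQ, hb1, hb2, hWR⟩ :=
    Lim.limit_of_near hα hα1 hK0 hWp near
  have hr : 0 < 1 / α := by positivity
  obtain ⟨U, a, c, ha, hU⟩ := Ode.ode_classification (r := 1 / α) (κ := KK α w) (R := R) (S := S)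
    (Q := Q) hr hR hS dR dS (fun i j => cQ.matrix_elem i j) (fun x => (hcomm x).symm) hRQ
    (fun x => by
      have := hb2 x
      have e : ((KK α w : ℝ) : ℂ) • R x = KK α w • R x := by
        ext i j; simp [Matrix.smul_apply]
      rwa [e] at this)
    (fun x => by
      have := hb1 x
      have e : ((KK α w : ℝ) : ℂ) • R x = KK α w • R x := by
        ext i j; simp [Matrix.smul_apply]
      rwa [e] at this)
  refine ⟨U, a, c, ha, ?_⟩
  filter_upwards [hWR] with x hx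
  have e : ((1 / α + 1 : ℝ) : ℂ) = ((1 + 1 / α : ℝ) : ℂ) := by rw [add_comm]
  rw [← one_div, ← hU x, hx, e]
  ext i j
  simp [Matrix.smul_apply]

end Crest.Agent.R332.Glue
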