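import Crest.Agent.R332.LimNear
import Crest.Agent.R332.CoerIRot
import Crest.Agent.R332.AsmFull
import Crest.Agent.R332.Bnd

/-! # Row 332: near-extremal trial families give `NearData` -/

set_option autoImplicit false
set_option linter.unusedSectionVars false

namespace Crest.Agent.R332.Glue

open Matrix Unitary MeasureTheory Set
open scoped ComplexOrder Topology ContDiff
open Crest.MathPhysics.LiebThirring
open Crest.Agent.R332

lemma hs_lim_eq {a b : Type*} [Fintype a] [Fintype b] [DecidableEq a] [DecidableEq b]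
    (A : Matrix a b ℂ) : Lim.hs A = rtr (Aᴴ * A) := Lim.hs_eq_rtr A

lemma hs_coer_eq {a b : Type*} [Fintype a] [Fintype b] [DecidableEq a] [DecidableEq b]
    (A : Matrix a b ℂ) : CoerI.hs A = Lim.hs A := by
  unfold CoerI.hs Lim.hs
  refine Finset.sum_congr rfl fun i _ => Finset.sum_congr rfl fun j _ => ?_
  rw [Complex.normSq_eq_norm_sq]

lemma real_smul_one_eq {a : Type*} [Fintype a] [DecidableEq a] (k : ℝ) :
    ((k : ℂ) • (1 : Matrix a a ℂ)) = k • (1 : Matrix a a ℂ) := by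
  ext i j
  simp [Matrix.smul_apply]

variable {m : ℕ} {W : ℝ → Matrix (Fin m) (Fin m) ℂ} {ι : Type} [Fintype ι] [DecidableEq ι]

/-- The constant `D`. -/
noncomputable def DD (α w : ℝ) : ℝ :=
  cC α * w + (2 * betaC α + 2 * cC α * (2 ^ α - 1) * w)

/-- The constant `κ`. -/
noncomputable def KK (α w : ℝ) : ℝ := (DD α w / (α * betaC α)) ^ (1 / (1 + 2 * α))

/-- The constant `ζ`. -/
noncomputable def ZZ (m : ℕ) (α w : ℝ) : ℝ :=
  (Lim.supB ((Fintype.card (Fin m) : ℕ) : ℝ) (1 / α) (DD α w)) ^ (1 / α)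

lemma two_rpow_sub_one_nonneg {α : ℝ} (hα : 0 < α) : 0 ≤ (2 : ℝ) ^ α - 1 := by
  have := Real.one_le_rpow (show (1 : ℝ) ≤ 2 by norm_num) hα.le
  linarith

lemma DD_pos {α w : ℝ} (hα : 0 < α) (hw : 0 ≤ w) : 0 < DD α w := by
  have h1 := betaC_pos hα
  have h2 := cC_pos hα
  have h3 := two_rpow_sub_one_nonneg hα
  unfold DD
  positivity

lemma KK_pos {α w : ℝ} (hα : 0 < α) (hw : 0 ≤ w) : 0 < KK α w := by
  have h1 := betaC_pos hα
  have h2 := DD_pos hα hw
  unfold KK
  positivity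

theorem nearData_of_fullData {S : Red m W ι} {α : ℝ} {C K : Matrix ι ι ℂ}
    {F : ℝ → Matrix ι ι ℂ} (h : FullData S α C K F) (hα : 0 < α) (hα1 : α < 1)
    (hWp : ∀ x, (W x).PosSemidef) (hWi : Integrable fun x => trp (W x) (1 + α))
    {δ ε w : ℝ} (hw : w = ∫ x, trp (W x) (1 + α))
    (hδ1 : δ ≤ betaC α) (hδ2 : δ ≤ ε)
    (hδ3 : δ ≤ CoerI.coefD α (KK α w) (ZZ m α w) * ε)
    (hext : cC α * w - betaC α * ∑ i, S.e i ^ (α + 1 / 2) ≤ δ) :
    Lim.NearData α (KK α w) (DD α w) ε W S.L (S.Ψ C) (S.DΨ C) K F := by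
  have hβ := betaC_pos hα
  have hc := cC_pos hα
  have hcdef : (α / (1 + α)) ^ α / (1 + α) = cC α := rfl
  have hw0 : 0 ≤ w := by
    rw [hw]
    exact integral_nonneg fun x => Lim.rtr_nonneg_of_posSemidef (mpow_posSemidef (hWp x) _)
  have h2α := two_rpow_sub_one_nonneg hα
  have hD := DD_pos hα hw0
  have hK0 := KK_pos hα hw0
  have hy0 : 0 ≤ ∫ x, S.yd α C x := integral_nonneg fun x => S.yd_nonneg hα hWp C x
  have hk0 : 0 ≤ ∫ x in (-S.L)..S.L, S.kd C F x :=
    intervalIntegral.integral_nonneg (by linarith [S.L_pos]) fun x _ => S.kd_nonneg C F x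
  -- first pass: deficits `≤ δ ≤ β`
  have hchan := CoerI.fullData_channel h hα hα1
  have hm0 := h.master hα hWi (T := 0) (by simpa using hchan)
  rw [← hw] at hm0
  have hy1 : ∫ x, S.yd α C x ≤ betaC α := by linarith
  have hbR0 := S.integral_trp_R_le hα hWp h.hC hWi
  rw [← hw, hcdef] at hbR0
  have hbR : ∫ x, trp (S.R C x) (1 + 1 / α) ≤ 2 * betaC α + 2 * cC α * (2 ^ α - 1) * w := by
    linarith
  have hbRD : ∫ x, trp (S.R C x) (1 + 1 / α) ≤ DD α w := by
    unfold DD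
    have : 0 ≤ cC α * w := by positivity
    linarith
  have hbd0 := S.integral_DΨ_le hα hWp h.hC hWi
  rw [← hw, hcdef] at hbd0
  have hbd : ∫ x, Lim.hs (S.DΨ C x) ≤ DD α w := by
    simp only [hs_lim_eq]
    unfold DD
    linarith
  have hkap := S.le_kap hα hβ h.hK.posSemidef hchan hbRD
  have hsupp : ∀ x, x ∉ Icc (-S.L) S.L → S.Ψ C x = 0 := by
    intro x hx
    refine S.Ψ_supp C ?_
    rw [Set.mem_Icc, not_and_or, not_le, not_le] at hx
    rcases hx with h | h
    · exact (by linarith [neg_le_abs x] : S.L ≤ |x|)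
    · exact h.le.trans (le_abs_self x)
  have hsup : ∀ x, Lim.hs (S.Ψ C x) ≤
      Lim.supB ((Fintype.card (Fin m) : ℕ) : ℝ) (1 / α) (DD α w) := fun x =>
    Lim.sup_hs_le (S.Ψ_hasDeriv C) (S.DΨ_cont C) hsupp (by positivity) hbd hbRD x
  have hsup0 : 0 ≤ Lim.supB ((Fintype.card (Fin m) : ℕ) : ℝ) (1 / α) (DD α w) :=
    (Lim.hs_nonneg (S.Ψ C 0)).trans (hsup 0)
  have hζ0 : 0 ≤ ZZ m α w := Real.rpow_nonneg hsup0 _
  have hPζ : ∀ x ∈ Icc (-S.L) S.L,
      (ZZ m α w • (1 : Matrix ι ι ℂ) - mpow (S.P C x) (1 / α)).PosSemidef := by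
    intro x _
    rw [← real_smul_one_eq]
    refine mpow_le_of_rtr_le (S.P_pos C x) (by positivity) ?_
    have := hsup x
    rw [hs_lim_eq] at this
    exact this
  have hκ : (KK α w • (1 : Matrix ι ι ℂ) - K).PosSemidef := by
    rw [← real_smul_one_eq]
    exact hkap
  -- second pass: all deficits
  have hchan2 := CoerI.fullData_channel_defect h hα hα1 hκ hζ0 hPζ
  have hm := h.master hα hWi hchan2
  rw [← hw] at hm
  have hcoef := CoerI.coefD_pos (κ := KK α w) (ζ := ZZ m α w) hα hα1 hζ0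
  have hd0 : 0 ≤ ∫ x in (-S.L)..S.L, CoerI.defect K (F x) (mpow (S.P C x) (1 / α)) :=
    intervalIntegral.integral_nonneg (by linarith [S.L_pos]) fun x _ =>
      CoerI.defect_nonneg _ _ _
  have hcd0 : 0 ≤ CoerI.coefD α (KK α w) (ZZ m α w) *
      ∫ x in (-S.L)..S.L, CoerI.defect K (F x) (mpow (S.P C x) (1 / α)) :=
    mul_nonneg hcoef.le hd0
  refine
    { L_pos := S.L_pos
      dΨ := S.Ψ_hasDeriv C
      cΨ' := S.DΨ_cont C
      supp := hsupp
      F_left := h.h0
      F_right := h.h1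
      dF := ?_
      sub := h.sub
      add := h.add
      bdd := hkap
      d1i := S.integrable_yd hα h.hC hWi
      d1 := ?_
      d2 := ?_
      d3 := ?_
      bd := hbd
      bR := hbRD }
  · intro x hx
    exact hasDerivWithinAt_pi.2 fun i => hasDerivWithinAt_pi.2 fun j => h.path.deriv x hx i j
  · have : ∫ x, S.yd α C x ≤ ε := by linarith
    exact this
  · have h1 : ∫ x in (-S.L)..S.L, S.kd C F x ≤ ε := by linarith
    have h2 : ∫ x in (-S.L)..S.L, Lim.hs (S.DΨ C x - S.Ψ C x * F x) =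
        ∫ x in (-S.L)..S.L, S.kd C F x := by
      apply intervalIntegral.integral_congr
      intro x _
      exact hs_lim_eq _
    rw [h2]
    exact h1
  · have h1 : CoerI.coefD α (KK α w) (ZZ m α w) *
      (∫ x in (-S.L)..S.L, CoerI.defect K (F x) (mpow (S.P C x) (1 / α))) ≤
      CoerI.coefD α (KK α w) (ZZ m α w) * ε := by linarith
    have h2 := le_of_mul_le_mul_left h1 hcoef
    have h3 : ∫ x in (-S.L)..S.L, (Lim.hs (F x * (K * K) - K * K * F x) +
        Lim.hs (mpow ((S.Ψ C x)ᴴ * S.Ψ C x) (1 / α) - (K * K - F x * F x))) =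
        ∫ x in (-S.L)..S.L, CoerI.defect K (F x) (mpow (S.P C x) (1 / α)) := by
      apply intervalIntegral.integral_congr
      intro x _
      show _ = CoerI.defect K (F x) (mpow (S.P C x) (1 / α))
      unfold CoerI.defect
      rw [hs_coer_eq, hs_coer_eq]
      rfl
    rw [h3]
    exact h2

end Crest.Agent.R332.Glue
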