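import Mathlib

/-! # Row 332: extraction of convergent subsequences for equi-Hölder families -/

set_option autoImplicit false

namespace Crest.Agent.R332.Lim

open Filter Topology

/-- Sequential Arzelà–Ascoli on the line (pointwise convergence form): uniformly bounded and
uniformly equicontinuous sequences with values in a proper space have pointwise convergent
subsequences. -/
theorem exists_subseq_tendsto {E : Type*} [NormedAddCommGroup E] [ProperSpace E]
    (f : ℕ → ℝ → E) (B : ℝ) (hB : ∀ k x, ‖f k x‖ ≤ B) (ω : ℝ → ℝ)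
    (hω : Tendsto ω (𝓝 0) (𝓝 0)) (hf : ∀ k x y, ‖f k x - f k y‖ ≤ ω |x - y|) :
    ∃ φ : ℕ → ℕ, StrictMono φ ∧ ∃ g : ℝ → E,
      (∀ x, Tendsto (fun k => f (φ k) x) atTop (𝓝 (g x))) ∧
      (∀ x, ‖g x‖ ≤ B) ∧ ∀ x y, ‖g x - g y‖ ≤ ω |x - y| := by
  have hcpt : IsCompact (Set.pi Set.univ (fun _ : ℚ => Metric.closedBall (0 : E) B)) :=
    isCompact_univ_pi fun _ => isCompact_closedBall _ _
  have hmem : ∀ k, (fun q : ℚ => f k (q : ℝ)) ∈
      Set.pi Set.univ (fun _ : ℚ => Metric.closedBall (0 : E) B) := by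
    intro k q _
    simpa using hB k q
  obtain ⟨g₀, -, φ, hφ, hlim⟩ := hcpt.tendsto_subseq hmem
  rw [tendsto_pi_nhds] at hlim
  have hcauchy : ∀ x : ℝ, ∃ y : E, Tendsto (fun k => f (φ k) x) atTop (𝓝 y) := by
    intro x
    apply cauchySeq_tendsto_of_complete
    rw [Metric.cauchySeq_iff]
    intro ε hε
    have h1 : ∀ᶠ t in 𝓝 (0 : ℝ), ω t < ε / 3 := by
      have := hω.eventually (gt_mem_nhds (show (0 : ℝ) < ε / 3 by positivity))
      exact this
    obtain ⟨δ, hδ, hδ'⟩ := Metric.eventually_nhds_iff.1 h1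
    obtain ⟨q, hq⟩ := exists_rat_near x hδ
    have hωq : ω |x - q| < ε / 3 := by
      apply hδ'
      rw [Real.dist_eq, sub_zero, abs_abs]
      exact hq
    have h2 := (hlim q).cauchySeq
    rw [Metric.cauchySeq_iff] at h2
    obtain ⟨N, hN⟩ := h2 (ε / 3) (by positivity)
    refine ⟨N, fun a ha b hb => ?_⟩
    have h3 := hN a ha b hb
    rw [dist_eq_norm] at h3 ⊢
    have h3' : ‖f (φ a) q - f (φ b) q‖ < ε / 3 := h3
    calc ‖f (φ a) x - f (φ b) x‖
        = ‖(f (φ a) x - f (φ a) q) + (f (φ a) q - f (φ b) q) - (f (φ b) x - f (φ b) q)‖ := by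
          congr 1; abel
      _ ≤ ‖f (φ a) x - f (φ a) q‖ + ‖f (φ a) q - f (φ b) q‖ + ‖f (φ b) x - f (φ b) q‖ := by
          refine (norm_sub_le _ _).trans ?_
          gcongr
          exact norm_add_le _ _
      _ < ε := by
          have := hf (φ a) x q
          have := hf (φ b) x q
          linarith
  choose g hg using hcauchy
  refine ⟨φ, hφ, g, hg, ?_, ?_⟩
  · intro x
    exact le_of_tendsto (hg x).norm (Eventually.of_forall fun k => hB _ _)
  · intro x y
    exact le_of_tendsto ((hg x).sub (hg y)).norm (Eventually.of_forall fun k => hf _ _ _)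

end Crest.Agent.R332.Lim
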