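import Mathlib

/-! # Row 332: a.e. convergence along subsequences, square-root integral bound -/

set_option autoImplicit false

namespace Crest.Agent.R332.Lim

open Filter Topology MeasureTheory

/-- A sequence of nonnegative integrable functions whose integrals tend to `0` has a subsequence
tending to `0` almost everywhere. -/
theorem exists_subseq_ae_zero (g : ℕ → ℝ → ℝ) (hg0 : ∀ k x, 0 ≤ g k x)
    (hgi : ∀ k, Integrable (g k)) (hlim : Tendsto (fun k => ∫ x, g k x) atTop (𝓝 0)) :
    ∃ φ : ℕ → ℕ, StrictMono φ ∧ ∀ᵐ x : ℝ, Tendsto (fun k => g (φ k) x) atTop (𝓝 0) := by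
  have h1 : ∀ k, eLpNorm (g k - fun _ => (0 : ℝ)) 1 volume = ENNReal.ofReal (∫ x, g k x) := by
    intro k
    rw [eLpNorm_one_eq_lintegral_enorm]
    rw [ofReal_integral_eq_lintegral_ofReal (hgi k) (Eventually.of_forall (hg0 k))]
    refine lintegral_congr fun x => ?_
    simp only [Pi.sub_apply, sub_zero]
    rw [Real.enorm_of_nonneg (hg0 k x)]
  have h2 : TendstoInMeasure volume g atTop (fun _ => (0 : ℝ)) := by
    refine tendstoInMeasure_of_tendsto_eLpNorm one_ne_zero
      (fun k => (hgi k).aestronglyMeasurable) aestronglyMeasurable_const ?_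
    simp only [h1]
    have := (ENNReal.continuous_ofReal.tendsto 0).comp hlim
    rw [ENNReal.ofReal_zero] at this
    exact this
  obtain ⟨φ, hφ, h3⟩ := h2.exists_seq_tendsto_ae
  exact ⟨φ, hφ, h3⟩

/-- `∫_a^b √g ≤ λ (b - a) + (∫ g) / (4 λ)`. -/
theorem integral_sqrt_le {g : ℝ → ℝ} (hg0 : ∀ x, 0 ≤ g x) (hgi : Integrable g)
    {a b : ℝ} (hab : a ≤ b) {t : ℝ} (ht : 0 < t) :
    IntervalIntegrable (fun x => Real.sqrt (g x)) volume a b ∧
    ∫ x in a..b, Real.sqrt (g x) ≤ t * (b - a) + (∫ x, g x) / (4 * t) := by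
  have hpt : ∀ x, Real.sqrt (g x) ≤ t + g x / (4 * t) := by
    intro x
    have h1 := Real.sq_sqrt (hg0 x)
    have h2 : 0 ≤ (Real.sqrt (g x) - 2 * t) ^ 2 := sq_nonneg _
    rw [← sub_nonneg]
    have h3 : t + g x / (4 * t) - Real.sqrt (g x) = (Real.sqrt (g x) - 2 * t) ^ 2 / (4 * t) := by
      field_simp
      nlinarith
    rw [h3]
    positivity
  have hmeas : AEStronglyMeasurable (fun x => Real.sqrt (g x)) volume :=
    (Real.continuous_sqrt.comp_aestronglyMeasurable hgi.aestronglyMeasurable)
  have hI : IntervalIntegrable (fun x => t + g x / (4 * t)) volume a b :=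
    intervalIntegrable_const.add ((hgi.div_const _).intervalIntegrable)
  have hi : IntervalIntegrable (fun x => Real.sqrt (g x)) volume a b := by
    refine hI.mono_fun hmeas.restrict (Eventually.of_forall fun x => ?_)
    show ‖Real.sqrt (g x)‖ ≤ ‖t + g x / (4 * t)‖
    rw [Real.norm_of_nonneg (Real.sqrt_nonneg _), Real.norm_of_nonneg]
    · exact hpt x
    · have := hg0 x
      positivity
  refine ⟨hi, ?_⟩
  calc ∫ x in a..b, Real.sqrt (g x) ≤ ∫ x in a..b, (t + g x / (4 * t)) :=
        intervalIntegral.integral_mono_on hab hi hI fun x _ => hpt x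
    _ = t * (b - a) + (∫ x in a..b, g x) / (4 * t) := by
        rw [intervalIntegral.integral_add intervalIntegrable_const
          ((hgi.div_const _).intervalIntegrable), intervalIntegral.integral_const,
          intervalIntegral.integral_div, smul_eq_mul, mul_comm]
    _ ≤ t * (b - a) + (∫ x, g x) / (4 * t) := by
        gcongr
        rw [intervalIntegral.integral_of_le hab]
        exact setIntegral_le_integral hgi (Eventually.of_forall hg0)

end Crest.Agent.R332.Lim
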