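import Crest.Agent.R332.LimHS
import Crest.Agent.R332.TrRect

/-! # Row 332: algebraic estimates for one near-extremal family

`Ψ` is `m × ι`, `P = ΨᴴΨ`, `R = ΨΨᴴ`, `S = ΨFΨᴴ`, `Q = ΨF²Ψᴴ`, `Δ = Ψ' - ΨF`. -/

set_option autoImplicit false
set_option linter.unusedSectionVars false

namespace Crest.Agent.R332.Lim

open Matrix Filter Topology MeasureTheory
open scoped ComplexOrder

variable {m ι : Type*} [Fintype m] [DecidableEq m] [Fintype ι] [DecidableEq ι]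

/-- Algebraic hypotheses at one point. -/
structure PtData (κ : ℝ) (K F : Matrix ι ι ℂ) : Prop where
  sub : (K - F).PosSemidef
  add : (K + F).PosSemidef
  bdd : (((κ : ℝ) : ℂ) • (1 : Matrix ι ι ℂ) - K).PosSemidef

namespace PtData

variable {κ : ℝ} {K F : Matrix ι ι ℂ}

lemma posK (h : PtData κ K F) : K.PosSemidef := by
  have h1 := (h.sub.add h.add).smul (show (0 : ℂ) ≤ (((1 / 2 : ℝ)) : ℂ) by
    have : (0 : ℝ) ≤ 1 / 2 := by norm_num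
    exact_mod_cast this)
  convert h1 using 1
  have : K - F + (K + F) = (2 : ℂ) • K := by
    rw [two_smul]; abel
  rw [this, smul_smul]
  norm_num

lemma hermF (h : PtData κ K F) : F.IsHermitian := by
  have h1 : Kᴴ = K := h.posK.1
  have h2 : (K + F)ᴴ = K + F := h.add.1
  rw [Matrix.conjTranspose_add, h1] at h2
  exact add_left_cancel h2

lemma subF (h : PtData κ K F) : (((κ : ℝ) : ℂ) • (1 : Matrix ι ι ℂ) - F).PosSemidef := by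
  have := h.bdd.add h.sub
  rwa [sub_add_sub_cancel] at this

lemma addF (h : PtData κ K F) : (((κ : ℝ) : ℂ) • (1 : Matrix ι ι ℂ) + F).PosSemidef := by
  have := h.bdd.add h.add
  convert this using 1
  abel

lemma subK (h : PtData κ K F) : (((κ : ℝ) : ℂ) • (1 : Matrix ι ι ℂ) - K).PosSemidef := h.bdd

lemma addK (h : PtData κ K F) (hκ : 0 ≤ κ) :
    (((κ : ℝ) : ℂ) • (1 : Matrix ι ι ℂ) + K).PosSemidef := by
  have h1 : (((κ : ℝ) : ℂ) • (1 : Matrix ι ι ℂ)).PosSemidef :=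
    Matrix.PosSemidef.one.smul (by exact_mod_cast hκ)
  exact h1.add h.posK

lemma mulF (h : PtData κ K F) (hκ : 0 < κ) (A : Matrix m ι ℂ) : hs (A * F) ≤ κ ^ 2 * hs A :=
  hs_mul_bdd_le hκ h.subF h.addF h.hermF A

lemma Fmul (h : PtData κ K F) (hκ : 0 < κ) (A : Matrix ι m ℂ) : hs (F * A) ≤ κ ^ 2 * hs A :=
  hs_bdd_mul_le hκ h.subF h.addF h.hermF A

lemma mulK (h : PtData κ K F) (hκ : 0 < κ) (A : Matrix m ι ℂ) : hs (A * K) ≤ κ ^ 2 * hs A :=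
  hs_mul_bdd_le hκ h.subK (h.addK hκ.le) h.posK.1 A

end PtData

/-- `κR ± S ≥ 0`. -/
lemma lim_hi {κ : ℝ} {K F : Matrix ι ι ℂ} (h : PtData κ K F) (Ψ : Matrix m ι ℂ) :
    (((κ : ℝ) : ℂ) • (Ψ * Ψᴴ) - Ψ * F * Ψᴴ).PosSemidef := by
  have := h.subF.mul_mul_conjTranspose_same Ψ
  rw [Matrix.mul_sub, Matrix.sub_mul, Matrix.mul_smul, Matrix.smul_mul, Matrix.mul_one] at this
  exact this

lemma lim_lo {κ : ℝ} {K F : Matrix ι ι ℂ} (h : PtData κ K F) (Ψ : Matrix m ι ℂ) :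
    (((κ : ℝ) : ℂ) • (Ψ * Ψᴴ) + Ψ * F * Ψᴴ).PosSemidef := by
  have := h.addF.mul_mul_conjTranspose_same Ψ
  rw [Matrix.mul_add, Matrix.add_mul, Matrix.mul_smul, Matrix.smul_mul, Matrix.mul_one] at this
  exact this

lemma lim_herm {κ : ℝ} {K F : Matrix ι ι ℂ} (h : PtData κ K F) (Ψ : Matrix m ι ℂ) :
    (Ψ * F * Ψᴴ).IsHermitian := by
  rw [Matrix.IsHermitian, Matrix.conjTranspose_mul, Matrix.conjTranspose_mul,
    Matrix.conjTranspose_conjTranspose, h.hermF, Matrix.mul_assoc]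

/-- Power bound. -/
lemma hs_mpow_le {R : Matrix m m ℂ} (hR : R.PosSemidef) {q b : ℝ} (hq : 0 ≤ q)
    (hb : rtr R ≤ b) : hs (mpow R q) ≤ Fintype.card m * (b ^ q) ^ 2 := by
  have h1 : hs (mpow R q) = ∑ i, (hR.1.eigenvalues i ^ q) ^ 2 := by
    rw [hs_eq_rtr, mpow_isHermitian R q]
    have : mpow R q * mpow R q = cfc (fun t : ℝ => (t ^ q) ^ 2) R := by
      rw [mpow, ← cfc_mul']
      congr 1
      funext t
      ring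
    rw [this, rtr_cfc hR.1]
  rw [h1, Fintype.card, ← nsmul_eq_mul, ← Finset.sum_const]
  refine Finset.sum_le_sum fun i _ => ?_
  have h2 : hR.1.eigenvalues i ≤ b := by
    refine le_trans ?_ hb
    have h3 : rtr R = ∑ i, hR.1.eigenvalues i := by
      have := rtr_cfc hR.1 (fun t : ℝ => t)
      rw [cfc_self hR.1] at this
      exact this
    rw [h3]
    exact Finset.single_le_sum (f := fun i => hR.1.eigenvalues i)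
      (fun i _ => hR.eigenvalues_nonneg i) (Finset.mem_univ i)
  have h0 := hR.eigenvalues_nonneg i
  have h4 : hR.1.eigenvalues i ^ q ≤ b ^ q := Real.rpow_le_rpow h0 h2 hq
  have h5 : 0 ≤ hR.1.eigenvalues i ^ q := Real.rpow_nonneg h0 q
  exact pow_le_pow_left₀ h5 h4 2

lemma mpow_one_add_rect (Ψ : Matrix m ι ℂ) {r : ℝ} (hr : 0 < r) :
    Ψ * mpow (Ψᴴ * Ψ) r * Ψᴴ = mpow (Ψ * Ψᴴ) (1 + r) := by
  rw [← mpow_rect, Matrix.mul_assoc, add_comm, mpow_add' (self_conj_posSemidef Ψ) hr one_pos,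
    mpow_one (self_conj_posSemidef Ψ).1]

lemma mpow_sub_one_rect (Ψ : Matrix m ι ℂ) {r : ℝ} (hr : 1 < r) :
    Ψᴴ * mpow (Ψ * Ψᴴ) (r - 1) * Ψ = mpow (Ψᴴ * Ψ) r := by
  rw [Matrix.mul_assoc, mpow_rect, ← Matrix.mul_assoc]
  have h := mpow_add' (conj_posSemidef Ψ) (p := 1) (q := r - 1) one_pos (by linarith)
  rw [mpow_one (conj_posSemidef Ψ).1] at h
  rw [← h]
  congr 1
  ring

/-- Commutator bound `‖[F, P^r]‖² ≤ (8κ²+2) (‖[F,K²]‖² + ‖P^r - (K²-F²)‖²)`. -/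
lemma comm_bound {κ : ℝ} (hκ : 0 < κ) {K F X : Matrix ι ι ℂ} (h : PtData κ K F) :
    hs (F * X - X * F) ≤ (8 * κ ^ 2 + 2) *
      (hs (F * (K * K) - K * K * F) + hs (X - (K * K - F * F))) := by
  set J : Matrix ι ι ℂ := K * K - F * F with hJ
  have h1 : F * X - X * F = (F * (X - J) - (X - J) * F) + (F * (K * K) - K * K * F) := by
    rw [hJ]
    noncomm_ring
  have h2 := h.Fmul hκ (X - J)
  have h3 := h.mulF hκ (X - J)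
  have h4 := hs_sub_le (F * (X - J)) ((X - J) * F)
  have h5 := hs_add_le (F * (X - J) - (X - J) * F) (F * (K * K) - K * K * F)
  have h6 := hs_nonneg (F * (K * K) - K * K * F)
  have h7 := hs_nonneg (X - J)
  rw [h1]
  have h8 : 0 ≤ κ ^ 2 := sq_nonneg κ
  nlinarith [mul_nonneg h8 h6]

section estimates

variable {κ B : ℝ} (hκ : 0 < κ) {K F : Matrix ι ι ℂ} (h : PtData κ K F)
  {Ψ Ψ' : Matrix m ι ℂ} (hB : hs Ψ ≤ B)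

include hB in
lemma R_bound : hs (Ψ * Ψᴴ) ≤ B ^ 2 := by
  refine (hs_mul_le _ _).trans ?_
  rw [hs_conjTranspose, ← sq]
  exact pow_le_pow_left₀ (hs_nonneg _) hB 2

include hκ h hB in
lemma S_bound : hs (Ψ * F * Ψᴴ) ≤ κ ^ 2 * B ^ 2 := by
  refine (hs_mul_le _ _).trans ?_
  rw [hs_conjTranspose]
  have h1 := h.mulF hκ Ψ
  have h2 := hs_nonneg Ψ
  calc hs (Ψ * F) * hs Ψ ≤ (κ ^ 2 * hs Ψ) * hs Ψ := by gcongr
    _ ≤ (κ ^ 2 * B) * B := mul_le_mul (mul_le_mul_of_nonneg_left hB (by positivity)) hB h2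
        (mul_nonneg (by positivity) (h2.trans hB))
    _ = κ ^ 2 * B ^ 2 := by ring

include hκ h hB in
lemma Q_bound : hs (Ψ * (F * F) * Ψᴴ) ≤ κ ^ 4 * B ^ 2 := by
  refine (hs_mul_le _ _).trans ?_
  rw [hs_conjTranspose, ← Matrix.mul_assoc]
  have h1 := h.mulF hκ Ψ
  have h1' := h.mulF hκ (Ψ * F)
  have h2 := hs_nonneg Ψ
  have h3 : hs (Ψ * F * F) ≤ κ ^ 4 * hs Ψ := by
    calc hs (Ψ * F * F) ≤ κ ^ 2 * (κ ^ 2 * hs Ψ) := h1'.trans (by gcongr)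
      _ = κ ^ 4 * hs Ψ := by ring
  calc hs (Ψ * F * F) * hs Ψ ≤ (κ ^ 4 * hs Ψ) * hs Ψ := by gcongr
    _ ≤ (κ ^ 4 * B) * B := mul_le_mul (mul_le_mul_of_nonneg_left hB (by positivity)) hB h2
        (mul_nonneg (by positivity) (h2.trans hB))
    _ = κ ^ 4 * B ^ 2 := by ring

include hB in
/-- `R' - 2S = ΔΨᴴ + ΨΔᴴ`. -/
lemma err_R (hF : F.IsHermitian) : hs (Ψ' * Ψᴴ + Ψ * Ψ'ᴴ - (2 : ℂ) • (Ψ * F * Ψᴴ)) ≤
    4 * B * hs (Ψ' - Ψ * F) := by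
  have e : Ψ' * Ψᴴ + Ψ * Ψ'ᴴ - (2 : ℂ) • (Ψ * F * Ψᴴ) =
      (Ψ' - Ψ * F) * Ψᴴ + Ψ * (Ψ' - Ψ * F)ᴴ := by
    rw [Matrix.conjTranspose_sub, Matrix.conjTranspose_mul, hF, two_smul]
    simp only [Matrix.sub_mul, Matrix.mul_sub, Matrix.mul_assoc]
    abel
  rw [e]
  have h1 := hs_mul_le (Ψ' - Ψ * F) Ψᴴ
  have h2 := hs_mul_le Ψ (Ψ' - Ψ * F)ᴴ
  rw [hs_conjTranspose] at h1 h2
  have h3 := hs_add_le ((Ψ' - Ψ * F) * Ψᴴ) (Ψ * (Ψ' - Ψ * F)ᴴ)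
  have h4 := hs_nonneg (Ψ' - Ψ * F)
  have h5 := mul_le_mul_of_nonneg_left hB h4
  nlinarith

include hκ h hB in
/-- `S' - 2Q + rR^{1+r} = ΔFΨᴴ + ΨFΔᴴ + Ψ(J - P^r)Ψᴴ`. -/
lemma err_S {r : ℝ} (hr : 0 < r) (hB0 : 0 ≤ B) :
    hs (Ψ' * F * Ψᴴ + Ψ * (K * K - F * F - (1 + r) • mpow (Ψᴴ * Ψ) r) * Ψᴴ + Ψ * F * Ψ'ᴴ -
      ((2 : ℂ) • (Ψ * (F * F) * Ψᴴ) - (r : ℂ) • mpow (Ψ * Ψᴴ) (1 + r))) ≤
    (8 * κ ^ 2 * B + 2 * B ^ 2) *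
      (hs (Ψ' - Ψ * F) + hs (mpow (Ψᴴ * Ψ) r - (K * K - F * F))) := by
  set P : Matrix ι ι ℂ := mpow (Ψᴴ * Ψ) r with hP
  have e : Ψ' * F * Ψᴴ + Ψ * (K * K - F * F - (1 + r) • P) * Ψᴴ + Ψ * F * Ψ'ᴴ -
      ((2 : ℂ) • (Ψ * (F * F) * Ψᴴ) - (r : ℂ) • mpow (Ψ * Ψᴴ) (1 + r)) =
      ((Ψ' - Ψ * F) * F * Ψᴴ + Ψ * F * (Ψ' - Ψ * F)ᴴ) - Ψ * (P - (K * K - F * F)) * Ψᴴ := by
    rw [← mpow_one_add_rect Ψ hr, ← hP, Matrix.conjTranspose_sub, Matrix.conjTranspose_mul,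
      h.hermF, two_smul, add_smul, one_smul, show ((r : ℂ)) • (Ψ * P * Ψᴴ) = r • (Ψ * P * Ψᴴ) from
        (Complex.coe_smul r _)]
    simp only [Matrix.sub_mul, Matrix.mul_sub, Matrix.mul_assoc, Matrix.mul_add, Matrix.add_mul,
      Matrix.mul_smul, Matrix.smul_mul]
    abel
  rw [e]
  have h1 : hs ((Ψ' - Ψ * F) * F * Ψᴴ) ≤ κ ^ 2 * B * hs (Ψ' - Ψ * F) := by
    have a1 := hs_mul_le ((Ψ' - Ψ * F) * F) Ψᴴ
    rw [hs_conjTranspose] at a1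
    have a2 := h.mulF hκ (Ψ' - Ψ * F)
    have a3 := hs_nonneg (Ψ' - Ψ * F)
    calc _ ≤ _ := a1
      _ ≤ (κ ^ 2 * hs (Ψ' - Ψ * F)) * B := by
        apply mul_le_mul a2 hB (hs_nonneg _) (by positivity)
      _ = _ := by ring
  have h2 : hs (Ψ * F * (Ψ' - Ψ * F)ᴴ) ≤ κ ^ 2 * B * hs (Ψ' - Ψ * F) := by
    have a1 := hs_mul_le (Ψ * F) (Ψ' - Ψ * F)ᴴ
    rw [hs_conjTranspose] at a1
    have a2 := h.mulF hκ Ψ
    have a3 := hs_nonneg (Ψ' - Ψ * F)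
    calc _ ≤ _ := a1
      _ ≤ (κ ^ 2 * B) * hs (Ψ' - Ψ * F) := by
        refine mul_le_mul_of_nonneg_right (a2.trans ?_) a3
        exact mul_le_mul_of_nonneg_left hB (sq_nonneg κ)
  have h3 : hs (Ψ * (P - (K * K - F * F)) * Ψᴴ) ≤ B ^ 2 * hs (P - (K * K - F * F)) := by
    have a1 := hs_mul_le (Ψ * (P - (K * K - F * F))) Ψᴴ
    have a2 := hs_mul_le Ψ (P - (K * K - F * F))
    rw [hs_conjTranspose] at a1
    have a3 := hs_nonneg (P - (K * K - F * F))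
    calc _ ≤ _ := a1
      _ ≤ (B * hs (P - (K * K - F * F))) * B := by
        refine mul_le_mul (a2.trans ?_) hB (hs_nonneg _) (by positivity)
        exact mul_le_mul_of_nonneg_right hB a3
      _ = _ := by ring
  have h4 := hs_add_le ((Ψ' - Ψ * F) * F * Ψᴴ) (Ψ * F * (Ψ' - Ψ * F)ᴴ)
  have h5 := hs_sub_le ((Ψ' - Ψ * F) * F * Ψᴴ + Ψ * F * (Ψ' - Ψ * F)ᴴ)
    (Ψ * (P - (K * K - F * F)) * Ψᴴ)
  have h6 := hs_nonneg (Ψ' - Ψ * F)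
  have h7 := hs_nonneg (P - (K * K - F * F))
  have h8 : 0 ≤ κ ^ 2 * B := by positivity
  have h9 : 0 ≤ B ^ 2 := by positivity
  nlinarith [mul_nonneg h8 h7, mul_nonneg h9 h6]

include hκ h hB in
/-- `[S, R^r] = Ψ[F,P^r]Ψᴴ`. -/
lemma err_comm {r : ℝ} (hB0 : 0 ≤ B) :
    hs (Ψ * F * Ψᴴ * mpow (Ψ * Ψᴴ) r - mpow (Ψ * Ψᴴ) r * (Ψ * F * Ψᴴ)) ≤
    (B ^ 2 * (8 * κ ^ 2 + 2)) *
      (hs (F * (K * K) - K * K * F) + hs (mpow (Ψᴴ * Ψ) r - (K * K - F * F))) := by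
  set P : Matrix ι ι ℂ := mpow (Ψᴴ * Ψ) r with hP
  have e1 : mpow (Ψ * Ψᴴ) r * Ψ = Ψ * P := mpow_rect Ψ r
  have e2 : Ψᴴ * mpow (Ψ * Ψᴴ) r = P * Ψᴴ := by
    have := congrArg Matrix.conjTranspose e1
    rw [Matrix.conjTranspose_mul, Matrix.conjTranspose_mul, mpow_isHermitian, hP,
      mpow_isHermitian] at this
    exact this
  have e : Ψ * F * Ψᴴ * mpow (Ψ * Ψᴴ) r - mpow (Ψ * Ψᴴ) r * (Ψ * F * Ψᴴ) =
      Ψ * (F * P - P * F) * Ψᴴ := by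
    have a1 : Ψ * F * Ψᴴ * mpow (Ψ * Ψᴴ) r = Ψ * F * (P * Ψᴴ) := by
      rw [← e2]; simp only [Matrix.mul_assoc]
    have a2 : mpow (Ψ * Ψᴴ) r * (Ψ * F * Ψᴴ) = (Ψ * P) * F * Ψᴴ := by
      rw [← e1]; simp only [Matrix.mul_assoc]
    rw [a1, a2]
    simp only [Matrix.sub_mul, Matrix.mul_sub, Matrix.mul_assoc]
  rw [e]
  have h1 := comm_bound hκ h (X := P)
  have a1 := hs_mul_le (Ψ * (F * P - P * F)) Ψᴴ
  have a2 := hs_mul_le Ψ (F * P - P * F)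
  rw [hs_conjTranspose] at a1
  have a3 := hs_nonneg (F * P - P * F)
  calc _ ≤ _ := a1
    _ ≤ (B * hs (F * P - P * F)) * B := by
      refine mul_le_mul (a2.trans ?_) hB (hs_nonneg _) (by positivity)
      exact mul_le_mul_of_nonneg_right hB a3
    _ = B ^ 2 * hs (F * P - P * F) := by ring
    _ ≤ B ^ 2 * _ := mul_le_mul_of_nonneg_left h1 (by positivity)
    _ = _ := by ring

include hκ h hB in
/-- `R^rQ - SR^{r-1}S = Ψ[P^r,F]FΨᴴ`. -/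
lemma err_Q {r : ℝ} (hr : 1 < r) (hB0 : 0 ≤ B) :
    hs (mpow (Ψ * Ψᴴ) r * (Ψ * (F * F) * Ψᴴ) -
      Ψ * F * Ψᴴ * mpow (Ψ * Ψᴴ) (r - 1) * (Ψ * F * Ψᴴ)) ≤
    (B ^ 2 * κ ^ 2 * (8 * κ ^ 2 + 2)) *
      (hs (F * (K * K) - K * K * F) + hs (mpow (Ψᴴ * Ψ) r - (K * K - F * F))) := by
  set P : Matrix ι ι ℂ := mpow (Ψᴴ * Ψ) r with hP
  have e1 : mpow (Ψ * Ψᴴ) r * Ψ = Ψ * P := mpow_rect Ψ r
  have e3 : Ψᴴ * mpow (Ψ * Ψᴴ) (r - 1) * Ψ = P := mpow_sub_one_rect Ψ hr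
  have e : mpow (Ψ * Ψᴴ) r * (Ψ * (F * F) * Ψᴴ) -
      Ψ * F * Ψᴴ * mpow (Ψ * Ψᴴ) (r - 1) * (Ψ * F * Ψᴴ) =
      -(Ψ * (F * P - P * F) * F * Ψᴴ) := by
    have a1 : mpow (Ψ * Ψᴴ) r * (Ψ * (F * F) * Ψᴴ) = (Ψ * P) * (F * F) * Ψᴴ := by
      rw [← e1]; simp only [Matrix.mul_assoc]
    have a2 : Ψ * F * Ψᴴ * mpow (Ψ * Ψᴴ) (r - 1) * (Ψ * F * Ψᴴ) = Ψ * F * P * F * Ψᴴ := by
      rw [← e3]; simp only [Matrix.mul_assoc]
    rw [a1, a2]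
    simp only [Matrix.sub_mul, Matrix.mul_sub, Matrix.mul_assoc]
    abel
  rw [e, hs_neg]
  have h1 := comm_bound hκ h (X := P)
  have a1 := hs_mul_le (Ψ * (F * P - P * F) * F) Ψᴴ
  have a2 := hs_mul_le Ψ (F * P - P * F)
  have a2' := h.mulF hκ (Ψ * (F * P - P * F))
  rw [hs_conjTranspose] at a1
  have a3 := hs_nonneg (F * P - P * F)
  calc _ ≤ _ := a1
    _ ≤ (κ ^ 2 * (B * hs (F * P - P * F))) * B := by
      refine mul_le_mul (a2'.trans ?_) hB (hs_nonneg _) (by positivity)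
      refine mul_le_mul_of_nonneg_left (a2.trans ?_) (sq_nonneg κ)
      exact mul_le_mul_of_nonneg_right hB a3
    _ = B ^ 2 * κ ^ 2 * hs (F * P - P * F) := by ring
    _ ≤ B ^ 2 * κ ^ 2 * _ := mul_le_mul_of_nonneg_left h1 (by positivity)
    _ = _ := by ring

include hB in
lemma dR_bound : hs (Ψ' * Ψᴴ + Ψ * Ψ'ᴴ) ≤ 4 * B * hs Ψ' := by
  have h1 := hs_mul_le Ψ' Ψᴴ
  have h2 := hs_mul_le Ψ Ψ'ᴴ
  rw [hs_conjTranspose] at h1 h2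
  have h3 := hs_add_le (Ψ' * Ψᴴ) (Ψ * Ψ'ᴴ)
  have h4 := hs_nonneg Ψ'
  have h5 := mul_le_mul_of_nonneg_left hB h4
  nlinarith

include hκ h hB in
lemma dS_bound {r : ℝ} (hr : 0 < r) (hB0 : 0 ≤ B) :
    hs (Ψ' * F * Ψᴴ + Ψ * (K * K - F * F - (1 + r) • mpow (Ψᴴ * Ψ) r) * Ψᴴ + Ψ * F * Ψ'ᴴ) ≤
    (16 * κ ^ 2 * B) * hs Ψ' + (32 * κ ^ 4 * B ^ 2 +
      8 * (1 + r) ^ 2 * (Fintype.card m * (B ^ (1 + r)) ^ 2)) := by
  set P : Matrix ι ι ℂ := mpow (Ψᴴ * Ψ) r with hP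
  have hΨ0 := hs_nonneg Ψ
  have hΨ'0 := hs_nonneg Ψ'
  have b1 : hs (Ψ' * F * Ψᴴ) ≤ κ ^ 2 * B * hs Ψ' := by
    have a1 := hs_mul_le (Ψ' * F) Ψᴴ
    rw [hs_conjTranspose] at a1
    have a2 := h.mulF hκ Ψ'
    calc _ ≤ _ := a1
      _ ≤ (κ ^ 2 * hs Ψ') * B := mul_le_mul a2 hB (hs_nonneg _) (by positivity)
      _ = _ := by ring
  have b2 : hs (Ψ * F * Ψ'ᴴ) ≤ κ ^ 2 * B * hs Ψ' := by
    have a1 := hs_mul_le (Ψ * F) Ψ'ᴴ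
    rw [hs_conjTranspose] at a1
    have a2 := h.mulF hκ Ψ
    calc _ ≤ _ := a1
      _ ≤ (κ ^ 2 * B) * hs Ψ' := by
        refine mul_le_mul_of_nonneg_right (a2.trans ?_) hΨ'0
        exact mul_le_mul_of_nonneg_left hB (sq_nonneg κ)
  have b3 : hs (Ψ * (K * K) * Ψᴴ) ≤ κ ^ 4 * B ^ 2 := by
    refine (hs_mul_le _ _).trans ?_
    rw [hs_conjTranspose, ← Matrix.mul_assoc]
    have a1 := h.mulK hκ Ψ
    have a1' := h.mulK hκ (Ψ * K)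
    have a3 : hs (Ψ * K * K) ≤ κ ^ 4 * hs Ψ := by
      calc hs (Ψ * K * K) ≤ κ ^ 2 * (κ ^ 2 * hs Ψ) := a1'.trans (by gcongr)
        _ = κ ^ 4 * hs Ψ := by ring
    calc hs (Ψ * K * K) * hs Ψ ≤ (κ ^ 4 * hs Ψ) * hs Ψ := by gcongr
      _ ≤ (κ ^ 4 * B) * B := by gcongr
      _ = κ ^ 4 * B ^ 2 := by ring
  have b4 : hs (Ψ * (F * F) * Ψᴴ) ≤ κ ^ 4 * B ^ 2 := Q_bound hκ h hB
  have b5 : hs (Ψ * P * Ψᴴ) ≤ Fintype.card m * (B ^ (1 + r)) ^ 2 := by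
    rw [hP, mpow_one_add_rect Ψ hr]
    refine hs_mpow_le (self_conj_posSemidef Ψ) (by linarith) ?_
    rw [← hs_eq_rtr']
    exact hB
  have e : Ψ * (K * K - F * F - (1 + r) • P) * Ψᴴ =
      (Ψ * (K * K) * Ψᴴ - Ψ * (F * F) * Ψᴴ) - (1 + r) • (Ψ * P * Ψᴴ) := by
    simp only [Matrix.sub_mul, Matrix.mul_sub, Matrix.mul_smul, Matrix.smul_mul]
  have c1 := hs_sub_le (Ψ * (K * K) * Ψᴴ) (Ψ * (F * F) * Ψᴴ)
  have c2 := hs_sub_le (Ψ * (K * K) * Ψᴴ - Ψ * (F * F) * Ψᴴ) ((1 + r) • (Ψ * P * Ψᴴ))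
  rw [hs_smul] at c2
  have c3 := hs_add_le (Ψ' * F * Ψᴴ) (Ψ * (K * K - F * F - (1 + r) • P) * Ψᴴ)
  have c4 := hs_add_le (Ψ' * F * Ψᴴ + Ψ * (K * K - F * F - (1 + r) • P) * Ψᴴ) (Ψ * F * Ψ'ᴴ)
  rw [e] at c3 c4 ⊢
  have c5 := mul_le_mul_of_nonneg_left b5 (sq_nonneg (1 + r))
  have c6 : 0 ≤ κ ^ 2 * B * hs Ψ' := by positivity
  linarith

include hκ h hB in
lemma dQ_bound {r : ℝ} (hr : 0 < r) (hB0 : 0 ≤ B) :
    hs (Ψ' * (F * F) * Ψᴴ + Ψ * ((K * K - F * F - (1 + r) • mpow (Ψᴴ * Ψ) r) * F +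
      F * (K * K - F * F - (1 + r) • mpow (Ψᴴ * Ψ) r)) * Ψᴴ + Ψ * (F * F) * Ψ'ᴴ) ≤
    (8 * κ ^ 4 * B) * hs Ψ' + (64 * κ ^ 6 * B ^ 2 +
      16 * (1 + r) ^ 2 * (κ ^ 2 * B ^ 2 * (Fintype.card m * (B ^ r) ^ 2))) := by
  set P : Matrix ι ι ℂ := mpow (Ψᴴ * Ψ) r with hP
  have hPh : Pᴴ = P := mpow_isHermitian _ _
  have hKh : Kᴴ = K := h.posK.1
  have hFh : Fᴴ = F := h.hermF
  have hΨ0 := hs_nonneg Ψ
  have hΨ'0 := hs_nonneg Ψ'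
  set X : Matrix m m ℂ := Ψ' * (F * F) * Ψᴴ with hX
  set Y : Matrix m m ℂ := Ψ * ((K * K - F * F - (1 + r) • P) * F) * Ψᴴ with hY
  have hXh : Xᴴ = Ψ * (F * F) * Ψ'ᴴ := by
    rw [hX]
    simp only [Matrix.conjTranspose_mul, Matrix.conjTranspose_conjTranspose, hFh,
      Matrix.mul_assoc]
  have hYh : Yᴴ = Ψ * (F * (K * K - F * F - (1 + r) • P)) * Ψᴴ := by
    rw [hY]
    simp only [Matrix.conjTranspose_mul, Matrix.conjTranspose_conjTranspose, hFh,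
      Matrix.conjTranspose_sub, Matrix.conjTranspose_smul, hKh, hPh, star_trivial,
      Matrix.mul_assoc]
  have e0 : Ψ' * (F * F) * Ψᴴ + Ψ * ((K * K - F * F - (1 + r) • P) * F +
      F * (K * K - F * F - (1 + r) • P)) * Ψᴴ + Ψ * (F * F) * Ψ'ᴴ = (X + Xᴴ) + (Y + Yᴴ) := by
    rw [hXh, hYh, hX, hY, Matrix.mul_add, Matrix.add_mul]
    abel
  rw [e0]
  have bX : hs X ≤ κ ^ 4 * B * hs Ψ' := by
    rw [hX]
    have a1 := hs_mul_le (Ψ' * (F * F)) Ψᴴ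
    rw [hs_conjTranspose] at a1
    have a2 : hs (Ψ' * (F * F)) ≤ κ ^ 4 * hs Ψ' := by
      rw [← Matrix.mul_assoc]
      calc hs (Ψ' * F * F) ≤ κ ^ 2 * (κ ^ 2 * hs Ψ') :=
            (h.mulF hκ (Ψ' * F)).trans (by have := h.mulF hκ Ψ'; gcongr)
        _ = κ ^ 4 * hs Ψ' := by ring
    calc _ ≤ _ := a1
      _ ≤ (κ ^ 4 * hs Ψ') * B := mul_le_mul a2 hB (hs_nonneg _) (by positivity)
      _ = _ := by ring
  have y1 : hs (Ψ * (K * K * F) * Ψᴴ) ≤ κ ^ 6 * B ^ 2 := by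
    refine (hs_mul_le _ _).trans ?_
    rw [hs_conjTranspose, ← Matrix.mul_assoc, ← Matrix.mul_assoc]
    have a3 : hs (Ψ * K * K * F) ≤ κ ^ 6 * hs Ψ := by
      calc hs (Ψ * K * K * F) ≤ κ ^ 2 * (κ ^ 2 * (κ ^ 2 * hs Ψ)) := by
            refine (h.mulF hκ _).trans ?_
            have a1' := h.mulK hκ (Ψ * K)
            have a1 := h.mulK hκ Ψ
            have : hs (Ψ * K * K) ≤ κ ^ 2 * (κ ^ 2 * hs Ψ) := a1'.trans (by gcongr)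
            gcongr
        _ = κ ^ 6 * hs Ψ := by ring
    calc hs (Ψ * K * K * F) * hs Ψ ≤ (κ ^ 6 * hs Ψ) * hs Ψ := by gcongr
      _ ≤ (κ ^ 6 * B) * B := mul_le_mul (mul_le_mul_of_nonneg_left hB (by positivity)) hB hΨ0
          (mul_nonneg (by positivity) hB0)
      _ = κ ^ 6 * B ^ 2 := by ring
  have y2 : hs (Ψ * (F * F * F) * Ψᴴ) ≤ κ ^ 6 * B ^ 2 := by
    refine (hs_mul_le _ _).trans ?_
    rw [hs_conjTranspose, ← Matrix.mul_assoc, ← Matrix.mul_assoc]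
    have a3 : hs (Ψ * F * F * F) ≤ κ ^ 6 * hs Ψ := by
      calc hs (Ψ * F * F * F) ≤ κ ^ 2 * (κ ^ 2 * (κ ^ 2 * hs Ψ)) := by
            refine (h.mulF hκ _).trans ?_
            have a1' := h.mulF hκ (Ψ * F)
            have a1 := h.mulF hκ Ψ
            have : hs (Ψ * F * F) ≤ κ ^ 2 * (κ ^ 2 * hs Ψ) := a1'.trans (by gcongr)
            gcongr
        _ = κ ^ 6 * hs Ψ := by ring
    calc hs (Ψ * F * F * F) * hs Ψ ≤ (κ ^ 6 * hs Ψ) * hs Ψ := by gcongr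
      _ ≤ (κ ^ 6 * B) * B := mul_le_mul (mul_le_mul_of_nonneg_left hB (by positivity)) hB hΨ0
          (mul_nonneg (by positivity) hB0)
      _ = κ ^ 6 * B ^ 2 := by ring
  have y3 : hs (Ψ * (P * F) * Ψᴴ) ≤ κ ^ 2 * B ^ 2 * (Fintype.card m * (B ^ r) ^ 2) := by
    have e1 : mpow (Ψ * Ψᴴ) r * Ψ = Ψ * P := mpow_rect Ψ r
    have e2 : Ψ * (P * F) * Ψᴴ = mpow (Ψ * Ψᴴ) r * (Ψ * F * Ψᴴ) := by
      rw [← Matrix.mul_assoc, ← e1]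
      simp only [Matrix.mul_assoc]
    rw [e2]
    refine (hs_mul_le _ _).trans ?_
    have a1 := hs_mpow_le (self_conj_posSemidef Ψ) hr.le
      (show rtr (Ψ * Ψᴴ) ≤ B by rw [← hs_eq_rtr']; exact hB)
    have a2 := S_bound hκ h hB
    calc _ ≤ (Fintype.card m * (B ^ r) ^ 2) * (κ ^ 2 * B ^ 2) :=
          mul_le_mul a1 a2 (hs_nonneg _) (by positivity)
      _ = _ := by ring
  have eY : Y = (Ψ * (K * K * F) * Ψᴴ - Ψ * (F * F * F) * Ψᴴ) -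
      (1 + r) • (Ψ * (P * F) * Ψᴴ) := by
    rw [hY]
    simp only [Matrix.sub_mul, Matrix.mul_sub, Matrix.mul_smul, Matrix.smul_mul]
  have c1 := hs_sub_le (Ψ * (K * K * F) * Ψᴴ) (Ψ * (F * F * F) * Ψᴴ)
  have c2 := hs_sub_le (Ψ * (K * K * F) * Ψᴴ - Ψ * (F * F * F) * Ψᴴ)
    ((1 + r) • (Ψ * (P * F) * Ψᴴ))
  rw [hs_smul, ← eY] at c2
  have c3 := hs_add_le X Xᴴ
  have c4 := hs_add_le Y Yᴴ
  have c5 := hs_add_le (X + Xᴴ) (Y + Yᴴ)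
  rw [hs_conjTranspose] at c3 c4
  have c6 := mul_le_mul_of_nonneg_left y3 (sq_nonneg (1 + r))
  linarith

end estimates

end Crest.Agent.R332.Lim
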