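import Crest.Agent.R332.LimMain
import Crest.Agent.R332.LimData

/-! # Row 332: from near-extremal families to the limit system -/

set_option autoImplicit false
set_option linter.unusedSectionVars false

namespace Crest.Agent.R332.Lim

open Matrix Filter Topology MeasureTheory
open scoped ComplexOrder

section deriv

variable {p q s : Type*} [Fintype p] [Fintype q] [Fintype s]

/-- Entrywise derivative of a matrix path. -/
def MDeriv (A : ℝ → Matrix p q ℂ) (A' : Matrix p q ℂ) (x : ℝ) : Prop :=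
  ∀ i j, HasDerivAt (fun y => A y i j) (A' i j) x

lemma MDeriv.mul {A : ℝ → Matrix p q ℂ} {B : ℝ → Matrix q s ℂ} {A' : Matrix p q ℂ}
    {B' : Matrix q s ℂ} {x : ℝ} (hA : MDeriv A A' x) (hB : MDeriv B B' x) :
    MDeriv (fun y => A y * B y) (A' * B x + A x * B') x := by
  intro i j
  simp only [Matrix.mul_apply, Matrix.add_apply, ← Finset.sum_add_distrib]
  exact HasDerivAt.fun_sum fun l _ => (hA i l).mul (hB l j)

lemma MDeriv.conjTranspose {A : ℝ → Matrix p q ℂ} {A' : Matrix p q ℂ} {x : ℝ}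
    (hA : MDeriv A A' x) : MDeriv (fun y => (A y)ᴴ) A'ᴴ x := by
  intro i j
  simp only [Matrix.conjTranspose_apply]
  exact (hA j i).star

lemma MDeriv.continuousAt {A : ℝ → Matrix p q ℂ} {A' : ℝ → Matrix p q ℂ}
    (hA : ∀ x, MDeriv A (A' x) x) : Continuous A := by
  refine continuous_matrix fun i j => ?_
  exact continuous_iff_continuousAt.2 fun x => (hA x i j).continuousAt

end deriv

lemma ftc_sub_le {u u' v : ℝ → ℂ} (hu : ∀ x, HasDerivAt u (u' x) x) (hu' : Continuous u')
    (hv : Continuous v) {g : ℝ → ℝ} (hg0 : ∀ x, 0 ≤ g x) (hgi : Integrable g) {C : ℝ}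
    (hle : ∀ x, ‖u' x - v x‖ ≤ C * Real.sqrt (g x)) {x y : ℝ} (hxy : x ≤ y) :
    ‖u y - u x - ∫ t in x..y, v t‖ ≤ C * ∫ t in x..y, Real.sqrt (g t) := by
  have h1 : ∫ t in x..y, u' t = u y - u x :=
    intervalIntegral.integral_eq_sub_of_hasDerivAt (fun t _ => hu t) (hu'.intervalIntegrable _ _)
  rw [← h1, ← intervalIntegral.integral_sub (hu'.intervalIntegrable _ _)
    (hv.intervalIntegrable _ _), ← intervalIntegral.integral_const_mul]
  refine intervalIntegral.norm_integral_le_of_norm_le hxy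
    (Eventually.of_forall fun t _ => hle t) ?_
  exact (integral_sqrt_le hg0 hgi hxy one_pos).1.const_mul C

lemma ftc_holder {u u' : ℝ → ℂ} (hu : ∀ x, HasDerivAt u (u' x) x) (hu' : Continuous u')
    {h : ℝ → ℝ} (hh0 : ∀ x, 0 ≤ h x) (hhi : Integrable h) {A D : ℝ} (hA : 0 ≤ A)
    (hD : ∫ x, h x ≤ D) (hle : ∀ x, ‖u' x‖ ≤ A * (1 + Real.sqrt (h x))) (x y : ℝ) :
    ‖u x - u y‖ ≤ A * (1 + D) * (Real.sqrt |x - y| + |x - y|) := by
  wlog hxy : x ≤ y generalizing x y with H
  · rw [norm_sub_rev, abs_sub_comm]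
    exact H y x (not_le.1 hxy).le
  have hD0 : 0 ≤ D := (integral_nonneg hh0).trans hD
  rcases hxy.eq_or_lt with h0 | hlt
  · subst h0
    simp
  have habs : |x - y| = y - x := by rw [abs_sub_comm, abs_of_nonneg (by linarith)]
  rw [habs]
  set d : ℝ := y - x with hd
  have hd0 : 0 < d := by linarith
  have hsd : 0 < Real.sqrt d := Real.sqrt_pos.2 hd0
  have h1 : ∫ t in x..y, u' t = u y - u x :=
    intervalIntegral.integral_eq_sub_of_hasDerivAt (fun t _ => hu t) (hu'.intervalIntegrable _ _)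
  obtain ⟨hi, hle2⟩ := integral_sqrt_le hh0 hhi hxy (t := (Real.sqrt d)⁻¹) (by positivity)
  have h2 : ‖∫ t in x..y, u' t‖ ≤ ∫ t in x..y, A * (1 + Real.sqrt (h t)) :=
    intervalIntegral.norm_integral_le_of_norm_le hxy (Eventually.of_forall fun t _ => hle t)
      ((intervalIntegrable_const.add hi).const_mul A)
  rw [norm_sub_rev, ← h1]
  refine h2.trans ?_
  rw [intervalIntegral.integral_const_mul, intervalIntegral.integral_add intervalIntegrable_const
    hi, intervalIntegral.integral_const, smul_eq_mul, mul_one, mul_assoc]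
  refine mul_le_mul_of_nonneg_left ?_ hA
  have e1 : (Real.sqrt d)⁻¹ * (y - x) = Real.sqrt d := by
    rw [← hd]
    nth_rewrite 2 [← Real.mul_self_sqrt hd0.le]
    field_simp
  have e2 : (∫ x, h x) / (4 * (Real.sqrt d)⁻¹) ≤ D * Real.sqrt d := by
    rw [div_le_iff₀ (by positivity)]
    have : D * Real.sqrt d * (4 * (Real.sqrt d)⁻¹) = 4 * D := by field_simp
    rw [this]
    linarith
  rw [e1] at hle2
  have h3 := hle2.trans (add_le_add_right e2 _)
  nlinarith [mul_nonneg hD0 hd0.le, mul_nonneg hD0 hsd.le]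

end Crest.Agent.R332.Lim
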