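import Crest.Agent.R332.TrBasic

/-! # Row 332: squared Hilbert–Schmidt norm of rectangular complex matrices -/

set_option autoImplicit false
set_option linter.unusedSectionVars false

namespace Crest.Agent.R332.Lim

open Matrix
open scoped ComplexOrder

variable {m n p : Type*} [Fintype m] [Fintype n] [Fintype p]

/-- Squared Hilbert–Schmidt norm. -/
noncomputable def hs (A : Matrix m n ℂ) : ℝ := ∑ i, ∑ j, ‖A i j‖ ^ 2

lemma hs_nonneg (A : Matrix m n ℂ) : 0 ≤ hs A :=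
  Finset.sum_nonneg fun _ _ => Finset.sum_nonneg fun _ _ => sq_nonneg _

lemma hs_entry (A : Matrix m n ℂ) (i : m) (j : n) : ‖A i j‖ ^ 2 ≤ hs A := by
  unfold hs
  refine le_trans ?_ (Finset.single_le_sum (f := fun i => ∑ j, ‖A i j‖ ^ 2)
    (fun i _ => Finset.sum_nonneg fun _ _ => sq_nonneg _) (Finset.mem_univ i))
  exact Finset.single_le_sum (f := fun j => ‖A i j‖ ^ 2) (fun _ _ => sq_nonneg _)
    (Finset.mem_univ j)

lemma hs_entry' (A : Matrix m n ℂ) (i : m) (j : n) : ‖A i j‖ ≤ Real.sqrt (hs A) :=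
  Real.le_sqrt_of_sq_le (hs_entry A i j)

lemma hs_eq_rtr (A : Matrix m n ℂ) : hs A = rtr (Aᴴ * A) := by
  unfold hs rtr
  rw [Matrix.trace, Complex.re_sum, Finset.sum_comm]
  refine Finset.sum_congr rfl fun j _ => ?_
  rw [Matrix.diag_apply, Matrix.mul_apply, Complex.re_sum]
  refine Finset.sum_congr rfl fun i _ => ?_
  rw [Matrix.conjTranspose_apply]
  have : star (A i j) * A i j = ((‖A i j‖ ^ 2 : ℝ) : ℂ) := by
    rw [mul_comm, Complex.star_def, Complex.mul_conj, Complex.normSq_eq_norm_sq]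
  rw [this, Complex.ofReal_re]

lemma hs_eq_rtr' (A : Matrix m n ℂ) : hs A = rtr (A * Aᴴ) := by
  rw [hs_eq_rtr]
  simp only [rtr]
  rw [Matrix.trace_mul_comm]

lemma hs_conjTranspose (A : Matrix m n ℂ) : hs Aᴴ = hs A := by
  rw [hs_eq_rtr, hs_eq_rtr', Matrix.conjTranspose_conjTranspose]

lemma hs_eq_zero {A : Matrix m n ℂ} (h : hs A = 0) : A = 0 := by
  ext i j
  have h1 := hs_entry A i j
  rw [h] at h1
  have h2 : ‖A i j‖ = 0 := by
    have := sq_nonneg ‖A i j‖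
    exact pow_eq_zero_iff (two_ne_zero) |>.1 (le_antisymm h1 this)
  simpa using h2

@[simp] lemma hs_zero : hs (0 : Matrix m n ℂ) = 0 := by simp [hs]

lemma hs_neg (A : Matrix m n ℂ) : hs (-A) = hs A := by simp [hs]

lemma hs_smul (c : ℝ) (A : Matrix m n ℂ) : hs (c • A) = c ^ 2 * hs A := by
  simp only [hs, Matrix.smul_apply, norm_smul, mul_pow, Finset.mul_sum, Real.norm_eq_abs, sq_abs]

lemma hs_smul_complex (c : ℂ) (A : Matrix m n ℂ) : hs (c • A) = ‖c‖ ^ 2 * hs A := by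
  simp only [hs, Matrix.smul_apply, norm_smul, mul_pow, Finset.mul_sum]

lemma hs_add_le (A B : Matrix m n ℂ) : hs (A + B) ≤ 2 * hs A + 2 * hs B := by
  simp only [hs, Finset.mul_sum, ← Finset.sum_add_distrib]
  refine Finset.sum_le_sum fun i _ => Finset.sum_le_sum fun j _ => ?_
  rw [Matrix.add_apply]
  have h1 := norm_add_le (A i j) (B i j)
  have h2 := norm_nonneg (A i j + B i j)
  nlinarith [sq_nonneg (‖A i j‖ - ‖B i j‖), norm_nonneg (A i j), norm_nonneg (B i j)]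

lemma hs_sub_le (A B : Matrix m n ℂ) : hs (A - B) ≤ 2 * hs A + 2 * hs B := by
  rw [sub_eq_add_neg]
  refine (hs_add_le A (-B)).trans ?_
  rw [hs_neg]

lemma hs_mul_le (A : Matrix m n ℂ) (B : Matrix n p ℂ) : hs (A * B) ≤ hs A * hs B := by
  have key : ∀ i k, ‖(A * B) i k‖ ^ 2 ≤ (∑ j, ‖A i j‖ ^ 2) * (∑ j, ‖B j k‖ ^ 2) := by
    intro i k
    rw [Matrix.mul_apply]
    have h1 : ‖∑ j, A i j * B j k‖ ≤ ∑ j, ‖A i j‖ * ‖B j k‖ :=
      (norm_sum_le _ _).trans (Finset.sum_le_sum fun j _ => (norm_mul_le _ _))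
    have h2 := Finset.sum_mul_sq_le_sq_mul_sq Finset.univ (fun j => ‖A i j‖) (fun j => ‖B j k‖)
    exact (pow_le_pow_left₀ (norm_nonneg _) h1 2).trans h2
  calc hs (A * B) ≤ ∑ i, ∑ k, (∑ j, ‖A i j‖ ^ 2) * (∑ j, ‖B j k‖ ^ 2) :=
        Finset.sum_le_sum fun i _ => Finset.sum_le_sum fun k _ => key i k
    _ = hs A * hs B := by
        unfold hs
        rw [Finset.sum_comm (s := (Finset.univ : Finset n)) (t := (Finset.univ : Finset p)),
          Finset.sum_mul_sum]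

variable [DecidableEq n]

/-- `κ² - F² ≥ 0` for Hermitian `F` with `-κ ≤ F ≤ κ`. -/
lemma sq_le_of_abs_le {F : Matrix n n ℂ} {κ : ℝ} (hκ : 0 < κ)
    (h1 : (((κ : ℝ) : ℂ) • (1 : Matrix n n ℂ) - F).PosSemidef)
    (h2 : (((κ : ℝ) : ℂ) • (1 : Matrix n n ℂ) + F).PosSemidef) :
    (((κ ^ 2 : ℝ) : ℂ) • (1 : Matrix n n ℂ) - F * F).PosSemidef := by
  set k : ℂ := ((κ : ℝ) : ℂ) with hk
  have hk0 : k ≠ 0 := by
    rw [hk]; exact_mod_cast hκ.ne'
  set A : Matrix n n ℂ := k • (1 : Matrix n n ℂ) - F with hA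
  set B : Matrix n n ℂ := k • (1 : Matrix n n ℂ) + F with hB
  have e1 : (A * B * Aᴴ).PosSemidef := h2.mul_mul_conjTranspose_same A
  have e2 : (B * A * Bᴴ).PosSemidef := h1.mul_mul_conjTranspose_same B
  rw [h1.1] at e1
  rw [h2.1] at e2
  have e3 : (A * B * A + B * A * B).PosSemidef := e1.add e2
  have hc : (0 : ℂ) ≤ (((2 * κ)⁻¹ : ℝ) : ℂ) := by
    have : (0 : ℝ) ≤ (2 * κ)⁻¹ := by positivity
    exact_mod_cast this
  have e4 := e3.smul hc
  convert e4 using 1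
  have hAB : A * B = (k ^ 2) • (1 : Matrix n n ℂ) - F * F := by
    rw [hA, hB]
    simp only [Matrix.sub_mul, Matrix.mul_add, Matrix.smul_mul, Matrix.mul_smul, Matrix.one_mul,
      Matrix.mul_one]
    module
  have hBA : B * A = (k ^ 2) • (1 : Matrix n n ℂ) - F * F := by
    rw [hA, hB]
    simp only [Matrix.add_mul, Matrix.mul_sub, Matrix.smul_mul, Matrix.mul_smul, Matrix.one_mul,
      Matrix.mul_one]
    module
  rw [hAB, hBA, ← Matrix.mul_add]
  have hApB : A + B = (2 * k) • (1 : Matrix n n ℂ) := by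
    rw [hA, hB, two_mul, add_smul]
    abel
  rw [hApB, Matrix.mul_smul, Matrix.mul_one, smul_smul]
  have : (((2 * κ)⁻¹ : ℝ) : ℂ) * (2 * k) = 1 := by
    rw [hk]
    push_cast
    field_simp
  rw [this, one_smul]
  congr 2
  rw [hk]
  push_cast
  ring

lemma rtr_nonneg_of_posSemidef {A : Matrix n n ℂ} (h : A.PosSemidef) : 0 ≤ rtr A := by
  have := h.trace_nonneg
  exact (Complex.le_def.1 this).1

/-- Right multiplication by a Hermitian matrix between `-κ` and `κ`. -/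
lemma hs_mul_bdd_le {F : Matrix n n ℂ} {κ : ℝ} (hκ : 0 < κ)
    (h1 : (((κ : ℝ) : ℂ) • (1 : Matrix n n ℂ) - F).PosSemidef)
    (h2 : (((κ : ℝ) : ℂ) • (1 : Matrix n n ℂ) + F).PosSemidef) (hF : F.IsHermitian)
    [DecidableEq m] (A : Matrix m n ℂ) : hs (A * F) ≤ κ ^ 2 * hs A := by
  have h3 := sq_le_of_abs_le hκ h1 h2
  have h4 := rtr_nonneg_of_posSemidef (h3.mul_mul_conjTranspose_same A)
  have h5 : A * (((κ ^ 2 : ℝ) : ℂ) • (1 : Matrix n n ℂ) - F * F) * Aᴴ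
      = (κ ^ 2) • (A * Aᴴ) - (A * F) * (A * F)ᴴ := by
    rw [Matrix.conjTranspose_mul, hF, Matrix.mul_sub, Matrix.sub_mul, Matrix.mul_smul,
      Matrix.smul_mul, Matrix.mul_one]
    congr 1
    simp only [Matrix.mul_assoc]
  rw [h5, rtr_sub, rtr_smul, ← hs_eq_rtr', ← hs_eq_rtr'] at h4
  linarith

lemma hs_bdd_mul_le {F : Matrix n n ℂ} {κ : ℝ} (hκ : 0 < κ)
    (h1 : (((κ : ℝ) : ℂ) • (1 : Matrix n n ℂ) - F).PosSemidef)
    (h2 : (((κ : ℝ) : ℂ) • (1 : Matrix n n ℂ) + F).PosSemidef) (hF : F.IsHermitian)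
    [DecidableEq m] (A : Matrix n m ℂ) : hs (F * A) ≤ κ ^ 2 * hs A := by
  have := hs_mul_bdd_le hκ h1 h2 hF Aᴴ
  rw [hs_conjTranspose] at this
  rw [← hs_conjTranspose (F * A), Matrix.conjTranspose_mul, hF]
  exact this

end Crest.Agent.R332.Lim
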