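import Crest.Agent.R332.LimSys

/-! # Row 332: the limit system for near-extremal families -/

set_option autoImplicit false
set_option linter.unusedSectionVars false

namespace Crest.Agent.R332.Lim

open Matrix Filter Topology MeasureTheory
open scoped ComplexOrder

variable {m : Type*} [Fintype m] [DecidableEq m]

lemma tendsto_mmul {A B : ℕ → Matrix m m ℂ} {a b : Matrix m m ℂ}
    (hA : Tendsto A atTop (𝓝 a)) (hB : Tendsto B atTop (𝓝 b)) :
    Tendsto (fun k => A k * B k) atTop (𝓝 (a * b)) := by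
  rw [tendsto_matrix_iff]
  intro i j
  simp only [Matrix.mul_apply]
  exact tendsto_finsetSum _ fun l _ =>
    ((tendsto_matrix_iff.1 hA) i l).mul ((tendsto_matrix_iff.1 hB) l j)

/-- Approximate `m × m` systems with errors controlled by `√g_k`, `∫ g_k → 0`, converge along a
subsequence to an exact system, and the potential is `(1+r) R^r` in the limit. -/
theorem lim_system {α r κ C : ℝ} (hα : 0 < α) (hr : r = 1 / α) (hr1 : 1 < r) (hC : 0 ≤ C)
    {W : ℝ → Matrix m m ℂ} (hWp : ∀ x, (W x).PosSemidef)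
    (R S Q : ℕ → ℝ → Matrix m m ℂ) (g : ℕ → ℝ → ℝ)
    (hg0 : ∀ k x, 0 ≤ g k x) (hgi : ∀ k, Integrable (g k))
    (hglim : Tendsto (fun k => ∫ x, g k x) atTop (𝓝 0))
    (hRp : ∀ k x, (R k x).PosSemidef) (hSh : ∀ k x, (S k x).IsHermitian)
    (hRc : ∀ k, Continuous (R k)) (hSc : ∀ k, Continuous (S k)) (hQc : ∀ k, Continuous (Q k))
    (hRb : ∀ k x i j, ‖R k x i j‖ ≤ C) (hSb : ∀ k x i j, ‖S k x i j‖ ≤ C)
    (hQb : ∀ k x i j, ‖Q k x i j‖ ≤ C)
    (hRPb : ∀ k x i j, ‖mpow (R k x) (1 + r) i j‖ ≤ C)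
    (hRh : ∀ k x y i j, ‖R k x i j - R k y i j‖ ≤ C * (Real.sqrt |x - y| + |x - y|))
    (hSh' : ∀ k x y i j, ‖S k x i j - S k y i j‖ ≤ C * (Real.sqrt |x - y| + |x - y|))
    (hQh : ∀ k x y i j, ‖Q k x i j - Q k y i j‖ ≤ C * (Real.sqrt |x - y| + |x - y|))
    (hReq : ∀ k x y, x ≤ y → ∀ i j, ‖R k y i j - R k x i j - ∫ t in x..y, 2 * S k t i j‖ ≤
      C * ∫ t in x..y, Real.sqrt (g k t))
    (hSeq : ∀ k x y, x ≤ y → ∀ i j, ‖S k y i j - S k x i j -
      ∫ t in x..y, (2 * Q k t i j - (r : ℂ) * mpow (R k t) (1 + r) i j)‖ ≤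
      C * ∫ t in x..y, Real.sqrt (g k t))
    (hcomm : ∀ k x i j, ‖(S k x * mpow (R k x) r - mpow (R k x) r * S k x) i j‖ ≤
      C * Real.sqrt (g k x))
    (hQ : ∀ k x i j, ‖(mpow (R k x) r * Q k x - S k x * mpow (R k x) (r - 1) * S k x) i j‖ ≤
      C * Real.sqrt (g k x))
    (hlo : ∀ k x, (((κ : ℝ) : ℂ) • R k x + S k x).PosSemidef)
    (hhi : ∀ k x, (((κ : ℝ) : ℂ) • R k x - S k x).PosSemidef)
    (hy : ∀ k x, (α / (1 + α)) ^ α / (1 + α) * trp (W x) (1 + α) - rtr (W x * R k x) +
      trp (R k x) (1 + r) ≤ g k x) :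
    ∃ R S Q : ℝ → Matrix m m ℂ,
      (∀ x, (R x).PosSemidef) ∧ (∀ x, (S x).IsHermitian) ∧
      Continuous R ∧ Continuous S ∧ Continuous Q ∧
      (∀ x i j, HasDerivAt (fun y => R y i j) (2 * S x i j) x) ∧
      (∀ x i j, HasDerivAt (fun y => S y i j)
        (2 * Q x i j - (r : ℂ) * mpow (R x) (1 + r) i j) x) ∧
      (∀ x, S x * R x = R x * S x) ∧
      (∀ x, mpow (R x) r * Q x = S x * mpow (R x) (r - 1) * S x) ∧
      (∀ x, (((κ : ℝ) : ℂ) • R x + S x).PosSemidef) ∧
      (∀ x, (((κ : ℝ) : ℂ) • R x - S x).PosSemidef) ∧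
      (∀ᵐ x : ℝ, W x = (1 + r) • mpow (R x) r) := by
  have hr0 : 0 < r := by linarith
  -- subsequence with `g → 0` a.e.
  obtain ⟨φ₁, hφ₁, hae⟩ := exists_subseq_ae_zero g hg0 hgi hglim
  -- Arzelà–Ascoli
  set f : ℕ → ℝ → (m → m → ℂ) × (m → m → ℂ) × (m → m → ℂ) := fun k x =>
    (fun i j => R (φ₁ k) x i j, fun i j => S (φ₁ k) x i j, fun i j => Q (φ₁ k) x i j) with hf
  set ω : ℝ → ℝ := fun t => C * (Real.sqrt |t| + |t|) with hω
  have hωlim : Tendsto ω (𝓝 0) (𝓝 0) := by
    have hc : Continuous ω := by rw [hω]; fun_prop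
    have := hc.tendsto 0
    simpa [hω] using this
  have hω0 : ∀ t, 0 ≤ ω t := fun t => by
    rw [hω]; positivity
  have hωabs : ∀ t, ω |t| = ω t := fun t => by
    simp only [hω, abs_abs]
  obtain ⟨φ₂, hφ₂, G, hG, -, hGω⟩ := exists_subseq_tendsto f C (by
      intro k x
      simp only [hf, Prod.norm_def, sup_le_iff]
      exact ⟨(pi_norm_le_iff_of_nonneg hC).2 fun i => (pi_norm_le_iff_of_nonneg hC).2 fun j =>
          hRb _ _ _ _,
        (pi_norm_le_iff_of_nonneg hC).2 fun i => (pi_norm_le_iff_of_nonneg hC).2 fun j =>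
          hSb _ _ _ _,
        (pi_norm_le_iff_of_nonneg hC).2 fun i => (pi_norm_le_iff_of_nonneg hC).2 fun j =>
          hQb _ _ _ _⟩) ω hωlim (by
      intro k x y
      simp only [hf, Prod.mk_sub_mk, Prod.norm_def, sup_le_iff]
      rw [hωabs]
      have h0 := hω0 (x - y)
      exact ⟨(pi_norm_le_iff_of_nonneg h0).2 fun i => (pi_norm_le_iff_of_nonneg h0).2 fun j =>
          hRh _ _ _ _ _,
        (pi_norm_le_iff_of_nonneg h0).2 fun i => (pi_norm_le_iff_of_nonneg h0).2 fun j =>
          hSh' _ _ _ _ _,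
        (pi_norm_le_iff_of_nonneg h0).2 fun i => (pi_norm_le_iff_of_nonneg h0).2 fun j =>
          hQh _ _ _ _ _⟩)
  set φ : ℕ → ℕ := fun k => φ₁ (φ₂ k) with hφ
  have hφmono : Tendsto φ atTop atTop := hφ₁.tendsto_atTop.comp hφ₂.tendsto_atTop
  set R' : ℝ → Matrix m m ℂ := fun x => Matrix.of (G x).1 with hR'
  set S' : ℝ → Matrix m m ℂ := fun x => Matrix.of (G x).2.1 with hS'
  set Q' : ℝ → Matrix m m ℂ := fun x => Matrix.of (G x).2.2 with hQ'
  have hGc : Continuous G := by
    rw [Metric.continuous_iff]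
    intro x ε hε
    have h1 : ∀ᶠ t in 𝓝 (0 : ℝ), ω t < ε := hωlim.eventually (gt_mem_nhds hε)
    obtain ⟨δ, hδ, hδ'⟩ := Metric.eventually_nhds_iff.1 h1
    refine ⟨δ, hδ, fun y hy => ?_⟩
    rw [dist_eq_norm]
    refine (hGω y x).trans_lt ?_
    rw [hωabs]
    apply hδ'
    rw [Real.dist_eq, sub_zero]
    exact hy
  have hRlim : ∀ x, Tendsto (fun k => R (φ k) x) atTop (𝓝 (R' x)) := fun x => by
    rw [tendsto_matrix_iff]
    intro i j
    have h1 := (((continuous_apply j).comp ((continuous_apply i).comp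
      (continuous_fst (X := m → m → ℂ) (Y := (m → m → ℂ) × (m → m → ℂ))))).tendsto (G x)).comp (hG x)
    exact h1
  have hSlim : ∀ x, Tendsto (fun k => S (φ k) x) atTop (𝓝 (S' x)) := fun x => by
    rw [tendsto_matrix_iff]
    intro i j
    have h1 := (((continuous_apply j).comp ((continuous_apply i).comp
      ((continuous_fst (X := m → m → ℂ) (Y := m → m → ℂ)).comp
      (continuous_snd (X := m → m → ℂ) (Y := (m → m → ℂ) × (m → m → ℂ)))))).tendsto (G x)).comp
      (hG x)
    exact h1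
  have hQlim : ∀ x, Tendsto (fun k => Q (φ k) x) atTop (𝓝 (Q' x)) := fun x => by
    rw [tendsto_matrix_iff]
    intro i j
    have h1 := (((continuous_apply j).comp ((continuous_apply i).comp
      ((continuous_snd (X := m → m → ℂ) (Y := m → m → ℂ)).comp
      (continuous_snd (X := m → m → ℂ) (Y := (m → m → ℂ) × (m → m → ℂ)))))).tendsto (G x)).comp
      (hG x)
    exact h1
  have hR'c : Continuous R' := continuous_fst.comp hGc
  have hS'c : Continuous S' := (continuous_fst.comp continuous_snd).comp hGc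
  have hQ'c : Continuous Q' := (continuous_snd.comp continuous_snd).comp hGc
  have hR'p : ∀ x, (R' x).PosSemidef := fun x => posSemidef_of_tendsto (hRlim x) fun k => hRp _ _
  have hS'h : ∀ x, (S' x).IsHermitian := fun x => isHermitian_of_tendsto (hSlim x) fun k => hSh _ _
  have hPowlim : ∀ x q, 0 ≤ q → Tendsto (fun k => mpow (R (φ k) x) q) atTop
      (𝓝 (mpow (R' x) q)) := fun x q hq => tendsto_mpow (hRlim x) (fun k => (hRp _ _).1) hq
  have hglim' : Tendsto (fun k => ∫ x, g (φ k) x) atTop (𝓝 0) := hglim.comp hφmono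
  -- a.e. convergence of `g (φ k)`
  have hae' : ∀ᵐ x : ℝ, Tendsto (fun k => g (φ k) x) atTop (𝓝 0) := by
    filter_upwards [hae] with x hx
    exact hx.comp hφ₂.tendsto_atTop
  have hRpowc : Continuous fun x => mpow (R' x) (1 + r) :=
    continuous_mpow hR'c (fun x => (hR'p x).1) (by linarith)
  have hRrc : Continuous fun x => mpow (R' x) r :=
    continuous_mpow hR'c (fun x => (hR'p x).1) hr0.le
  have hRr1c : Continuous fun x => mpow (R' x) (r - 1) :=
    continuous_mpow hR'c (fun x => (hR'p x).1) (by linarith)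
  -- derivative equations
  have hRder : ∀ x i j, HasDerivAt (fun y => R' y i j) (2 * S' x i j) x := by
    intro x i j
    refine hasDerivAt_of_integral_eq (U := fun y => R' y i j) (V := fun y => 2 * S' y i j)
      (continuous_const.mul (hS'c.matrix_elem i j)) (fun a b hab => ?_) x
    refine integral_eq_of_limit (u := fun k y => R (φ k) y i j)
      (v := fun k y => 2 * S (φ k) y i j) (g := fun k => g (φ k)) (C := C) (B := 2 * C)
      (fun x => (tendsto_matrix_iff.1 (hRlim x)) i j)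
      (fun x => ((tendsto_matrix_iff.1 (hSlim x)) i j).const_mul 2)
      (fun k => continuous_const.mul ((hSc _).matrix_elem i j)) ?_ (fun k => hg0 _)
      (fun k => hgi _) hglim' hC (fun k a b hab => hReq _ a b hab i j) hab
    intro k x
    rw [norm_mul]
    have := hSb (φ k) x i j
    norm_num
    linarith
  have hSder : ∀ x i j, HasDerivAt (fun y => S' y i j)
      (2 * Q' x i j - (r : ℂ) * mpow (R' x) (1 + r) i j) x := by
    intro x i j
    refine hasDerivAt_of_integral_eq (U := fun y => S' y i j)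
      (V := fun y => 2 * Q' y i j - (r : ℂ) * mpow (R' y) (1 + r) i j)
      ((continuous_const.mul (hQ'c.matrix_elem i j)).sub
        (continuous_const.mul (hRpowc.matrix_elem i j))) (fun a b hab => ?_) x
    refine integral_eq_of_limit (u := fun k y => S (φ k) y i j)
      (v := fun k y => 2 * Q (φ k) y i j - (r : ℂ) * mpow (R (φ k) y) (1 + r) i j)
      (g := fun k => g (φ k)) (C := C) (B := 2 * C + r * C)
      (fun x => (tendsto_matrix_iff.1 (hSlim x)) i j)
      (fun x => (((tendsto_matrix_iff.1 (hQlim x)) i j).const_mul 2).sub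
        (((tendsto_matrix_iff.1 (hPowlim x (1 + r) (by linarith))) i j).const_mul _))
      (fun k => (continuous_const.mul ((hQc _).matrix_elem i j)).sub
        (continuous_const.mul ((continuous_mpow (hRc _) (fun x => (hRp _ x).1)
          (by linarith)).matrix_elem i j))) ?_ (fun k => hg0 _)
      (fun k => hgi _) hglim' hC (fun k a b hab => hSeq _ a b hab i j) hab
    intro k x
    refine (norm_sub_le _ _).trans ?_
    rw [norm_mul, norm_mul, Complex.norm_real, Real.norm_of_nonneg hr0.le]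
    have h1 := hQb (φ k) x i j
    have h2 := hRPb (φ k) x i j
    have h3 : ‖(2 : ℂ)‖ = 2 := by norm_num
    rw [h3]
    have := mul_le_mul_of_nonneg_left h2 hr0.le
    linarith
  -- algebraic relations hold a.e., hence everywhere
  have hzero : ∀ (A : ℕ → ℝ → Matrix m m ℂ) (B : ℝ → Matrix m m ℂ), Continuous B →
      (∀ x, Tendsto (fun k => A k x) atTop (𝓝 (B x))) →
      (∀ k x i j, ‖A k x i j‖ ≤ C * Real.sqrt (g (φ k) x)) → ∀ x, B x = 0 := by
    intro A B hBc hlim hle
    have h1 : ∀ᵐ x : ℝ, B x = 0 := by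
      filter_upwards [hae'] with x hx
      ext i j
      have h2 : Tendsto (fun k => A k x i j) atTop (𝓝 (B x i j)) :=
        (tendsto_matrix_iff.1 (hlim x)) i j
      have h3 : Tendsto (fun k => C * Real.sqrt (g (φ k) x)) atTop (𝓝 0) := by
        have := (Real.continuous_sqrt.tendsto 0).comp hx
        rw [Real.sqrt_zero] at this
        have := this.const_mul C
        rw [mul_zero] at this
        exact this
      have h4 : Tendsto (fun k => A k x i j) atTop (𝓝 0) :=
        squeeze_zero_norm (fun k => hle k x i j) h3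
      exact tendsto_nhds_unique h2 h4
    have h5 : B = fun _ => 0 := by
      have := (Continuous.ae_eq_iff_eq volume hBc continuous_const (g := fun _ : ℝ => (0 : Matrix m m ℂ))).1 h1
      exact this
    intro x
    rw [h5]
  have hcomm' : ∀ x, S' x * mpow (R' x) r - mpow (R' x) r * S' x = 0 := by
    refine hzero (fun k x => S (φ k) x * mpow (R (φ k) x) r - mpow (R (φ k) x) r * S (φ k) x)
      _ ((hS'c.matrix_mul hRrc).sub (hRrc.matrix_mul hS'c)) (fun x => ?_)
      (fun k x i j => hcomm (φ k) x i j)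
    exact (tendsto_mmul (hSlim x) (hPowlim x r hr0.le)).sub
      (tendsto_mmul (hPowlim x r hr0.le) (hSlim x))
  have hQ'' : ∀ x, mpow (R' x) r * Q' x - S' x * mpow (R' x) (r - 1) * S' x = 0 := by
    refine hzero (fun k x => mpow (R (φ k) x) r * Q (φ k) x -
      S (φ k) x * mpow (R (φ k) x) (r - 1) * S (φ k) x)
      _ ((hRrc.matrix_mul hQ'c).sub ((hS'c.matrix_mul hRr1c).matrix_mul hS'c)) (fun x => ?_)
      (fun k x i j => hQ (φ k) x i j)
    exact (tendsto_mmul (hPowlim x r hr0.le) (hQlim x)).sub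
      (tendsto_mmul (tendsto_mmul (hSlim x) (hPowlim x (r - 1) (by linarith))) (hSlim x))
  refine ⟨R', S', Q', hR'p, hS'h, hR'c, hS'c, hQ'c, hRder, hSder, ?_, ?_, ?_, ?_, ?_⟩
  · -- commutation with `R`
    intro x
    have h1 : Commute (mpow (R' x) r) (S' x) := (sub_eq_zero.1 (hcomm' x)).symm
    have h2 : mpow (mpow (R' x) r) (1 / r) = R' x := by
      rw [mpow_mpow (hR'p x), mul_one_div_cancel hr0.ne', mpow_one (hR'p x).1]
    have h3 : Commute (mpow (mpow (R' x) r) (1 / r)) (S' x) := by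
      show mpow (mpow (R' x) r) (1 / r) * S' x = S' x * mpow (mpow (R' x) r) (1 / r)
      exact cfc_intertwine (mpow_isHermitian _ _) (mpow_isHermitian _ _) h1 _
    rw [h2] at h3
    exact h3.symm
  · intro x
    exact sub_eq_zero.1 (hQ'' x)
  · intro x
    refine posSemidef_of_tendsto (A := fun k => ((κ : ℝ) : ℂ) • R (φ k) x + S (φ k) x) ?_
      fun k => hlo _ _
    exact ((hRlim x).const_smul _).add (hSlim x)
  · intro x
    refine posSemidef_of_tendsto (A := fun k => ((κ : ℝ) : ℂ) • R (φ k) x - S (φ k) x) ?_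
      fun k => hhi _ _
    exact ((hRlim x).const_smul _).sub (hSlim x)
  · filter_upwards [hae'] with x hx
    refine young_trace_eq (hWp x) (hR'p x) hα hr ?_
    have h1 : Tendsto (fun k => (α / (1 + α)) ^ α / (1 + α) * trp (W x) (1 + α) -
        rtr (W x * R (φ k) x) + trp (R (φ k) x) (1 + r)) atTop
        (𝓝 ((α / (1 + α)) ^ α / (1 + α) * trp (W x) (1 + α) -
        rtr (W x * R' x) + trp (R' x) (1 + r))) := by
      refine (tendsto_const_nhds.sub ?_).add ?_
      · refine tendsto_rtr ?_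
        have hm : Continuous fun X : Matrix m m ℂ => W x * X :=
          continuous_const.matrix_mul continuous_id
        exact (hm.tendsto (R' x)).comp (hRlim x)
      · exact tendsto_rtr (hPowlim x (1 + r) (by linarith))
    have h2 : (α / (1 + α)) ^ α / (1 + α) * trp (W x) (1 + α) -
        rtr (W x * R' x) + trp (R' x) (1 + r) ≤ 0 :=
      le_of_tendsto_of_tendsto' h1 hx fun k => hy _ _
    have h3 := matrix_young hα (hWp x) (hR'p x)
    rw [← hr] at h3
    exact le_antisymm h2 h3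

end Crest.Agent.R332.Lim
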