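import Crest.Agent.R332.LimSup

/-! # Row 332: near-extremal families, the limit theorem -/

set_option autoImplicit false
set_option linter.unusedSectionVars false

namespace Crest.Agent.R332.Lim

open Matrix Filter Topology MeasureTheory Set
open scoped ComplexOrder

variable {m : Type*} [Fintype m] [DecidableEq m]

/-- Data of a near-extremal family for the potential `W` (`r = 1/α`). -/
structure NearData {ι : Type*} [Fintype ι] [DecidableEq ι] (α κ D ε : ℝ)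
    (W : ℝ → Matrix m m ℂ) (L : ℝ) (Ψ Ψ' : ℝ → Matrix m ι ℂ) (K : Matrix ι ι ℂ)
    (F : ℝ → Matrix ι ι ℂ) : Prop where
  L_pos : 0 < L
  dΨ : ∀ x i a, HasDerivAt (fun y => Ψ y i a) (Ψ' x i a) x
  cΨ' : Continuous Ψ'
  supp : ∀ x, x ∉ Icc (-L) L → Ψ x = 0
  F_left : F (-L) = K
  F_right : F L = -K
  dF : ∀ x ∈ Icc (-L) L, HasDerivWithinAt F
    (K * K - F x * F x - (1 + 1 / α) • mpow ((Ψ x)ᴴ * Ψ x) (1 / α)) (Icc (-L) L) x
  sub : ∀ x ∈ Icc (-L) L, (K - F x).PosSemidef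
  add : ∀ x ∈ Icc (-L) L, (K + F x).PosSemidef
  bdd : (((κ : ℝ) : ℂ) • (1 : Matrix ι ι ℂ) - K).PosSemidef
  d1i : Integrable fun x => (α / (1 + α)) ^ α / (1 + α) * trp (W x) (1 + α) -
    rtr (W x * (Ψ x * (Ψ x)ᴴ)) + trp (Ψ x * (Ψ x)ᴴ) (1 + 1 / α)
  d1 : ∫ x, ((α / (1 + α)) ^ α / (1 + α) * trp (W x) (1 + α) -
    rtr (W x * (Ψ x * (Ψ x)ᴴ)) + trp (Ψ x * (Ψ x)ᴴ) (1 + 1 / α)) ≤ ε
  d2 : ∫ x in (-L)..L, hs (Ψ' x - Ψ x * F x) ≤ ε
  d3 : ∫ x in (-L)..L, (hs (F x * (K * K) - K * K * F x) +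
    hs (mpow ((Ψ x)ᴴ * Ψ x) (1 / α) - (K * K - F x * F x))) ≤ ε
  bd : ∫ x, hs (Ψ' x) ≤ D
  bR : ∫ x, trp (Ψ x * (Ψ x)ᴴ) (1 + 1 / α) ≤ D

/-- Clamp to `[-L, L]`. -/
noncomputable def clampL (L x : ℝ) : ℝ := max (-L) (min L x)

lemma clampL_mem {L : ℝ} (hL : 0 < L) (x : ℝ) : clampL L x ∈ Icc (-L) L :=
  ⟨le_max_left _ _, max_le (by linarith) (min_le_left _ _)⟩

lemma clampL_of_mem {L x : ℝ} (hx : x ∈ Icc (-L) L) : clampL L x = x := by
  rw [clampL, min_eq_right hx.2, max_eq_right hx.1]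

lemma clampL_of_ge {L x : ℝ} (hL : 0 < L) (hx : L ≤ x) : clampL L x = L := by
  rw [clampL, min_eq_left hx, max_eq_right (by linarith)]

lemma clampL_of_le {L x : ℝ} (hx : x ≤ -L) : clampL L x = -L := by
  rw [clampL, max_eq_left]
  exact (min_le_right _ _).trans hx

/-- Gluing constants on both sides of a `C¹` function whose end derivatives vanish. -/
lemma clamp_hasDerivAt {f : ℝ → ℂ} {f' : ℝ → ℂ} {L : ℝ} (hL : 0 < L)
    (h : ∀ x ∈ Icc (-L) L, HasDerivWithinAt f (f' x) (Icc (-L) L) x)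
    (h1 : f' (-L) = 0) (h2 : f' L = 0) (h3 : ∀ x, x ∉ Icc (-L) L → f' x = 0) (x : ℝ) :
    HasDerivAt (fun y => f (clampL L y)) (f' x) x := by
  have hright : ∀ x, L ≤ x → HasDerivWithinAt (fun y => f (clampL L y)) 0 (Ici L) x := by
    intro x hx
    refine (hasDerivWithinAt_const x (Ici L) (f L)).congr (fun y hy => ?_) ?_
    · rw [clampL_of_ge hL hy]
    · rw [clampL_of_ge hL hx]
  have hleft : ∀ x, x ≤ -L → HasDerivWithinAt (fun y => f (clampL L y)) 0 (Iic (-L)) x := by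
    intro x hx
    refine (hasDerivWithinAt_const x (Iic (-L)) (f (-L))).congr (fun y hy => ?_) ?_
    · rw [clampL_of_le hy]
    · rw [clampL_of_le hx]
  have hmid : ∀ x ∈ Icc (-L) L, HasDerivWithinAt (fun y => f (clampL L y)) (f' x)
      (Icc (-L) L) x := by
    intro x hx
    refine (h x hx).congr (fun y hy => ?_) ?_
    · rw [clampL_of_mem hy]
    · rw [clampL_of_mem hx]
  rcases lt_trichotomy x (-L) with hx | hx | hx
  · rw [h3 x fun hh => absurd hh.1 (not_le.2 hx)]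
    exact (hleft x hx.le).hasDerivAt (Iic_mem_nhds hx)
  · subst hx
    rw [h1]
    have a1 := hleft (-L) le_rfl
    have a2 := hmid (-L) ⟨le_rfl, by linarith⟩
    rw [h1] at a2
    have a3 := a1.union a2
    refine a3.hasDerivAt ?_
    filter_upwards [Iio_mem_nhds (show -L < L by linarith)] with y hy
    rcases le_total y (-L) with h' | h'
    · exact Or.inl h'
    · exact Or.inr ⟨h', le_of_lt hy⟩
  · rcases lt_trichotomy x L with hx2 | hx2 | hx2
    · exact (hmid x ⟨hx.le, hx2.le⟩).hasDerivAt (Icc_mem_nhds hx hx2)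
    · subst hx2
      rw [h2]
      have a1 := hright x le_rfl
      have a2 := hmid x ⟨hx.le, le_rfl⟩
      rw [h2] at a2
      have a3 := a2.union a1
      refine a3.hasDerivAt ?_
      filter_upwards [Ioi_mem_nhds hx] with y hy
      rcases le_total y x with h' | h'
      · exact Or.inl ⟨le_of_lt hy, h'⟩
      · exact Or.inr h'
    · rw [h3 x fun hh => absurd hh.2 (not_le.2 hx2)]
      exact (hright x hx2.le).hasDerivAt (Ici_mem_nhds hx2)

namespace NearData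

variable {ι : Type*} [Fintype ι] [DecidableEq ι] {α κ D ε : ℝ}
    {W : ℝ → Matrix m m ℂ} {L : ℝ} {Ψ Ψ' : ℝ → Matrix m ι ℂ} {K : Matrix ι ι ℂ}
    {F : ℝ → Matrix ι ι ℂ}

lemma cΨ (nd : NearData α κ D ε W L Ψ Ψ' K F) : Continuous Ψ := continuous_of_entries nd.dΨ

lemma supp' (nd : NearData α κ D ε W L Ψ Ψ' K F) : ∀ x, x ∉ Icc (-L) L → Ψ' x = 0 :=
  deriv_zero_of_supp nd.dΨ nd.supp

lemma Ψ_right (nd : NearData α κ D ε W L Ψ Ψ' K F) : Ψ L = 0 := by
  have h1 : Tendsto Ψ (𝓝[>] L) (𝓝 (Ψ L)) := (nd.cΨ.tendsto L).mono_left nhdsWithin_le_nhds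
  have h2 : Tendsto Ψ (𝓝[>] L) (𝓝 0) := by
    refine tendsto_const_nhds.congr' ?_
    filter_upwards [self_mem_nhdsWithin] with y hy
    exact (nd.supp y fun h => absurd h.2 (not_le.2 hy)).symm
  exact tendsto_nhds_unique h1 h2

lemma Ψ_left (nd : NearData α κ D ε W L Ψ Ψ' K F) : Ψ (-L) = 0 := by
  have h1 : Tendsto Ψ (𝓝[<] (-L)) (𝓝 (Ψ (-L))) :=
    (nd.cΨ.tendsto (-L)).mono_left nhdsWithin_le_nhds
  have h2 : Tendsto Ψ (𝓝[<] (-L)) (𝓝 0) := by
    refine tendsto_const_nhds.congr' ?_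
    filter_upwards [self_mem_nhdsWithin] with y hy
    exact (nd.supp y fun h => absurd h.1 (not_le.2 hy)).symm
  exact tendsto_nhds_unique h1 h2

/-- The extended Riccati path. -/
noncomputable def Fe (L : ℝ) (F : ℝ → Matrix ι ι ℂ) (x : ℝ) : Matrix ι ι ℂ := F (clampL L x)

lemma Fe_of_mem {x : ℝ} (hx : x ∈ Icc (-L) L) : Fe L F x = F x := by
  rw [Fe, clampL_of_mem hx]

lemma Fe_sq (nd : NearData α κ D ε W L Ψ Ψ' K F) {x : ℝ} (hx : x ∉ Icc (-L) L) :
    Fe L F x = K ∨ Fe L F x = -K := by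
  rcases lt_or_ge x (-L) with h | h
  · left
    rw [Fe, clampL_of_le h.le, nd.F_left]
  · right
    have : L ≤ x := by
      by_contra hlt
      exact hx ⟨h, (not_le.1 hlt).le⟩
    rw [Fe, clampL_of_ge nd.L_pos this, nd.F_right]

/-- The derivative of the extended path. -/
lemma dFe (hα : 0 < α) (nd : NearData α κ D ε W L Ψ Ψ' K F) (x : ℝ) :
    MDeriv (Fe L F) (K * K - Fe L F x * Fe L F x -
      (1 + 1 / α) • mpow ((Ψ x)ᴴ * Ψ x) (1 / α)) x := by
  have hr : 0 < 1 / α := by positivity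
  have hz : ∀ y, Ψ y = 0 → (F (clampL L y) = K ∨ F (clampL L y) = -K) →
      K * K - Fe L F y * Fe L F y - (1 + 1 / α) • mpow ((Ψ y)ᴴ * Ψ y) (1 / α) = 0 := by
    intro y hy hK
    rw [hy, Matrix.mul_zero, mpow_zero_matrix hr, smul_zero, sub_zero]
    rcases hK with h | h
    · rw [Fe, h, sub_self]
    · rw [Fe, h, neg_mul_neg, sub_self]
  intro i j
  refine clamp_hasDerivAt (f := fun y => F y i j)
    (f' := fun x => (K * K - Fe L F x * Fe L F x -
      (1 + 1 / α) • mpow ((Ψ x)ᴴ * Ψ x) (1 / α)) i j) nd.L_pos ?_ ?_ ?_ ?_ x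
  · intro y hy
    have h1 := nd.dF y hy
    rw [← Fe_of_mem (F := F) hy] at h1
    exact (hasDerivWithinAt_pi.1 ((hasDerivWithinAt_pi.1 h1) i)) j
  · show (K * K - Fe L F (-L) * Fe L F (-L) -
      (1 + 1 / α) • mpow ((Ψ (-L))ᴴ * Ψ (-L)) (1 / α)) i j = 0
    rw [hz (-L) nd.Ψ_left (Or.inl (by rw [clampL_of_le le_rfl, nd.F_left]))]
    rfl
  · show (K * K - Fe L F L * Fe L F L -
      (1 + 1 / α) • mpow ((Ψ L)ᴴ * Ψ L) (1 / α)) i j = 0
    rw [hz L nd.Ψ_right (Or.inr (by rw [clampL_of_ge nd.L_pos le_rfl, nd.F_right]))]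
    rfl
  · intro y hy
    show (K * K - Fe L F y * Fe L F y -
      (1 + 1 / α) • mpow ((Ψ y)ᴴ * Ψ y) (1 / α)) i j = 0
    rw [hz y (nd.supp y hy) (nd.Fe_sq hy)]
    rfl

lemma cFe (hα : 0 < α) (nd : NearData α κ D ε W L Ψ Ψ' K F) : Continuous (Fe L F) :=
  continuous_of_entries fun x => nd.dFe hα x

lemma pt (nd : NearData α κ D ε W L Ψ Ψ' K F) (x : ℝ) : PtData κ K (Fe L F x) :=
  ⟨nd.sub _ (clampL_mem nd.L_pos x), nd.add _ (clampL_mem nd.L_pos x), nd.bdd⟩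

/-- The total deficit density. -/
noncomputable def dens (α : ℝ) (W : ℝ → Matrix m m ℂ) (L : ℝ) (Ψ Ψ' : ℝ → Matrix m ι ℂ)
    (K : Matrix ι ι ℂ) (F : ℝ → Matrix ι ι ℂ) (x : ℝ) : ℝ :=
  ((α / (1 + α)) ^ α / (1 + α) * trp (W x) (1 + α) -
    rtr (W x * (Ψ x * (Ψ x)ᴴ)) + trp (Ψ x * (Ψ x)ᴴ) (1 + 1 / α)) +
  hs (Ψ' x - Ψ x * Fe L F x) + (hs (Fe L F x * (K * K) - K * K * Fe L F x) +
    hs (mpow ((Ψ x)ᴴ * Ψ x) (1 / α) - (K * K - Fe L F x * Fe L F x)))

lemma integral_of_supp {f f₀ : ℝ → ℝ} (hL : 0 < L) (h : ∀ x, x ∉ Icc (-L) L → f x = 0)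
    (h' : ∀ x ∈ Icc (-L) L, f x = f₀ x) : ∫ x, f x = ∫ x in (-L)..L, f₀ x := by
  rw [intervalIntegral.integral_of_le (by linarith), ← integral_Icc_eq_integral_Ioc,
    ← setIntegral_eq_integral_of_forall_compl_eq_zero h]
  exact setIntegral_congr_fun measurableSet_Icc h'

lemma cP (nd : NearData α κ D ε W L Ψ Ψ' K F) (hα : 0 < α) :
    Continuous fun x => mpow ((Ψ x)ᴴ * Ψ x) (1 / α) :=
  continuous_mpow (nd.cΨ.matrix_conjTranspose.matrix_mul nd.cΨ)
    (fun x => (conj_posSemidef (Ψ x)).1) (by positivity)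

lemma dens_integral (hα : 0 < α) (nd : NearData α κ D ε W L Ψ Ψ' K F) :
    Integrable (dens α W L Ψ Ψ' K F) ∧ ∫ x, dens α W L Ψ Ψ' K F x ≤ 3 * ε := by
  have hr : 0 < 1 / α := by positivity
  have c2 : Continuous fun x => hs (Ψ' x - Ψ x * Fe L F x) :=
    continuous_hs (nd.cΨ'.sub (nd.cΨ.matrix_mul (nd.cFe hα)))
  have c3 : Continuous fun x => hs (Fe L F x * (K * K) - K * K * Fe L F x) +
      hs (mpow ((Ψ x)ᴴ * Ψ x) (1 / α) - (K * K - Fe L F x * Fe L F x)) := by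
    refine (continuous_hs ?_).add (continuous_hs ?_)
    · exact ((nd.cFe hα).matrix_mul continuous_const).sub
        (continuous_const.matrix_mul (nd.cFe hα))
    · exact (nd.cP hα).sub (continuous_const.sub ((nd.cFe hα).matrix_mul (nd.cFe hα)))
  have s2 : ∀ x, x ∉ Icc (-L) L → hs (Ψ' x - Ψ x * Fe L F x) = 0 := by
    intro x hx
    rw [nd.supp' x hx, nd.supp x hx, Matrix.zero_mul, sub_zero, hs_zero]
  have s3 : ∀ x, x ∉ Icc (-L) L → hs (Fe L F x * (K * K) - K * K * Fe L F x) +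
      hs (mpow ((Ψ x)ᴴ * Ψ x) (1 / α) - (K * K - Fe L F x * Fe L F x)) = 0 := by
    intro x hx
    rw [nd.supp x hx, Matrix.mul_zero, mpow_zero_matrix hr]
    rcases nd.Fe_sq hx with h | h
    · rw [h, Matrix.mul_assoc, sub_self, sub_self, sub_zero, hs_zero, add_zero]
    · rw [h, neg_mul_neg, Matrix.neg_mul, Matrix.mul_neg, Matrix.mul_assoc, sub_self, sub_self,
        sub_zero, hs_zero, add_zero]
  have i2 := integrable_of_supp c2 s2
  have i3 := integrable_of_supp c3 s3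
  have e2 : ∫ x, hs (Ψ' x - Ψ x * Fe L F x) = ∫ x in (-L)..L, hs (Ψ' x - Ψ x * F x) :=
    integral_of_supp nd.L_pos s2 fun x hx => by rw [Fe_of_mem hx]
  have e3 : ∫ x, (hs (Fe L F x * (K * K) - K * K * Fe L F x) +
      hs (mpow ((Ψ x)ᴴ * Ψ x) (1 / α) - (K * K - Fe L F x * Fe L F x))) =
      ∫ x in (-L)..L, (hs (F x * (K * K) - K * K * F x) +
    hs (mpow ((Ψ x)ᴴ * Ψ x) (1 / α) - (K * K - F x * F x))) :=
    integral_of_supp nd.L_pos s3 fun x hx => by rw [Fe_of_mem hx]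
  refine ⟨(nd.d1i.add i2).add i3, ?_⟩
  unfold dens
  have a1 := integral_add (nd.d1i.add i2) i3
  have a2 := integral_add nd.d1i i2
  simp only [Pi.add_apply] at a1 a2
  rw [a1, a2, e2, e3]
  have := nd.d1
  have := nd.d2
  have := nd.d3
  linarith

end NearData

lemma sqrt_lin_le {a b h : ℝ} (ha : 0 ≤ a) (hb : 0 ≤ b) (hh : 0 ≤ h) :
    Real.sqrt (a * h + b) ≤ (Real.sqrt a + Real.sqrt b) * (1 + Real.sqrt h) := by
  rw [Real.sqrt_le_left (by positivity)]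
  have h1 := Real.sq_sqrt ha
  have h2 := Real.sq_sqrt hb
  have h3 := Real.sq_sqrt hh
  have p1 := Real.sqrt_nonneg a
  have p2 := Real.sqrt_nonneg b
  have p3 := Real.sqrt_nonneg h
  set x := Real.sqrt a
  set y := Real.sqrt b
  set z := Real.sqrt h
  have e : a * h + b = (x * z) ^ 2 + y ^ 2 := by rw [mul_pow, h1, h2, h3]
  rw [e]
  have q1 : 0 ≤ x * z := mul_nonneg p1 p3
  have q2 : 0 ≤ y * z := mul_nonneg p2 p3
  have q3 : (x + y) * (1 + z) = x * z + y + (x + y * z) := by ring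
  rw [q3]
  have q4 : 0 ≤ x + y * z := by positivity
  have q5 : 0 ≤ x * z + y := by positivity
  nlinarith [mul_nonneg q1 p2, mul_nonneg q4 q5, sq_nonneg (x + y * z)]

/-- **Limit theorem.**  If for every `ε > 0` there is a near-extremal family with deficits `≤ ε`
(and bounds uniform in `ε`), then the exact `m × m` system has a solution with
`W = (1+r) R^r` a.e. -/
theorem limit_of_near {α κ D : ℝ} (hα : 0 < α) (hα1 : α < 1) (hκ : 0 < κ)
    {W : ℝ → Matrix m m ℂ} (hWp : ∀ x, (W x).PosSemidef)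
    (H : ∀ ε : ℝ, 0 < ε → ∃ (ι : Type) (_ : Fintype ι) (_ : DecidableEq ι) (L : ℝ)
      (Ψ Ψ' : ℝ → Matrix m ι ℂ) (K : Matrix ι ι ℂ) (F : ℝ → Matrix ι ι ℂ),
      NearData α κ D ε W L Ψ Ψ' K F) :
    ∃ R S Q : ℝ → Matrix m m ℂ,
      (∀ x, (R x).PosSemidef) ∧ (∀ x, (S x).IsHermitian) ∧
      Continuous R ∧ Continuous S ∧ Continuous Q ∧
      (∀ x i j, HasDerivAt (fun y => R y i j) (2 * S x i j) x) ∧
      (∀ x i j, HasDerivAt (fun y => S y i j)
        (2 * Q x i j - ((1 / α : ℝ) : ℂ) * mpow (R x) (1 + 1 / α) i j) x) ∧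
      (∀ x, S x * R x = R x * S x) ∧
      (∀ x, mpow (R x) (1 / α) * Q x = S x * mpow (R x) (1 / α - 1) * S x) ∧
      (∀ x, (((κ : ℝ) : ℂ) • R x + S x).PosSemidef) ∧
      (∀ x, (((κ : ℝ) : ℂ) • R x - S x).PosSemidef) ∧
      (∀ᵐ x : ℝ, W x = (1 + 1 / α) • mpow (R x) (1 / α)) := by
  have H' : ∀ k : ℕ, ∃ (ι : Type) (_ : Fintype ι) (_ : DecidableEq ι) (L : ℝ)
      (Ψ Ψ' : ℝ → Matrix m ι ℂ) (K : Matrix ι ι ℂ) (F : ℝ → Matrix ι ι ℂ),
      NearData α κ D (1 / ((k : ℝ) + 1)) W L Ψ Ψ' K F := fun k => H _ (by positivity)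
  choose ι _i1 _i2 L Ψ Ψ' K F nd using H'
  set r : ℝ := 1 / α with hr
  have hr1 : 1 < r := by rw [hr, lt_div_iff₀ hα]; linarith
  have hr0 : 0 < r := by linarith
  set M : ℝ := (Fintype.card m : ℝ) with hM
  have hM0 : 0 ≤ M := Nat.cast_nonneg _
  set B : ℝ := supB M r D with hB
  have hΨB : ∀ k x, hs (Ψ k x) ≤ B := fun k x =>
    sup_hs_le (nd k).dΨ (nd k).cΨ' (nd k).supp hr0 (nd k).bd (nd k).bR x
  have hB0 : 0 ≤ B := (hs_nonneg (Ψ 0 0)).trans (hΨB 0 0)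
  have hD0 : 0 ≤ D := (integral_nonneg fun x => hs_nonneg (Ψ' 0 x)).trans (nd 0).bd
  have hΨ'i : ∀ k, Integrable fun x => hs (Ψ' k x) := fun k =>
    integrable_of_supp (continuous_hs (nd k).cΨ') fun x hx => by
      rw [(nd k).supp' x hx, hs_zero]
  -- notation
  set Fx : ∀ k, ℝ → Matrix (ι k) (ι k) ℂ := fun k => NearData.Fe (L k) (F k) with hFx
  have cF : ∀ k, Continuous (Fx k) := fun k => (nd k).cFe hα
  have cΨ : ∀ k, Continuous (Ψ k) := fun k => (nd k).cΨ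
  have cP : ∀ k, Continuous fun x => mpow ((Ψ k x)ᴴ * Ψ k x) r := fun k => (nd k).cP hα
  have pt : ∀ k x, PtData κ (K k) (Fx k x) := fun k x => (nd k).pt x
  set R : ℕ → ℝ → Matrix m m ℂ := fun k x => Ψ k x * (Ψ k x)ᴴ with hR
  set S : ℕ → ℝ → Matrix m m ℂ := fun k x => Ψ k x * Fx k x * (Ψ k x)ᴴ with hS
  set Q : ℕ → ℝ → Matrix m m ℂ := fun k x => Ψ k x * (Fx k x * Fx k x) * (Ψ k x)ᴴ with hQ
  set F' : ∀ k, ℝ → Matrix (ι k) (ι k) ℂ := fun k x =>
    K k * K k - Fx k x * Fx k x - (1 + r) • mpow ((Ψ k x)ᴴ * Ψ k x) r with hF'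
  set dR : ℕ → ℝ → Matrix m m ℂ := fun k x => Ψ' k x * (Ψ k x)ᴴ + Ψ k x * (Ψ' k x)ᴴ with hdR
  set dS : ℕ → ℝ → Matrix m m ℂ := fun k x =>
    Ψ' k x * Fx k x * (Ψ k x)ᴴ + Ψ k x * F' k x * (Ψ k x)ᴴ + Ψ k x * Fx k x * (Ψ' k x)ᴴ with hdS
  set dQ : ℕ → ℝ → Matrix m m ℂ := fun k x =>
    Ψ' k x * (Fx k x * Fx k x) * (Ψ k x)ᴴ +
    Ψ k x * (F' k x * Fx k x + Fx k x * F' k x) * (Ψ k x)ᴴ +
    Ψ k x * (Fx k x * Fx k x) * (Ψ' k x)ᴴ with hdQ
  have cF' : ∀ k, Continuous (F' k) := fun k =>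
    (continuous_const.sub ((cF k).matrix_mul (cF k))).sub ((cP k).fun_const_smul (1 + r))
  have cR : ∀ k, Continuous (R k) := fun k => (cΨ k).matrix_mul (cΨ k).matrix_conjTranspose
  have cS : ∀ k, Continuous (S k) := fun k =>
    ((cΨ k).matrix_mul (cF k)).matrix_mul (cΨ k).matrix_conjTranspose
  have cQ : ∀ k, Continuous (Q k) := fun k =>
    ((cΨ k).matrix_mul ((cF k).matrix_mul (cF k))).matrix_mul (cΨ k).matrix_conjTranspose
  have cdR : ∀ k, Continuous (dR k) := fun k =>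
    ((nd k).cΨ'.matrix_mul (cΨ k).matrix_conjTranspose).add
      ((cΨ k).matrix_mul (nd k).cΨ'.matrix_conjTranspose)
  have cdS : ∀ k, Continuous (dS k) := fun k =>
    (((((nd k).cΨ'.matrix_mul (cF k)).matrix_mul (cΨ k).matrix_conjTranspose)).add
      (((cΨ k).matrix_mul (cF' k)).matrix_mul (cΨ k).matrix_conjTranspose)).add
      (((cΨ k).matrix_mul (cF k)).matrix_mul (nd k).cΨ'.matrix_conjTranspose)
  have cdQ : ∀ k, Continuous (dQ k) := fun k =>
    ((((nd k).cΨ'.matrix_mul ((cF k).matrix_mul (cF k))).matrix_mul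
      (cΨ k).matrix_conjTranspose).add
      (((cΨ k).matrix_mul (((cF' k).matrix_mul (cF k)).add ((cF k).matrix_mul (cF' k)))).matrix_mul
        (cΨ k).matrix_conjTranspose)).add
      (((cΨ k).matrix_mul ((cF k).matrix_mul (cF k))).matrix_mul
        (nd k).cΨ'.matrix_conjTranspose)
  have DΨ : ∀ k x, MDeriv (Ψ k) (Ψ' k x) x := fun k x => (nd k).dΨ x
  have DF : ∀ k x, MDeriv (Fx k) (F' k x) x := fun k x => (nd k).dFe hα x
  have DR : ∀ k x, MDeriv (R k) (dR k x) x := fun k x => (DΨ k x).mul (DΨ k x).conjTranspose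
  have DS : ∀ k x, MDeriv (S k) (dS k x) x := by
    intro k x
    have h1 := ((DΨ k x).mul (DF k x)).mul (DΨ k x).conjTranspose
    rw [Matrix.add_mul] at h1
    exact h1
  have DQ : ∀ k x, MDeriv (Q k) (dQ k x) x := by
    intro k x
    have h1 := ((DΨ k x).mul ((DF k x).mul (DF k x))).mul (DΨ k x).conjTranspose
    rw [Matrix.add_mul] at h1
    exact h1
  -- the density
  set g : ℕ → ℝ → ℝ := fun k => NearData.dens α W (L k) (Ψ k) (Ψ' k) (K k) (F k) with hg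
  have hyoung : ∀ k x, 0 ≤ (α / (1 + α)) ^ α / (1 + α) * trp (W x) (1 + α) -
      rtr (W x * (Ψ k x * (Ψ k x)ᴴ)) + trp (Ψ k x * (Ψ k x)ᴴ) (1 + 1 / α) := fun k x =>
    matrix_young hα (hWp x) (self_conj_posSemidef _)
  have g1 : ∀ k x, (α / (1 + α)) ^ α / (1 + α) * trp (W x) (1 + α) -
      rtr (W x * R k x) + trp (R k x) (1 + r) ≤ g k x := by
    intro k x
    simp only [hg, NearData.dens]
    have a1 := hs_nonneg (Ψ' k x - Ψ k x * NearData.Fe (L k) (F k) x)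
    have a2 := hs_nonneg (NearData.Fe (L k) (F k) x * (K k * K k) -
      K k * K k * NearData.Fe (L k) (F k) x)
    have a3 := hs_nonneg (mpow ((Ψ k x)ᴴ * Ψ k x) (1 / α) -
      (K k * K k - NearData.Fe (L k) (F k) x * NearData.Fe (L k) (F k) x))
    linarith
  have g2 : ∀ k x, hs (Ψ' k x - Ψ k x * Fx k x) + hs (mpow ((Ψ k x)ᴴ * Ψ k x) r -
      (K k * K k - Fx k x * Fx k x)) ≤ g k x := by
    intro k x
    simp only [hg, NearData.dens]
    have a2 := hs_nonneg (NearData.Fe (L k) (F k) x * (K k * K k) -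
      K k * K k * NearData.Fe (L k) (F k) x)
    have := hyoung k x
    linarith
  have g3 : ∀ k x, hs (Fx k x * (K k * K k) - K k * K k * Fx k x) +
      hs (mpow ((Ψ k x)ᴴ * Ψ k x) r - (K k * K k - Fx k x * Fx k x)) ≤ g k x := by
    intro k x
    simp only [hg, NearData.dens]
    have a1 := hs_nonneg (Ψ' k x - Ψ k x * NearData.Fe (L k) (F k) x)
    have := hyoung k x
    linarith
  have g2' : ∀ k x, hs (Ψ' k x - Ψ k x * Fx k x) ≤ g k x := by
    intro k x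
    have a3 := hs_nonneg (mpow ((Ψ k x)ᴴ * Ψ k x) r - (K k * K k - Fx k x * Fx k x))
    have := g2 k x
    linarith
  have hg0 : ∀ k x, 0 ≤ g k x := fun k x => (hyoung k x).trans (g1 k x)
  have hgi : ∀ k, Integrable (g k) := fun k => ((nd k).dens_integral hα).1
  have hglim : Tendsto (fun k => ∫ x, g k x) atTop (𝓝 0) := by
    have h1 : Tendsto (fun k : ℕ => 3 * (1 / ((k : ℝ) + 1))) atTop (𝓝 (3 * 0)) :=
      tendsto_one_div_add_atTop_nhds_zero_nat.const_mul 3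
    rw [mul_zero] at h1
    exact squeeze_zero (fun k => integral_nonneg (hg0 k))
      (fun k => ((nd k).dens_integral hα).2) h1
  -- constants
  set cRb : ℝ := B with hcRb
  set cSb : ℝ := κ * B with hcSb
  set cQb : ℝ := κ ^ 2 * B with hcQb
  set cPb : ℝ := Real.sqrt (M * (B ^ (1 + r)) ^ 2) with hcPb
  set aS : ℝ := 16 * κ ^ 2 * B with haS
  set bS : ℝ := 32 * κ ^ 4 * B ^ 2 + 8 * (1 + r) ^ 2 * (M * (B ^ (1 + r)) ^ 2) with hbS
  set aQ : ℝ := 8 * κ ^ 4 * B with haQ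
  set bQ : ℝ := 64 * κ ^ 6 * B ^ 2 + 16 * (1 + r) ^ 2 * (κ ^ 2 * B ^ 2 * (M * (B ^ r) ^ 2))
    with hbQ
  set AR : ℝ := (Real.sqrt (4 * B) + Real.sqrt 0) * (1 + D) with hAR
  set AS : ℝ := (Real.sqrt aS + Real.sqrt bS) * (1 + D) with hAS
  set AQ : ℝ := (Real.sqrt aQ + Real.sqrt bQ) * (1 + D) with hAQ
  set E1 : ℝ := Real.sqrt (4 * B) with hE1
  set E2 : ℝ := Real.sqrt (8 * κ ^ 2 * B + 2 * B ^ 2) with hE2
  set E3 : ℝ := Real.sqrt (B ^ 2 * (8 * κ ^ 2 + 2)) with hE3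
  set E4 : ℝ := Real.sqrt (B ^ 2 * κ ^ 2 * (8 * κ ^ 2 + 2)) with hE4
  have n1 : 0 ≤ cRb := hB0
  have n2 : 0 ≤ cSb := by positivity
  have n3 : 0 ≤ cQb := by positivity
  have n4 : 0 ≤ cPb := Real.sqrt_nonneg _
  have n5 : 0 ≤ aS := by positivity
  have n6 : 0 ≤ bS := by positivity
  have n7 : 0 ≤ aQ := by positivity
  have n8 : 0 ≤ bQ := by positivity
  have n9 : 0 ≤ AR := by positivity
  have n10 : 0 ≤ AS := by positivity
  have n11 : 0 ≤ AQ := by positivity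
  have n12 : 0 ≤ E1 := Real.sqrt_nonneg _
  have n13 : 0 ≤ E2 := Real.sqrt_nonneg _
  have n14 : 0 ≤ E3 := Real.sqrt_nonneg _
  have n15 : 0 ≤ E4 := Real.sqrt_nonneg _
  set C : ℝ := cRb + cSb + cQb + cPb + AR + AS + AQ + E1 + E2 + E3 + E4 with hC
  have hC0 : 0 ≤ C := by positivity
  -- helper bounds
  have ent : ∀ (A : Matrix m m ℂ) (b : ℝ), hs A ≤ b → ∀ i j, ‖A i j‖ ≤ Real.sqrt b :=
    fun A b h i j => (hs_entry' A i j).trans (Real.sqrt_le_sqrt h)
  have bRk : ∀ k x i j, ‖R k x i j‖ ≤ C := by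
    intro k x i j
    have h1 := ent _ _ (R_bound (hΨB k x)) i j
    rw [Real.sqrt_sq hB0] at h1
    have : cRb ≤ C := by rw [hC]; linarith
    exact h1.trans this
  have bSk : ∀ k x i j, ‖S k x i j‖ ≤ C := by
    intro k x i j
    have h1 := ent _ _ (S_bound hκ (pt k x) (hΨB k x)) i j
    rw [← mul_pow, Real.sqrt_sq (by positivity)] at h1
    have : cSb ≤ C := by rw [hC]; linarith
    exact h1.trans this
  have bQk : ∀ k x i j, ‖Q k x i j‖ ≤ C := by
    intro k x i j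
    have h1 := ent _ _ (Q_bound hκ (pt k x) (hΨB k x)) i j
    rw [show κ ^ 4 * B ^ 2 = (κ ^ 2 * B) ^ 2 by ring, Real.sqrt_sq (by positivity)] at h1
    have : cQb ≤ C := by rw [hC]; linarith
    exact h1.trans this
  have bPk : ∀ k x i j, ‖mpow (R k x) (1 + r) i j‖ ≤ C := by
    intro k x i j
    have h0 : rtr (R k x) ≤ B := by
      rw [hR, ← hs_eq_rtr']; exact hΨB k x
    have h1 := ent _ _ (hs_mpow_le (q := 1 + r) (self_conj_posSemidef (Ψ k x)) (by linarith) h0) i j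
    have : cPb ≤ C := by rw [hC]; linarith
    exact h1.trans this
  have hol : ∀ (A A' : ℕ → ℝ → Matrix m m ℂ) (a b c : ℝ), 0 ≤ a → 0 ≤ b →
      (Real.sqrt a + Real.sqrt b) * (1 + D) ≤ c → (∀ k x, MDeriv (A k) (A' k x) x) →
      (∀ k, Continuous (A' k)) → (∀ k x, hs (A' k x) ≤ a * hs (Ψ' k x) + b) →
      ∀ k x y i j, ‖A k x i j - A k y i j‖ ≤ c * (Real.sqrt |x - y| + |x - y|) := by
    intro A A' a b c ha hb hc hA hA' hle k x y i j
    have h1 := ftc_holder (u := fun t => A k t i j) (u' := fun t => A' k t i j)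
      (fun t => hA k t i j) ((hA' k).matrix_elem i j) (h := fun t => hs (Ψ' k t))
      (fun t => hs_nonneg _) (hΨ'i k) (A := Real.sqrt a + Real.sqrt b) (D := D) (by positivity)
      (nd k).bd (fun t => (ent _ _ (hle k t) i j).trans (sqrt_lin_le ha hb (hs_nonneg _))) x y
    refine h1.trans ?_
    exact mul_le_mul_of_nonneg_right hc (by positivity)
  refine lim_system (α := α) (r := r) (κ := κ) (C := C) hα hr hr1 hC0 hWp R S Q g hg0 hgi hglim
    (fun k x => self_conj_posSemidef _) (fun k x => lim_herm (pt k x) _) cR cS cQ bRk bSk bQk bPk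
    ?_ ?_ ?_ ?_ ?_ ?_ ?_ (fun k x => lim_lo (pt k x) _) (fun k x => lim_hi (pt k x) _) g1
  · refine hol R dR (4 * B) 0 C (by positivity) le_rfl (by rw [← hAR, hC]; linarith) DR cdR ?_
    intro k x
    rw [add_zero]
    exact dR_bound (hΨB k x)
  · refine hol S dS aS bS C n5 n6 (by rw [← hAS, hC]; linarith) DS cdS ?_
    intro k x
    exact dS_bound hκ (pt k x) (hΨB k x) hr0 hB0
  · refine hol Q dQ aQ bQ C n7 n8 (by rw [← hAQ, hC]; linarith) DQ cdQ ?_
    intro k x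
    exact dQ_bound hκ (pt k x) (hΨB k x) hr0 hB0
  · intro k x y hxy i j
    refine ftc_sub_le (u := fun t => R k t i j) (u' := fun t => dR k t i j)
      (v := fun t => 2 * S k t i j) (fun t => DR k t i j) ((cdR k).matrix_elem i j)
      (continuous_const.mul ((cS k).matrix_elem i j)) (hg0 k) (hgi k) (C := C) (fun t => ?_) hxy
    have h1 := err_R (Ψ' := Ψ' k t) (F := Fx k t) (hΨB k t) (pt k t).hermF
    have h2 := ent _ _ (h1.trans (mul_le_mul_of_nonneg_left (g2' k t)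
      (by positivity : 0 ≤ 4 * B))) i j
    rw [Real.sqrt_mul (by positivity)] at h2
    have h3 : (dR k t - (2 : ℂ) • S k t) i j = dR k t i j - 2 * S k t i j := by
      simp [Matrix.sub_apply, Matrix.smul_apply]
    rw [← h3]
    refine h2.trans (mul_le_mul_of_nonneg_right ?_ (Real.sqrt_nonneg _))
    rw [← hE1, hC]; linarith
  · intro k x y hxy i j
    have cRp : Continuous fun t => mpow (R k t) (1 + r) :=
      continuous_mpow (cR k) (fun t => (self_conj_posSemidef (Ψ k t)).1) (by linarith)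
    refine ftc_sub_le (u := fun t => S k t i j) (u' := fun t => dS k t i j)
      (v := fun t => 2 * Q k t i j - (r : ℂ) * mpow (R k t) (1 + r) i j)
      (fun t => DS k t i j) ((cdS k).matrix_elem i j)
      ((continuous_const.mul ((cQ k).matrix_elem i j)).sub
        (continuous_const.mul (cRp.matrix_elem i j))) (hg0 k) (hgi k) (C := C) (fun t => ?_) hxy
    have h1 := err_S (Ψ' := Ψ' k t) hκ (pt k t) (hΨB k t) hr0 hB0
    have h2 := ent _ _ (h1.trans (mul_le_mul_of_nonneg_left (g2 k t)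
      (by positivity : 0 ≤ 8 * κ ^ 2 * B + 2 * B ^ 2))) i j
    rw [Real.sqrt_mul (by positivity)] at h2
    have h3 : (dS k t - ((2 : ℂ) • Q k t - (r : ℂ) • mpow (R k t) (1 + r))) i j =
        dS k t i j - (2 * Q k t i j - (r : ℂ) * mpow (R k t) (1 + r) i j) := by
      simp [Matrix.sub_apply, Matrix.smul_apply]
    rw [← h3]
    refine h2.trans (mul_le_mul_of_nonneg_right ?_ (Real.sqrt_nonneg _))
    rw [← hE2, hC]; linarith
  · intro k x i j
    have h1 := err_comm hκ (pt k x) (hΨB k x) (r := r) hB0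
    have h2 := ent _ _ (h1.trans (mul_le_mul_of_nonneg_left (g3 k x)
      (by positivity : 0 ≤ B ^ 2 * (8 * κ ^ 2 + 2)))) i j
    rw [Real.sqrt_mul (by positivity)] at h2
    refine h2.trans (mul_le_mul_of_nonneg_right ?_ (Real.sqrt_nonneg _))
    rw [← hE3, hC]; linarith
  · intro k x i j
    have h1 := err_Q hκ (pt k x) (hΨB k x) hr1 hB0
    have h2 := ent _ _ (h1.trans (mul_le_mul_of_nonneg_left (g3 k x)
      (by positivity : 0 ≤ B ^ 2 * κ ^ 2 * (8 * κ ^ 2 + 2)))) i j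
    rw [Real.sqrt_mul (by positivity)] at h2
    refine h2.trans (mul_le_mul_of_nonneg_right ?_ (Real.sqrt_nonneg _))
    rw [← hE4, hC]; linarith

end Crest.Agent.R332.Lim
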