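import Crest.Agent.R332.LimFam

/-! # Row 332: sup bound for a family, extension of the Riccati path -/

set_option autoImplicit false
set_option linter.unusedSectionVars false

namespace Crest.Agent.R332.Lim

open Matrix Filter Topology MeasureTheory Set
open scoped ComplexOrder

variable {m ι : Type*} [Fintype m] [DecidableEq m] [Fintype ι] [DecidableEq ι]

lemma mpow_zero_matrix {q : ℝ} (hq : 0 < q) : mpow (0 : Matrix m m ℂ) q = 0 := by
  rw [mpow_eq_mul Matrix.PosSemidef.zero hq, cfc_mul', cfc_self Matrix.isHermitian_zero,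
    Matrix.mul_zero]

/-- `(Σ ρ_i)^{1+r} ≤ M^{1+r} Σ ρ_i^{1+r}`. -/
lemma rtr_rpow_le {R : Matrix m m ℂ} (hR : R.PosSemidef) {q : ℝ} (hq : 0 < q) :
    rtr R ^ q ≤ (Fintype.card m : ℝ) ^ q * trp R q := by
  have h1 : rtr R = ∑ i, hR.1.eigenvalues i := by
    have := rtr_cfc hR.1 (fun t : ℝ => t)
    rw [cfc_self hR.1] at this
    exact this
  have h2 : trp R q = ∑ i, hR.1.eigenvalues i ^ q := rtr_cfc hR.1 _
  have h0 : ∀ i, 0 ≤ hR.1.eigenvalues i := hR.eigenvalues_nonneg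
  have h3 : 0 ≤ ∑ i, hR.1.eigenvalues i ^ q :=
    Finset.sum_nonneg fun i _ => Real.rpow_nonneg (h0 i) q
  set T : ℝ := (∑ i, hR.1.eigenvalues i ^ q) ^ (1 / q) with hT
  have hT0 : 0 ≤ T := Real.rpow_nonneg h3 _
  have h4 : ∀ i, hR.1.eigenvalues i ≤ T := by
    intro i
    have h5 : hR.1.eigenvalues i ^ q ≤ ∑ i, hR.1.eigenvalues i ^ q :=
      Finset.single_le_sum (f := fun i => hR.1.eigenvalues i ^ q)
        (fun i _ => Real.rpow_nonneg (h0 i) q) (Finset.mem_univ i)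
    have h6 := Real.rpow_le_rpow (Real.rpow_nonneg (h0 i) q) h5 (by positivity : 0 ≤ 1 / q)
    rwa [← Real.rpow_mul (h0 i), mul_one_div_cancel hq.ne', Real.rpow_one] at h6
  have h5 : rtr R ≤ Fintype.card m * T := by
    rw [h1, Fintype.card, ← nsmul_eq_mul, ← Finset.sum_const]
    exact Finset.sum_le_sum fun i _ => h4 i
  have h6 : 0 ≤ rtr R := by rw [h1]; exact Finset.sum_nonneg fun i _ => h0 i
  calc rtr R ^ q ≤ (Fintype.card m * T) ^ q := Real.rpow_le_rpow h6 h5 hq.le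
    _ = (Fintype.card m : ℝ) ^ q * T ^ q := Real.mul_rpow (Nat.cast_nonneg _) hT0
    _ = (Fintype.card m : ℝ) ^ q * trp R q := by
        rw [hT, ← Real.rpow_mul h3, one_div_mul_cancel hq.ne', Real.rpow_one, h2]

lemma continuous_hs {p q : Type*} [Fintype p] [Fintype q] {A : ℝ → Matrix p q ℂ}
    (hA : Continuous A) : Continuous fun x => hs (A x) := by
  unfold hs
  exact continuous_finsetSum _ fun i _ => continuous_finsetSum _ fun j _ =>
    ((hA.matrix_elem i j).norm.pow 2)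

lemma deriv_zero_of_supp {Ψ Ψ' : ℝ → Matrix m ι ℂ} {L : ℝ}
    (dΨ : ∀ x i a, HasDerivAt (fun y => Ψ y i a) (Ψ' x i a) x)
    (supp : ∀ x, x ∉ Icc (-L) L → Ψ x = 0) : ∀ x, x ∉ Icc (-L) L → Ψ' x = 0 := by
  intro x hx
  ext i a
  have h1 : (fun y => Ψ y i a) =ᶠ[𝓝 x] fun _ => (0 : ℂ) := by
    have : (Icc (-L) L)ᶜ ∈ 𝓝 x := isClosed_Icc.isOpen_compl.mem_nhds hx
    filter_upwards [this] with y hy
    rw [supp y hy]
    rfl
  have h2 : HasDerivAt (fun y => Ψ y i a) 0 x := (hasDerivAt_const x (0 : ℂ)).congr_of_eventuallyEq h1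
  exact (dΨ x i a).unique h2

lemma continuous_of_entries {p q : Type*} [Fintype p] [Fintype q] {A : ℝ → Matrix p q ℂ}
    {A' : ℝ → Matrix p q ℂ} (h : ∀ x i a, HasDerivAt (fun y => A y i a) (A' x i a) x) :
    Continuous A :=
  MDeriv.continuousAt (A' := A') fun x => h x

lemma integrable_of_supp {f : ℝ → ℝ} (hf : Continuous f) {L : ℝ}
    (h : ∀ x, x ∉ Icc (-L) L → f x = 0) : Integrable f :=
  hf.integrable_of_hasCompactSupport (HasCompactSupport.intro isCompact_Icc h)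

/-- Power of the sup bound. -/
theorem sup_hs_rpow_le {Ψ Ψ' : ℝ → Matrix m ι ℂ} {L : ℝ}
    (dΨ : ∀ x i a, HasDerivAt (fun y => Ψ y i a) (Ψ' x i a) x) (cΨ' : Continuous Ψ')
    (supp : ∀ x, x ∉ Icc (-L) L → Ψ x = 0) {r D : ℝ} (hr : 0 < r)
    (bd : ∫ x, hs (Ψ' x) ≤ D) (bR : ∫ x, trp (Ψ x * (Ψ x)ᴴ) (1 + r) ≤ D) (x : ℝ) :
    hs (Ψ x) ^ (1 + r / 2) ≤ (1 + r / 2) * ((Fintype.card m : ℝ) ^ (1 + r) * D + D) := by
  set s : ℝ := 1 + r / 2 with hs_def
  have hs1 : 1 ≤ s := by rw [hs_def]; linarith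
  have cΨ : Continuous Ψ := continuous_of_entries dΨ
  have supp' := deriv_zero_of_supp dΨ supp
  have hc1 : Continuous fun x => hs (Ψ' x) := continuous_hs cΨ'
  have hi1 : Integrable fun x => hs (Ψ' x) := integrable_of_supp hc1 fun x hx => by
    rw [supp' x hx, hs_zero]
  have hRc : Continuous fun x => Ψ x * (Ψ x)ᴴ := cΨ.matrix_mul cΨ.matrix_conjTranspose
  have hc2 : Continuous fun x => trp (Ψ x * (Ψ x)ᴴ) (1 + r) :=
    continuous_trp hRc (fun x => (self_conj_posSemidef (Ψ x)).1) (by linarith)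
  have hi2 : Integrable fun x => trp (Ψ x * (Ψ x)ᴴ) (1 + r) := integrable_of_supp hc2
    fun x hx => by
      rw [supp x hx, Matrix.zero_mul, trp, mpow_zero_matrix (by linarith), rtr_zero]
  -- the derivative of `hs Ψ`
  set u' : ℝ → ℝ := fun x => ∑ i, ∑ a, 2 * inner ℝ (Ψ x i a) (Ψ' x i a) with hu'
  have hu : ∀ x, HasDerivAt (fun y => hs (Ψ y)) (u' x) x := by
    intro x
    unfold hs
    exact HasDerivAt.fun_sum fun i _ => HasDerivAt.fun_sum fun a _ => (dΨ x i a).norm_sq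
  have hu'c : Continuous u' := by
    refine continuous_finsetSum _ fun i _ => continuous_finsetSum _ fun a _ => ?_
    exact continuous_const.mul ((cΨ.matrix_elem i a).inner (cΨ'.matrix_elem i a))
  have hcu : Continuous fun x => hs (Ψ x) := continuous_hs cΨ
  have hU : ∀ x, HasDerivAt (fun y => hs (Ψ y) ^ s) (u' x * s * hs (Ψ x) ^ (s - 1)) x :=
    fun x => (hu x).rpow_const (Or.inr hs1)
  have hU'c : Continuous fun x => u' x * s * hs (Ψ x) ^ (s - 1) :=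
    (hu'c.mul continuous_const).mul (hcu.rpow_const fun x => Or.inr (by linarith))
  have hle : ∀ x, u' x * s * hs (Ψ x) ^ (s - 1) ≤
      s * ((Fintype.card m : ℝ) ^ (1 + r) * trp (Ψ x * (Ψ x)ᴴ) (1 + r) + hs (Ψ' x)) := by
    intro x
    have h0 := hs_nonneg (Ψ x)
    have e1 : s - 1 = r / 2 := by rw [hs_def]; ring
    rw [e1]
    set w : ℝ := hs (Ψ x) ^ (r / 2) with hw
    have hw0 : 0 ≤ w := Real.rpow_nonneg h0 _
    have hww : w ^ 2 = hs (Ψ x) ^ r := by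
      rw [hw, ← Real.rpow_natCast, ← Real.rpow_mul h0]
      congr 1
      push_cast
      ring
    have h1 : u' x * w ≤ ∑ i, ∑ a, (w ^ 2 * ‖Ψ x i a‖ ^ 2 + ‖Ψ' x i a‖ ^ 2) := by
      rw [hu', Finset.sum_mul]
      refine Finset.sum_le_sum fun i _ => ?_
      rw [Finset.sum_mul]
      refine Finset.sum_le_sum fun a _ => ?_
      have h2 := real_inner_le_norm (Ψ x i a) (Ψ' x i a)
      have h3 := mul_le_mul_of_nonneg_right h2 hw0
      nlinarith [sq_nonneg (w * ‖Ψ x i a‖ - ‖Ψ' x i a‖)]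
    have h2 : ∑ i, ∑ a, (w ^ 2 * ‖Ψ x i a‖ ^ 2 + ‖Ψ' x i a‖ ^ 2) =
        hs (Ψ x) ^ (1 + r) + hs (Ψ' x) := by
      simp only [Finset.sum_add_distrib, ← Finset.mul_sum]
      rw [hww, Real.rpow_add_of_nonneg h0 zero_le_one hr.le, Real.rpow_one]
      unfold hs
      ring
    have h3 : hs (Ψ x) ^ (1 + r) ≤ (Fintype.card m : ℝ) ^ (1 + r) *
        trp (Ψ x * (Ψ x)ᴴ) (1 + r) := by
      rw [hs_eq_rtr']
      exact rtr_rpow_le (self_conj_posSemidef (Ψ x)) (by linarith)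
    calc u' x * s * w = s * (u' x * w) := by ring
      _ ≤ s * (hs (Ψ x) ^ (1 + r) + hs (Ψ' x)) := by
          rw [← h2]
          exact mul_le_mul_of_nonneg_left h1 (by linarith)
      _ ≤ _ := by
          apply mul_le_mul_of_nonneg_left _ (by linarith)
          linarith
  have hRHS : Integrable fun x => s * ((Fintype.card m : ℝ) ^ (1 + r) *
      trp (Ψ x * (Ψ x)ᴴ) (1 + r) + hs (Ψ' x)) := ((hi2.const_mul _).add hi1).const_mul _
  have hRHS0 : ∀ x, 0 ≤ s * ((Fintype.card m : ℝ) ^ (1 + r) *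
      trp (Ψ x * (Ψ x)ᴴ) (1 + r) + hs (Ψ' x)) := by
    intro x
    have h1 : 0 ≤ trp (Ψ x * (Ψ x)ᴴ) (1 + r) :=
      rtr_nonneg_of_posSemidef (mpow_posSemidef (self_conj_posSemidef _) _)
    have h2 := hs_nonneg (Ψ' x)
    have : 0 ≤ s := by linarith
    positivity
  set a : ℝ := min x (-L - 1) with ha
  have hax : a ≤ x := min_le_left _ _
  have haL : a ∉ Icc (-L) L := by
    intro h
    have := h.1
    have h2 : a ≤ -L - 1 := min_le_right _ _
    linarith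
  have hFTC : ∫ t in a..x, u' t * s * hs (Ψ t) ^ (s - 1) = hs (Ψ x) ^ s - hs (Ψ a) ^ s :=
    intervalIntegral.integral_eq_sub_of_hasDerivAt (fun t _ => hU t)
      (hU'c.intervalIntegrable _ _)
  have hUa : hs (Ψ a) ^ s = 0 := by
    rw [supp a haL, hs_zero, Real.zero_rpow (by linarith)]
  rw [hUa, sub_zero] at hFTC
  rw [← hFTC]
  calc ∫ t in a..x, u' t * s * hs (Ψ t) ^ (s - 1)
      ≤ ∫ t in a..x, s * ((Fintype.card m : ℝ) ^ (1 + r) *
        trp (Ψ t * (Ψ t)ᴴ) (1 + r) + hs (Ψ' t)) :=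
        intervalIntegral.integral_mono_on hax (hU'c.intervalIntegrable _ _)
          hRHS.intervalIntegrable fun t _ => hle t
    _ ≤ ∫ t, s * ((Fintype.card m : ℝ) ^ (1 + r) *
        trp (Ψ t * (Ψ t)ᴴ) (1 + r) + hs (Ψ' t)) := by
        rw [intervalIntegral.integral_of_le hax]
        exact setIntegral_le_integral hRHS (Eventually.of_forall hRHS0)
    _ = s * ((Fintype.card m : ℝ) ^ (1 + r) * (∫ t, trp (Ψ t * (Ψ t)ᴴ) (1 + r)) +
        ∫ t, hs (Ψ' t)) := by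
        rw [integral_const_mul, integral_add (hi2.const_mul _) hi1, integral_const_mul]
    _ ≤ _ := by
        apply mul_le_mul_of_nonneg_left _ (by linarith)
        gcongr

/-- The sup bound. -/
noncomputable def supB (M r D : ℝ) : ℝ :=
  ((1 + r / 2) * (M ^ (1 + r) * D + D)) ^ (1 / (1 + r / 2))

theorem sup_hs_le {Ψ Ψ' : ℝ → Matrix m ι ℂ} {L : ℝ}
    (dΨ : ∀ x i a, HasDerivAt (fun y => Ψ y i a) (Ψ' x i a) x) (cΨ' : Continuous Ψ')
    (supp : ∀ x, x ∉ Icc (-L) L → Ψ x = 0) {r D : ℝ} (hr : 0 < r)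
    (bd : ∫ x, hs (Ψ' x) ≤ D) (bR : ∫ x, trp (Ψ x * (Ψ x)ᴴ) (1 + r) ≤ D) (x : ℝ) :
    hs (Ψ x) ≤ supB (Fintype.card m) r D := by
  have h := sup_hs_rpow_le dΨ cΨ' supp hr bd bR x
  have hs1 : 0 < 1 + r / 2 := by linarith
  have h0 := hs_nonneg (Ψ x)
  have h2 := Real.rpow_le_rpow (Real.rpow_nonneg h0 _) h (by positivity : 0 ≤ 1 / (1 + r / 2))
  rwa [← Real.rpow_mul h0, mul_one_div_cancel hs1.ne', Real.rpow_one] at h2

end Crest.Agent.R332.Lim
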