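import Crest.Agent.R332.LimHS

/-! # Row 332: equality case of the Young trace inequality -/

set_option autoImplicit false
set_option linter.unusedSectionVars false

namespace Crest.Agent.R332.Lim

open Matrix Filter Topology
open scoped ComplexOrder

/-- Scalar Young inequality with the constant `c = (α/(1+α))^α/(1+α)`. -/
lemma young_scalar' {α r w ρ : ℝ} (hα : 0 < α) (hr : r = 1 / α) (hw : 0 ≤ w) (hρ : 0 ≤ ρ) :
    0 ≤ (α / (1 + α)) ^ α / (1 + α) * w ^ (1 + α) - w * ρ + ρ ^ (1 + r) := by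
  subst hr
  have h1α : 0 < 1 + α := by linarith
  have hq : (1 + 1 / α) = (1 + α) / α := by field_simp; ring
  set q : ℝ := (1 + α) / α with hqdef
  have hq0 : 0 < q := by positivity
  have hpq : (1 + α).HolderConjugate q := by
    rw [Real.holderConjugate_iff]
    refine ⟨by linarith, ?_⟩
    rw [hqdef]; field_simp
  set t : ℝ := q ^ (-(1 / q)) with ht
  have ht0 : 0 < t := Real.rpow_pos_of_pos hq0 _
  have h := Real.young_inequality_of_nonneg (a := t * w) (b := ρ / t) (by positivity)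
    (by positivity) hpq
  have h1 : t * w * (ρ / t) = w * ρ := by field_simp
  have h2 : (t * w) ^ (1 + α) / (1 + α) = (α / (1 + α)) ^ α / (1 + α) * w ^ (1 + α) := by
    rw [Real.mul_rpow ht0.le hw, ht, ← Real.rpow_mul hq0.le]
    have : -(1 / q) * (1 + α) = -α := by
      rw [hqdef]; field_simp
    rw [this, Real.rpow_neg hq0.le, ← Real.inv_rpow hq0.le]
    have : q⁻¹ = α / (1 + α) := by rw [hqdef, inv_div]
    rw [this]
    ring
  have h3 : (ρ / t) ^ q / q = ρ ^ (1 + 1 / α) := by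
    rw [Real.div_rpow hρ ht0.le, ht, ← Real.rpow_mul hq0.le]
    have : -(1 / q) * q = -1 := by field_simp
    rw [this, Real.rpow_neg_one, hq]
    field_simp
  rw [h1, h2, h3] at h
  linarith

lemma young_scalar_eq {α r w ρ : ℝ} (hα : 0 < α) (hr : r = 1 / α) (hw : 0 ≤ w) (hρ : 0 ≤ ρ)
    (h : (α / (1 + α)) ^ α / (1 + α) * w ^ (1 + α) - w * ρ + ρ ^ (1 + r) = 0) :
    w = (1 + r) * ρ ^ r := by
  have hr0 : 0 < r := by rw [hr]; positivity
  rcases hρ.eq_or_lt with h0 | h0
  · rw [← h0, Real.zero_rpow (by linarith)] at h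
    rw [← h0, Real.zero_rpow hr0.ne']
    have hc : (α / (1 + α)) ^ α / (1 + α) ≠ 0 := by
      have : 0 < 1 + α := by linarith
      positivity
    have hw1 : w ^ (1 + α) = 0 := by
      have : (α / (1 + α)) ^ α / (1 + α) * w ^ (1 + α) = 0 := by linarith
      rcases mul_eq_zero.1 this with h' | h'
      · exact absurd h' hc
      · exact h'
    rw [Real.rpow_eq_zero hw (by linarith)] at hw1
    rw [hw1]
    ring
  · have hmin : IsLocalMin (fun x : ℝ => (α / (1 + α)) ^ α / (1 + α) * w ^ (1 + α) - w * x +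
        x ^ (1 + r)) ρ := by
      filter_upwards [lt_mem_nhds h0] with x hx
      rw [h]
      exact young_scalar' hα hr hw hx.le
    have hd : HasDerivAt (fun x : ℝ => (α / (1 + α)) ^ α / (1 + α) * w ^ (1 + α) - w * x +
        x ^ (1 + r)) (0 - w * 1 + (1 + r) * ρ ^ (1 + r - 1)) ρ := by
      refine ((hasDerivAt_const _ _).sub ((hasDerivAt_id ρ).const_mul w)).add ?_
      exact Real.hasDerivAt_rpow_const (Or.inl h0.ne')
    have := hmin.hasDerivAt_eq_zero hd
    have e : 1 + r - 1 = r := by ring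
    rw [e] at this
    linarith

variable {n : Type*} [Fintype n] [DecidableEq n]

/-- If `tr (A - B)^2`-type expression in the pair weights vanishes then `A = B`. -/
lemma eq_of_wt {A B : Matrix n n ℂ} (hA : A.IsHermitian) (hB : B.IsHermitian) (f : ℝ → ℝ)
    (h : ∀ i j, wt hA hB i j = 0 ∨ hA.eigenvalues i = f (hB.eigenvalues j)) :
    A = cfc f B := by
  have hcA : cfc (fun t : ℝ => t) A = A := cfc_id' ℝ A
  have e : ∀ x y : ℝ → ℝ, rtr (cfc x A * cfc y B) =
      ∑ i, ∑ j, x (hA.eigenvalues i) * y (hB.eigenvalues j) * wt hA hB i j :=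
    fun x y => rtr_cfc_mul hA hB x y
  have hX : (cfc f B).IsHermitian := cfc_predicate (R := ℝ) (p := IsSelfAdjoint) f B
  have h1 : hs (A - cfc f B) = 0 := by
    have e1 : A * A = cfc (fun t : ℝ => t * t) A * cfc (fun _ : ℝ => (1 : ℝ)) B := by
      rw [cfc_mul' (A := A) (fun t : ℝ => t) (fun t : ℝ => t), hcA]
      rw [show cfc (fun _ : ℝ => (1 : ℝ)) B = 1 from cfc_const_one ℝ B, Matrix.mul_one]
    have e2 : A * cfc f B = cfc (fun t : ℝ => t) A * cfc f B := by rw [hcA]
    have e3 : cfc f B * cfc f B = cfc (fun _ : ℝ => (1 : ℝ)) A * cfc (fun t : ℝ => f t * f t) B := by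
      rw [cfc_mul' (A := B) f f]
      rw [show cfc (fun _ : ℝ => (1 : ℝ)) A = 1 from cfc_const_one ℝ A, Matrix.one_mul]
    rw [hs_eq_rtr, Matrix.conjTranspose_sub, hA, hX, Matrix.sub_mul, Matrix.mul_sub,
      Matrix.mul_sub, rtr_sub, rtr_sub, rtr_sub, rtr_mul_comm (cfc f B) A, e1, e2, e3, e, e, e]
    rw [← Finset.sum_sub_distrib, ← Finset.sum_sub_distrib, ← Finset.sum_sub_distrib]
    refine Finset.sum_eq_zero fun i _ => ?_
    rw [← Finset.sum_sub_distrib, ← Finset.sum_sub_distrib, ← Finset.sum_sub_distrib]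
    refine Finset.sum_eq_zero fun j _ => ?_
    rcases h i j with h' | h'
    · rw [h']; ring
    · rw [h']; ring
  exact sub_eq_zero.1 (hs_eq_zero h1)

/-- **Equality case of Young's trace inequality.** -/
theorem young_trace_eq {W R : Matrix n n ℂ} (hW : W.PosSemidef) (hR : R.PosSemidef)
    {α r : ℝ} (hα : 0 < α) (hr : r = 1 / α)
    (h : (α / (1 + α)) ^ α / (1 + α) * trp W (1 + α) - rtr (W * R) + trp R (1 + r) = 0) :
    W = (1 + r) • mpow R r := by
  have e : ∀ x y : ℝ → ℝ, rtr (cfc x W * cfc y R) =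
      ∑ i, ∑ j, x (hW.1.eigenvalues i) * y (hR.1.eigenvalues j) * wt hW.1 hR.1 i j :=
    fun x y => rtr_cfc_mul hW.1 hR.1 x y
  have e1 : trp W (1 + α) = rtr (cfc (fun t : ℝ => t ^ (1 + α)) W *
      cfc (fun _ : ℝ => (1 : ℝ)) R) := by
    rw [show cfc (fun _ : ℝ => (1 : ℝ)) R = 1 from cfc_const_one ℝ R hR.1, Matrix.mul_one]
    rfl
  have e2 : rtr (W * R) = rtr (cfc (fun t : ℝ => t) W * cfc (fun t : ℝ => t) R) := by
    rw [show cfc (fun t : ℝ => t) W = W from cfc_id' ℝ W hW.1,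
      show cfc (fun t : ℝ => t) R = R from cfc_id' ℝ R hR.1]
  have e3 : trp R (1 + r) = rtr (cfc (fun _ : ℝ => (1 : ℝ)) W *
      cfc (fun t : ℝ => t ^ (1 + r)) R) := by
    rw [show cfc (fun _ : ℝ => (1 : ℝ)) W = 1 from cfc_const_one ℝ W hW.1, Matrix.one_mul]
    rfl
  rw [e1, e2, e3, e, e, e, Finset.mul_sum, ← Finset.sum_sub_distrib,
    ← Finset.sum_add_distrib] at h
  simp only [Finset.mul_sum, ← Finset.sum_sub_distrib, ← Finset.sum_add_distrib] at h
  have hnn : ∀ i j, 0 ≤ (α / (1 + α)) ^ α / (1 + α) *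
      ((hW.1.eigenvalues i) ^ (1 + α) * 1 * wt hW.1 hR.1 i j) -
      (hW.1.eigenvalues i) * (hR.1.eigenvalues j) * wt hW.1 hR.1 i j +
      1 * (hR.1.eigenvalues j) ^ (1 + r) * wt hW.1 hR.1 i j := by
    intro i j
    have h1 := young_scalar' hα hr (hW.eigenvalues_nonneg i) (hR.eigenvalues_nonneg j)
    have h2 := wt_nonneg hW.1 hR.1 i j
    have := mul_nonneg h1 h2
    calc (0 : ℝ) ≤ _ := this
      _ = _ := by ring
  have hz : ∀ i j, (α / (1 + α)) ^ α / (1 + α) *
      ((hW.1.eigenvalues i) ^ (1 + α) * 1 * wt hW.1 hR.1 i j) -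
      (hW.1.eigenvalues i) * (hR.1.eigenvalues j) * wt hW.1 hR.1 i j +
      1 * (hR.1.eigenvalues j) ^ (1 + r) * wt hW.1 hR.1 i j = 0 := by
    intro i j
    have h1 := (Finset.sum_eq_zero_iff_of_nonneg
      (fun i _ => Finset.sum_nonneg fun j _ => hnn i j)).1 h i (Finset.mem_univ i)
    exact (Finset.sum_eq_zero_iff_of_nonneg (fun j _ => hnn i j)).1 h1 j (Finset.mem_univ j)
  have hfin : W = cfc (fun t : ℝ => (1 + r) * t ^ r) R := by
    refine eq_of_wt hW.1 hR.1 _ fun i j => ?_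
    by_cases hwt : wt hW.1 hR.1 i j = 0
    · exact Or.inl hwt
    · right
      refine young_scalar_eq hα hr (hW.eigenvalues_nonneg i) (hR.eigenvalues_nonneg j) ?_
      have h1 := hz i j
      have h2 : ((α / (1 + α)) ^ α / (1 + α) * (hW.1.eigenvalues i) ^ (1 + α) -
        hW.1.eigenvalues i * hR.1.eigenvalues j + hR.1.eigenvalues j ^ (1 + r)) *
        wt hW.1 hR.1 i j = 0 := by
        rw [← h1]; ring
      rcases mul_eq_zero.1 h2 with h3 | h3
      · exact h3
      · exact absurd h3 hwt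
  rw [hfin, mpow]
  exact cfc_const_mul (1 + r) (fun t : ℝ => t ^ r) R (contOn_spec _)

end Crest.Agent.R332.Lim
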