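import Crest.Agent.R332.LimAA
import Crest.Agent.R332.LimAE
import Crest.Agent.R332.LimYoung
import Crest.Agent.R332.TrRect

/-! # Row 332: passage to the limit in the `m × m` system -/

set_option autoImplicit false
set_option linter.unusedSectionVars false

namespace Crest.Agent.R332.Lim

open Matrix Filter Topology MeasureTheory
open scoped ComplexOrder

variable {m : Type*} [Fintype m] [DecidableEq m]

lemma tendsto_matrix_iff {ι : Type*} {l : Filter ι} {A : ι → Matrix m m ℂ} {B : Matrix m m ℂ} :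
    Tendsto A l (𝓝 B) ↔ ∀ i j, Tendsto (fun k => A k i j) l (𝓝 (B i j)) := by
  constructor
  · intro h i j
    have hc : Continuous fun X : Matrix m m ℂ => X i j := continuous_id.matrix_elem i j
    exact (hc.tendsto B).comp h
  · intro h
    exact tendsto_pi_nhds.2 fun i => tendsto_pi_nhds.2 fun j => h i j

lemma isHermitian_of_tendsto {A : ℕ → Matrix m m ℂ} {B : Matrix m m ℂ}
    (h : Tendsto A atTop (𝓝 B)) (hA : ∀ k, (A k).IsHermitian) : B.IsHermitian := by
  have h1 : Tendsto (fun k => (A k)ᴴ) atTop (𝓝 Bᴴ) :=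
    (continuous_id.matrix_conjTranspose.tendsto B).comp h
  have h2 : (fun k => (A k)ᴴ) = A := funext fun k => hA k
  rw [h2] at h1
  exact tendsto_nhds_unique h1 h

lemma posSemidef_of_tendsto {A : ℕ → Matrix m m ℂ} {B : Matrix m m ℂ}
    (h : Tendsto A atTop (𝓝 B)) (hA : ∀ k, (A k).PosSemidef) : B.PosSemidef := by
  refine Matrix.PosSemidef.of_dotProduct_mulVec_nonneg
    (isHermitian_of_tendsto h fun k => (hA k).1) fun v => ?_
  have h1 : Tendsto (fun k => star v ⬝ᵥ (A k *ᵥ v)) atTop (𝓝 (star v ⬝ᵥ (B *ᵥ v))) := by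
    have hc : Continuous fun X : Matrix m m ℂ => star v ⬝ᵥ (X *ᵥ v) := by
      exact continuous_const.dotProduct (continuous_id.matrix_mulVec continuous_const)
    exact (hc.tendsto B).comp h
  exact ge_of_tendsto' h1 fun k => (hA k).dotProduct_mulVec_nonneg v

lemma tendsto_mpow {A : ℕ → Matrix m m ℂ} {B : Matrix m m ℂ}
    (h : Tendsto A atTop (𝓝 B)) (hA : ∀ k, (A k).IsHermitian) {q : ℝ} (hq : 0 ≤ q) :
    Tendsto (fun k => mpow (A k) q) atTop (𝓝 (mpow B q)) := by
  have hB := isHermitian_of_tendsto h hA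
  have hc : Continuous (fun X : {X : Matrix m m ℂ // X.IsHermitian} => mpow (X : Matrix m m ℂ) q) :=
    continuous_mpow continuous_subtype_val (fun X => X.2) hq
  have h1 : Tendsto (fun k => (⟨A k, hA k⟩ : {X : Matrix m m ℂ // X.IsHermitian})) atTop
      (𝓝 ⟨B, hB⟩) := by
    rw [tendsto_subtype_rng]
    exact h
  exact (hc.tendsto ⟨B, hB⟩).comp h1

lemma tendsto_rtr {A : ℕ → Matrix m m ℂ} {B : Matrix m m ℂ}
    (h : Tendsto A atTop (𝓝 B)) : Tendsto (fun k => rtr (A k)) atTop (𝓝 (rtr B)) := by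
  have hc : Continuous (fun X : Matrix m m ℂ => rtr X) := continuous_rtr continuous_id
  exact (hc.tendsto B).comp h

/-- Limit of approximate integral equations. -/
lemma integral_eq_of_limit {u v : ℕ → ℝ → ℂ} {U V : ℝ → ℂ} {g : ℕ → ℝ → ℝ} {C B : ℝ}
    (hu : ∀ x, Tendsto (fun k => u k x) atTop (𝓝 (U x)))
    (hv : ∀ x, Tendsto (fun k => v k x) atTop (𝓝 (V x)))
    (hvc : ∀ k, Continuous (v k)) (hvb : ∀ k x, ‖v k x‖ ≤ B)
    (hg0 : ∀ k x, 0 ≤ g k x) (hgi : ∀ k, Integrable (g k))
    (hglim : Tendsto (fun k => ∫ x, g k x) atTop (𝓝 0)) (hC : 0 ≤ C)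
    (heq : ∀ k x y, x ≤ y → ‖u k y - u k x - ∫ t in x..y, v k t‖ ≤
      C * ∫ t in x..y, Real.sqrt (g k t)) {x y : ℝ} (hxy : x ≤ y) :
    U y - U x = ∫ t in x..y, V t := by
  have h1 : Tendsto (fun k => ∫ t in x..y, v k t) atTop (𝓝 (∫ t in x..y, V t)) := by
    refine intervalIntegral.tendsto_integral_filter_of_dominated_convergence (fun _ => B)
      (Eventually.of_forall fun k => ((hvc k).aestronglyMeasurable).restrict)
      (Eventually.of_forall fun k => Eventually.of_forall fun t _ => hvb k t)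
      intervalIntegrable_const (Eventually.of_forall fun t _ => hv t)
  have h2 : Tendsto (fun k => ‖u k y - u k x - ∫ t in x..y, v k t‖) atTop
      (𝓝 ‖U y - U x - ∫ t in x..y, V t‖) := (((hu y).sub (hu x)).sub h1).norm
  have h3 : ∀ t : ℝ, 0 < t → ‖U y - U x - ∫ t in x..y, V t‖ ≤ C * (t * (y - x)) := by
    intro t ht
    have h4 : Tendsto (fun k => C * (t * (y - x) + (∫ x, g k x) / (4 * t))) atTop
        (𝓝 (C * (t * (y - x) + 0 / (4 * t)))) :=
      ((hglim.div_const _).const_add _).const_mul _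
    rw [zero_div, add_zero] at h4
    refine le_of_tendsto_of_tendsto' h2 h4 fun k => ?_
    refine (heq k x y hxy).trans ?_
    exact mul_le_mul_of_nonneg_left (integral_sqrt_le (hg0 k) (hgi k) hxy ht).2 hC
  have h5 : ‖U y - U x - ∫ t in x..y, V t‖ ≤ 0 := by
    have h6 : Tendsto (fun t : ℝ => C * (t * (y - x))) (𝓝[>] 0) (𝓝 (C * (0 * (y - x)))) := by
      have : Continuous fun t : ℝ => C * (t * (y - x)) := by fun_prop
      exact (this.tendsto 0).mono_left nhdsWithin_le_nhds
    rw [zero_mul, mul_zero] at h6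
    exact ge_of_tendsto h6 (by filter_upwards [self_mem_nhdsWithin] with t ht using h3 t ht)
  have h7 := norm_le_zero_iff.1 h5
  exact sub_eq_zero.1 h7

lemma hasDerivAt_of_integral_eq {U V : ℝ → ℂ} (hV : Continuous V)
    (h : ∀ x y, x ≤ y → U y - U x = ∫ t in x..y, V t) (x : ℝ) : HasDerivAt U (V x) x := by
  have h1 : ∀ y, U y = U x + ∫ t in x..y, V t := by
    intro y
    rcases le_total x y with hxy | hxy
    · rw [← h x y hxy]; ring
    · rw [intervalIntegral.integral_symm, ← h y x hxy]; ring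
  have h2 : U = fun y => U x + ∫ t in x..y, V t := funext h1
  have h3 : HasDerivAt (fun y => ∫ t in x..y, V t) (V x) x :=
    intervalIntegral.integral_hasDerivAt_right (hV.intervalIntegrable _ _)
      (hV.stronglyMeasurableAtFilter _ _) hV.continuousAt
  rw [h2]
  exact h3.const_add _

end Crest.Agent.R332.Lim
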