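import Crest.Agent.R332.TrBasic
import Crest.Agent.R332.CfcDiag

/-! # Row 332: linear algebra for the ODE classification (simultaneous diagonalisation,
Hilbert–Schmidt Lipschitz bound for matrix powers, kernels). -/

set_option autoImplicit false
open Matrix
open scoped ComplexOrder

namespace Crest.Agent.R332.Ode

/-- simultaneous diagonalisation of two commuting Hermitian matrices -/
theorem simul_diag {m : ℕ} (A B : Matrix (Fin m) (Fin m) ℂ) (hA : A.IsHermitian)
    (hB : B.IsHermitian) (hAB : A * B = B * A) :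
    ∃ (U : Matrix.unitaryGroup (Fin m) ℂ) (d e : Fin m → ℝ),
      A = (U : Matrix (Fin m) (Fin m) ℂ) * Matrix.diagonal (fun i => (d i : ℂ)) *
        star (U : Matrix (Fin m) (Fin m) ℂ) ∧
      B = (U : Matrix (Fin m) (Fin m) ℂ) * Matrix.diagonal (fun i => (e i : ℂ)) *
        star (U : Matrix (Fin m) (Fin m) ℂ) := by
  classical
  set TA := Matrix.toEuclideanLin A with hTA
  set TB := Matrix.toEuclideanLin B with hTB
  have sA : TA.IsSymmetric := Matrix.isSymmetric_toEuclideanLin_iff.2 hA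
  have sB : TB.IsSymmetric := Matrix.isSymmetric_toEuclideanLin_iff.2 hB
  have hc : Commute TA TB := by
    apply LinearMap.ext
    intro v
    show TA (TB v) = TB (TA v)
    rw [hTA, hTB]
    simp only [Matrix.toLpLin_apply, Matrix.mulVec_mulVec, hAB]
  let V : ℂ × ℂ → Submodule ℂ (EuclideanSpace ℂ (Fin m)) := fun i =>
    Module.End.eigenspace TA i.2 ⊓ Module.End.eigenspace TB i.1
  have hV : DirectSum.IsInternal V := LinearMap.IsSymmetric.directSum_isInternal_of_commute sA sB hc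
  have hV' : OrthogonalFamily ℂ (fun i => V i) fun i => (V i).subtypeₗᵢ :=
    LinearMap.IsSymmetric.orthogonalFamily_eigenspace_inf_eigenspace sA sB
  have hfin : {i | V i ≠ ⊥}.Finite := WellFoundedGT.finite_ne_bot_of_iSupIndep
    hV.submodule_iSupIndep
  have : Fintype {i // V i ≠ ⊥} := hfin.fintype
  have hW : DirectSum.IsInternal (fun i : {i // V i ≠ ⊥} => V i) := DirectSum.isInternal_ne_bot_iff.2 hV
  have hW' : OrthogonalFamily ℂ (fun i : {i // V i ≠ ⊥} => V i) fun i => (V i).subtypeₗᵢ :=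
    hV'.comp Subtype.val_injective
  have hn : Module.finrank ℂ (EuclideanSpace ℂ (Fin m)) = m := finrank_euclideanSpace_fin
  let b := hW.subordinateOrthonormalBasis hn hW'
  let ix := fun a => hW.subordinateOrthonormalBasisIndex hn a hW'
  have hb : ∀ a, b a ∈ V (ix a) := fun a => hW.subordinateOrthonormalBasis_subordinate hn a hW'
  have hbA : ∀ a, TA (b a) = (ix a).1.2 • b a := fun a =>
    Module.End.mem_eigenspace_iff.1 (Submodule.mem_inf.1 (hb a)).1
  have hbB : ∀ a, TB (b a) = (ix a).1.1 • b a := fun a =>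
    Module.End.mem_eigenspace_iff.1 (Submodule.mem_inf.1 (hb a)).2
  have hbn : ∀ a, b a ≠ 0 := fun a => by
    have := b.orthonormal.1 a
    intro h; rw [h, norm_zero] at this; exact zero_ne_one this
  have hAr : ∀ a, ((ix a).1.2.re : ℂ) = (ix a).1.2 := fun a => by
    have := sA.conj_eigenvalue_eq_self
      (Module.End.hasEigenvalue_of_hasEigenvector
        (Module.End.hasEigenvector_iff.2 ⟨(Submodule.mem_inf.1 (hb a)).1, hbn a⟩))
    exact Complex.conj_eq_iff_re.1 this
  have hBr : ∀ a, ((ix a).1.1.re : ℂ) = (ix a).1.1 := fun a => by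
    have := sB.conj_eigenvalue_eq_self
      (Module.End.hasEigenvalue_of_hasEigenvector
        (Module.End.hasEigenvector_iff.2 ⟨(Submodule.mem_inf.1 (hb a)).2, hbn a⟩))
    exact Complex.conj_eq_iff_re.1 this
  let U0 : Matrix (Fin m) (Fin m) ℂ := Matrix.of fun j k => b k j
  have hU0 : star U0 * U0 = 1 := by
    ext k l
    rw [Matrix.mul_apply, Matrix.one_apply]
    have h1 := orthonormal_iff_ite.1 b.orthonormal k l
    rw [PiLp.inner_apply] at h1
    rw [← h1]
    refine Finset.sum_congr rfl fun j _ => ?_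
    simp [U0, Matrix.star_apply, mul_comm]
  have hU0' : U0 * star U0 = 1 := mul_eq_one_comm.1 hU0
  let U : Matrix.unitaryGroup (Fin m) ℂ := ⟨U0, Matrix.mem_unitaryGroup_iff.2 hU0'⟩
  have key : ∀ (C : Matrix (Fin m) (Fin m) ℂ) (μ : Fin m → ℝ),
      (∀ a, Matrix.toEuclideanLin C (b a) = (μ a : ℂ) • b a) →
      C = U0 * Matrix.diagonal (fun i => (μ i : ℂ)) * star U0 := by
    intro C μ h
    have h1 : C * U0 = U0 * Matrix.diagonal (fun i => (μ i : ℂ)) := by
      ext j k
      rw [Matrix.mul_diagonal, Matrix.mul_apply]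
      have h2 := congrArg (fun v : EuclideanSpace ℂ (Fin m) => v j) (h k)
      simp only [Matrix.toLpLin_apply, PiLp.smul_apply, smul_eq_mul] at h2
      rw [mul_comm (U0 j k)]
      show ∑ i, C j i * b k i = (μ k : ℂ) * b k j
      rw [← h2]
      rfl
    rw [← h1, mul_assoc, hU0', mul_one]
  refine ⟨U, fun a => (ix a).1.2.re, fun a => (ix a).1.1.re, ?_, ?_⟩
  · apply key
    intro a
    rw [hAr a]; exact hbA a
  · apply key
    intro a
    rw [hBr a]; exact hbB a

variable {n : Type*} [Fintype n] [DecidableEq n]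

/-- covariance of the functional calculus under unitary conjugation -/
lemma cfc_unitary_conj (V : Matrix.unitaryGroup n ℂ) {A : Matrix n n ℂ} (hA : A.IsHermitian)
    (f : ℝ → ℝ) :
    cfc f ((V : Matrix n n ℂ) * A * star (V : Matrix n n ℂ)) =
      (V : Matrix n n ℂ) * cfc f A * star (V : Matrix n n ℂ) := by
  have h1 := eq_conj hA
  have h2 : (V : Matrix n n ℂ) * A * star (V : Matrix n n ℂ) =
      ((V * hA.eigenvectorUnitary : Matrix.unitaryGroup n ℂ) : Matrix n n ℂ) *
        diagonal (fun i => ((hA.eigenvalues i : ℝ) : ℂ)) *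
        star ((V * hA.eigenvectorUnitary : Matrix.unitaryGroup n ℂ) : Matrix n n ℂ) := by
    conv_lhs => rw [h1]
    simp only [Matrix.UnitaryGroup.mul_val, star_mul, Matrix.mul_assoc, star_eq_conjTranspose]
  rw [h2, cfc_conj_diagonal, cfc_eq_conj hA]
  simp only [Matrix.UnitaryGroup.mul_val, star_mul, Matrix.mul_assoc, star_eq_conjTranspose]

/-- if `-κR ≤ S ≤ κR` then `ker R ⊆ ker S`. -/
lemma mulVec_eq_zero_of_bound {R S : Matrix n n ℂ} {κ : ℝ} (h1 : (κ • R - S).PosSemidef)
    (h2 : (κ • R + S).PosSemidef) {v : n → ℂ} (hv : R *ᵥ v = 0) : S *ᵥ v = 0 := by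
  have e1 : star v ⬝ᵥ ((κ • R - S) *ᵥ v) = -(star v ⬝ᵥ (S *ᵥ v)) := by
    rw [Matrix.sub_mulVec, Matrix.smul_mulVec, hv]
    simp
  have e2 : star v ⬝ᵥ ((κ • R + S) *ᵥ v) = star v ⬝ᵥ (S *ᵥ v) := by
    rw [Matrix.add_mulVec, Matrix.smul_mulVec, hv]
    simp
  have p1 := h1.dotProduct_mulVec_nonneg v
  have p2 := h2.dotProduct_mulVec_nonneg v
  rw [e1] at p1
  rw [e2] at p2
  have h0 : star v ⬝ᵥ (S *ᵥ v) = 0 := le_antisymm (neg_nonneg.1 p1) p2
  have h3 : (κ • R + S) *ᵥ v = 0 := (h2.dotProduct_mulVec_zero_iff v).1 (by rw [e2, h0])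
  rw [Matrix.add_mulVec, Matrix.smul_mulVec, hv] at h3
  simpa using h3

section frob
open scoped Matrix.Norms.Frobenius

lemma frob_sq (X : Matrix n n ℂ) : ‖X‖ ^ 2 = rtr (Xᴴ * X) := by
  rw [Matrix.frobenius_norm_def, ← Real.rpow_natCast, ← Real.rpow_mul (by positivity)]
  norm_num
  simp only [rtr, Matrix.trace, Matrix.diag_apply, Matrix.mul_apply, Complex.re_sum,
    Matrix.conjTranspose_apply]
  rw [Finset.sum_comm]
  refine Finset.sum_congr rfl fun j _ => Finset.sum_congr rfl fun i _ => ?_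
  rw [← Complex.normSq_eq_norm_sq, Complex.normSq_apply]
  simp

lemma frob_sq_herm {X : Matrix n n ℂ} (hX : X.IsHermitian) : ‖X‖ ^ 2 = rtr (X * X) := by
  rw [frob_sq, hX.eq]

/-- Hilbert–Schmidt Lipschitz bound for the functional calculus. -/
theorem frob_cfc_sub_le {A B : Matrix n n ℂ} (hA : A.IsHermitian) (hB : B.IsHermitian)
    {f : ℝ → ℝ} {L : ℝ} (hL : 0 ≤ L)
    (h : ∀ i j, |f (hA.eigenvalues i) - f (hB.eigenvalues j)| ≤
      L * |hA.eigenvalues i - hB.eigenvalues j|) :
    ‖cfc f A - cfc f B‖ ≤ L * ‖A - B‖ := by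
  have hfA : (cfc f A).IsHermitian := cfc_predicate (R := ℝ) (p := IsSelfAdjoint) f A
  have hfB : (cfc f B).IsHermitian := cfc_predicate (R := ℝ) (p := IsSelfAdjoint) f B
  have hid : ∀ {C : Matrix n n ℂ}, C.IsHermitian → cfc (fun t : ℝ => t) C = C := fun {C} hC =>
    cfc_id' ℝ C hC
  have hone : ∀ {C : Matrix n n ℂ}, C.IsHermitian → cfc (fun _ : ℝ => (1:ℝ)) C = 1 := fun {C} hC =>
    cfc_one ℝ C hC
  let F : Fin 4 → ℝ → ℝ := ![fun t => L ^ 2 * (t * t) - f t * f t, fun _ => 1,
    fun t => -2 * L ^ 2 * t, fun t => 2 * f t]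
  let G : Fin 4 → ℝ → ℝ := ![fun _ => 1, fun t => L ^ 2 * (t * t) - f t * f t,
    fun t => t, fun t => f t]
  have hk := klein (Finset.univ : Finset (Fin 4)) hA hB F G (by
    intro i j
    simp only [Fin.sum_univ_four, F, G, Matrix.cons_val_zero, Matrix.cons_val_one,
      Matrix.cons_val_two, Matrix.cons_val_three, Matrix.head_cons, Matrix.tail_cons, mul_one, one_mul]
    have h1 := h i j
    have h2 : (f (hA.eigenvalues i) - f (hB.eigenvalues j)) ^ 2 ≤
        (L * (hA.eigenvalues i - hB.eigenvalues j)) ^ 2 := by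
      rw [← sq_abs, ← sq_abs (L * (hA.eigenvalues i - hB.eigenvalues j)), abs_mul, abs_of_nonneg hL]
      exact pow_le_pow_left₀ (abs_nonneg _) h1 2
    nlinarith [h2])
  have c1 : ∀ {C : Matrix n n ℂ}, C.IsHermitian → cfc (fun t => L ^ 2 * (t * t) - f t * f t) C =
      (L ^ 2) • (C * C) - cfc f C * cfc f C := by
    intro C hC
    rw [cfc_sub (R := ℝ) _ _ C (contOn_spec _) (contOn_spec _), cfc_const_mul (R := ℝ) _ _ C (contOn_spec _),
      cfc_mul', cfc_mul', hid hC]
  have c2 : cfc (fun t => -2 * L ^ 2 * t) A = (-2 * L ^ 2) • A := by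
    rw [cfc_const_mul (R := ℝ) _ _ A (contOn_spec _), hid hA]
  have c3 : cfc (fun t => 2 * f t) A = (2:ℝ) • cfc f A := by
    rw [cfc_const_mul (R := ℝ) _ _ A (contOn_spec _)]
  simp only [Fin.sum_univ_four, F, G, Matrix.cons_val_zero, Matrix.cons_val_one,
      Matrix.cons_val_two, Matrix.cons_val_three, Matrix.head_cons, Matrix.tail_cons] at hk
  rw [c1 hA, c1 hB, c2, c3, hone hA, hone hB, hid hB] at hk
  simp only [mul_one, one_mul, Matrix.smul_mul, rtr_sub, rtr_smul] at hk
  have hsq : ‖cfc f A - cfc f B‖ ^ 2 ≤ (L * ‖A - B‖) ^ 2 := by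
    rw [mul_pow, frob_sq_herm (hfA.sub hfB), frob_sq_herm (hA.sub hB)]
    have e1 : rtr ((cfc f A - cfc f B) * (cfc f A - cfc f B)) =
        rtr (cfc f A * cfc f A) - 2 * rtr (cfc f A * cfc f B) + rtr (cfc f B * cfc f B) := by
      have : (cfc f A - cfc f B) * (cfc f A - cfc f B) = cfc f A * cfc f A - cfc f A * cfc f B
          - cfc f B * cfc f A + cfc f B * cfc f B := by noncomm_ring
      rw [this, rtr_add, rtr_sub, rtr_sub, rtr_mul_comm (cfc f B) (cfc f A)]
      ring
    have e2 : rtr ((A - B) * (A - B)) =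
        rtr (A * A) - 2 * rtr (A * B) + rtr (B * B) := by
      have : (A - B) * (A - B) = A * A - A * B - B * A + B * B := by noncomm_ring
      rw [this, rtr_add, rtr_sub, rtr_sub, rtr_mul_comm B A]
      ring
    rw [e1, e2]
    linarith
  exact abs_le_of_sq_le_sq' hsq (by positivity) |>.2

end frob

end Crest.Agent.R332.Ode
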