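import Mathlib
import Crest.Prelude.Def_LiebThirring
import Crest.Agent.R332.BetaInt
import Crest.Agent.R332.CfcDiag

set_option autoImplicit false
open MeasureTheory Set Filter Topology
open scoped ContDiff
open Crest.MathPhysics.LiebThirring

namespace Crest.Agent.R332

/-- ground state profile `sech^{1/r}(r a (x-c))` -/
noncomputable def gs (r a c x : ℝ) : ℝ := Real.cosh (r * a * (x - c)) ^ (-(1 / r))

lemma gs_pos (r a c x : ℝ) : 0 < gs r a c x := Real.rpow_pos_of_pos (Real.cosh_pos _) _

lemma contDiff_gs (r a c : ℝ) : ContDiff ℝ ∞ (gs r a c) := by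
  unfold gs
  apply ContDiff.rpow_const_of_ne
  · exact Real.contDiff_cosh.comp (by fun_prop)
  · intro x; exact (Real.cosh_pos _).ne'

lemma continuous_gs (r a c : ℝ) : Continuous (gs r a c) := (contDiff_gs r a c).continuous

lemma hasDerivAt_gs {r : ℝ} (hr : 0 < r) (a c x : ℝ) :
    HasDerivAt (gs r a c) (-a * (Real.sinh (r * a * (x - c)) / Real.cosh (r * a * (x - c))) * gs r a c x) x := by
  have h1 : HasDerivAt (fun x : ℝ => r * a * (x - c)) (r * a) x := by
    simpa using ((hasDerivAt_id x).sub_const c).const_mul (r * a)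
  have h2 : HasDerivAt (fun x : ℝ => Real.cosh (r * a * (x - c)))
    (Real.sinh (r * a * (x - c)) * (r * a)) x := h1.cosh
  have hc := Real.cosh_pos (r * a * (x - c))
  have h3 := h2.rpow_const (p := -(1 / r)) (Or.inl hc.ne')
  unfold gs
  convert h3 using 1
  rw [Real.rpow_sub_one hc.ne']
  field_simp

lemma hasDerivAt_gs' {r : ℝ} (hr : 0 < r) (a c x : ℝ) :
    HasDerivAt (fun x => -a * (Real.sinh (r * a * (x - c)) / Real.cosh (r * a * (x - c))) * gs r a c x)
      ((a ^ 2 - soliton r a c x) * gs r a c x) x := by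
  have h1 : HasDerivAt (fun x : ℝ => r * a * (x - c)) (r * a) x := by
    simpa using ((hasDerivAt_id x).sub_const c).const_mul (r * a)
  have h2 : HasDerivAt (fun x : ℝ => Real.cosh (r * a * (x - c)))
    (Real.sinh (r * a * (x - c)) * (r * a)) x := h1.cosh
  have h3 : HasDerivAt (fun x : ℝ => Real.sinh (r * a * (x - c)))
    (Real.cosh (r * a * (x - c)) * (r * a)) x := h1.sinh
  have hc := Real.cosh_pos (r * a * (x - c))
  have h4 := ((h3.div h2 hc.ne').const_mul (-a)).mul (hasDerivAt_gs hr a c x)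
  refine h4.congr_deriv ?_
  simp only [Pi.div_apply]
  unfold soliton
  have hs : Real.sinh (r * a * (x - c)) ^ 2 = Real.cosh (r * a * (x - c)) ^ 2 - 1 := Real.sinh_sq _
  generalize Real.cosh (r * a * (x - c)) = C at *
  generalize Real.sinh (r * a * (x - c)) = S at *
  generalize gs r a c x = g at *
  field_simp
  rw [hs]
  ring

/-- the master identity: for a smooth compactly supported `χ`,
`∫ ((χ g)')² - w (χ g)² = ∫ χ'² g² - a² ∫ (χ g)²`. -/
lemma energy_identity {r : ℝ} (hr : 0 < r) (a c : ℝ) {χ : ℝ → ℝ} (hχ : ContDiff ℝ ∞ χ)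
    (hχc : HasCompactSupport χ) :
    ∫ x, ((deriv (fun x => χ x * gs r a c x) x) ^ 2 - soliton r a c x * (χ x * gs r a c x) ^ 2)
      = (∫ x, (deriv χ x * gs r a c x) ^ 2) - a ^ 2 * ∫ x, (χ x * gs r a c x) ^ 2 := by
  set g := gs r a c with hg
  set G : ℝ → ℝ := fun x => -a * (Real.sinh (r * a * (x - c)) / Real.cosh (r * a * (x - c))) * gs r a c x
    with hG
  have hgd : ∀ x, HasDerivAt g (G x) x := fun x => hasDerivAt_gs hr a c x
  have hGd : ∀ x, HasDerivAt G ((a ^ 2 - soliton r a c x) * g x) x := fun x => hasDerivAt_gs' hr a c x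
  have hχd : ∀ x, HasDerivAt χ (deriv χ x) x := fun x =>
    (hχ.differentiable (by simp)).differentiableAt.hasDerivAt
  have hχ'c : Continuous (deriv χ) := hχ.continuous_deriv (by simp)
  have hχcont : Continuous χ := hχ.continuous
  have hgc : Continuous g := continuous_gs r a c
  have hGc : Continuous G := continuous_iff_continuousAt.2 fun x => (hGd x).continuousAt
  have hsc : Continuous (soliton r a c) := by
    unfold soliton
    refine Continuous.div (by fun_prop) ?_ (fun x => by positivity)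
    exact (Real.continuous_cosh.comp (by fun_prop)).pow 2
  -- h = χ² g G
  set h : ℝ → ℝ := fun x => (χ x) ^ 2 * (g x * G x) with hh
  set h' : ℝ → ℝ := fun x => 2 * χ x * deriv χ x * (g x * G x) +
      (χ x) ^ 2 * (G x * G x + g x * ((a ^ 2 - soliton r a c x) * g x)) with hh'
  have hhd : ∀ x, HasDerivAt h (h' x) x := by
    intro x
    have := ((hχd x).pow 2).mul ((hgd x).mul (hGd x))
    refine this.congr_deriv ?_
    simp only [hh', Pi.pow_apply, Pi.mul_apply]
    push_cast
    ring
  have hdc : HasCompactSupport (deriv χ) := hχc.deriv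
  have hh'c : Continuous h' := by fun_prop
  have hh's : HasCompactSupport h' := by
    apply HasCompactSupport.intro hχc
    intro x hx
    have h0 : χ x = 0 := image_eq_zero_of_notMem_tsupport hx
    simp [hh', h0]
  have hhs : HasCompactSupport h := by
    apply HasCompactSupport.intro hχc
    intro x hx
    have h0 : χ x = 0 := image_eq_zero_of_notMem_tsupport hx
    simp [hh, h0]
  have hint0 : ∫ x, h' x = 0 := by
    apply integral_eq_zero_of_hasDerivAt_of_integrable hhd (hh'c.integrable_of_hasCompactSupport hh's)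
    refine Continuous.integrable_of_hasCompactSupport ?_ hhs
    fun_prop
  have hd : ∀ x, deriv (fun x => χ x * g x) x = deriv χ x * g x + χ x * G x := fun x =>
    ((hχd x).mul (hgd x)).deriv
  have e1 : ∀ x, (deriv (fun x => χ x * g x) x) ^ 2 - soliton r a c x * (χ x * g x) ^ 2
      = ((deriv χ x * g x) ^ 2 - a ^ 2 * (χ x * g x) ^ 2) + h' x := by
    intro x
    rw [hd]
    simp only [hh']
    ring
  have i1 : Integrable (fun x => (deriv χ x * g x) ^ 2) := by
    refine Continuous.integrable_of_hasCompactSupport (by fun_prop) ?_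
    apply HasCompactSupport.intro hdc
    intro x hx
    have h0 : deriv χ x = 0 := image_eq_zero_of_notMem_tsupport hx
    simp [h0]
  have i2 : Integrable (fun x => a ^ 2 * (χ x * g x) ^ 2) := by
    refine Continuous.integrable_of_hasCompactSupport (by fun_prop) ?_
    apply HasCompactSupport.intro hχc
    intro x hx
    have h0 : χ x = 0 := image_eq_zero_of_notMem_tsupport hx
    simp [h0]
  have i3 : Integrable (fun x => (deriv χ x * g x) ^ 2 - a ^ 2 * (χ x * g x) ^ 2) := i1.sub i2
  simp_rw [e1]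
  rw [integral_add i3 (hh'c.integrable_of_hasCompactSupport hh's), hint0, add_zero,
    integral_sub i1 i2, integral_const_mul]

lemma integrable_gs_sq {r a : ℝ} (hr : 0 < r) (ha : 0 < a) (c : ℝ) :
    Integrable (fun x => (gs r a c x) ^ 2) := by
  have h1 := integrable_sech_rpow (p := 1 / r) (by positivity)
  have h2 := (h1.comp_mul_left' (R := r * a) (by positivity)).comp_sub_right c
  refine h2.congr (Eventually.of_forall fun x => ?_)
  have hc := Real.cosh_pos (r * a * (x - c))
  simp only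
  unfold gs
  have key : (Real.cosh (r * a * (x - c)) ^ 2) ^ (1 / r) = (Real.cosh (r * a * (x - c)) ^ (1 / r)) ^ 2 := by
    rw [← Real.rpow_natCast _ 2, ← Real.rpow_mul hc.le, mul_comm ((2:ℕ):ℝ) (1 / r),
      Real.rpow_mul hc.le, Real.rpow_natCast]
  rw [Real.inv_rpow (by positivity), key, Real.rpow_neg hc.le, inv_pow]

/-- scalar trial functions with energy close to `-a²` -/
lemma exists_scalar_trial {r : ℝ} (hr : 0 < r) (a c : ℝ) {δ : ℝ} (hδ : 0 < δ) :
    ∃ f : ℝ → ℝ, ContDiff ℝ ∞ f ∧ HasCompactSupport f ∧ ∫ x, f x ^ 2 = 1 ∧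
      (0 < a → ∫ x, ((deriv f x) ^ 2 - soliton r a c x * f x ^ 2) ≤ -a ^ 2 + δ) := by
  classical
  let b : ContDiffBump (0:ℝ) := ⟨1, 2, one_pos, one_lt_two⟩
  have hb : ContDiff ℝ ∞ (b : ℝ → ℝ) := b.contDiff
  have hbc : HasCompactSupport (b : ℝ → ℝ) := b.hasCompactSupport
  obtain ⟨M, hM⟩ := (hb.continuous_deriv (by simp)).bounded_above_of_compact_support hbc.deriv
  set g := gs r a c with hg
  have hgc : Continuous g := continuous_gs r a c
  -- cut-offs
  let χ : ℝ → ℝ → ℝ := fun L x => b (x / L)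
  have hχ : ∀ L, 0 < L → ContDiff ℝ ∞ (χ L) := fun L hL => hb.comp (by fun_prop)
  have hχc : ∀ L, 0 < L → HasCompactSupport (χ L) := by
    intro L hL
    have := hbc.comp_homeomorph (Homeomorph.mulRight₀ (L⁻¹) (inv_ne_zero hL.ne'))
    have e : (χ L) = ((b : ℝ → ℝ) ∘ (Homeomorph.mulRight₀ (L⁻¹) (inv_ne_zero hL.ne'))) := by
      funext x; simp [χ, div_eq_mul_inv]
    rw [e]; exact this
  have hχ' : ∀ L, 0 < L → ∀ x, deriv (χ L) x = deriv b (x / L) / L := by
    intro L hL x
    have h1 : HasDerivAt (b : ℝ → ℝ) (deriv b (x / L)) (x / L) :=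
      (hb.differentiable (by simp)).differentiableAt.hasDerivAt
    have h2 : HasDerivAt (fun x : ℝ => x / L) (1 / L) x := (hasDerivAt_id x).div_const L
    have := (h1.comp x h2).deriv
    rw [show χ L = (b : ℝ → ℝ) ∘ (fun x : ℝ => x / L) from rfl, this]
    ring
  -- masses
  have hsupp : ∀ L, 0 < L → HasCompactSupport (fun x => (χ L x * g x) ^ 2) := by
    intro L hL
    apply HasCompactSupport.intro (hχc L hL)
    intro x hx
    have h0 : χ L x = 0 := image_eq_zero_of_notMem_tsupport hx
    simp [h0]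
  have hint : ∀ L, 0 < L → Integrable (fun x => (χ L x * g x) ^ 2) := by
    intro L hL
    have := (hχ L hL).continuous
    exact Continuous.integrable_of_hasCompactSupport (by fun_prop) (hsupp L hL)
  set A0 : ℝ := ∫ x in Icc (-1:ℝ) 1, g x ^ 2 with hA0
  have hA0pos : 0 < A0 := by
    rw [hA0, integral_Icc_eq_integral_Ioc, ← intervalIntegral.integral_of_le (by norm_num)]
    apply intervalIntegral.intervalIntegral_pos_of_pos_on
    · exact (hgc.pow 2).intervalIntegrable _ _
    · intro x _
      exact pow_pos (gs_pos r a c x) 2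
    · norm_num
  have hA : ∀ L, 1 ≤ L → A0 ≤ ∫ x, (χ L x * g x) ^ 2 := by
    intro L hL
    have hL0 : 0 < L := by linarith
    have : A0 = ∫ x in Icc (-1:ℝ) 1, (χ L x * g x) ^ 2 := by
      refine setIntegral_congr_fun measurableSet_Icc fun x hx => ?_
      have : χ L x = 1 := by
        apply b.one_of_mem_closedBall
        rw [mem_closedBall_zero_iff, Real.norm_eq_abs, abs_div, abs_of_pos hL0, div_le_iff₀ hL0]
        have : |x| ≤ 1 := abs_le.2 hx
        simp only [b]
        linarith
      simp [this]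
    rw [this]
    exact setIntegral_le_integral (hint L hL0) (Eventually.of_forall fun x => sq_nonneg _)
  -- choose L
  obtain ⟨L, hL1, hL2⟩ : ∃ L : ℝ, 1 ≤ L ∧
      (0 < a → (M ^ 2 * ∫ x, g x ^ 2) / L ^ 2 ≤ δ * A0) := by
    have : Tendsto (fun L : ℝ => (M ^ 2 * ∫ x, g x ^ 2) / L ^ 2) atTop (𝓝 0) :=
      tendsto_const_nhds.div_atTop (tendsto_pow_atTop (by norm_num))
    have h2 := (this.eventually_le_const (show (0:ℝ) < δ * A0 by positivity)).and (eventually_ge_atTop (1:ℝ))
    obtain ⟨L, hL⟩ := h2.exists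
    exact ⟨L, hL.2, fun _ => hL.1⟩
  have hL0 : 0 < L := by linarith
  set A : ℝ := ∫ x, (χ L x * g x) ^ 2 with hAdef
  have hApos : 0 < A := lt_of_lt_of_le hA0pos (hA L hL1)
  have hχg : ContDiff ℝ ∞ (fun x => χ L x * g x) := (hχ L hL0).mul (contDiff_gs r a c)
  refine ⟨fun x => (Real.sqrt A)⁻¹ * (χ L x * g x), ?_, ?_, ?_, ?_⟩
  · exact contDiff_const.mul hχg
  · apply HasCompactSupport.intro (hχc L hL0)
    intro x hx
    have h0 : χ L x = 0 := image_eq_zero_of_notMem_tsupport hx
    simp [h0]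
  · have : ∀ x, ((Real.sqrt A)⁻¹ * (χ L x * g x)) ^ 2 = A⁻¹ * (χ L x * g x) ^ 2 := by
      intro x
      rw [mul_pow, inv_pow, Real.sq_sqrt hApos.le]
    simp_rw [this]
    rw [integral_const_mul, ← hAdef, inv_mul_cancel₀ hApos.ne']
  · intro ha
    have e1 : ∀ x, (deriv (fun x => (Real.sqrt A)⁻¹ * (χ L x * g x)) x) ^ 2
        - soliton r a c x * ((Real.sqrt A)⁻¹ * (χ L x * g x)) ^ 2
        = A⁻¹ * ((deriv (fun x => χ L x * g x) x) ^ 2 - soliton r a c x * (χ L x * g x) ^ 2) := by
      intro x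
      rw [deriv_const_mul _ (hχg.differentiable (by simp)).differentiableAt, mul_pow, mul_pow, inv_pow,
        Real.sq_sqrt hApos.le]
      ring
    simp_rw [e1]
    rw [integral_const_mul, energy_identity hr a c (hχ L hL0) (hχc L hL0), ← hAdef]
    have hgi := integrable_gs_sq hr ha c
    have hB : ∫ x, (deriv (χ L) x * g x) ^ 2 ≤ δ * A := by
      calc ∫ x, (deriv (χ L) x * g x) ^ 2 ≤ ∫ x, (M ^ 2 / L ^ 2) * g x ^ 2 := by
            apply integral_mono
            · refine Continuous.integrable_of_hasCompactSupport ?_ ?_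
              · have := (hχ L hL0).continuous_deriv (by simp)
                fun_prop
              · apply HasCompactSupport.intro (hχc L hL0).deriv
                intro x hx
                have h0 : deriv (χ L) x = 0 := image_eq_zero_of_notMem_tsupport hx
                simp [h0]
            · exact hgi.const_mul _
            · intro x
              simp only
              rw [mul_pow]
              apply mul_le_mul_of_nonneg_right _ (sq_nonneg _)
              rw [hχ' L hL0 x, div_pow]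
              apply div_le_div_of_nonneg_right _ (by positivity)
              rw [← sq_abs (deriv b (x / L))]
              have := hM (x / L)
              rw [Real.norm_eq_abs] at this
              exact pow_le_pow_left₀ (abs_nonneg _) this 2
        _ = (M ^ 2 * ∫ x, g x ^ 2) / L ^ 2 := by rw [integral_const_mul]; ring
        _ ≤ δ * A0 := hL2 ha
        _ ≤ δ * A := mul_le_mul_of_nonneg_left (hA L hL1) hδ.le
    calc A⁻¹ * ((∫ x, (deriv (χ L) x * g x) ^ 2) - a ^ 2 * A) ≤ A⁻¹ * (δ * A - a ^ 2 * A) := by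
          apply mul_le_mul_of_nonneg_left _ (by positivity)
          linarith
      _ = -a ^ 2 + δ := by field_simp; ring


lemma soliton_nonneg {r : ℝ} (hr : 0 < r) (a c x : ℝ) : 0 ≤ soliton r a c x := by
  unfold soliton; positivity

lemma continuous_soliton (r a c : ℝ) : Continuous (soliton r a c) := by
  unfold soliton
  refine Continuous.div (by fun_prop) ?_ (fun x => by positivity)
  exact (Real.continuous_cosh.comp (by fun_prop)).pow 2

lemma soliton_integral {γ : ℝ} (hγ : 1 / 2 < γ) (a c : ℝ) (ha : 0 ≤ a) :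
    Integrable (fun x => soliton (γ - 1 / 2)⁻¹ a c x ^ (γ + 1 / 2)) ∧
    sharpConst γ * ∫ x, soliton (γ - 1 / 2)⁻¹ a c x ^ (γ + 1 / 2) = a ^ (2 * γ) := by
  rcases ha.eq_or_lt with rfl | ha
  · have h0 : ∀ x, soliton (γ - 1 / 2)⁻¹ 0 c x ^ (γ + 1 / 2) = 0 := by
      intro x
      unfold soliton
      simp only [ne_eq, OfNat.ofNat_ne_zero, not_false_eq_true, zero_pow, mul_zero, zero_div]
      exact Real.zero_rpow (by linarith)
    simp_rw [h0]
    refine ⟨by simp, ?_⟩
    rw [integral_zero, mul_zero, Real.zero_rpow (by linarith)]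
  · set r : ℝ := (γ - 1 / 2)⁻¹ with hr
    have hα : 0 < γ - 1 / 2 := by linarith
    have hr0 : 0 < r := inv_pos.2 hα
    have hra : r * a ≠ 0 := by positivity
    have hp : 0 < γ + 1 / 2 := by linarith
    have e1 : ∀ x, soliton r a c x ^ (γ + 1 / 2) =
        ((r + 1) * a ^ 2) ^ (γ + 1 / 2) * ((Real.cosh (r * a * (x - c)) ^ 2)⁻¹) ^ (γ + 1 / 2) := by
      intro x
      unfold soliton
      rw [div_eq_mul_inv, Real.mul_rpow (by positivity) (by positivity)]
    have h1 := integrable_sech_rpow hp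
    have h2 : Integrable (fun x => ((Real.cosh (r * a * (x - c)) ^ 2)⁻¹) ^ (γ + 1 / 2)) :=
      (h1.comp_mul_left' (R := r * a) hra).comp_sub_right c
    have h3 : ∫ x, ((Real.cosh (r * a * (x - c)) ^ 2)⁻¹) ^ (γ + 1 / 2) =
        (r * a)⁻¹ * (Real.sqrt Real.pi * Real.Gamma (γ + 1 / 2) / Real.Gamma (γ + 1 / 2 + 1 / 2)) := by
      rw [← integral_sech_rpow hp]
      have e := integral_sub_right_eq_self
        (fun x => ((Real.cosh (r * a * x) ^ 2)⁻¹) ^ (γ + 1 / 2)) c (μ := volume)
      rw [e]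
      have e' := Measure.integral_comp_mul_left
        (fun x => ((Real.cosh x ^ 2)⁻¹) ^ (γ + 1 / 2)) (r * a)
      rw [e', abs_of_pos (by positivity)]
      simp
    constructor
    · simp_rw [e1]
      exact h2.const_mul _
    · simp_rw [e1]
      rw [integral_const_mul, h3]
      unfold sharpConst
      have hG1 : 0 < Real.Gamma (γ + 1 / 2) := Real.Gamma_pos_of_pos hp
      have hG2 : 0 < Real.Gamma (γ + 1) := Real.Gamma_pos_of_pos (by linarith)
      have hG3 : Real.Gamma (γ + 3 / 2) = (γ + 1 / 2) * Real.Gamma (γ + 1 / 2) := by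
        rw [show γ + 3 / 2 = (γ + 1 / 2) + 1 by ring, Real.Gamma_add_one hp.ne']
      have hG4 : γ + 1 / 2 + 1 / 2 = γ + 1 := by ring
      rw [hG3, hG4]
      have hr1 : r + 1 = (γ + 1 / 2) / (γ - 1 / 2) := by
        rw [hr, eq_div_iff hα.ne', add_mul, inv_mul_cancel₀ hα.ne']; ring
      have e2 : ((γ - 1 / 2) / (γ + 1 / 2)) ^ (γ - 1 / 2) = ((r + 1) ^ (γ - 1 / 2))⁻¹ := by
        rw [hr1, ← Real.inv_rpow (by positivity), inv_div]
      have e3 : ((r + 1) * a ^ 2) ^ (γ + 1 / 2) = (r + 1) ^ (γ - 1 / 2) * (r + 1) * (a ^ (2 * γ) * a) := by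
        rw [Real.mul_rpow (by positivity) (by positivity), show γ + 1 / 2 = (γ - 1 / 2) + 1 by ring,
          Real.rpow_add_one (by positivity), ← Real.rpow_natCast a 2, ← Real.rpow_mul ha.le,
          ← Real.rpow_add_one ha.ne']
        congr 2
        push_cast
        ring
      have hpi : 0 < Real.sqrt Real.pi := Real.sqrt_pos.2 Real.pi_pos
      have hX : 0 < (r + 1) ^ (γ - 1 / 2) := by positivity
      rw [e2, e3]
      have hr2 : r * (γ - 1 / 2) = 1 := by rw [hr]; exact inv_mul_cancel₀ hα.ne'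
      have hr3 : r + 1 = r * (γ + 1 / 2) := by
        have : r * (γ + 1 / 2) = r * (γ - 1 / 2) + r := by ring
        rw [this, hr2]; ring
      generalize (r + 1) ^ (γ - 1 / 2) = X at *
      rw [hr3]
      field_simp

/-- the inner product of columns of a unitary matrix -/
lemma inner_col {m : ℕ} (U : Matrix.unitaryGroup (Fin m) ℂ) (k l : Fin m) :
    inner ℂ (WithLp.toLp 2 (fun j => (U : Matrix (Fin m) (Fin m) ℂ) j k) : Vec m)
      (WithLp.toLp 2 (fun j => (U : Matrix (Fin m) (Fin m) ℂ) j l)) = if k = l then (1:ℂ) else 0 := by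
  have h := congrFun (congrFun (Unitary.coe_star_mul_self U) k) l
  rw [Matrix.mul_apply, Matrix.one_apply] at h
  rw [← h, PiLp.inner_apply]
  refine Finset.sum_congr rfl fun j _ => ?_
  simp [Matrix.star_apply, mul_comm]

lemma mulVec_col {m : ℕ} (U : Matrix.unitaryGroup (Fin m) ℂ) (d : Fin m → ℝ) (l : Fin m) :
    Matrix.toEuclideanLin ((U : Matrix (Fin m) (Fin m) ℂ) *
        Matrix.diagonal (fun i => (d i : ℂ)) * star (U : Matrix (Fin m) (Fin m) ℂ))
      (WithLp.toLp 2 (fun j => (U : Matrix (Fin m) (Fin m) ℂ) j l) : Vec m)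
      = (d l : ℂ) • (WithLp.toLp 2 (fun j => (U : Matrix (Fin m) (Fin m) ℂ) j l) : Vec m) := by
  have h : ((U : Matrix (Fin m) (Fin m) ℂ) *
        Matrix.diagonal (fun i => (d i : ℂ)) * star (U : Matrix (Fin m) (Fin m) ℂ)) *
        (U : Matrix (Fin m) (Fin m) ℂ) = (U : Matrix (Fin m) (Fin m) ℂ) *
        Matrix.diagonal (fun i => (d i : ℂ)) := by
    rw [mul_assoc, Unitary.coe_star_mul_self, mul_one]
  ext j
  have h2 := congrFun (congrFun h j) l
  rw [Matrix.mul_apply, Matrix.mul_diagonal] at h2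
  simp only [PiLp.smul_apply, smul_eq_mul]
  rw [mul_comm, ← h2]
  rfl


/-- S0516, direction `<=`. -/
theorem soliton_attained (γ : ℝ) (hγ : 1 / 2 < γ) (m : ℕ)
    (W : ℝ → Matrix (Fin m) (Fin m) ℂ)
    (U : Matrix.unitaryGroup (Fin m) ℂ) (a c : Fin m → ℝ) (ha : ∀ i, 0 ≤ a i)
    (hW : ∀ᵐ x : ℝ, W x = (U : Matrix (Fin m) (Fin m) ℂ) *
          Matrix.diagonal (fun i => ((soliton (γ - 1 / 2)⁻¹ (a i) (c i) x : ℝ) : ℂ)) *
            star (U : Matrix (Fin m) (Fin m) ℂ))
    (ε : ℝ) (hε : 0 < ε) :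
    ∃ (n : ℕ) (φ : Fin n → ℝ → Vec m), IsTrialFamily φ ∧
        sharpConst γ * (∫ x, tracePow (W x) (γ + 1 / 2)) - ε < negMoment (energyMatrix W φ) γ := by
  classical
  set r : ℝ := (γ - 1 / 2)⁻¹ with hr
  have hα : 0 < γ - 1 / 2 := by linarith
  have hr0 : 0 < r := inv_pos.2 hα
  -- the right-hand side
  have hR : sharpConst γ * (∫ x, tracePow (W x) (γ + 1 / 2)) = ∑ i, a i ^ (2 * γ) := by
    have h1 : ∫ x, tracePow (W x) (γ + 1 / 2) = ∫ x, ∑ i, soliton r (a i) (c i) x ^ (γ + 1 / 2) := by
      apply integral_congr_ae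
      filter_upwards [hW] with x hx
      rw [hx]
      exact trace_cfc_conj_diagonal U (fun i => soliton r (a i) (c i) x) (fun t => t ^ (γ + 1 / 2))
    rw [h1, integral_finsetSum _ (fun i _ => (soliton_integral hγ (a i) (c i) (ha i)).1), Finset.mul_sum]
    exact Finset.sum_congr rfl fun i _ => (soliton_integral hγ (a i) (c i) (ha i)).2
  -- choose δ
  obtain ⟨δ, hδ, hδ2⟩ : ∃ δ : ℝ, 0 < δ ∧ ∑ i, a i ^ (2 * γ) - ε < ∑ i, (max (a i ^ 2 - δ) 0) ^ γ := by
    have hcont : Continuous (fun δ : ℝ => ∑ i, (max (a i ^ 2 - δ) 0) ^ γ) := by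
      refine continuous_finsetSum _ fun i _ => ?_
      exact Continuous.rpow_const (by fun_prop) (fun x => Or.inr (by linarith))
    have h0 : ∑ i, (max (a i ^ 2 - 0) 0) ^ γ = ∑ i, a i ^ (2 * γ) := by
      refine Finset.sum_congr rfl fun i _ => ?_
      rw [sub_zero, max_eq_left (sq_nonneg _), Real.rpow_mul (ha i), Real.rpow_ofNat]
    have ht : Tendsto (fun δ : ℝ => ∑ i, (max (a i ^ 2 - δ) 0) ^ γ) (𝓝[>] 0) (𝓝 (∑ i, a i ^ (2 * γ))) := by
      rw [← h0]
      exact (hcont.tendsto 0).mono_left nhdsWithin_le_nhds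
    have h1 : ∀ᶠ δ in 𝓝[>] (0:ℝ), ∑ i, a i ^ (2 * γ) - ε < ∑ i, (max (a i ^ 2 - δ) 0) ^ γ :=
      ht.eventually (lt_mem_nhds (by linarith))
    obtain ⟨δ, h2, h3⟩ := (h1.and self_mem_nhdsWithin).exists
    exact ⟨δ, h3, h2⟩
  choose f hf1 hf2 hf3 hf4 using fun i => exists_scalar_trial hr0 (a i) (c i) hδ
  set u : Fin m → Vec m := fun k => WithLp.toLp 2 (fun j => (U : Matrix (Fin m) (Fin m) ℂ) j k) with hu
  have huu : ∀ k l, inner ℂ (u k) (u l) = if k = l then (1:ℂ) else 0 := inner_col U
  let φ : Fin m → ℝ → Vec m := fun k x => (f k x : ℂ) • u k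
  have hdf : ∀ k x, HasDerivAt (φ k) (((deriv (f k) x : ℝ) : ℂ) • u k) x := by
    intro k x
    have h1 : HasDerivAt (f k) (deriv (f k) x) x :=
      ((hf1 k).differentiable (by simp)).differentiableAt.hasDerivAt
    exact h1.ofReal_comp.smul_const (u k)
  have hdφ : ∀ k x, deriv (φ k) x = ((deriv (f k) x : ℝ) : ℂ) • u k := fun k x => (hdf k x).deriv
  refine ⟨m, φ, ⟨?_, ?_, ?_⟩, ?_⟩
  · intro k
    have : ContDiff ℝ ∞ (fun x => (f k x : ℂ)) := Complex.ofRealCLM.contDiff.comp (hf1 k)
    exact this.smul contDiff_const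
  · intro k
    apply HasCompactSupport.intro (hf2 k)
    intro x hx
    have h0 : f k x = 0 := image_eq_zero_of_notMem_tsupport hx
    simp [φ, h0]
  · intro k l
    have h1 : ∀ x, inner ℂ (φ k x) (φ l x) = ((f k x * f l x : ℝ) : ℂ) * (if k = l then (1:ℂ) else 0) := by
      intro x
      simp only [φ, inner_smul_left, inner_smul_right, huu, Complex.conj_ofReal]
      push_cast
      ring
    simp_rw [h1]
    by_cases hkl : k = l
    · subst hkl
      simp only [if_true, mul_one]
      rw [integral_complex_ofReal]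
      have : ∫ x, f k x * f k x = 1 := by
        rw [← hf3 k]; congr 1; funext x; ring
      rw [this]; simp
    · simp [hkl]
  · rw [hR]
    have hE : energyMatrix W φ = Matrix.diagonal
        (fun i => ((∫ x, ((deriv (f i) x) ^ 2 - soliton r (a i) (c i) x * f i x ^ 2) : ℝ) : ℂ)) := by
      ext k l
      unfold energyMatrix
      rw [Matrix.of_apply, Matrix.diagonal_apply]
      have h1 : ∀ᵐ x : ℝ, inner ℂ (deriv (φ k) x) (deriv (φ l) x) -
          inner ℂ (φ k x) (Matrix.toEuclideanLin (W x) (φ l x)) =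
          ((deriv (f k) x * deriv (f l) x - soliton r (a l) (c l) x * (f k x * f l x) : ℝ) : ℂ) *
            (if k = l then (1:ℂ) else 0) := by
        filter_upwards [hW] with x hx
        rw [hx, hdφ, hdφ]
        simp only [φ, map_smul, hu]
        rw [mulVec_col U (fun i => soliton r (a i) (c i) x) l]
        simp only [inner_smul_left, inner_smul_right]
        rw [inner_col]
        simp only [Complex.conj_ofReal]
        push_cast
        ring
      rw [integral_congr_ae h1]
      by_cases hkl : k = l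
      · subst hkl
        simp only [if_true, mul_one]
        rw [integral_complex_ofReal]
        congr 2
        funext x; ring
      · simp [hkl]
    rw [hE]
    unfold negMoment
    rw [trace_cfc_diagonal (fun i => ∫ x, ((deriv (f i) x) ^ 2 - soliton r (a i) (c i) x * f i x ^ 2))
      (fun t => (max (-t) 0) ^ γ)]
    refine hδ2.trans_le (Finset.sum_le_sum fun i _ => ?_)
    apply Real.rpow_le_rpow (le_max_right _ _) _ (by linarith)
    rcases (ha i).eq_or_lt with h0 | h0
    · rw [← h0]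
      have : max ((0:ℝ) ^ 2 - δ) 0 = 0 := max_eq_right (by nlinarith)
      rw [this]
      exact le_max_right _ _
    · apply max_le_max _ le_rfl
      have := hf4 i h0
      linarith

end Crest.Agent.R332
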