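import Crest.Agent.R332.TrBasic

/-! # Row 332: trace inequalities (Young, convexity of `tr X^γ`) -/

set_option autoImplicit false
set_option linter.unusedSectionVars false

namespace Crest.Agent.R332

open Matrix Unitary
open scoped ComplexOrder

variable {n : Type*} [Fintype n] [DecidableEq n]

lemma cfc_self {A : Matrix n n ℂ} (hA : A.IsHermitian) : cfc (fun t : ℝ => t) A = A :=
  cfc_id' ℝ A hA

lemma mpow_one {A : Matrix n n ℂ} (hA : A.IsHermitian) : mpow A 1 = A := by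
  have h : (fun t : ℝ => t ^ (1 : ℝ)) = fun t => t := by
    funext t; exact Real.rpow_one t
  rw [mpow, h]
  exact cfc_id' ℝ A hA

lemma cfc_one' {A : Matrix n n ℂ} (hA : A.IsHermitian) : cfc (fun _ : ℝ => (1 : ℝ)) A = 1 := by
  exact cfc_const_one ℝ A hA

lemma mpow_zero {A : Matrix n n ℂ} (hA : A.IsHermitian) : mpow A 0 = 1 := by
  have h : (fun t : ℝ => t ^ (0 : ℝ)) = fun _ => 1 := by
    funext t; exact Real.rpow_zero t
  rw [mpow, h]
  exact cfc_one' hA

lemma mpow_add {A : Matrix n n ℂ} (hA : A.PosDef) (p q : ℝ) :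
    mpow A (p + q) = mpow A p * mpow A q := by
  rw [mpow, mpow, mpow, ← cfc_mul']
  exact cfc_congr_eig hA.1 fun i => Real.rpow_add (hA.eigenvalues_pos i) p q

lemma mpow_add' {A : Matrix n n ℂ} (hA : A.PosSemidef) {p q : ℝ} (hp : 0 < p) (hq : 0 < q) :
    mpow A (p + q) = mpow A p * mpow A q := by
  rw [mpow, mpow, mpow, ← cfc_mul']
  refine cfc_congr_eig hA.1 fun i => ?_
  exact Real.rpow_add_of_nonneg (hA.eigenvalues_nonneg i) hp.le hq.le

lemma mpow_add_one {A : Matrix n n ℂ} (hA : A.PosSemidef) {p : ℝ} (hp : 0 ≤ p) :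
    mpow A (1 + p) = A * mpow A p := by
  have h : A * mpow A p = cfc (fun t : ℝ => t) A * mpow A p := by rw [cfc_self hA.1]
  rw [h, mpow, mpow, ← cfc_mul']
  refine cfc_congr_eig hA.1 fun i => ?_
  rw [Real.rpow_add_of_nonneg (hA.eigenvalues_nonneg i) zero_le_one hp, Real.rpow_one]

lemma mpow_two {A : Matrix n n ℂ} (hA : A.IsHermitian) : mpow A 2 = A * A := by
  have h : A * A = cfc (fun t : ℝ => t) A * cfc (fun t : ℝ => t) A := by rw [cfc_self hA]
  rw [h, mpow, ← cfc_mul']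
  refine cfc_congr_eig hA fun i => ?_
  rw [Real.rpow_two, sq]

lemma mpow_mpow {A : Matrix n n ℂ} (hA : A.PosSemidef) (p q : ℝ) :
    mpow (mpow A p) q = mpow A (p * q) := by
  rw [mpow, mpow, mpow]
  have h := cfc_comp' (fun t : ℝ => t ^ q) (fun t : ℝ => t ^ p) A
    (((Matrix.finite_real_spectrum (A := A)).image _).continuousOn _) (contOn_spec _) hA.1
  refine h.symm.trans ?_
  exact cfc_congr_eig hA.1 fun i => by
    rw [← Real.rpow_mul (hA.eigenvalues_nonneg i)]

/-- Scalar Young inequality with the sharp constant. -/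
lemma scalar_young {α : ℝ} (hα : 0 < α) {w x : ℝ} (hw : 0 ≤ w) (hx : 0 ≤ x) :
    0 ≤ (α / (1 + α)) ^ α / (1 + α) * w ^ (1 + α) - w * x + x ^ (1 + 1 / α) := by
  have hp : 0 < 1 + α := by positivity
  have hq : 0 < 1 + 1 / α := by positivity
  set q : ℝ := 1 + 1 / α with hqdef
  have hconj : (1 + α).HolderConjugate q := by
    rw [Real.holderConjugate_iff]
    refine ⟨by linarith, ?_⟩
    rw [hqdef]
    field_simp
    ring
  set l : ℝ := q ^ (1 / q) with hl
  have hlpos : 0 < l := Real.rpow_pos_of_pos hq _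
  have hy := Real.young_inequality_of_nonneg (a := w / l) (b := l * x)
    (div_nonneg hw hlpos.le) (mul_nonneg hlpos.le hx) hconj
  have e1 : w / l * (l * x) = w * x := by field_simp
  have e2 : (l * x) ^ q / q = x ^ q := by
    rw [Real.mul_rpow hlpos.le hx, hl, ← Real.rpow_mul hq.le, one_div,
      inv_mul_cancel₀ hq.ne', Real.rpow_one]
    field_simp
  have e3 : (w / l) ^ (1 + α) / (1 + α) = (α / (1 + α)) ^ α / (1 + α) * w ^ (1 + α) := by
    rw [Real.div_rpow hw hlpos.le, hl, ← Real.rpow_mul hq.le]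
    have e4 : 1 / q * (1 + α) = α := by
      rw [hqdef]; field_simp; ring
    rw [e4]
    have e5 : q = (α / (1 + α))⁻¹ := by
      rw [hqdef]; field_simp; ring
    have h6 : q ^ α = ((α / (1 + α)) ^ α)⁻¹ := by
      rw [e5, Real.inv_rpow (by positivity)]
    rw [h6]
    have : (α / (1 + α)) ^ α ≠ 0 := (Real.rpow_pos_of_pos (by positivity) _).ne'
    field_simp
  rw [e1, e2, e3] at hy
  linarith

/-- Scalar tangent line inequality, `γ ≥ 1`. -/
lemma scalar_tangent_ge {γ : ℝ} (hγ : 1 ≤ γ) {e y : ℝ} (he : 0 < e) (hy : 0 ≤ y) :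
    e ^ γ + γ * e ^ (γ - 1) * (y - e) ≤ y ^ γ := by
  have h1 := one_add_mul_self_le_rpow_one_add (s := y / e - 1) (p := γ)
    (by have := div_nonneg hy he.le; linarith) hγ
  have h2 : (1 + (y / e - 1)) = y / e := by ring
  rw [h2, Real.div_rpow hy he.le] at h1
  have h3 : e ^ (γ - 1) = e ^ γ / e := by rw [Real.rpow_sub_one he.ne']
  have h4 : 0 < e ^ γ := Real.rpow_pos_of_pos he _
  rw [le_div_iff₀ h4] at h1
  rw [h3]
  calc e ^ γ + γ * (e ^ γ / e) * (y - e) = (1 + γ * (y / e - 1)) * e ^ γ := by field_simp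
    _ ≤ y ^ γ := h1

/-- Scalar tangent line inequality, `0 ≤ γ ≤ 1`. -/
lemma scalar_tangent_le {γ : ℝ} (hγ0 : 0 ≤ γ) (hγ : γ ≤ 1) {e y : ℝ} (he : 0 ≤ e) (hy : 0 < y) :
    e ^ γ ≤ y ^ γ + γ * y ^ (γ - 1) * (e - y) := by
  have h1 := rpow_one_add_le_one_add_mul_self (s := e / y - 1) (p := γ)
    (by have := div_nonneg he hy.le; linarith) hγ0 hγ
  have h2 : (1 + (e / y - 1)) = e / y := by ring
  rw [h2, Real.div_rpow he hy.le] at h1
  have h3 : y ^ (γ - 1) = y ^ γ / y := by rw [Real.rpow_sub_one hy.ne']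
  have h4 : 0 < y ^ γ := Real.rpow_pos_of_pos hy _
  rw [div_le_iff₀ h4] at h1
  rw [h3]
  calc e ^ γ ≤ (1 + γ * (e / y - 1)) * y ^ γ := h1
    _ = y ^ γ + γ * (y ^ γ / y) * (e - y) := by field_simp

/-- **Matrix Young inequality** with the sharp constant. -/
lemma matrix_young {α : ℝ} (hα : 0 < α) {W R : Matrix n n ℂ} (hW : W.PosSemidef)
    (hR : R.PosSemidef) :
    0 ≤ (α / (1 + α)) ^ α / (1 + α) * trp W (1 + α) - rtr (W * R) + trp R (1 + 1 / α) := by
  set c : ℝ := (α / (1 + α)) ^ α / (1 + α)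
  have h := klein (κ := Fin 3) Finset.univ hW.1 hR.1
    ![fun w => c * w ^ (1 + α), fun w => -w, fun _ => 1]
    ![fun _ => 1, fun x => x, fun x => x ^ (1 + 1 / α)] (by
      intro i j
      rw [Fin.sum_univ_three]
      simp only [Matrix.cons_val_zero, Matrix.cons_val_one, Matrix.cons_val]
      have := scalar_young hα (hW.eigenvalues_nonneg i) (hR.eigenvalues_nonneg j)
      simp only [mul_one, one_mul, neg_mul]
      linarith)
  rw [Fin.sum_univ_three] at h
  simp only [Matrix.cons_val_zero, Matrix.cons_val_one, Matrix.cons_val] at h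
  rw [cfc_one' hW.1, cfc_one' hR.1, Matrix.mul_one, Matrix.one_mul] at h
  have e1 : cfc (fun w : ℝ => c * w ^ (1 + α)) W = c • mpow W (1 + α) := by
    rw [mpow, ← cfc_const_mul c (fun w : ℝ => w ^ (1 + α)) W (contOn_spec _)]
  have e2 : cfc (fun w : ℝ => -w) W = -W := by
    rw [cfc_neg (fun w : ℝ => w) W, cfc_self hW.1]
  have e3 : cfc (fun x : ℝ => x) R = R := cfc_self hR.1
  rw [e1, e2, e3, rtr_smul, Matrix.neg_mul, rtr_neg] at h
  simp only [trp, mpow] at h ⊢
  linarith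

/-- Convexity step, `γ ≥ 1`. -/
lemma convex_ge {γ : ℝ} (hγ : 1 ≤ γ) {E K : Matrix n n ℂ} (hE : E.PosDef) (hK : K.PosSemidef) :
    trp E γ ≤ γ * rtr (mpow E (γ - 1) * (E - K * K)) + trp K (2 * γ) := by
  have h := klein (κ := Fin 3) Finset.univ hE.1 hK.1
    ![fun e => γ * e ^ γ - e ^ γ, fun e => -(γ * e ^ (γ - 1)), fun _ => 1]
    ![fun _ => 1, fun x => x * x, fun x => x ^ (2 * γ)] (by
      intro i j
      rw [Fin.sum_univ_three]
      simp only [Matrix.cons_val_zero, Matrix.cons_val_one, Matrix.cons_val]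
      have he := hE.eigenvalues_pos i
      have hk := hK.eigenvalues_nonneg j
      have h1 := scalar_tangent_ge hγ he (mul_self_nonneg (hK.1.eigenvalues j))
      have h2 : (hK.1.eigenvalues j * hK.1.eigenvalues j) ^ γ =
          hK.1.eigenvalues j ^ (2 * γ) := by
        rw [Real.rpow_mul hk, Real.rpow_two, sq]
      have h3 : (hE.1.eigenvalues i) ^ γ = (hE.1.eigenvalues i) ^ (γ - 1) *
          hE.1.eigenvalues i := by
        rw [Real.rpow_sub_one he.ne']
        field_simp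
      rw [h2] at h1
      simp only [mul_one, one_mul, neg_mul]
      rw [h3] at h1 ⊢
      nlinarith)
  rw [Fin.sum_univ_three] at h
  simp only [Matrix.cons_val_zero, Matrix.cons_val_one, Matrix.cons_val] at h
  rw [cfc_one' hE.1, cfc_one' hK.1, Matrix.mul_one, Matrix.one_mul] at h
  have e1 : cfc (fun e : ℝ => γ * e ^ γ - e ^ γ) E = γ • mpow E γ - mpow E γ := by
    rw [cfc_sub (fun e : ℝ => γ * e ^ γ) (fun e : ℝ => e ^ γ) E (contOn_spec _) (contOn_spec _),
      cfc_const_mul γ (fun e : ℝ => e ^ γ) E (contOn_spec _)]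
    rfl
  have e2 : cfc (fun e : ℝ => -(γ * e ^ (γ - 1))) E = -(γ • mpow E (γ - 1)) := by
    rw [cfc_neg, cfc_const_mul γ (fun e : ℝ => e ^ (γ - 1)) E (contOn_spec _)]
    rfl
  have e3 : cfc (fun x : ℝ => x * x) K = K * K := by
    rw [cfc_mul', cfc_self hK.1]
  have e4 : mpow E γ = mpow E (γ - 1) * E := by
    conv_lhs => rw [show γ = (γ - 1) + 1 by ring]
    rw [mpow_add hE, mpow_one hE.1]
  rw [e1, e2, e3, rtr_sub, rtr_smul, Matrix.neg_mul, rtr_neg, Matrix.smul_mul, rtr_smul] at h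
  rw [Matrix.mul_sub, rtr_sub, ← e4]
  simp only [trp, mpow] at h ⊢
  linarith

/-- Concavity step, `0 ≤ γ ≤ 1`. -/
lemma convex_le {γ : ℝ} (hγ0 : 0 ≤ γ) (hγ : γ ≤ 1) {E K : Matrix n n ℂ} (hE : E.PosSemidef)
    (hK : K.PosDef) :
    trp E γ ≤ γ * rtr (mpow K (2 * γ - 2) * (E - K * K)) + trp K (2 * γ) := by
  have h := klein (κ := Fin 3) Finset.univ hE.1 hK.1
    ![fun e => -e ^ γ, fun e => e, fun _ => 1]
    ![fun _ => 1, fun x => γ * x ^ (2 * γ - 2), fun x => x ^ (2 * γ) - γ * x ^ (2 * γ)] (by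
      intro i j
      rw [Fin.sum_univ_three]
      simp only [Matrix.cons_val_zero, Matrix.cons_val_one, Matrix.cons_val]
      have he := hE.eigenvalues_nonneg i
      have hk := hK.eigenvalues_pos j
      have h1 := scalar_tangent_le hγ0 hγ he (mul_pos hk hk)
      have h2 : (hK.1.eigenvalues j * hK.1.eigenvalues j) ^ γ =
          hK.1.eigenvalues j ^ (2 * γ) := by
        rw [Real.rpow_mul hk.le, Real.rpow_two, sq]
      have h3 : (hK.1.eigenvalues j * hK.1.eigenvalues j) ^ (γ - 1) =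
          hK.1.eigenvalues j ^ (2 * γ - 2) := by
        rw [show 2 * γ - 2 = 2 * (γ - 1) by ring, Real.rpow_mul hk.le, Real.rpow_two, sq]
      have h4 : hK.1.eigenvalues j ^ (2 * γ) = hK.1.eigenvalues j ^ (2 * γ - 2) *
          (hK.1.eigenvalues j * hK.1.eigenvalues j) := by
        rw [← sq, ← Real.rpow_two, ← Real.rpow_add hk]
        congr 1; ring
      rw [h2, h3] at h1
      simp only [mul_one, one_mul]
      rw [h4] at h1 ⊢
      nlinarith)
  rw [Fin.sum_univ_three] at h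
  simp only [Matrix.cons_val_zero, Matrix.cons_val_one, Matrix.cons_val] at h
  rw [cfc_one' hE.1, cfc_one' hK.1, Matrix.mul_one, Matrix.one_mul] at h
  have e1 : cfc (fun e : ℝ => -e ^ γ) E = -mpow E γ := by
    rw [cfc_neg]
    rfl
  have e2 : cfc (fun x : ℝ => γ * x ^ (2 * γ - 2)) K = γ • mpow K (2 * γ - 2) := by
    rw [cfc_const_mul γ (fun e : ℝ => e ^ (2 * γ - 2)) K (contOn_spec _)]
    rfl
  have e3 : cfc (fun e : ℝ => e) E = E := cfc_id' ℝ E hE.1
  have e5 : cfc (fun x : ℝ => x ^ (2 * γ) - γ * x ^ (2 * γ)) K =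
      mpow K (2 * γ) - γ • mpow K (2 * γ) := by
    rw [cfc_sub (fun e : ℝ => e ^ (2 * γ)) (fun e : ℝ => γ * e ^ (2 * γ)) K (contOn_spec _)
      (contOn_spec _), cfc_const_mul γ (fun e : ℝ => e ^ (2 * γ)) K (contOn_spec _)]
    rfl
  have e4 : mpow K (2 * γ) = mpow K (2 * γ - 2) * (K * K) := by
    conv_lhs => rw [show 2 * γ = (2 * γ - 2) + 2 by ring]
    rw [mpow_add hK, mpow_two hK.1]
  rw [e1, e2, e3, e5, rtr_sub, rtr_smul, rtr_neg, Matrix.mul_smul, rtr_smul, rtr_mul_comm] at h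
  rw [Matrix.mul_sub, rtr_sub, ← e4]
  simp only [trp]
  linarith

end Crest.Agent.R332
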